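import Crest.Agent.R326.Ten

/-! Row 326: the rounded pipeline computes the cyclic convolution. -/

set_option autoImplicit false

namespace Crest.Agent.R326

variable {ps : List ℕ}

namespace Ana

open Finset

lemma prod_pos (h : GoodD ps) : 0 < ps.prod :=
  List.prod_pos fun p hp => by have := (h.2 p hp).1; omega

lemma d3_ten (h : GoodD ps) {n : ℕ} (hn : ∀ p ∈ ps, (digProg p).length ≤ n)
    (f : ℕ → ℕ → ℕ → ℂ) {i j k : ℕ} (hi : i < ps.prod) (hj : j < ps.prod) (hk : k < ps.prod) :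
    d3 Complex.I ps (tenMac ps) n f i j k = (1 / ps.prod : ℂ) ^ 3 *
      ∑ w ∈ range ps.prod, ∑ y ∈ range ps.prod, ∑ x ∈ range ps.prod,
        psi ps (i * w) * psi ps (j * y) * psi ps (k * x) * f w y x := by
  rw [d3, sw02, bat3_tenMac h hn _ hk hj hi, mul_sum, mul_sum]
  refine sum_congr rfl fun w hw => ?_
  rw [sw02, sw12, bat3_tenMac h hn _ (mem_range.1 hw) hk hj, mul_sum, mul_sum, mul_sum, mul_sum]
  refine sum_congr rfl fun y hy => ?_
  rw [sw12, bat3_tenMac h hn _ (mem_range.1 hw) (mem_range.1 hy) hk]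
  simp only [mul_sum]
  refine sum_congr rfl fun x _ => ?_
  ring

lemma dvd_iff {N i w w' : ℕ} (hi : i < N) (hw : w < N) (hw' : w' < N) :
    N ∣ (N - i) % N + w + w' ↔ w' = (i + N - w) % N := by
  have hN : 0 < N := by omega
  have e1 : (N - i) % N + i ≡ 0 [MOD N] := by
    have : (N - i) % N + i ≡ N - i + i [MOD N] := (Nat.mod_modEq _ _).add_right _
    rw [Nat.sub_add_cancel hi.le] at this
    exact this.trans (Nat.modEq_zero_iff_dvd.2 dvd_rfl)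
  have e2 : (i + N - w) % N + w ≡ i [MOD N] := by
    have : (i + N - w) % N + w ≡ i + N - w + w [MOD N] := (Nat.mod_modEq _ _).add_right _
    rw [Nat.sub_add_cancel (by omega)] at this
    exact this.trans (by simp [Nat.ModEq])
  have e3 : (N - i) % N + w + (i + N - w) % N ≡ 0 [MOD N] := by
    rw [add_assoc, add_comm w]
    exact (e2.add_left _).trans e1
  constructor
  · intro h
    have h1 := (Nat.modEq_zero_iff_dvd.2 h).trans e3.symm
    exact Nat.ModEq.eq_of_lt_of_lt (Nat.ModEq.add_left_cancel' _ h1) hw' (Nat.mod_lt _ hN)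
  · rintro rfl
    exact Nat.modEq_zero_iff_dvd.1 e3

lemma orth (h : GoodP ps) {i w w' : ℕ} (hi : i < ps.prod) (hw : w < ps.prod)
    (hw' : w' < ps.prod) :
    ∑ a ∈ range ps.prod, psi ps ((ps.prod - i) % ps.prod * a) * psi ps (a * w) * psi ps (a * w') =
      if w' = (i + ps.prod - w) % ps.prod then (ps.prod : ℂ) else 0 := by
  have := sum_psi h ((ps.prod - i) % ps.prod + w + w')
  simp only [dvd_iff hi hw hw'] at this
  rw [← this]
  refine sum_congr rfl fun a _ => ?_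
  rw [← psi_add, ← psi_add]
  congr 1
  ring

/-- the cube -/
def Q (N : ℕ) : Finset (ℕ × ℕ × ℕ) := range N ×ˢ range N ×ˢ range N

lemma sum_Q (N : ℕ) (F : ℕ × ℕ × ℕ → ℂ) :
    ∑ v ∈ Q N, F v = ∑ w ∈ range N, ∑ y ∈ range N, ∑ x ∈ range N, F (w, y, x) := by
  rw [Q, sum_product]
  exact sum_congr rfl fun w _ => sum_product _ _ _

lemma sum_Q' (N : ℕ) (F : ℕ → ℕ → ℕ → ℂ) :
    ∑ w ∈ range N, ∑ y ∈ range N, ∑ x ∈ range N, F w y x = ∑ v ∈ Q N, F v.1 v.2.1 v.2.2 :=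
  (sum_Q N fun v => F v.1 v.2.1 v.2.2).symm

lemma mem_Q {N : ℕ} {v : ℕ × ℕ × ℕ} : v ∈ Q N ↔ v.1 < N ∧ v.2.1 < N ∧ v.2.2 < N := by
  simp [Q]

lemma sum_Q_mul (N : ℕ) (F G H : ℕ → ℂ) : ∑ v ∈ Q N, F v.1 * G v.2.1 * H v.2.2 =
    (∑ w ∈ range N, F w) * (∑ w ∈ range N, G w) * ∑ w ∈ range N, H w := by
  rw [sum_Q, sum_mul_sum, sum_mul]
  refine sum_congr rfl fun w _ => ?_
  rw [sum_mul_sum]

/-- approximation on the cube at scale `s` -/
def Ap (N : ℕ) (s ε A : ℝ) (g f : ℕ → ℕ → ℕ → ℂ) : Prop :=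
  ∀ i < N, ∀ j < N, ∀ k < N, ‖g i j k - s * f i j k‖ ≤ s * ε ∧ ‖f i j k‖ ≤ A

lemma Ap.sw12 {N : ℕ} {s ε A : ℝ} {g f : ℕ → ℕ → ℕ → ℂ} (h : Ap N s ε A g f) :
    Ap N s ε A (sw12 g) (sw12 f) := fun i hi j hj k hk => h i hi k hk j hj

lemma Ap.sw02 {N : ℕ} {s ε A : ℝ} {g f : ℕ → ℕ → ℕ → ℂ} (h : Ap N s ε A g f) :
    Ap N s ε A (sw02 g) (sw02 f) := fun i hi j hj k hk => h k hk j hj i hi

lemma Ap.mul {N : ℕ} {s ε A : ℝ} {g f g' f' : ℕ → ℕ → ℕ → ℂ} (h : Ap N s ε A g f)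
    (h' : Ap N s ε A g' f') (hs : 0 ≤ s) (hε : 0 ≤ ε) (hA : ε ≤ A) :
    Ap N (s * s) (3 * A * ε) (A * A) (fun i j k => g i j k * g' i j k)
      (fun i j k => f i j k * f' i j k) := by
  intro i hi j hj k hk
  obtain ⟨h1, h2⟩ := h i hi j hj k hk
  obtain ⟨h3, h4⟩ := h' i hi j hj k hk
  have hA0 : 0 ≤ A := hε.trans hA
  refine ⟨?_, (norm_mul_le _ _).trans (mul_le_mul h2 h4 (norm_nonneg _) hA0)⟩
  have e : g i j k * g' i j k - ((s * s : ℝ) : ℂ) * (f i j k * f' i j k) =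
      (g i j k - s * f i j k) * (g' i j k - s * f' i j k) +
      (g i j k - s * f i j k) * (s * f' i j k) + (s * f i j k) * (g' i j k - s * f' i j k) := by
    push_cast; ring
  have hn : ∀ z : ℂ, ‖z‖ ≤ A → ‖(s : ℂ) * z‖ ≤ s * A := fun z hz => by
    rw [norm_mul, Complex.norm_real, Real.norm_of_nonneg hs]
    exact mul_le_mul_of_nonneg_left hz hs
  have hse : 0 ≤ s * ε := mul_nonneg hs hε
  have a1 := (norm_mul_le _ _).trans (mul_le_mul h1 h3 (norm_nonneg _) hse)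
  have a2 := (norm_mul_le _ _).trans (mul_le_mul h1 (hn _ h4) (norm_nonneg _) hse)
  have a3 := (norm_mul_le _ _).trans (mul_le_mul (hn _ h2) h3 (norm_nonneg _) (mul_nonneg hs hA0))
  have a4 : s * ε * (s * ε) ≤ s * ε * (s * A) :=
    mul_le_mul_of_nonneg_left (mul_le_mul_of_nonneg_left hA hs) hse
  rw [e]
  refine (norm_add₃_le).trans ?_
  linarith

section
variable {ms mt : ℕ → MacD ps.prod ℂ} {b : ℕ} {Λ : ℝ}

lemma bat3_err (hN : 0 < ps.prod) (hb : 2 ≤ b) (hΛ : 0 ≤ Λ)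
    (hd : ∀ μ, (mt μ).d = (ms μ).d ∧ (mt μ).F = (ms μ).F)
    (ht : ∀ μ ν v, ‖(mt μ).tab ν v - 2 ^ b * (ms μ).tab ν v‖ ≤ 3 ∧ ‖(ms μ).tab ν v‖ ≤ Λ) (n : ℕ)
    {s ε A : ℝ} (hs : 0 ≤ s) (hε : 0 ≤ ε) {g f : ℕ → ℕ → ℕ → ℂ} (h : Ap ps.prod s ε A g f) :
    Ap ps.prod (s * 2 ^ (5 * b * n)) (Gam Λ ps.length ^ n * (ε + 15 * n * A / 2 ^ b))
      (Gam Λ ps.length ^ n * A) (bat3 Complex.I ps mt n g) (bat3 Complex.I ps ms n f) := by
  intro i _ j _ k _
  have : NeZero ps.prod := ⟨hN.ne'⟩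
  have hA : 0 ≤ A := (norm_nonneg _).trans (h 0 hN 0 hN 0 hN).2
  have key : ∀ z (v : ZMod ps.prod × ZMod ps.prod),
      ‖embedZ ps (ps.prod ^ 2) (fun r x => g (r / ps.prod) (r % ps.prod) x) z v -
        s * embedZ ps (ps.prod ^ 2) (fun r x => f (r / ps.prod) (r % ps.prod) x) z v‖ ≤ s * ε ∧
      ‖embedZ ps (ps.prod ^ 2) (fun r x => f (r / ps.prod) (r % ps.prod) x) z v‖ ≤ A := by
    intro z v
    simp only [embedZ]
    split_ifs with hc
    · exact h _ (Nat.div_lt_of_lt_mul (by rw [← sq]; exact hc.2)) _ (Nat.mod_lt _ hN) _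
        (ZMod.val_lt _)
    · simp [mul_nonneg hs hε, hA]
  have := pipe_err (ps.map (sgnc ps.prod)) ms mt b hb hΛ hd ht n hs hε
    (fun v => (key ((i * ps.prod + j) / (dataY ps).length) v).1)
    (fun v => (key ((i * ps.prod + j) / (dataY ps).length) v).2)
    (((dataY ps).getD ((i * ps.prod + j) % (dataY ps).length) 0 : ℕ), (k : ZMod ps.prod))
  rw [List.length_map] at this
  exact this

lemma d3_err (hN : 0 < ps.prod) (hb : 2 ≤ b) (hΛ : 0 ≤ Λ)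
    (hd : ∀ μ, (mt μ).d = (ms μ).d ∧ (mt μ).F = (ms μ).F)
    (ht : ∀ μ ν v, ‖(mt μ).tab ν v - 2 ^ b * (ms μ).tab ν v‖ ≤ 3 ∧ ‖(ms μ).tab ν v‖ ≤ Λ) (n : ℕ)
    {s ε A : ℝ} (hs : 0 ≤ s) (hε : 0 ≤ ε) {g f : ℕ → ℕ → ℕ → ℂ} (h : Ap ps.prod s ε A g f) :
    Ap ps.prod (s * 2 ^ (15 * b * n)) ((Gam Λ ps.length ^ n) ^ 3 * (ε + 45 * n * A / 2 ^ b))
      ((Gam Λ ps.length ^ n) ^ 3 * A) (d3 Complex.I ps mt n g) (d3 Complex.I ps ms n f) := by
  have hA : 0 ≤ A := (norm_nonneg _).trans (h 0 hN 0 hN 0 hN).2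
  have hG : 0 ≤ Gam Λ ps.length := by unfold Gam; positivity
  have h1 := bat3_err hN hb hΛ hd ht n hs hε h
  have h2 := bat3_err hN hb hΛ hd ht n (by positivity) (by positivity) h1.sw12
  have h3 := (bat3_err hN hb hΛ hd ht n (by positivity) (by positivity) h2.sw12.sw02).sw02
  convert h3 using 1
  · rw [show 15 * b * n = 5 * b * n + 5 * b * n + 5 * b * n by ring, pow_add, pow_add]
    ring
  · ring
  · ring
  · rfl
  · rfl

end

lemma two_pow_le (h : ∀ p ∈ ps, 2 ≤ p) : 2 ^ ps.length ≤ ps.prod := by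
  induction ps with
  | nil => simp
  | cons a l ih =>
    rw [List.length_cons, List.prod_cons, pow_succ']
    exact Nat.mul_le_mul (h a List.mem_cons_self) (ih fun p hp => h p (List.mem_cons_of_mem _ hp))

lemma lt_lg (N : ℕ) : N + 1 ≤ 2 ^ lg N :=
  (Nat.lt_size_self N).trans_le (Nat.pow_le_pow_right two_pos (Nat.le_succ _))

lemma gam_le (h : GoodD ps) : Gam ps.prod ps.length ≤ 2 ^ (13 * lg ps.prod) := by
  have h1 := lt_lg ps.prod
  have h2 : 2 ^ ps.length ≤ 2 ^ lg ps.prod :=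
    (two_pow_le fun p hp => by have := (h.2 p hp).1; omega).trans (by omega)
  have h3 : (ps.prod + 1) ^ 5 * (2 ^ ps.length) ^ 8 ≤ (2 ^ lg ps.prod) ^ 5 * (2 ^ lg ps.prod) ^ 8 :=
    Nat.mul_le_mul (Nat.pow_le_pow_left h1 _) (Nat.pow_le_pow_left h2 _)
  rw [← pow_add, ← pow_mul 2 (lg _), ← pow_mul, mul_comm ps.length, pow_mul, mul_comm (lg _)] at h3
  unfold Gam
  exact_mod_cast h3

lemma cyc3_le {N A : ℕ} {f g : ℕ → ℕ → ℕ → ℕ} (hf : ∀ i j k, f i j k < A)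
    (hg : ∀ i j k, g i j k < A) (i j k : ℕ) : cyc3 N f g i j k ≤ N ^ 3 * (A * A) := by
  unfold cyc3
  calc _ ≤ ∑ _i' ∈ range N, ∑ _j' ∈ range N, ∑ _k' ∈ range N, A * A :=
        sum_le_sum fun _ _ => sum_le_sum fun _ _ => sum_le_sum fun _ _ =>
          Nat.mul_le_mul (hf _ _ _).le (hg _ _ _).le
    _ = N ^ 3 * (A * A) := by simp only [sum_const, card_range, smul_eq_mul]; ring

lemma round {z : ℤ} {S H c W : ℕ} (hH : S = 2 * H) (hS : 0 < H) (hc : c + 2 ≤ W)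
    (h : |(z : ℝ) - H - S * c| < H) : 0 ≤ z ∧ z < (S * W : ℕ) - 1 ∧ z.toNat / S = c := by
  obtain ⟨h1, h2⟩ := abs_lt.1 h
  have h3 : (S * c : ℕ) < z := by
    have : ((S * c : ℕ) : ℝ) < z := by push_cast; linarith
    exact_mod_cast this
  have h4 : z < (S * (c + 1) : ℕ) := by
    have hH' : (S : ℝ) = 2 * H := by exact_mod_cast hH
    have : (z : ℝ) < ((S * (c + 1) : ℕ) : ℝ) := by push_cast; linarith
    exact_mod_cast this
  have h5 : S * (c + 2) ≤ S * W := Nat.mul_le_mul_left _ hc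
  have h6 : S * (c + 2) = S * (c + 1) + S := by ring
  refine ⟨by omega, by omega, ?_⟩
  refine Nat.div_eq_of_lt_le ?_ ?_
  · rw [mul_comm]; omega
  · rw [mul_comm]; omega

end Ana

open Ana Finset in
/-- the exact pipeline -/
theorem conv_exact (h : GoodD ps) {n : ℕ} (hn : ∀ p ∈ ps, (digProg p).length ≤ n)
    (f g : ℕ → ℕ → ℕ → ℕ) {i j k : ℕ} (hi : i < ps.prod) (hj : j < ps.prod) (hk : k < ps.prod) :
    (ps.prod : ℂ) ^ 6 * d3 Complex.I ps (tenMac ps) n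
      (fun i j k => d3 Complex.I ps (tenMac ps) n (fun i j k => (f i j k : ℂ)) i j k *
        d3 Complex.I ps (tenMac ps) n (fun i j k => (g i j k : ℂ)) i j k)
      ((ps.prod - i) % ps.prod) ((ps.prod - j) % ps.prod) ((ps.prod - k) % ps.prod) =
      (cyc3 ps.prod f g i j k : ℂ) := by
  have hN := prod_pos h
  have hN' : (ps.prod : ℂ) ≠ 0 := Nat.cast_ne_zero.2 hN.ne'
  rw [d3_ten h hn _ (Nat.mod_lt _ hN) (Nat.mod_lt _ hN) (Nat.mod_lt _ hN), sum_Q', cyc3]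
  simp only [Nat.cast_sum, Nat.cast_mul]
  rw [sum_Q']
  have e : ∀ a ∈ Q ps.prod, psi ps ((ps.prod - i) % ps.prod * a.1) *
      psi ps ((ps.prod - j) % ps.prod * a.2.1) * psi ps ((ps.prod - k) % ps.prod * a.2.2) *
      (d3 Complex.I ps (tenMac ps) n (fun i j k => (f i j k : ℂ)) a.1 a.2.1 a.2.2 *
        d3 Complex.I ps (tenMac ps) n (fun i j k => (g i j k : ℂ)) a.1 a.2.1 a.2.2) =
      ∑ v ∈ Q ps.prod, ∑ v' ∈ Q ps.prod, (1 / ps.prod : ℂ) ^ 6 * (f v.1 v.2.1 v.2.2 *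
        g v'.1 v'.2.1 v'.2.2) *
        ((psi ps ((ps.prod - i) % ps.prod * a.1) * psi ps (a.1 * v.1) * psi ps (a.1 * v'.1)) *
        (psi ps ((ps.prod - j) % ps.prod * a.2.1) * psi ps (a.2.1 * v.2.1) *
          psi ps (a.2.1 * v'.2.1)) *
        (psi ps ((ps.prod - k) % ps.prod * a.2.2) * psi ps (a.2.2 * v.2.2) *
          psi ps (a.2.2 * v'.2.2))) := by
    intro a ha
    obtain ⟨h1, h2, h3⟩ := mem_Q.1 ha
    rw [d3_ten h hn _ h1 h2 h3, d3_ten h hn _ h1 h2 h3, sum_Q', sum_Q',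
      mul_mul_mul_comm ((1 / ps.prod : ℂ) ^ 3), sum_mul_sum]
    simp only [mul_sum]
    exact sum_congr rfl fun v _ => sum_congr rfl fun v' _ => by ring
  rw [sum_congr rfl e, sum_comm, mul_sum, mul_sum]
  refine sum_congr rfl fun v hv => ?_
  obtain ⟨h1, h2, h3⟩ := mem_Q.1 hv
  rw [sum_comm, sum_eq_single_of_mem ((i + ps.prod - v.1) % ps.prod,
    (j + ps.prod - v.2.1) % ps.prod, (k + ps.prod - v.2.2) % ps.prod)
    (mem_Q.2 ⟨Nat.mod_lt _ hN, Nat.mod_lt _ hN, Nat.mod_lt _ hN⟩)]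
  · rw [← mul_sum, sum_Q_mul ps.prod
      (fun a => psi ps ((ps.prod - i) % ps.prod * a) * psi ps (a * v.1) * psi ps (a * _))
      (fun a => psi ps ((ps.prod - j) % ps.prod * a) * psi ps (a * v.2.1) * psi ps (a * _))
      (fun a => psi ps ((ps.prod - k) % ps.prod * a) * psi ps (a * v.2.2) * psi ps (a * _)),
      orth h.1 hi h1 (Nat.mod_lt _ hN), orth h.1 hj h2 (Nat.mod_lt _ hN),
      orth h.1 hk h3 (Nat.mod_lt _ hN), if_pos rfl, if_pos rfl, if_pos rfl]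
    field_simp
  · intro v' hv' hne
    obtain ⟨h4, h5, h6⟩ := mem_Q.1 hv'
    rw [← mul_sum, sum_Q_mul ps.prod
      (fun a => psi ps ((ps.prod - i) % ps.prod * a) * psi ps (a * v.1) * psi ps (a * v'.1))
      (fun a => psi ps ((ps.prod - j) % ps.prod * a) * psi ps (a * v.2.1) * psi ps (a * v'.2.1))
      (fun a => psi ps ((ps.prod - k) % ps.prod * a) * psi ps (a * v.2.2) * psi ps (a * v'.2.2)),
      orth h.1 hi h1 h4, orth h.1 hj h2 h5, orth h.1 hk h3 h6]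
    split_ifs with c1 c2 c3
    · exact absurd (Prod.ext c1 (Prod.ext c2 c3)) hne
    all_goals simp

open Ana in
theorem conv_round {T : TabIn → GaussianInt} (hT : GoodT T) (h : GoodD ps) {n b B₀ : ℕ}
    (hn : ∀ p ∈ ps, (digProg p).length ≤ n) (hn1 : 1 ≤ n)
    (hb : 2 * B₀ + 150 * (n + 1) * lg ps.prod ≤ b) (f g : ℕ → ℕ → ℕ → ℕ)
    (hf : ∀ i j k, f i j k < 2 ^ B₀) (hg : ∀ i j k, g i j k < 2 ^ B₀) {i j k : ℕ}
    (hi : i < ps.prod) (hj : j < ps.prod) (hk : k < ps.prod) :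
    let z := conv3 (⟨0, 1⟩ : GaussianInt) ps (intMac T ps b) n (45 * b * n)
      (fun i j k => (f i j k : GaussianInt)) (fun i j k => (g i j k : GaussianInt)) i j k
    0 ≤ z.re ∧ z.re < 2 ^ ((45 * n + 1) * b) - 1 ∧
      z.re.toNat / 2 ^ (45 * b * n) = cyc3 ps.prod f g i j k := by
  intro z
  have hN := prod_pos h
  have hl : 1 ≤ lg ps.prod := Nat.le_add_left _ _
  obtain ⟨l, hle⟩ : ∃ l, l = lg ps.prod := ⟨_, rfl⟩
  have hNl : ps.prod + 1 ≤ 2 ^ l := hle ▸ lt_lg _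
  have hG : Gam ps.prod ps.length ≤ 2 ^ (13 * l) := hle ▸ gam_le h
  rw [← hle] at hb hl
  have hnl : n ≤ n * l := Nat.le_mul_of_pos_right _ hl
  have hb' : 2 * B₀ + 150 * (n * l) + 150 * l ≤ b := by
    rw [show 2 * B₀ + 150 * (n * l) + 150 * l = 2 * B₀ + 150 * (n + 1) * l by ring]; exact hb
  have hz : (z : ℂ) = _ := conv3_map GaussianInt.toComplex (⟨0, 1⟩ : GaussianInt) ps
    (intMac T ps b) n (45 * b * n) _ _ i j k
  rw [show GaussianInt.toComplex ⟨0, 1⟩ = Complex.I by simp [GaussianInt.toComplex_def]] at hz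
  simp only [map_natCast] at hz
  obtain ⟨mt, hmt⟩ : ∃ mt : ℕ → MacD ps.prod ℂ,
    mt = fun μ => (intMac T ps b μ).map GaussianInt.toComplex := ⟨_, rfl⟩
  rw [← hmt] at hz
  have hd : ∀ μ, (mt μ).d = (tenMac ps μ).d ∧ (mt μ).F = (tenMac ps μ).F := fun μ => by
    subst hmt; exact ⟨rfl, rfl⟩
  have ht : ∀ μ ν v, ‖(mt μ).tab ν v - 2 ^ b * (tenMac ps μ).tab ν v‖ ≤ 3 ∧
      ‖(tenMac ps μ).tab ν v‖ ≤ (ps.prod : ℝ) := fun μ ν v => by
    subst hmt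
    exact ⟨(hT ps b μ ν _ _ h).1, norm_tenV_le h _ _ _ _⟩
  have h0 : ∀ f : ℕ → ℕ → ℕ → ℕ, (∀ i j k, f i j k < 2 ^ B₀) →
      Ap ps.prod 1 0 (2 ^ B₀) (fun i j k => (f i j k : ℂ)) (fun i j k => (f i j k : ℂ)) := by
    intro f hf i _ j _ k _
    refine ⟨by simp, ?_⟩
    rw [Complex.norm_natCast]
    exact_mod_cast (hf i j k).le
  have hG0 : 0 ≤ Gam ps.prod ps.length := by unfold Gam; positivity
  obtain ⟨G, hGe⟩ : ∃ G, G = Gam ps.prod ps.length ^ n := ⟨_, rfl⟩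
  have hG1 : 0 ≤ G := by rw [hGe]; positivity
  have hG2 : G ≤ 2 ^ (13 * (n * l)) := by
    rw [hGe, show 13 * (n * l) = 13 * l * n by ring, pow_mul]
    exact pow_le_pow_left₀ hG0 hG _
  have hn2 : (n : ℝ) ≤ 2 ^ n := by exact_mod_cast (Nat.lt_two_pow_self (n := n)).le
  have hδ : (45 : ℝ) * n / 2 ^ b ≤ 1 := by
    rw [div_le_one (by positivity)]
    calc (45 : ℝ) * n ≤ 2 ^ 6 * 2 ^ n := by gcongr; norm_num
      _ = 2 ^ (6 + n) := by rw [pow_add]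
      _ ≤ 2 ^ b := pow_le_pow_right₀ one_le_two (by omega)
  have h1 := d3_err hN (by omega) (Nat.cast_nonneg _) hd ht n zero_le_one le_rfl (h0 f hf)
  have h2 := d3_err hN (by omega) (Nat.cast_nonneg _) hd ht n zero_le_one le_rfl (h0 g hg)
  rw [← hGe] at h1 h2
  have h3 := h1.mul h2 (by positivity) (by positivity) (by
    refine mul_le_mul_of_nonneg_left ?_ (by positivity)
    rw [zero_add, mul_div_right_comm]
    exact mul_le_of_le_one_left (by positivity) hδ)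
  have h4 := (d3_err hN (by omega) (Nat.cast_nonneg _) hd ht n (by positivity) (by positivity) h3
    _ (Nat.mod_lt (ps.prod - i) hN) _ (Nat.mod_lt (ps.prod - j) hN) _
    (Nat.mod_lt (ps.prod - k) hN)).1
  rw [← hGe] at h4
  have hs : (1 * 2 ^ (15 * b * n) * (1 * 2 ^ (15 * b * n)) * 2 ^ (15 * b * n) : ℝ) =
      2 ^ (45 * b * n) := by
    rw [show 45 * b * n = 15 * b * n + 15 * b * n + 15 * b * n by ring, pow_add, pow_add]
    ring
  rw [hs] at h4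
  have hx := conv_exact h hn f g hi hj hk
  rw [conv3] at hz
  generalize d3 Complex.I ps mt n _ ((ps.prod - i) % ps.prod) ((ps.prod - j) % ps.prod)
    ((ps.prod - k) % ps.prod) = u at hz h4
  generalize d3 Complex.I ps (tenMac ps) n _ ((ps.prod - i) % ps.prod) ((ps.prod - j) % ps.prod)
    ((ps.prod - k) % ps.prod) = w at hx h4
  have hSh : 45 * b * n = 45 * b * n - 1 + 1 := by
    have : 0 < 45 * b * n := Nat.mul_pos (by omega) hn1
    omega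
  have hH : 2 ^ (45 * b * n) = 2 * 2 ^ (45 * b * n - 1) := by
    conv_lhs => rw [hSh, pow_succ']
  have hc : cyc3 ps.prod f g i j k + 2 ≤ 2 ^ b := by
    have c1 := cyc3_le (N := ps.prod) hf hg i j k
    have c2 : ps.prod ^ 3 * (2 ^ B₀ * 2 ^ B₀) ≤ (2 ^ l) ^ 3 * (2 ^ B₀ * 2 ^ B₀) :=
      Nat.mul_le_mul_right _ (Nat.pow_le_pow_left (by omega) _)
    rw [← pow_mul, ← pow_add, ← pow_add] at c2
    have c3 : 2 ^ (l * 3 + (B₀ + B₀) + 2) ≤ 2 ^ b := Nat.pow_le_pow_right two_pos (by omega)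
    have c4 : 0 < 2 ^ (l * 3 + (B₀ + B₀)) := Nat.two_pow_pos _
    rw [pow_add _ _ 2] at c3
    rw [← pow_add] at c1
    omega
  have hr := round (z := z.re) hH (Nat.two_pow_pos _) hc ?_
  · rw [← pow_add, show 45 * b * n + b = (45 * n + 1) * b by ring] at hr
    exact_mod_cast hr
  have e1 : (z.re : ℝ) - (2 ^ (45 * b * n - 1) : ℕ) - (2 ^ (45 * b * n) : ℕ) *
      (cyc3 ps.prod f g i j k : ℕ) =
      ((ps.prod : ℂ) ^ 6 * (u - ((2 ^ (45 * b * n) : ℝ) : ℂ) * w)).re := by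
    have : (ps.prod : ℂ) ^ 6 * (u - ((2 ^ (45 * b * n) : ℝ) : ℂ) * w) = (z : ℂ) -
        (((2 ^ (45 * b * n - 1) : ℕ) : ℝ) : ℂ) -
        ((((2 ^ (45 * b * n) : ℕ) : ℝ) * (cyc3 ps.prod f g i j k : ℕ) : ℝ) : ℂ) := by
      rw [hz, Complex.ofReal_mul, Complex.ofReal_natCast (cyc3 _ _ _ _ _ _), ← hx]
      generalize (ps.prod : ℂ) = M
      push_cast
      ring
    rw [this, Complex.sub_re, Complex.sub_re, Complex.ofReal_re, Complex.ofReal_re,
      GaussianInt.intCast_re]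
  rw [e1]
  refine (Complex.abs_re_le_norm _).trans_lt ?_
  rw [norm_mul, norm_pow, Complex.norm_natCast]
  refine (mul_le_mul_of_nonneg_left h4 (by positivity)).trans_lt ?_
  have hH' : (2 : ℝ) ^ (45 * b * n) = 2 * 2 ^ (45 * b * n - 1) := by exact_mod_cast hH
  have hN2 : (ps.prod : ℝ) ≤ 2 ^ l := by exact_mod_cast (show ps.prod ≤ 2 ^ l by omega)
  have key : 360 * n * (ps.prod : ℝ) ^ 6 * G ^ 9 * (2 ^ B₀ * 2 ^ B₀) < 2 ^ b := by
    calc 360 * n * (ps.prod : ℝ) ^ 6 * G ^ 9 * (2 ^ B₀ * 2 ^ B₀)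
        ≤ 2 ^ 9 * 2 ^ n * (2 ^ l) ^ 6 * (2 ^ (13 * (n * l))) ^ 9 * (2 ^ B₀ * 2 ^ B₀) := by
          gcongr; norm_num
      _ = 2 ^ (9 + n + l * 6 + 13 * (n * l) * 9 + (B₀ + B₀)) := by
          simp only [pow_add, pow_mul]
      _ < 2 ^ b := pow_lt_pow_right₀ one_lt_two (by omega)
  rw [hH', Nat.cast_pow, Nat.cast_ofNat]
  have hp : (0 : ℝ) < 2 ^ (45 * b * n - 1) := by positivity
  have hp' : (0 : ℝ) < 2 ^ b := by positivity
  calc _ = 2 ^ (45 * b * n - 1) *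
        (360 * n * (ps.prod : ℝ) ^ 6 * G ^ 9 * (2 ^ B₀ * 2 ^ B₀) / 2 ^ b) := by ring
    _ < 2 ^ (45 * b * n - 1) * 1 := by
        gcongr
        exact (div_lt_one hp').2 key
    _ = _ := mul_one _

end Crest.Agent.R326
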