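import Crest.Agent.R326.Mach

/-! Row 326: structural rules of the cost judgement. -/

set_option autoImplicit false

namespace Crest.Agent.R326

open Function

theorem R0.val_size_pos (v : Val) : 1 ≤ v.size := by
  cases v <;> simp [Val.size]

section sizes
variable {α β : Type} [Enc α] [Enc β]

theorem sz_pos (a : α) : 1 ≤ sz a := R0.val_size_pos _
@[simp] theorem sz_bool (b : Bool) : sz b = 1 := rfl
@[simp] theorem sz_unit (u : Unit) : sz u = 1 := rfl
@[simp] theorem sz_pair (a : α) (b : β) : sz (a, b) = sz a + sz b + 1 := rfl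
@[simp] theorem sz_nil : sz ([] : List α) = 1 := rfl
@[simp] theorem sz_cons (a : α) (l : List α) : sz (a :: l) = sz a + sz l + 1 := rfl
theorem sz_list (l : List α) : sz l = (l.map sz).sum + l.length + 1 := by
  induction l with
  | nil => simp
  | cons a l ih => simp only [sz_cons, ih, List.map_cons, List.sum_cons, List.length_cons]; omega
theorem sz_bits (l : List Bool) : sz l = 2 * l.length + 1 := by
  induction l with
  | nil => simp
  | cons a l ih => simp only [sz_cons, ih, sz_bool, List.length_cons]; omega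
theorem sz_un (n : ℕ) : sz (un n) = 2 * n + 1 := by
  induction n with
  | zero => rfl
  | succ n ih =>
    have : un (n + 1) = () :: un n := List.replicate_succ
    rw [this, sz_cons, ih, sz_unit]; omega
theorem sz_nat (n : ℕ) : sz n = 2 * n.size + 1 := by
  have : sz n = sz n.bits := rfl
  rw [this, sz_bits, Nat.size_eq_bits_len]
theorem sz_nat_mono {m n : ℕ} (h : m ≤ n) : sz m ≤ sz n := by
  have := Nat.size_le_size h
  rw [sz_nat, sz_nat]; omega
theorem sz_mem {a : α} {l : List α} (h : a ∈ l) : sz a ≤ sz l := by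
  induction l with
  | nil => simp at h
  | cons b l ih =>
    rw [sz_cons]
    rcases List.mem_cons.1 h with rfl | h
    · omega
    · have := ih h; omega
theorem length_le_sz (l : List α) : l.length ≤ sz l := by
  rw [sz_list]; omega
theorem sz_list_le {l : List α} {s : ℕ} (h : ∀ a ∈ l, sz a ≤ s) :
    sz l ≤ l.length * (s + 1) + 1 := by
  induction l with
  | nil => simp
  | cons b l ih =>
    have h1 := ih (fun a ha => h a (List.mem_cons_of_mem _ ha))
    have h2 := h b List.mem_cons_self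
    rw [sz_cons, List.length_cons, Nat.succ_mul]; omega
theorem sz_append (l l' : List α) : sz (l ++ l') + 1 = sz l + sz l' := by
  induction l with
  | nil => simp only [List.nil_append, sz_nil]; omega
  | cons b l ih => simp only [List.cons_append, sz_cons]; omega
theorem sz_flatten (l : List (List α)) : sz l.flatten ≤ sz l := by
  induction l with
  | nil => simp
  | cons b l ih =>
    have := sz_append b l.flatten
    rw [List.flatten_cons, sz_cons]; omega

end sizes

section le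
variable {ι ι' : Type} {pre pre' : World → ι → Prop} {f g h f' g' : ι → ℝ}

theorem Le.of_le (H : ∀ w i, pre w i → f i ≤ g i) : Le pre f g :=
  ⟨1, zero_le_one, fun w i hi => by rw [one_mul]; exact H w i hi⟩
theorem Le.of_le_mul (K : ℝ) (hK : 0 ≤ K) (H : ∀ w i, pre w i → f i ≤ K * g i) : Le pre f g :=
  ⟨K, hK, H⟩
theorem Le.refl : Le pre f f := Le.of_le fun _ _ _ => le_rfl
theorem Le.trans (H : Le pre f g) (H' : Le pre g h) : Le pre f h := by
  obtain ⟨K, hK, H⟩ := H
  obtain ⟨K', hK', H'⟩ := H'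
  refine ⟨K * K', mul_nonneg hK hK', fun w i hi => (H w i hi).trans ?_⟩
  rw [mul_assoc]
  exact mul_le_mul_of_nonneg_left (H' w i hi) hK
theorem Le.add (H : Le pre f g) (H' : Le pre f' g) : Le pre (fun i => f i + f' i) g := by
  obtain ⟨K, hK, H⟩ := H
  obtain ⟨K', hK', H'⟩ := H'
  refine ⟨K + K', add_nonneg hK hK', fun w i hi => ?_⟩
  rw [add_mul]
  exact add_le_add (H w i hi) (H' w i hi)
theorem Le.const_mul (a : ℝ) (ha : 0 ≤ a) (H : Le pre f g) : Le pre (fun i => a * f i) g := by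
  obtain ⟨K, hK, H⟩ := H
  refine ⟨a * K, mul_nonneg ha hK, fun w i hi => ?_⟩
  rw [mul_assoc]
  exact mul_le_mul_of_nonneg_left (H w i hi) ha
theorem Le.mul (H : Le pre f g) (H' : Le pre f' g') (h0 : ∀ w i, pre w i → 0 ≤ f i ∧ 0 ≤ f' i) :
    Le pre (fun i => f i * f' i) (fun i => g i * g' i) := by
  obtain ⟨K, hK, H⟩ := H
  obtain ⟨K', hK', H'⟩ := H'
  refine ⟨K * K', mul_nonneg hK hK', fun w i hi => ?_⟩
  have h1 := mul_le_mul (H w i hi) (H' w i hi) (h0 w i hi).2 ((h0 w i hi).1.trans (H w i hi))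
  calc f i * f' i ≤ K * g i * (K' * g' i) := h1
    _ = K * K' * (g i * g' i) := by ring
theorem Le.mono_pre (H : Le pre f g) (hp : ∀ w i, pre' w i → pre w i) : Le pre' f g := by
  obtain ⟨K, hK, H⟩ := H
  exact ⟨K, hK, fun w i hi => H w i (hp w i hi)⟩
theorem Le.reindex (H : Le pre f g) {pre' : World → ι' → Prop} (φ : ι' → ι)
    (hp : ∀ w j, pre' w j → pre w (φ j)) : Le pre' (fun j => f (φ j)) (fun j => g (φ j)) := by
  obtain ⟨K, hK, H⟩ := H
  exact ⟨K, hK, fun w j hj => H w (φ j) (hp w j hj)⟩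
/-- a constant is `O(σ)` as soon as some size is -/
theorem Le.const_of_sz {α : Type} [Enc α] {a : ι → α} (H : Le pre (fun i => (sz (a i) : ℝ)) g)
    (b : ℝ) : Le pre (fun _ => b) g := by
  refine Le.trans (Le.of_le_mul |b| (abs_nonneg b) fun w i _ => ?_) H
  have h1 : (1 : ℝ) ≤ (sz (a i) : ℝ) := by exact_mod_cast sz_pos (a i)
  calc b ≤ |b| := le_abs_self b
    _ ≤ |b| * (sz (a i) : ℝ) := le_mul_of_one_le_right (abs_nonneg b) h1

/-- a constant is `O(σ)` as soon as `1` is -/
theorem R0.le_const_of_one (H : Le pre (fun _ => (1 : ℝ)) g) (b : ℝ) : Le pre (fun _ => b) g :=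
  Le.trans (Le.of_le_mul |b| (abs_nonneg b) fun _ _ _ => by rw [mul_one]; exact le_abs_self b) H

theorem R0.le_nonneg_of_one (H : Le pre (fun _ => (1 : ℝ)) g) (w : World) (i : ι) (hi : pre w i) :
    0 ≤ g i := by
  obtain ⟨K, hK, H⟩ := H
  have h1 : (1 : ℝ) ≤ K * g i := H w i hi
  by_contra hneg
  have := mul_nonneg hK (neg_nonneg.2 (le_of_lt (not_le.1 hneg)))
  nlinarith

end le

namespace R0

/-- the state `s` with registers `0` and `1` overwritten -/
def st2 (s : St) (l0 l1 : List Val) : St := update (update s 1 l1) 0 l0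

@[simp] theorem st2_zero (s : St) (l0 l1 : List Val) : st2 s l0 l1 0 = l0 := by
  simp [st2]

@[simp] theorem st2_one (s : St) (l0 l1 : List Val) : st2 s l0 l1 1 = l1 := by
  simp [st2]

@[simp] theorem update_st2_zero (s : St) (l0 l1 l : List Val) :
    update (st2 s l0 l1) 0 l = st2 s l l1 := by
  simp [st2]

@[simp] theorem update_st2_one (s : St) (l0 l1 l : List Val) :
    update (st2 s l0 l1) 1 l = st2 s l0 l := by
  unfold st2
  rw [update_comm (by decide), update_idem]

theorem update_eq_st2 (s : St) (l : List Val) : update s 0 l = st2 s l (s 1) := by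
  simp [st2]

variable {Γ p q : VP} {a b c : Val} {T T' : ℝ}

theorem ev_st2 (h : Ev Γ p a b T) (s : St) (l0 l1 : List Val) :
    ∃ t : ℕ, (t : ℝ) ≤ T ∧ Exec Γ p (st2 s (a :: l0) l1) (st2 s (b :: l0) l1) t := by
  simpa using h (st2 s l0 l1)

theorem ev_of_st2 (h : ∀ (s : St) (l0 l1 : List Val),
    ∃ t : ℕ, (t : ℝ) ≤ T ∧ Exec Γ p (st2 s (a :: l0) l1) (st2 s (b :: l0) l1) t) :
    Ev Γ p a b T := fun s => by
  rw [update_eq_st2, update_eq_st2]
  exact h s _ _

theorem ev_mono (h : Ev Γ p a b T) (hT : T ≤ T') : Ev Γ p a b T' := fun s => by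
  obtain ⟨t, ht, he⟩ := h s
  exact ⟨t, ht.trans hT, he⟩

theorem ev_seq (h : Ev Γ p a b T) (h' : Ev Γ q b c T') : Ev Γ (.seq p q) a c (T + T') := fun s => by
  obtain ⟨t, ht, he⟩ := h s
  obtain ⟨t', ht', he'⟩ := h' s
  exact ⟨t + t', by push_cast; exact add_le_add ht ht', he.seq he'⟩

theorem ex_push (Γ : VP) (v : Val) (s : St) (l0 l1 : List Val) :
    Exec Γ (.push 0 v) (st2 s l0 l1) (st2 s (v :: l0) l1) v.size := by
  simpa using Exec.push Γ 0 v (st2 s l0 l1)

theorem ex_drop (Γ : VP) (v : Val) (s : St) (l0 l1 : List Val) :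
    Exec Γ (.drop 0) (st2 s (v :: l0) l1) (st2 s l0 l1) v.size := by
  simpa using Exec.drop Γ (r := 0) (s := st2 s (v :: l0) l1) (v := v) (l := l0) (by simp)

theorem ex_cons (Γ : VP) (a b : Val) (s : St) (l0 l1 : List Val) :
    Exec Γ (.cons 0) (st2 s (a :: b :: l0) l1) (st2 s (.cons a b :: l0) l1) 1 := by
  simpa using Exec.cons Γ (r := 0) (s := st2 s (a :: b :: l0) l1) (a := a) (b := b) (l := l0)
    (by simp)

theorem ex_uncons (Γ : VP) (a b : Val) (s : St) (l0 l1 : List Val) :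
    Exec Γ (.uncons 0) (st2 s (.cons a b :: l0) l1) (st2 s (a :: b :: l0) l1) 1 := by
  simpa using Exec.uncons Γ (r := 0) (s := st2 s (.cons a b :: l0) l1) (a := a) (b := b) (l := l0)
    (by simp)

theorem ex_copy01 (Γ : VP) (v : Val) (s : St) (l0 l1 : List Val) :
    Exec Γ (.copy 0 1) (st2 s (v :: l0) l1) (st2 s (v :: l0) (v :: l1)) v.size := by
  simpa using Exec.copy Γ (r := 0) 1 (s := st2 s (v :: l0) l1) (v := v) (l := l0) (by simp)

theorem ex_move01 (Γ : VP) (v : Val) (s : St) (l0 l1 : List Val) :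
    Exec Γ (.move 0 1) (st2 s (v :: l0) l1) (st2 s l0 (v :: l1)) v.size := by
  simpa using Exec.move Γ (r := 0) 1 (s := st2 s (v :: l0) l1) (v := v) (l := l0) (by simp)

theorem ex_move10 (Γ : VP) (v : Val) (s : St) (l0 l1 : List Val) :
    Exec Γ (.move 1 0) (st2 s l0 (v :: l1)) (st2 s (v :: l0) l1) v.size := by
  simpa using Exec.move Γ (r := 1) 0 (s := st2 s l0 (v :: l1)) (v := v) (l := l1) (by simp)

/-- total size of a stack -/
def tot (l : List Val) : ℕ := (l.map Val.size).sum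

@[simp] theorem tot_nil : tot [] = 0 := rfl
@[simp] theorem tot_cons (v : Val) (l : List Val) : tot (v :: l) = v.size + tot l := by
  simp [tot]

theorem tot_update_le {s : St} {r : ℕ} {l : List Val} {t : ℕ} (h : tot l ≤ tot (s r) + t)
    (r' : ℕ) : tot (update s r l r') ≤ tot (s r') + t := by
  by_cases hr : r' = r
  · subst hr; simpa using h
  · rw [update_of_ne hr]; omega

/-- along an execution the total size of each register grows at most by the time -/
theorem exec_tot_le {s s' : St} {t : ℕ} (h : Exec Γ p s s' t) (r : ℕ) :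
    tot (s' r) ≤ tot (s r) + t := by
  induction h generalizing r with
  | skip => omega
  | seq _ _ ih ih' => have := ih r; have := ih' r; omega
  | push => exact tot_update_le (by simp only [tot_cons]; omega) r
  | cons _ hs => exact tot_update_le (by rw [hs]; simp only [tot_cons, Val.size]; omega) r
  | uncons _ hs => exact tot_update_le (by rw [hs]; simp only [tot_cons, Val.size]; omega) r
  | @move _ r0 r' s v l hs =>
    have h1 := tot_update_le (s := update s r0 l) (r := r') (l := v :: update s r0 l r')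
      (t := v.size) (by simp only [tot_cons]; omega) r
    have h2 := tot_update_le (s := s) (r := r0) (l := l) (t := 0)
      (by rw [hs]; simp only [tot_cons]; omega) r
    omega
  | copy => exact tot_update_le (by simp only [tot_cons]; omega) r
  | drop _ hs => exact tot_update_le (by rw [hs]; simp only [tot_cons]; omega) r
  | caseN _ _ ih => have := ih r; omega
  | caseF _ _ ih => have := ih r; omega
  | caseT _ _ ih => have := ih r; omega
  | caseC _ _ ih => have := ih r; omega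
  | loopN => omega
  | loopC _ _ _ ih ih' => have := ih r; have := ih' r; omega
  | self _ ih => have := ih r; omega
  | fix _ _ ih => have := ih r; omega

theorem ev_size_le (h : Ev Γ p a b T) : (b.size : ℝ) ≤ a.size + T := by
  obtain ⟨t, ht, he⟩ := h (fun _ => [])
  have h1 := exec_tot_le he 0
  simp only [update_self, tot_cons, tot_nil, add_zero] at h1
  have h2 : (b.size : ℝ) ≤ a.size + t := by exact_mod_cast h1
  linarith

/-- branching on the bit on top of register `0`, which is dropped -/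
theorem ex_case (bb : Bool) {pe pt : VP} (s : St) (l0 l1 : List Val) {s' : St} {t : ℕ}
    (h : Exec Γ (if bb = true then pt else pe) (st2 s l0 l1) s' t) :
    Exec Γ (.case 0 .skip (.seq (.drop 0) pe) (.seq (.drop 0) pt) .skip)
      (st2 s (.bit bb :: l0) l1) s' (1 + t + 1) := by
  cases bb
  · exact Exec.caseF (l := l0) (by simp) ((ex_drop Γ (.bit false) s l0 l1).seq (by simpa using h))
  · exact Exec.caseT (l := l0) (by simp) ((ex_drop Γ (.bit true) s l0 l1).seq (by simpa using h))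

end R0

open R0

section cf
variable {ι ι' α α' β β' γ δ : Type} [Enc α] [Enc α'] [Enc β] [Enc β'] [Enc γ] [Enc δ]
  {pre pre' : World → ι → Prop} {inp : ι → α} {σ σ' c c' d : ι → ℝ}

theorem Cf.mono {out : ι → β} (h : Cf pre inp out σ c) (hp : ∀ w i, pre' w i → pre w i)
    (hσ : Le pre' σ σ') (hc : ∀ w i, pre' w i → c i ≤ c' i) : Cf pre' inp out σ' c' := by
  obtain ⟨p, K, hK, h⟩ := h
  obtain ⟨K', hK', hσ⟩ := hσ
  refine ⟨p, K * K', mul_nonneg hK hK', fun w i hi => ev_mono (h w i (hp w i hi)) ?_⟩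
  have h1 := mul_le_mul_of_nonneg_left (hσ w i hi) hK
  have h2 := mul_le_mul_of_nonneg_left (hc w i hi) w.hA
  rw [mul_assoc]
  exact add_le_add h1 h2

/-- the general introduction rule: the overhead `o` is `O(σ)` -/
theorem R0.cf_intro {out : ι → β} (p : VP) {o : ι → ℝ} (ho : Le pre o σ)
    (h : ∀ w i, pre w i → Ev w.Γ p (enc (inp i)) (enc (out i)) (o i + w.A * c i)) :
    Cf pre inp out σ c := by
  obtain ⟨K, hK, ho⟩ := ho
  exact ⟨p, K, hK, fun w i hi => ev_mono (h w i hi) (by have := ho w i hi; linarith)⟩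

/-- change of types and of expressions with the same encodings -/
theorem Cf.congr {out : ι → β} {inp' : ι → α'} {out' : ι → β'} (h : Cf pre inp out σ c)
    (hi : ∀ w i, pre w i → enc (inp' i) = enc (inp i))
    (ho : ∀ w i, pre w i → enc (out' i) = enc (out i)) : Cf pre inp' out' σ c := by
  obtain ⟨p, K, hK, h⟩ := h
  refine ⟨p, K, hK, fun w i hw => ?_⟩
  rw [hi w i hw, ho w i hw]
  exact h w i hw

theorem Cf.reindex {out : ι → β} (h : Cf pre inp out σ c) {pre' : World → ι' → Prop} (φ : ι' → ι)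
    (hp : ∀ w j, pre' w j → pre w (φ j)) :
    Cf pre' (fun j => inp (φ j)) (fun j => out (φ j)) (fun j => σ (φ j)) (fun j => c (φ j)) := by
  obtain ⟨p, K, hK, h⟩ := h
  exact ⟨p, K, hK, fun w j hj => h w (φ j) (hp w j hj)⟩

theorem Cf.id (h1 : Le pre (fun _ => 1) σ) : Cf pre inp inp σ (fun _ => 0) :=
  cf_intro .skip h1 fun _ _ _ _ => ⟨1, by simp, Exec.skip _ _⟩

theorem Cf.comp {f : ι → β} {g : ι → γ} (h : Cf pre inp f σ c) (h' : Cf pre f g σ d) :
    Cf pre inp g σ (fun i => c i + d i) := by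
  obtain ⟨p, K, hK, h⟩ := h
  obtain ⟨p', K', hK', h'⟩ := h'
  refine ⟨.seq p p', K + K', add_nonneg hK hK', fun w i hi =>
    ev_mono (ev_seq (h w i hi) (h' w i hi)) (le_of_eq (by ring))⟩

theorem Cf.const (hs : Le pre (fun i => (sz (inp i) : ℝ)) σ) (b : β) :
    Cf pre inp (fun _ => b) σ (fun _ => 0) := by
  refine cf_intro (.seq (.drop 0) (.push 0 (enc b))) (hs.add (hs.const_of_sz (sz b : ℝ)))
    fun w i _ => ev_of_st2 fun s l0 l1 => ⟨_, ?_, (ex_drop _ _ s l0 l1).seq (ex_push _ _ s l0 l1)⟩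
  simp [sz]

/-- only the input is copied -/
theorem Cf.pair {f : ι → β} {g : ι → γ} (hs : Le pre (fun i => (sz (inp i) : ℝ)) σ)
    (hf : Cf pre inp f σ c) (hg : Cf pre inp g σ d) :
    Cf pre inp (fun i => (f i, g i)) σ (fun i => c i + d i) := by
  obtain ⟨p, K, hK, hf⟩ := hf
  obtain ⟨p', K', hK', hg⟩ := hg
  refine cf_intro (.seq (.copy 0 1) (.seq p' (.seq (.move 1 0) (.seq p (.cons 0)))))
    (((hs.add hs).add (hs.const_of_sz 1)).add (Le.refl.const_mul (K + K') (add_nonneg hK hK')))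
    fun w i hi => ev_of_st2 fun s l0 l1 => ?_
  obtain ⟨t', ht', he'⟩ := ev_st2 (hg w i hi) s l0 (enc (inp i) :: l1)
  obtain ⟨t, ht, he⟩ := ev_st2 (hf w i hi) s (enc (g i) :: l0) l1
  refine ⟨_, ?_, (ex_copy01 _ _ s l0 l1).seq (he'.seq ((ex_move10 _ _ s _ l1).seq
    (he.seq (ex_cons _ _ _ s l0 l1))))⟩
  push_cast
  simp only [sz]
  linarith

/-- work on the first component in place: the second one is not touched -/
theorem Cf.first {f : ι → α} {f' : ι → β} (g : ι → γ) (h1 : Le pre (fun _ => 1) σ)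
    (h : Cf pre f f' σ c) : Cf pre (fun i => (f i, g i)) (fun i => (f' i, g i)) σ c := by
  obtain ⟨p, K, hK, h⟩ := h
  refine cf_intro (.seq (.uncons 0) (.seq p (.cons 0)))
    ((h1.add h1).add (Le.refl.const_mul K hK))
    fun w i hi => ev_of_st2 fun s l0 l1 => ?_
  obtain ⟨t, ht, he⟩ := ev_st2 (h w i hi) s (enc (g i) :: l0) l1
  refine ⟨_, ?_, (ex_uncons _ _ _ s l0 l1).seq (he.seq (ex_cons _ _ _ s l0 l1))⟩
  push_cast
  linarith

/-- work on the second component: the first one is moved -/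
theorem Cf.second (f : ι → α) {g : ι → β} {g' : ι → γ} (hs : Le pre (fun i => (sz (f i) : ℝ)) σ)
    (h : Cf pre g g' σ c) : Cf pre (fun i => (f i, g i)) (fun i => (f i, g' i)) σ c := by
  obtain ⟨p, K, hK, h⟩ := h
  refine cf_intro (.seq (.uncons 0) (.seq (.move 0 1) (.seq p (.seq (.move 1 0) (.cons 0)))))
    (((hs.add hs).add (hs.const_of_sz 2)).add (Le.refl.const_mul K hK))
    fun w i hi => ev_of_st2 fun s l0 l1 => ?_
  obtain ⟨t, ht, he⟩ := ev_st2 (h w i hi) s l0 (enc (f i) :: l1)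
  refine ⟨_, ?_, (ex_uncons _ _ _ s l0 l1).seq ((ex_move01 _ _ s _ l1).seq (he.seq
    ((ex_move10 _ _ s _ l1).seq (ex_cons _ _ _ s l0 l1))))⟩
  push_cast
  simp only [sz]
  linarith

theorem Cf.ite {b : ι → Bool} {f g : ι → β} (hs : Le pre (fun i => (sz (inp i) : ℝ)) σ)
    (hb : Cf pre inp b σ d) (ht : Cf (fun w i => pre w i ∧ b i = true) inp f σ c)
    (he : Cf (fun w i => pre w i ∧ b i = false) inp g σ c) :
    Cf pre inp (fun i => if b i = true then f i else g i) σ (fun i => d i + c i) := by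
  obtain ⟨pb, Kb, hKb, hb⟩ := hb
  obtain ⟨pt, Kt, hKt, ht⟩ := ht
  obtain ⟨pe, Ke, hKe, he⟩ := he
  refine cf_intro (.seq (.copy 0 1) (.seq pb (.case 0 .skip
      (.seq (.drop 0) (.seq (.move 1 0) pe)) (.seq (.drop 0) (.seq (.move 1 0) pt)) .skip)))
    (((hs.add hs).add (hs.const_of_sz 2)).add
      (Le.refl.const_mul (Kb + Kt + Ke) (add_nonneg (add_nonneg hKb hKt) hKe)))
    fun w i hi => ev_of_st2 fun s l0 l1 => ?_
  have hσ : 0 ≤ σ i := le_nonneg_of_one (hs.const_of_sz 1) w i hi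
  have hKt' := mul_nonneg hKt hσ
  have hKe' := mul_nonneg hKe hσ
  obtain ⟨t', ht', he'⟩ := ev_st2 (hb w i hi) s l0 (enc (inp i) :: l1)
  cases hbi : b i
  · obtain ⟨t, ht2, he2⟩ := ev_st2 (he w i ⟨hi, hbi⟩) s l0 l1
    rw [hbi] at he'
    refine ⟨_, ?_, (ex_copy01 _ _ s l0 l1).seq (he'.seq (ex_case false s l0 _
      ((ex_move10 _ _ s l0 l1).seq he2)))⟩
    push_cast
    simp only [sz]
    linarith
  · obtain ⟨t, ht2, he2⟩ := ev_st2 (ht w i ⟨hi, hbi⟩) s l0 l1
    rw [hbi] at he'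
    refine ⟨_, ?_, (ex_copy01 _ _ s l0 l1).seq (he'.seq (ex_case true s l0 _
      ((ex_move10 _ _ s l0 l1).seq he2)))⟩
    push_cast
    simp only [sz]
    linarith

/-- branch on a Boolean first component without copying the second one -/
theorem Cf.branch {b : ι → Bool} {x : ι → α} {f g : ι → β} (h1 : Le pre (fun _ => 1) σ)
    (ht : Cf (fun w i => pre w i ∧ b i = true) x f σ c)
    (he : Cf (fun w i => pre w i ∧ b i = false) x g σ c) :
    Cf pre (fun i => (b i, x i)) (fun i => if b i = true then f i else g i) σ c := by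
  obtain ⟨pt, Kt, hKt, ht⟩ := ht
  obtain ⟨pe, Ke, hKe, he⟩ := he
  refine cf_intro (.seq (.uncons 0) (.case 0 .skip (.seq (.drop 0) pe) (.seq (.drop 0) pt) .skip))
    ((le_const_of_one h1 3).add (Le.refl.const_mul (Kt + Ke) (add_nonneg hKt hKe)))
    fun w i hi => ev_of_st2 fun s l0 l1 => ?_
  have hσ : 0 ≤ σ i := le_nonneg_of_one h1 w i hi
  have hKt' := mul_nonneg hKt hσ
  have hKe' := mul_nonneg hKe hσ
  cases hbi : b i
  · obtain ⟨t, ht2, he2⟩ := ev_st2 (he w i ⟨hi, hbi⟩) s l0 l1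
    refine ⟨_, ?_, (ex_uncons _ _ _ s l0 l1).seq (ex_case false s _ l1 he2)⟩
    push_cast
    linarith
  · obtain ⟨t, ht2, he2⟩ := ev_st2 (ht w i ⟨hi, hbi⟩) s l0 l1
    refine ⟨_, ?_, (ex_uncons _ _ _ s l0 l1).seq (ex_case true s _ l1 he2)⟩
    push_cast
    linarith

theorem Cf.self {D : α → Prop} {μ : α → ℕ} {F : α → β} {τ : α → ℝ} {a : ι → α} (k : ι → ℕ)
    (h : ∀ w i, pre w i → SelfOK D μ F τ w (k i) ∧ D (a i) ∧ μ (a i) < k i) :
    Cf pre a (fun i => F (a i)) σ (fun i => τ (a i)) := by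
  refine ⟨.self, 0, le_rfl, fun w i hi => ?_⟩
  obtain ⟨h1, h2, h3⟩ := h w i hi
  rw [zero_mul, zero_add]
  exact h1 _ h2 h3

theorem Cf.fix {D : α → Prop} {μ : α → ℕ} {F : α → β} {τ σ c : α → ℝ} {ε : ℝ} (hε : 0 < ε)
    (h : Cf (fun w a => D a ∧ SelfOK D μ F τ w (μ a)) (fun a => a) F σ c)
    (h1 : ∀ a, D a → 1 ≤ σ a) (hτ : ∀ a, D a → ε * σ a + c a ≤ τ a) : Sub D F τ := by
  obtain ⟨p, K, hK, h⟩ := h
  have hA : 0 ≤ (K + 1) / ε := div_nonneg (by linarith) hε.le
  let w : World := ⟨p, (K + 1) / ε, hA⟩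
  -- one unfolding of the body
  have step : ∀ a, D a → SelfOK D μ F τ w (μ a) → ∀ s : St, ∃ t : ℕ,
      ((t + 1 : ℕ) : ℝ) ≤ (K + 1) / ε * τ a ∧
        Exec p p (update s 0 (enc a :: s 0)) (update s 0 (enc (F a) :: s 0)) t := by
    intro a ha hs s
    obtain ⟨t, ht, he⟩ := h w a ⟨ha, hs⟩ s
    refine ⟨t, ?_, he⟩
    have h2 := mul_le_mul_of_nonneg_left (hτ a ha) hA
    have h3 : (K + 1) / ε * (ε * σ a + c a) = (K + 1) * σ a + (K + 1) / ε * c a := by
      field_simp
    have h4 := h1 a ha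
    have h5 : (t : ℝ) ≤ K * σ a + (K + 1) / ε * c a := ht
    push_cast
    linarith
  have key : ∀ k, SelfOK D μ F τ w k := by
    intro k
    induction k using Nat.strong_induction_on with
    | _ k ih =>
      intro a ha hk s
      obtain ⟨t, ht, he⟩ := step a ha (ih _ hk) s
      exact ⟨t + 1, ht, Exec.self he⟩
  refine ⟨.fix p, (K + 1) / ε, hA, fun w' a ha s => ?_⟩
  obtain ⟨t, ht, he⟩ := step a ha (key _) s
  exact ⟨t + 1, by rw [mul_zero, add_zero]; exact ht, Exec.fix _ he⟩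

theorem Cf.sub {f : ι → β} {P : β → Prop} {g : β → γ} {τ : β → ℝ} (hg : Sub P g τ)
    (hf : Cf pre inp f σ c) (hP : ∀ w i, pre w i → P (f i)) (hτ : Le pre (fun i => τ (f i)) σ) :
    Cf pre inp (fun i => g (f i)) σ c := by
  have h1 : Cf pre f (fun i => g (f i)) σ (fun _ => 0) :=
    (Cf.reindex hg f hP).mono (fun _ _ h => h) hτ fun _ _ _ => le_rfl
  exact (hf.comp h1).mono (fun _ _ h => h) Le.refl fun _ _ _ => le_of_eq (add_zero _)

theorem Cf.lin {f : ι → β} {g : β → γ} (hg : Lin g) (hf : Cf pre inp f σ c)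
    (hs : Le pre (fun i => (sz (f i) : ℝ)) σ) : Cf pre inp (fun i => g (f i)) σ c :=
  Cf.sub hg hf (fun _ _ _ => trivial) hs

theorem Cf.sz_le {out : ι → β} (h : Cf pre inp out σ (fun _ => 0))
    (hs : Le pre (fun i => (sz (inp i) : ℝ)) σ) : Le pre (fun i => (sz (out i) : ℝ)) σ := by
  obtain ⟨p, K, hK, h⟩ := h
  refine Le.trans (Le.of_le fun w i hi => ?_) (hs.add (Le.refl.const_mul K hK))
  have := ev_size_le (h w i hi)
  rw [mul_zero, add_zero] at this
  exact this

end cf

end Crest.Agent.R326
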