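import Crest.Agent.R326.ArrDefs
import Crest.Agent.R326.Rules0

/-! Row 326: growth of `lg` and `Ex`. -/

set_option autoImplicit false

namespace Crest.Agent.R326

theorem one_le_lg (n : ℕ) : 1 ≤ lg n := Nat.le_add_left 1 _
theorem lg_mono {m n : ℕ} (h : m ≤ n) : lg m ≤ lg n := Nat.succ_le_succ (Nat.size_le_size h)
theorem lt_two_pow_lg (n : ℕ) : n < 2 ^ lg n :=
  (Nat.lt_size_self n).trans_le (Nat.pow_le_pow_right two_pos (Nat.le_succ _))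
theorem two_pow_lg_le {n : ℕ} (h : 0 < n) : 2 ^ lg n ≤ 4 * n := by
  obtain ⟨k, hk⟩ : ∃ k, n.size = k + 1 := ⟨n.size - 1, by have := Nat.size_pos.2 h; omega⟩
  have h1 : 2 ^ k ≤ n := Nat.lt_size.1 (by omega)
  rw [lg, hk, pow_succ, pow_succ]
  omega
theorem lg_le (n : ℕ) : lg n ≤ n + 1 := Nat.succ_le_succ (Nat.size_le.2 Nat.lt_two_pow_self)
theorem lg_mul_le (m n : ℕ) : lg (m * n) ≤ lg m + lg n := by
  have h : (m * n).size ≤ m.size + n.size := by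
    rw [Nat.size_le, pow_add]
    exact Nat.mul_lt_mul'' (Nat.lt_size_self m) (Nat.lt_size_self n)
  unfold lg
  omega
theorem lg_pow_le (m k : ℕ) : lg (m ^ k) ≤ k * lg m + 2 := by
  have h : (m ^ k).size ≤ k * lg m + 1 := by
    rw [Nat.size_le]
    calc m ^ k ≤ (2 ^ lg m) ^ k := Nat.pow_le_pow_left (lt_two_pow_lg m).le k
      _ = 2 ^ (k * lg m) := by rw [← pow_mul, mul_comm]
      _ < 2 ^ (k * lg m + 1) := Nat.pow_lt_pow_right one_lt_two (Nat.lt_succ_self _)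
  exact Nat.succ_le_succ h
theorem sz_nat_le_lg {m n : ℕ} (h : m ≤ n) : sz m ≤ 2 * lg n := by
  have := Nat.size_le_size h
  rw [sz_nat, lg]
  omega
theorem two_le_Ex (n : ℕ) : 2 ≤ Ex n :=
  Nat.le_self_pow (Nat.sqrt_pos.2 (one_le_lg n)).ne' 2
theorem Ex_mono {m n : ℕ} (h : m ≤ n) : Ex m ≤ Ex n :=
  Nat.pow_le_pow_right two_pos (Nat.sqrt_le_sqrt (lg_mono h))

theorem ExAux.poly_le_exp (e s : ℕ) : (s + 1) ^ e ≤ e.factorial * 2 ^ e * 2 ^ s :=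
  calc (s + 1) ^ e ≤ (s + 1).ascFactorial e := Nat.pow_succ_le_ascFactorial _ _
    _ = e.factorial * (s + e).choose e := Nat.ascFactorial_eq_factorial_mul_choose _ _
    _ ≤ e.factorial * 2 ^ (s + e) := Nat.mul_le_mul_left _ (Nat.choose_le_two_pow _ _)
    _ = e.factorial * 2 ^ e * 2 ^ s := by ring

/-- every power of the logarithm is `O(Ex)` -/
theorem lg_pow_le_Ex (e : ℕ) : ∃ K : ℕ, ∀ n, (lg n + 1) ^ e ≤ K * Ex n := by
  refine ⟨(2 * e).factorial * 2 ^ (2 * e), fun n => le_trans ?_ (ExAux.poly_le_exp (2 * e) _)⟩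
  rw [pow_mul]
  exact Nat.pow_le_pow_left (Nat.lt_succ_sqrt' _) e
theorem poly_lg_le_Ex (c e e' : ℕ) : ∃ K : ℕ, ∀ n, (c * lg n ^ e' + c) ^ e ≤ K * Ex n := by
  obtain ⟨K, hK⟩ := lg_pow_le_Ex (e' * e)
  refine ⟨(2 * c) ^ e * K, fun n => ?_⟩
  have h1 : lg n ^ e' ≤ (lg n + 1) ^ e' := Nat.pow_le_pow_left (Nat.le_succ _) _
  have h2 : 1 ≤ (lg n + 1) ^ e' := Nat.one_le_pow _ _ (Nat.succ_pos _)
  have h3 : c * lg n ^ e' + c ≤ 2 * c * (lg n + 1) ^ e' := by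
    have := Nat.mul_le_mul_left c h1
    have := Nat.mul_le_mul_left c h2
    nlinarith
  calc (c * lg n ^ e' + c) ^ e ≤ (2 * c * (lg n + 1) ^ e') ^ e := Nat.pow_le_pow_left h3 e
    _ = (2 * c) ^ e * (lg n + 1) ^ (e' * e) := by rw [mul_pow, ← pow_mul]
    _ ≤ (2 * c) ^ e * (K * Ex n) := Nat.mul_le_mul_left _ (hK n)
    _ = (2 * c) ^ e * K * Ex n := by ring
/-- constant factors in the argument cost constant factors -/
theorem Ex_mul_le (c : ℕ) : ∃ K : ℕ, ∀ n, Ex (c * n) ≤ K * Ex n := by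
  refine ⟨2 ^ lg c, fun n => ?_⟩
  rw [Ex, Ex, ← pow_add]
  refine Nat.pow_le_pow_right two_pos (Nat.lt_succ_iff.1 (Nat.sqrt_lt'.2 ?_))
  have h1 := lg_mul_le c n
  have h2 := Nat.lt_succ_sqrt' (lg n)
  simp only [Nat.succ_eq_add_one] at h2 ⊢
  nlinarith [Nat.zero_le (lg c * (lg n).sqrt), Nat.zero_le (lg c * lg c)]
/-- every power of `Ex n` is `O(n^(1/r))` -/
theorem Ex_pow_le (e r : ℕ) (hr : 0 < r) : ∃ K : ℕ, ∀ n m, 0 < m → n ≤ m ^ r → Ex n ^ e ≤ K * m := by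
  refine ⟨2 ^ (2 + (r * e) ^ 2) * 4, fun n m hm h => ?_⟩
  have h1 : lg n ≤ r * lg m + 2 := (lg_mono h).trans (lg_pow_le m r)
  have h2 := Nat.sqrt_le' (lg n)
  have h3 : (lg n).sqrt * e ≤ 2 + (r * e) ^ 2 + lg m := by
    refine Nat.le_of_mul_le_mul_left ?_ hr
    have h4 : (lg n).sqrt * (r * e) ≤ (lg n).sqrt ^ 2 + (r * e) ^ 2 := by
      nlinarith [sq_nonneg (((lg n).sqrt : ℤ) - (r * e : ℕ))]
    have h5 : 2 + (r * e) ^ 2 ≤ r * (2 + (r * e) ^ 2) := Nat.le_mul_of_pos_left _ hr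
    nlinarith
  calc Ex n ^ e = 2 ^ ((lg n).sqrt * e) := by rw [Ex, ← pow_mul]
    _ ≤ 2 ^ (2 + (r * e) ^ 2 + lg m) := Nat.pow_le_pow_right two_pos h3
    _ = 2 ^ (2 + (r * e) ^ 2) * 2 ^ lg m := pow_add _ _ _
    _ ≤ 2 ^ (2 + (r * e) ^ 2) * (4 * m) := Nat.mul_le_mul_left _ (two_pow_lg_le hm)
    _ = 2 ^ (2 + (r * e) ^ 2) * 4 * m := by ring
/-- a quantity whose logarithm is below `(log N)^(2/3)` has all its powers `O(N)` -/
theorem pow_le_of_lg (e : ℕ) : ∃ K : ℕ, ∀ s N, 0 < N → lg s ^ 3 ≤ lg N ^ 2 → (s + 1) ^ e ≤ K * N := by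
  refine ⟨2 ^ (e ^ 3) * 4, fun s N hN h => ?_⟩
  have h3 : lg s * e ≤ e ^ 3 + lg N := by
    rcases le_total (lg s) (e ^ 2) with h1 | h1
    · have := Nat.mul_le_mul_right e h1
      have e3 : e ^ 2 * e = e ^ 3 := by ring
      omega
    · have h2 : (lg s * e) ^ 2 ≤ lg N ^ 2 :=
        calc (lg s * e) ^ 2 = lg s ^ 2 * e ^ 2 := mul_pow _ _ _
          _ ≤ lg s ^ 2 * lg s := Nat.mul_le_mul_left _ h1
          _ = lg s ^ 3 := by ring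
          _ ≤ lg N ^ 2 := h
      have := (Nat.pow_le_pow_iff_left two_ne_zero).1 h2
      omega
  calc (s + 1) ^ e ≤ (2 ^ lg s) ^ e := Nat.pow_le_pow_left (lt_two_pow_lg s) e
    _ = 2 ^ (lg s * e) := by rw [← pow_mul]
    _ ≤ 2 ^ (e ^ 3 + lg N) := Nat.pow_le_pow_right two_pos h3
    _ = 2 ^ (e ^ 3) * 2 ^ lg N := pow_add _ _ _
    _ ≤ 2 ^ (e ^ 3) * (4 * N) := Nat.mul_le_mul_left _ (two_pow_lg_le hN)
    _ = 2 ^ (e ^ 3) * 4 * N := by ring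

end Crest.Agent.R326
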