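import Crest.Agent.R326.PolyNat

/-! Row 326: polynomial-time functions (for parameters, indices and small tables). -/

set_option autoImplicit false

namespace Crest.Agent.R326

variable {α β γ δ : Type} [Enc α] [Enc β] [Enc γ] [Enc δ]

theorem filter_range_lt (n m : ℕ) :
    (List.range m).filter (fun j => decide (j < n)) = List.range (min n m) := by
  induction m with
  | zero => simp
  | succ m ih =>
    rw [List.range_succ, List.filter_append, ih]
    by_cases h : m < n
    · have e1 : min n m = m := by omega
      simp [h, e1, List.range_succ]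
    · have e2 : min n (m + 1) = min n m := by omega
      simp [h, e2]

theorem Poly.range_min {n : α → ℕ} {u : α → List β} (hn : Poly n) (hu : Poly u) :
    Poly (fun a => List.range (min (n a) (u a).length)) := by
  have h : Poly fun a => (List.range (u a).length).filter (fun j => decide (j < n a)) :=
    Poly.filter (q := fun a j => decide (j < n a))
      (Poly.lt (Poly.snd Poly.id) (Poly.comp hn (Poly.fst Poly.id))) hu.range_length
  exact h.congr fun a => (filter_range_lt _ _).symm

theorem Poly.un_min {n : α → ℕ} {u : α → List β} (hn : Poly n) (hu : Poly u) :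
    Poly (fun a => un (min (n a) (u a).length)) := by
  have h : Poly fun a => (List.range (min (n a) (u a).length)).map (fun _ => ()) :=
    Poly.map (g := fun _ _ => ()) (Poly.const ()) (Poly.range_min hn hu)
  exact h.congr fun a => by simp

@[fun_prop] theorem Poly.take {n : α → ℕ} {l : α → List β} (hn : Poly n) (hl : Poly l) :
    Poly (fun a => (l a).take (n a)) := by
  have h0 : Lin fun p : List Unit × List β => p.2.take p.1.length :=
    Lin.take (Lin.fst Lin.id) (Lin.snd Lin.id)
  refine (Poly.comp h0.poly ((Poly.un_min hn hl).pair hl)).congr fun a => ?_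
  simp
@[fun_prop] theorem Poly.drop {n : α → ℕ} {l : α → List β} (hn : Poly n) (hl : Poly l) :
    Poly (fun a => (l a).drop (n a)) := by
  have h0 : Lin fun p : List Unit × List β => p.2.drop p.1.length :=
    Lin.drop (Lin.fst Lin.id) (Lin.snd Lin.id)
  refine (Poly.comp h0.poly ((Poly.un_min hn hl).pair hl)).congr fun a => ?_
  simp only [List.length_replicate]
  rcases le_total (n a) (l a).length with h | h
  · rw [min_eq_left h]
  · rw [min_eq_right h, List.drop_eq_nil_of_le h, List.drop_length]
@[fun_prop] theorem Poly.headD {l : α → List β} {d : α → β} (hl : Poly l) (hd : Poly d) :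
    Poly (fun a => (l a).headD (d a)) := by
  have h0 : Lin fun p : List β × β => p.1.headD p.2 := Lin.headD (Lin.fst Lin.id) (Lin.snd Lin.id)
  exact Poly.comp h0.poly (hl.pair hd)
@[fun_prop] theorem Poly.tail {l : α → List β} (hl : Poly l) : Poly (fun a => (l a).tail) :=
  Poly.comp (Lin.tail Lin.id).poly hl
@[fun_prop] theorem Poly.isEmpty {l : α → List β} (hl : Poly l) : Poly (fun a => (l a).isEmpty) :=
  Poly.comp (Lin.isEmpty Lin.id).poly hl
@[fun_prop] theorem Poly.getD {n : α → ℕ} {l : α → List β} {d : α → β} (hn : Poly n) (hl : Poly l)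
    (hd : Poly d) : Poly (fun a => (l a).getD (n a) (d a)) := by
  refine (Poly.headD (Poly.drop hn hl) hd).congr fun a => ?_
  simp [List.getD_eq_getElem?_getD, List.head?_drop]

theorem size_add_le' (m n : ℕ) : (m + n).size ≤ m.size + n.size + 1 := by
  rw [Nat.size_le]
  have h1 := Nat.lt_size_self m
  have h2 := Nat.lt_size_self n
  have h3 : 2 ^ m.size ≤ 2 ^ (m.size + n.size) := Nat.pow_le_pow_right (by norm_num) (by omega)
  have h4 : 2 ^ n.size ≤ 2 ^ (m.size + n.size) := Nat.pow_le_pow_right (by norm_num) (by omega)
  rw [pow_succ]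
  omega

theorem size_mul_le' (m n : ℕ) : (m * n).size ≤ m.size + n.size := by
  rw [Nat.size_le, pow_add]
  exact Nat.mul_lt_mul'' (Nat.lt_size_self m) (Nat.lt_size_self n)

@[fun_prop] theorem Poly.sum {l : α → List ℕ} (hl : Poly l) : Poly (fun a => (l a).sum) := by
  have h : Poly fun a => (l a).foldl (fun t x => t + x) 0 := by
    refine Poly.foldl_add (f := fun _ t x => t + x) (s := fun _ => 0) (by fun_prop) (Poly.const 0)
      hl 1 1 fun a t x _ => ?_
    have := size_add_le' t x
    simp only [sz_nat, pow_one]
    omega
  exact h.congr fun a => List.sum_eq_foldl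
@[fun_prop] theorem Poly.prod {l : α → List ℕ} (hl : Poly l) : Poly (fun a => (l a).prod) := by
  have h : Poly fun a => (l a).foldl (fun t x => t * x) 1 := by
    refine Poly.foldl_add (f := fun _ t x => t * x) (s := fun _ => 1) (by fun_prop) (Poly.const 1)
      hl 1 1 fun a t x _ => ?_
    have := size_mul_le' t x
    simp only [sz_nat, pow_one]
    omega
  exact h.congr fun a => List.prod_eq_foldl
/-- powers with a unary exponent -/
@[fun_prop] theorem Poly.pow_length {f : α → ℕ} {u : α → List β} (hf : Poly f) (hu : Poly u) :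
    Poly (fun a => f a ^ (u a).length) := by
  have h : Poly fun a => ((u a).map fun _ => f a).prod :=
    Poly.prod (Poly.map (g := fun a _ => f a) (Poly.comp hf (Poly.fst Poly.id)) hu)
  exact h.congr fun a => by simp
@[fun_prop] theorem Poly.pow_const {f : α → ℕ} (hf : Poly f) (k : ℕ) : Poly (fun a => f a ^ k) := by
  exact (Poly.pow_length hf (Poly.const (un k))).congr fun a => by simp
/-- powers with a binary exponent cut at a unary bound -/
theorem Poly.pow_min {f n : α → ℕ} {u : α → List β} (hf : Poly f) (hn : Poly n) (hu : Poly u) :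
    Poly (fun a => f a ^ min (n a) (u a).length) :=
  (Poly.pow_length hf (Poly.un_min hn hu)).congr fun a => by simp
/-- powers with an exponent cut at the binary length of a number -/
theorem Poly.pow_min_size {f n m : α → ℕ} (hf : Poly f) (hn : Poly n) (hm : Poly m) :
    Poly (fun a => f a ^ min (n a) (m a).size) :=
  (Poly.pow_min hf hn hm.un_size).congr fun a => by simp
theorem Poly.range_size {f : α → ℕ} (hf : Poly f) : Poly (fun a => List.range (f a).size) :=
  hf.un_size.range_length.congr fun a => by simp

theorem length_filter_range {q : ℕ → Bool} {n m : ℕ} (hn : n ≤ m)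
    (h : ∀ j < m, (q j = true ↔ j < n)) : ((List.range m).filter q).length = n := by
  rw [List.filter_congr (q := fun j => decide (j < n)), filter_range_lt, min_eq_left hn,
    List.length_range]
  intro j hj
  rw [List.mem_range] at hj
  rw [Bool.eq_iff_iff, h j hj, decide_eq_true_iff]

theorem Poly.log {f : α → ℕ} (b : ℕ) (hf : Poly f) : Poly (fun a => Nat.log b (f a)) := by
  rcases le_or_gt b 1 with hb | hb
  · exact (Poly.const 0).congr fun a => Nat.log_of_left_le_one hb _
  have h : Poly fun a => ((List.range (f a).size).filter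
      (fun j => decide (b ^ min (j + 1) (f a).size ≤ f a))).length := by
    refine Poly.length (Poly.filter (q := fun a j => decide (b ^ min (j + 1) (f a).size ≤ f a)) ?_
      hf.range_size)
    have hf' : Poly fun p : α × ℕ => f p.1 := Poly.comp hf (Poly.fst Poly.id)
    exact Poly.le (Poly.pow_min_size (Poly.const b) (by fun_prop) hf') hf'
  refine h.congr fun a => (length_filter_range ?_ fun j hj => ?_).symm
  · rcases Nat.eq_zero_or_pos (f a) with h0 | h0
    · simp [h0]
    · refine (Nat.log_lt_of_lt_pow h0.ne' ?_).le
      exact (Nat.lt_size_self _).trans_le (Nat.pow_le_pow_left hb _)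
  · rw [decide_eq_true_iff, min_eq_left hj]
    rcases Nat.eq_zero_or_pos (f a) with h0 | h0
    · simp [h0] at hj
    · exact (Nat.le_log_iff_pow_le hb h0.ne').symm

theorem Poly.clog {f : α → ℕ} (b : ℕ) (hf : Poly f) : Poly (fun a => Nat.clog b (f a)) := by
  rcases le_or_gt b 1 with hb | hb
  · exact (Poly.const 0).congr fun a => Nat.clog_of_left_le_one hb _
  have h : Poly fun a => ((List.range (f a).size).filter
      (fun j => decide (b ^ min j (f a).size < f a))).length := by
    refine Poly.length (Poly.filter (q := fun a j => decide (b ^ min j (f a).size < f a)) ?_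
      hf.range_size)
    have hf' : Poly fun p : α × ℕ => f p.1 := Poly.comp hf (Poly.fst Poly.id)
    exact Poly.lt (Poly.pow_min_size (Poly.const b) (by fun_prop) hf') hf'
  refine h.congr fun a => (length_filter_range ?_ fun j hj => ?_).symm
  · rw [Nat.clog_le_iff_le_pow hb]
    exact (Nat.lt_size_self _).le.trans (Nat.pow_le_pow_left hb _)
  · rw [decide_eq_true_iff, min_eq_left hj.le]
    exact (Nat.lt_clog_iff_pow_lt hb).symm

/-- one step of the bisection for the square root -/
def sqrtStep (n t j : ℕ) : ℕ :=
  if (t + 2 ^ min j n.size) * (t + 2 ^ min j n.size) ≤ n then t + 2 ^ min j n.size else t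

theorem foldl_sqrtStep (n : ℕ) : ∀ s t : ℕ, s ≤ n.size → t ≤ n.sqrt → n.sqrt < t + 2 ^ s →
    (List.range s).reverse.foldl (sqrtStep n) t = n.sqrt := by
  intro s
  induction s with
  | zero => intro t _ h1 h2; simp at h2 ⊢; omega
  | succ s ih =>
    intro t hs h1 h2
    rw [List.range_succ, List.reverse_append, List.reverse_singleton, List.singleton_append,
      List.foldl_cons]
    have e : min s n.size = s := by omega
    unfold sqrtStep
    rw [e]
    split_ifs with h
    · exact ih _ (by omega) (Nat.le_sqrt.2 h) (by rw [pow_succ] at h2; omega)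
    · exact ih _ (by omega) h1 (Nat.sqrt_lt.2 (not_le.1 h))

theorem poly_sqrt : Poly Nat.sqrt := by
  have h : Poly fun n : ℕ => (List.range n.size).reverse.foldl (sqrtStep n) 0 := by
    refine Poly.foldl_add (f := sqrtStep) (s := fun _ => 0) ?_ (Poly.const 0)
      (Poly.range_size Poly.id).reverse 1 1 fun n t x _ => ?_
    · have h1 : Poly fun p : ℕ × ℕ × ℕ => p.2.1 + 2 ^ min p.2.2 p.1.size :=
        Poly.add (by fun_prop) (Poly.pow_min_size (Poly.const 2) (by fun_prop) (by fun_prop))
      exact Poly.ite (Poly.le (h1.mul h1) (by fun_prop)) h1 (by fun_prop)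
    · unfold sqrtStep
      split_ifs with h
      · have := sz_nat_mono ((Nat.le_mul_self _).trans h)
        simp only [pow_one]
        omega
      · omega
  refine h.congr fun n => (foldl_sqrtStep n _ 0 le_rfl (Nat.zero_le _) ?_).symm
  have := Nat.sqrt_le_self n
  have := Nat.lt_size_self n
  omega

@[fun_prop] theorem Poly.sqrt {f : α → ℕ} (hf : Poly f) : Poly (fun a => Nat.sqrt (f a)) :=
  Poly.comp poly_sqrt hf
attribute [fun_prop] Poly.bits
@[fun_prop] theorem Poly.testBit {f g : α → ℕ} (hf : Poly f) (hg : Poly g) :
    Poly (fun a => (f a).testBit (g a)) :=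
  (Poly.getD hg hf.bits (Poly.const false)).congr fun a => by
    rw [Nat.testBit_eq_inth, List.getI]
    rfl
@[fun_prop] theorem Poly.toNat_bool {b : α → Bool} (hb : Poly b) : Poly (fun a => (b a).toNat) :=
  (Poly.cond hb (Poly.const 1) (Poly.const 0)).congr fun a => by cases b a <;> rfl
theorem Poly.val_LE {l : α → List Bool} (hl : Poly l) : Poly (fun a => valLE (l a)) := by
  have h : Poly fun a => (l a).reverse.foldl (fun (t : ℕ) (x : Bool) => 2 * t + x.toNat) 0 := by
    refine Poly.foldl_add (f := fun _ (t : ℕ) (x : Bool) => 2 * t + x.toNat) (s := fun _ => 0)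
      (by fun_prop) (Poly.const 0) hl.reverse 2 1 fun a t x _ => ?_
    have h1 : (2 * t + x.toNat).size ≤ t.size + 1 := by
      rw [Nat.size_le, pow_succ]
      have := Nat.lt_size_self t
      have := Bool.toNat_le x
      omega
    simp only [sz_nat, pow_one]
    omega
  exact h.congr fun a => by rw [List.foldl_reverse]; rfl
theorem Poly.word_LE {u : α → List β} {f : α → ℕ} (hu : Poly u) (hf : Poly f) :
    Poly (fun a => wordLE (u a).length (f a)) :=
  Poly.map (g := fun a i => (f a).testBit i)
    (Poly.testBit (Poly.comp hf (Poly.fst Poly.id)) (Poly.snd Poly.id)) hu.range_length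

example : Poly fun p : ℕ × ℕ × List ℕ => (p.1 * p.2.1 + p.2.2.getD 3 0) % p.1 := by fun_prop
example : Poly fun p : ℕ × List (ℕ × ℕ) => (p.2.map fun x => x.1 ^ 2 / p.1 + x.2.sqrt).sum := by
  fun_prop
example : Poly fun p : ℕ × List ℕ => (p.2.take (p.1 / 2)).drop (p.2.length - p.1) := by fun_prop
example : Poly fun p : ℕ × List ℕ => p.1 ^ p.2.length := by fun_prop

end Crest.Agent.R326
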