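import Crest.Agent.R326.Prims0

/-! Row 326: bulk primitives with numeric arguments. -/

set_option autoImplicit false

namespace Crest.Agent.R326

open Function

namespace Prims

/-! ### a two-register view of the machine -/

/-- the state with prescribed registers `0` and `1` -/
def st (s : St) (a b : List Val) : St := update (update s 0 a) 1 b

theorem st_0 (s : St) (a b : List Val) : st s a b 0 = a := by simp [st]
theorem st_1 (s : St) (a b : List Val) : st s a b 1 = b := by simp [st]
theorem upd_0 (s : St) (a b a' : List Val) : update (st s a b) 0 a' = st s a' b := by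
  funext r; by_cases h0 : r = 0
  · subst h0; simp [st]
  · by_cases h1 : r = 1
    · subst h1; simp [st]
    · simp [st, h0, h1]
theorem upd_1 (s : St) (a b b' : List Val) : update (st s a b) 1 b' = st s a b' := by
  simp [st]
theorem st_self (s : St) (a : List Val) : update s 0 a = st s a (s 1) := by
  funext r; by_cases h0 : r = 0
  · subst h0; simp [st]
  · by_cases h1 : r = 1
    · subst h1; simp [st]
    · simp [st, h0, h1]

variable (Γ : VP) (s : St)

theorem ex_uncons (x y : Val) (a b : List Val) :
    Exec Γ (.uncons 0) (st s (.cons x y :: a) b) (st s (x :: y :: a) b) 1 := by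
  have := Exec.uncons Γ (st_0 s (.cons x y :: a) b)
  rwa [upd_0] at this

theorem ex_cons (x y : Val) (a b : List Val) :
    Exec Γ (.cons 0) (st s (x :: y :: a) b) (st s (.cons x y :: a) b) 1 := by
  have := Exec.cons Γ (st_0 s (x :: y :: a) b)
  rwa [upd_0] at this

theorem ex_push (x : Val) (a b : List Val) :
    Exec Γ (.push 0 x) (st s a b) (st s (x :: a) b) x.size := by
  have := Exec.push Γ 0 x (st s a b)
  rwa [upd_0, st_0] at this

theorem ex_drop0 (x : Val) (a b : List Val) :
    Exec Γ (.drop 0) (st s (x :: a) b) (st s a b) x.size := by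
  have := Exec.drop Γ (st_0 s (x :: a) b)
  rwa [upd_0] at this

theorem ex_drop1 (x : Val) (a b : List Val) :
    Exec Γ (.drop 1) (st s a (x :: b)) (st s a b) x.size := by
  have := Exec.drop Γ (st_1 s a (x :: b))
  rwa [upd_1] at this

theorem ex_move01 (x : Val) (a b : List Val) :
    Exec Γ (.move 0 1) (st s (x :: a) b) (st s a (x :: b)) x.size := by
  have := Exec.move Γ 1 (st_0 s (x :: a) b)
  rwa [upd_0, upd_1, st_1] at this

theorem ex_move10 (x : Val) (a b : List Val) :
    Exec Γ (.move 1 0) (st s a (x :: b)) (st s (x :: a) b) x.size := by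
  have := Exec.move Γ 0 (st_1 s a (x :: b))
  rwa [upd_1, upd_0, st_0] at this

/-! ### in-place steps -/

variable {α β γ δ : Type} [Enc α] [Enc β] [Enc γ] [Enc δ]

/-- detach the head of the second component, in place -/
def pop (p : Unit × List α) : List α × List α := (p.2.take 1, p.2.drop 1)

theorem sub_pop : Sub (fun _ : Unit × List α => True) pop (fun p => (sz (pop p).1 : ℝ)) := by
  refine ⟨.seq (.uncons 0) (.seq (.drop 0) (.case 0 (.seq (.push 0 .nil) (.cons 0)) .skip .skip
    (.seq (.uncons 0) (.seq (.move 0 1) (.seq (.push 0 .nil) (.seq (.move 1 0)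
      (.seq (.cons 0) (.cons 0)))))))), 9, by norm_num, ?_⟩
  rintro w ⟨u, l⟩ - s
  rw [st_self, st_self]
  cases l with
  | nil =>
    refine ⟨_, ?_, .seq (ex_uncons _ _ _ _ _ _) (.seq (ex_drop0 _ _ _ _ _)
      (.caseN (st_0 _ _ _) (.seq (ex_push _ _ _ _ _) (ex_cons _ _ _ _ _ _))))⟩
    simp [pop, Val.size, enc]
    norm_num
  | cons a l =>
    refine ⟨_, ?_, .seq (ex_uncons _ _ _ _ _ _) (.seq (ex_drop0 _ _ _ _ _)
      (.caseC (st_0 _ _ _) (.seq (ex_uncons _ _ _ _ _ _) (.seq (ex_move01 _ _ _ _ _)
        (.seq (ex_push _ _ _ _ _) (.seq (ex_move10 _ _ _ _ _) (.seq (ex_cons _ _ _ _ _ _)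
          (ex_cons _ _ _ _ _ _))))))))⟩
    have e : (enc a).size = sz a := rfl
    have e' : (enc u).size = 1 := rfl
    have e'' : sz (pop (u, a :: l)).1 = sz a + 2 := rfl
    simp only [e, e', e'', Val.size]
    push_cast
    have : (0 : ℝ) ≤ sz a := by positivity
    linarith

/-- one step of `expand`, in place -/
def exStep (p : (α × Bool) × List α) : α × List α :=
  if p.1.2 = true then (p.2.headD p.1.1, p.2.tail) else (p.1.1, p.2)

theorem sub_exStep :
    Sub (fun _ : (α × Bool) × List α => True) exStep (fun p => (sz p.1.1 : ℝ)) := by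
  refine ⟨.seq (.uncons 0) (.seq (.uncons 0) (.seq (.move 0 1) (.case 0 .skip
    (.seq (.drop 0) (.seq (.move 1 0) (.cons 0)))
    (.seq (.drop 0) (.case 0 (.seq (.move 1 0) (.cons 0)) .skip .skip (.drop 1))) .skip))),
    9, by norm_num, ?_⟩
  rintro w ⟨⟨z, b⟩, l⟩ - s
  rw [st_self, st_self]
  have e : (enc z).size = sz z := rfl
  have e' : ∀ b : Bool, (enc b).size = 1 := fun _ => rfl
  have h1 : (1 : ℝ) ≤ sz z := by exact_mod_cast sz_pos z
  cases b with
  | false =>
    refine ⟨_, ?_, .seq (ex_uncons _ _ _ _ _ _) (.seq (ex_uncons _ _ _ _ _ _)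
      (.seq (ex_move01 _ _ _ _ _) (.caseF (st_0 _ _ _) (.seq (ex_drop0 _ _ _ _ _)
        (.seq (ex_move10 _ _ _ _ _) (ex_cons _ _ _ _ _ _))))))⟩
    simp only [e, e']
    push_cast
    linarith
  | true =>
    cases l with
    | nil =>
      refine ⟨_, ?_, .seq (ex_uncons _ _ _ _ _ _) (.seq (ex_uncons _ _ _ _ _ _)
        (.seq (ex_move01 _ _ _ _ _) (.caseT (st_0 _ _ _) (.seq (ex_drop0 _ _ _ _ _)
          (.caseN (st_0 _ _ _) (.seq (ex_move10 _ _ _ _ _) (ex_cons _ _ _ _ _ _)))))))⟩
      simp only [e, e']
      push_cast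
      linarith
    | cons a l =>
      refine ⟨_, ?_, .seq (ex_uncons _ _ _ _ _ _) (.seq (ex_uncons _ _ _ _ _ _)
        (.seq (ex_move01 _ _ _ _ _) (.caseT (st_0 _ _ _) (.seq (ex_drop0 _ _ _ _ _)
          (.caseC (st_0 _ _ _) (ex_drop1 _ _ _ _ _))))))⟩
      simp only [e, e']
      push_cast
      linarith

/-! ### scans -/

omit [Enc α] [Enc β] [Enc δ] in
theorem scan_fst (f : α × δ → β × δ) (l : List α) (s : δ) :
    (scan f l s).1 = (scanIn f l s).map fun x => (f x).1 := by
  induction l generalizing s with
  | nil => rfl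
  | cons a l ih => simp [scan, scanIn, ih]

omit [Enc α] [Enc β] [Enc δ] in
theorem scanIn_fst (f : α × δ → β × δ) (l : List α) (s : δ) :
    (scanIn f l s).map Prod.fst = l := by
  induction l generalizing s with
  | nil => rfl
  | cons a l ih => simp [scanIn, ih]

omit [Enc α] [Enc β] [Enc δ] in
theorem length_scan (f : α × δ → β × δ) (l : List α) (s : δ) :
    (scan f l s).1.length = l.length := by
  induction l generalizing s with
  | nil => rfl
  | cons a l ih => simp [scan, ih]

/-- a scan by a closed subroutine, the state staying in place -/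
theorem cf_scan {ι : Type} {pre : World → ι → Prop} {σ : ι → ℝ} {l : ι → List α} {s : ι → δ}
    {f : α × δ → β × δ} {P : α × δ → Prop} {τ : α × δ → ℝ} (hf : Sub P f τ)
    (hP : ∀ w i, pre w i → ∀ x ∈ scanIn f (l i) (s i), P x)
    (hσ : Le pre (fun i => ((scanIn f (l i) (s i)).map τ).sum) σ)
    (hin : Le pre (fun i => (sz (l i) : ℝ)) σ)
    (hout : Le pre (fun i => (sz (scan f (l i) (s i)).1 : ℝ)) σ) :
    Cf pre (fun i => (l i, s i)) (fun i => scan f (l i) (s i)) σ (fun _ => 0) := by
  have hb : Cf (fun w (j : ι × (α × δ)) => pre w j.1 ∧ j.2 ∈ scanIn f (l j.1) (s j.1))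
      (fun j => j.2) (fun j => f j.2) (fun j => τ j.2) (fun _ => 0) :=
    Cf.reindex hf (fun j : ι × (α × δ) => j.2) (fun w j h => hP w j.1 h.1 _ h.2)
  have := Cf.scan (f := fun _ => f) (l := l) (s := s) hb hσ hin hout
  exact this.mono (fun _ _ h => h) Le.refl (fun w i _ => by simp)

theorem l0_scan {ι : Type} {pre : World → ι → Prop} {inp : ι → γ} {σ : ι → ℝ} {l : ι → List α}
    {s : ι → δ} {f : α × δ → β × δ} {P : α × δ → Prop} {τ : α × δ → ℝ} (hl : L0 pre inp σ l)
    (hs : L0 pre inp σ s) (hf : Sub P f τ)
    (hP : ∀ w i, pre w i → ∀ x ∈ scanIn f (l i) (s i), P x)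
    (hσ : Le pre (fun i => ((scanIn f (l i) (s i)).map τ).sum) σ)
    (hout : Le pre (fun i => (sz (scan f (l i) (s i)).1 : ℝ)) σ) :
    L0 pre inp σ (fun i => scan f (l i) (s i)) :=
  ⟨hl.1, (hl.pair hs).thenCf (cf_scan hf hP hσ hl.sz_le hout)⟩

theorem lin_fst : Lin (fun p : α × β => p.1) := by fun_prop
theorem lin_snd : Lin (fun p : α × β => p.2) := by fun_prop

theorem sz_nat_le (n : ℕ) : sz n ≤ 2 * n + 1 := by
  rw [sz_nat]
  have : n.size ≤ n := Nat.size_le.2 Nat.lt_two_pow_self
  omega

theorem sum_sz_flatten (L : List (List α)) : (L.map sz).sum + 1 = sz L.flatten + L.length := by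
  induction L with
  | nil => rfl
  | cons r L ih =>
    have := sz_append r L.flatten
    simp only [List.map_cons, List.sum_cons, List.flatten_cons, List.length_cons]
    omega

theorem sz_eq_flatten (L : List (List α)) : sz L = sz L.flatten + 2 * L.length := by
  have := sum_sz_flatten L
  rw [sz_list L]
  omega

theorem sz_take_le (n : ℕ) (l : List α) : sz (l.take n) ≤ sz l := by
  have h := sz_append (l.take n) (l.drop n)
  have := sz_pos (l.drop n)
  rw [List.take_append_drop] at h
  omega

theorem sum_sz_le (l : List α) : (l.map sz).sum ≤ sz l := by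
  rw [sz_list l]; omega

theorem cast_sum_map {ε : Type} (l : List ε) (g : ε → ℕ) :
    (l.map fun x => (g x : ℝ)).sum = (((l.map g).sum : ℕ) : ℝ) := by
  induction l with
  | nil => simp
  | cons a l ih => simp [ih]

/-! ### unary numbers -/

/-- double and add a bit -/
def dbl (p : Bool × List Unit) : Unit × List Unit :=
  ((), p.2 ++ p.2 ++ cond p.1 [()] [])

theorem lin_dbl : Lin dbl := by unfold dbl; fun_prop

theorem dbl_un (b : Bool) (k : ℕ) : (dbl (b, un k)).2 = un (2 * k + b.toNat) := by
  cases b <;> simp [dbl, un, two_mul, List.replicate_succ']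

theorem scan_dbl (l : List Bool) (k : ℕ) :
    (scan dbl l (un k)).2 = un (l.foldl (fun a b => 2 * a + b.toNat) k) ∧
      ((scanIn dbl l (un k)).map sz).sum + 2 * k ≤
        2 * (l.foldl (fun a b => 2 * a + b.toNat) k) + 3 * l.length := by
  induction l generalizing k with
  | nil => simp [scan, scanIn]
  | cons b l ih =>
    obtain ⟨h1, h2⟩ := ih (2 * k + b.toNat)
    simp only [scan, scanIn, dbl_un, List.foldl_cons, List.map_cons, List.sum_cons,
      List.length_cons, sz_pair, sz_bool, sz_un]
    exact ⟨h1, by omega⟩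

theorem foldl_bits (n : ℕ) : n.bits.reverse.foldl (fun a b => 2 * a + b.toNat) 0 = n := by
  rw [List.foldl_reverse]
  induction n using Nat.binaryRec' with
  | zero => simp
  | bit b n h ih =>
    rw [Nat.bits_append_bit _ _ h, List.foldr_cons, ih]
    cases b <;> simp [Nat.bit]

theorem lin_bits : Lin (fun n : ℕ => n.bits) := Lin.of_enc_eq fun _ => rfl

/-! ### the binary successor -/

/-- half adder -/
def inc (p : Bool × Bool) : Bool × Bool := (xor p.1 p.2, p.1 && p.2)

theorem scan_inc_false (l : List Bool) : scan inc l false = (l, false) := by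
  induction l with
  | nil => rfl
  | cons b l ih => simp [scan, inc, ih]

theorem scan_inc (n : ℕ) :
    (scan inc n.bits true).1 ++ cond (scan inc n.bits true).2 [true] [] = (n + 1).bits := by
  induction n using Nat.binaryRec' with
  | zero => simp [scan]
  | bit b n h ih =>
    rw [Nat.bits_append_bit _ _ h]
    cases b with
    | false =>
      have e : Nat.bit false n + 1 = Nat.bit true n := by simp [Nat.bit]
      rw [e, Nat.bits_append_bit _ _ (fun _ => rfl)]
      simp [scan, inc, scan_inc_false]
    | true =>
      have e : Nat.bit true n + 1 = Nat.bit false (n + 1) := by simp [Nat.bit]; omega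
      rw [e, Nat.bits_append_bit _ _ (fun h => by omega), ← ih]
      simp [scan, inc]

end Prims

open Prims

variable {α β γ : Type} [Enc α] [Enc β] [Enc γ]

theorem Lin.succ : Lin (fun n : ℕ => n + 1) := by
  have h0 : Lin inc := by unfold inc; fun_prop
  have h1 : Lin (fun n : ℕ => R326.scan inc n.bits true) :=
    Lin.comp (f := fun n : ℕ => (n.bits, true)) (Lin.scan h0) (Lin.pair lin_bits (Lin.const _))
  have h2 : Lin (fun n : ℕ =>
      (R326.scan inc n.bits true).1 ++ _root_.cond (R326.scan inc n.bits true).2 [true] []) :=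
    Lin.append (Lin.fst h1) (Lin.cond (Lin.snd h1) (Lin.const _) (Lin.const _))
  exact Cf.congr h2 (fun _ _ _ => rfl) (fun _ n _ => by rw [scan_inc]; rfl)

theorem sub_un : Sub (fun _ : ℕ => True) un (fun n => (n : ℝ) + 1) := by
  have hin : Le (fun _ (_ : ℕ) => True) (fun n : ℕ => (sz n : ℝ)) (fun n => (n : ℝ) + 1) :=
    Le.of_le_mul 2 (by norm_num) fun _ n _ => by
      have : (sz n : ℝ) ≤ ((2 * n + 1 : ℕ) : ℝ) := by exact_mod_cast sz_nat_le n
      push_cast at this; linarith
  have h0 := L0.input hin
  have hl := L0.lin (g := fun n : ℕ => n.bits.reverse) (Lin.reverse lin_bits) h0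
  have hlen : ∀ n : ℕ, n.bits.length ≤ n := fun n => by
    rw [Nat.size_eq_bits_len]; exact Nat.size_le.2 Nat.lt_two_pow_self
  have h1 := l0_scan hl (L0.const hin (un 0)) lin_dbl (fun _ _ _ _ _ => trivial)
    (Le.of_le_mul 5 (by norm_num) fun _ n _ => by
      have h := (scan_dbl n.bits.reverse 0).2
      rw [foldl_bits, List.length_reverse] at h
      have h' := hlen n
      rw [cast_sum_map]
      have : ((scanIn dbl n.bits.reverse (un 0)).map sz).sum ≤ 5 * (n + 1) := by omega
      exact_mod_cast this)
    (Le.of_le_mul 2 (by norm_num) fun _ n _ => by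
      have h := sz_list_le (l := (scan dbl n.bits.reverse (un 0)).1) (s := 1) (fun _ _ => le_rfl)
      rw [length_scan, List.length_reverse] at h
      have h' := hlen n
      have : sz (scan dbl n.bits.reverse (un 0)).1 ≤ 2 * (n + 1) := by omega
      exact_mod_cast this)
  refine L0.toSub ((L0.lin lin_snd h1).congr fun _ n _ => ?_)
  rw [(scan_dbl _ 0).1, foldl_bits]

/-- a computed number, small compared with the budget, can be written in unary -/
theorem L0.un {ι : Type} {pre : World → ι → Prop} {inp : ι → γ} {σ : ι → ℝ} {n : ι → ℕ}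
    (hn : L0 pre inp σ n) (h : Le pre (fun i => (n i : ℝ) + 1) σ) :
    L0 pre inp σ (fun i => un (n i)) :=
  L0.sub sub_un hn (fun _ _ _ => trivial) h

theorem sub_replicate : Sub (fun _ : ℕ × α => True) (fun p => List.replicate p.1 p.2)
    (fun p => ((p.1 : ℝ) + 1) * (sz p.2 + 1)) := by
  have hin : Le (fun _ (_ : ℕ × α) => True) (fun p : ℕ × α => (sz p : ℝ))
      (fun p => ((p.1 : ℝ) + 1) * (sz p.2 + 1)) :=
    Le.of_le_mul 2 (by norm_num) fun _ p _ => by
      obtain ⟨n, a⟩ := p
      have h := sz_nat_le n
      have : sz (n, a) ≤ 2 * ((n + 1) * (sz a + 1)) := by rw [sz_pair]; nlinarith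
      exact_mod_cast this
  have h0 := L0.input hin
  have hu := (L0.lin lin_fst h0).un (Le.of_le fun _ p _ => by
    have h1 : (0 : ℝ) ≤ sz p.2 := by positivity
    have h2 : (0 : ℝ) ≤ p.1 := by positivity
    nlinarith)
  have h1 := L0.map_ctx (g := fun q : α × Unit => q.1) hu (L0.lin lin_snd h0) lin_fst
    (Le.of_le fun _ p _ => by
      have h2 : (0 : ℝ) ≤ p.1 := by positivity
      simp only [un, List.length_replicate]
      nlinarith)
  refine L0.toSub (h1.congr fun _ p _ => ?_)
  simp [un]

namespace Prims

/-- output the counter and increment it -/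
def cnt (p : Unit × ℕ) : ℕ × ℕ := (p.2, p.2 + 1)

theorem scan_cnt (n k : ℕ) : (scan cnt (un n) k).1 = List.range' k n := by
  induction n generalizing k with
  | zero => rfl
  | succ n ih => simp only [un, List.replicate_succ, scan, cnt, List.range'_succ]; rw [ih]

theorem scanIn_cnt (n k : ℕ) : ∀ x ∈ scanIn cnt (un n) k, x.2 < k + n := by
  induction n generalizing k with
  | zero => simp [scanIn]
  | succ n ih =>
    intro x hx
    simp only [un, List.replicate_succ, scanIn, cnt, List.mem_cons] at hx
    rcases hx with rfl | hx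
    · simp
    · have := ih _ x hx; omega

end Prims

theorem sub_range' : Sub (fun _ : ℕ => True) List.range
    (fun n => ((n : ℝ) + 1) * ((sz n : ℝ) + 1)) := by
  have hin : Le (fun _ (_ : ℕ) => True) (fun n : ℕ => (sz n : ℝ))
      (fun n => ((n : ℝ) + 1) * ((sz n : ℝ) + 1)) :=
    Le.of_le fun _ n _ => by
      have h1 : (0 : ℝ) ≤ sz n := by positivity
      have h2 : (0 : ℝ) ≤ n := by positivity
      nlinarith
  have h0 := L0.input hin
  have hu := h0.un (Le.of_le fun _ n _ => by
    have h1 : (0 : ℝ) ≤ sz n := by positivity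
    have h2 : (0 : ℝ) ≤ n := by positivity
    nlinarith)
  have hc : Lin cnt := Lin.pair lin_snd (Lin.comp Lin.succ lin_snd)
  have h1 := l0_scan hu (L0.const hin (0 : ℕ)) hc (fun _ _ _ _ _ => trivial)
    (Le.of_le_mul 2 (by norm_num) fun _ n _ => by
      rw [cast_sum_map]
      have h := List.sum_le_card_nsmul ((scanIn cnt (un n) 0).map sz) (sz n + 2) (by
        intro y hy
        obtain ⟨⟨u, k⟩, hx, rfl⟩ := List.mem_map.1 hy
        have h1 := scanIn_cnt n 0 _ hx
        have h2 : sz k ≤ sz n := sz_nat_mono (by simpa using h1.le)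
        rw [sz_pair, sz_unit]; omega)
      have hl : (scanIn cnt (un n) 0).length = n := by
        have := congrArg List.length (scanIn_fst cnt (un n) 0)
        simpa using this
      rw [List.length_map, hl, smul_eq_mul] at h
      have : ((scanIn cnt (un n) 0).map sz).sum ≤ 2 * ((n + 1) * (sz n + 1)) := by nlinarith
      exact_mod_cast this)
    (Le.of_le fun _ n _ => by
      rw [scan_cnt]
      have h := sz_list_le (l := List.range' 0 n) (s := sz n) (fun k hk =>
        sz_nat_mono (by simp at hk; omega))
      rw [List.length_range'] at h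
      have : sz (List.range' 0 n) ≤ (n + 1) * (sz n + 1) := by nlinarith
      exact_mod_cast this)
  refine L0.toSub ((L0.lin lin_fst h1).congr fun _ n _ => ?_)
  rw [scan_cnt, List.range_eq_range']

theorem sub_range : Sub (fun _ : ℕ => True) List.range
    (fun n => ((n : ℝ) + 1) * ((sz n : ℝ) + 1) ^ 2) :=
  sub_range'.mono (fun _ h => h) ⟨1, by norm_num, fun n _ => by
    have h1 : (0 : ℝ) ≤ sz n := by positivity
    have h2 : (0 : ℝ) ≤ (n : ℝ) + 1 := by positivity
    rw [one_mul]
    exact mul_le_mul_of_nonneg_left (by nlinarith) h2⟩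

namespace Prims

theorem l0_unpair : L0 (fun _ (_ : ℕ × List α) => True) (fun p => p)
    (fun p => (sz p.2 : ℝ) + p.1) (fun p => (un p.1, p.2)) := by
  have hin : Le (fun _ (_ : ℕ × List α) => True) (fun p : ℕ × List α => (sz p : ℝ))
      (fun p => (sz p.2 : ℝ) + p.1) :=
    Le.of_le_mul 3 (by norm_num) fun _ p _ => by
      obtain ⟨n, l⟩ := p
      have h := sz_nat_le n
      have h' := sz_pos l
      have : sz (n, l) ≤ 3 * (sz l + n) := by rw [sz_pair]; omega
      exact_mod_cast this
  have h0 := L0.input hin
  exact ((L0.lin lin_fst h0).un (Le.of_le fun _ p _ => by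
    have h1 : (1 : ℝ) ≤ sz p.2 := by exact_mod_cast sz_pos p.2
    linarith)).pair (L0.lin lin_snd h0)

end Prims

theorem sub_take : Sub (fun _ : ℕ × List α => True) (fun p => p.2.take p.1)
    (fun p => (sz p.2 : ℝ) + p.1) := by
  have h : Lin (fun q : List Unit × List α => q.2.take q.1.length) := Lin.take lin_fst lin_snd
  exact L0.toSub ((L0.lin h l0_unpair).congr fun _ p _ => by simp [un])

theorem sub_drop : Sub (fun _ : ℕ × List α => True) (fun p => p.2.drop p.1)
    (fun p => (sz p.2 : ℝ) + p.1) := by
  have h : Lin (fun q : List Unit × List α => q.2.drop q.1.length) := Lin.drop lin_fst lin_snd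
  exact L0.toSub ((L0.lin h l0_unpair).congr fun _ p _ => by simp [un])

theorem sub_rotate : Sub (fun p : ℕ × List α => p.1 ≤ p.2.length) (fun p => p.2.rotate p.1)
    (fun p => (sz p.2 : ℝ)) := by
  have h : Lin (fun q : List Unit × List α => q.2.drop q.1.length ++ q.2.take q.1.length) :=
    Lin.append (Lin.drop lin_fst lin_snd) (Lin.take lin_fst lin_snd)
  have h1 : L0 (fun _ (p : ℕ × List α) => p.1 ≤ p.2.length) (fun p => p)
      (fun p => (sz p.2 : ℝ)) _ :=
    (L0.lin h l0_unpair).mono (fun _ _ _ => trivial) (Le.of_le_mul 2 (by norm_num) fun _ p hp => by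
      have : sz p.2 + p.1 ≤ 2 * sz p.2 := by have := length_le_sz p.2; omega
      exact_mod_cast this)
  refine L0.toSub (h1.congr fun _ p hp => ?_)
  simp only [un, List.length_replicate]
  exact List.rotate_eq_drop_append_take hp

namespace Prims

/-- split off as many items as the first component is long, in place -/
def split (p : List Unit × List α) : List α × List α :=
  (p.2.take p.1.length, p.2.drop p.1.length)

omit [Enc α] in
theorem scan_pop (u : List Unit) (l : List α) :
    (scan pop u l).1.flatten = l.take u.length ∧ (scan pop u l).2 = l.drop u.length := by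
  induction u generalizing l with
  | nil => simp [scan]
  | cons a u ih =>
    obtain ⟨h1, h2⟩ := ih (l.drop 1)
    cases l <;> simp_all [scan, pop]

theorem sub_split : Sub (fun _ : List Unit × List α => True) split
    (fun p => (sz p.1 : ℝ) + sz (split p).1) := by
  have hout : ∀ p : List Unit × List α,
      sz (scan pop p.1 p.2).1 ≤ 2 * (sz p.1 + sz (split p).1) := fun p => by
    have h := sz_eq_flatten (scan pop p.1 p.2).1
    rw [(scan_pop _ _).1, length_scan] at h
    have h' := length_le_sz p.1
    simp only [split]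
    omega
  have hout' : Le (fun _ (_ : List Unit × List α) => True)
      (fun p => (sz (scan pop p.1 p.2).1 : ℝ)) (fun p => (sz p.1 : ℝ) + sz (split p).1) :=
    Le.of_le_mul 2 (by norm_num) fun _ p _ => by exact_mod_cast hout p
  have h1 := cf_scan (pre := fun _ (_ : List Unit × List α) => True) (l := fun p => p.1)
    (s := fun p => p.2) (σ := fun p => (sz p.1 : ℝ) + sz (split p).1) sub_pop
    (fun _ _ _ _ _ => trivial)
    (Le.of_le_mul 2 (by norm_num) fun _ p _ => by
      rw [cast_sum_map]
      have h := sum_sz_le (scan pop p.1 p.2).1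
      rw [scan_fst, List.map_map] at h
      have h' := hout p
      rw [scan_fst] at h'
      exact_mod_cast h.trans h')
    (Le.of_le fun _ p _ => by
      have : (0 : ℝ) ≤ sz (split p).1 := by positivity
      linarith)
    hout'
  have h1' := hout'.const_of_sz 1
  have h2 := Cf.first (fun p : List Unit × List α => (scan pop p.1 p.2).2) h1'
    (Cf.lin (Lin.flatten Lin.id) (Cf.id (inp := fun p : List Unit × List α =>
      (scan pop p.1 p.2).1) h1') hout')
  have h3 := (h1.comp h2).mono (fun _ _ h => h) Le.refl (c' := fun _ => 0) (fun _ _ _ => by simp)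
  exact h3.congr (fun _ _ _ => rfl) (fun _ p _ => by
    simp only [split, (scan_pop _ _).1, (scan_pop _ _).2])

omit [Enc α] in
theorem blocks_succ (c k : ℕ) (l : List α) :
    blocks (c + 1) k l = l.take k :: blocks c k (l.drop k) := by
  simp only [blocks, List.range_succ_eq_map, List.map_cons, List.map_map, zero_mul, List.drop_zero]
  congr 1
  refine List.map_congr_left fun j _ => ?_
  simp only [Function.comp, List.drop_drop]
  congr 2
  rw [Nat.succ_mul]; omega

omit [Enc α] in
theorem scan_split (c k : ℕ) (l : List α) :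
    (scan split (List.replicate c (un k)) l).1 = blocks c k l := by
  induction c generalizing l with
  | zero => rfl
  | succ c ih =>
    rw [blocks_succ, List.replicate_succ]
    simp only [scan, split, un, List.length_replicate]
    rw [ih]

omit [Enc α] in
theorem flatten_blocks' (c k : ℕ) (l : List α) : (blocks c k l).flatten = l.take (c * k) := by
  induction c generalizing l with
  | zero => simp [blocks]
  | succ c ih =>
    rw [blocks_succ, List.flatten_cons, ih, Nat.succ_mul, Nat.add_comm, List.take_add]

omit [Enc α] in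
theorem scan_exStep (z : α) (m : List Bool) (l : List α) :
    (scan exStep (m.map fun b => (z, b)) l).1 = expand z m l := by
  induction m generalizing l with
  | nil => rfl
  | cons b m ih =>
    cases b with
    | false => simp [scan, exStep, expand, ih]
    | true => cases l <;> simp [scan, exStep, expand, ih]

theorem sz_expand (z : α) (m : List Bool) (l : List α) :
    sz (expand z m l) ≤ sz l + m.length * (sz z + 1) := by
  induction m generalizing l with
  | nil => simpa [expand] using sz_pos l
  | cons b m ih =>
    rw [List.length_cons, Nat.succ_mul]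
    cases b with
    | false => have := ih l; simp only [expand, sz_cons]; omega
    | true =>
      cases l with
      | nil => have := ih []; simp only [expand, sz_cons]; omega
      | cons a l => have := ih l; simp only [expand, sz_cons]; omega

end Prims

omit [Enc α] in
theorem length_blocks (c k : ℕ) (l : List α) : (blocks c k l).length = c := by simp [blocks]

theorem sz_blocks (c k : ℕ) (l : List α) : sz (blocks c k l) ≤ sz l + 2 * c + 1 := by
  have h := sz_eq_flatten (blocks c k l)
  rw [flatten_blocks', length_blocks] at h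
  have := sz_take_le (c * k) l
  omega

theorem sub_blocks : Sub (fun _ : ℕ × ℕ × List α => True) (fun p => blocks p.1 p.2.1 p.2.2)
    (fun p => (sz p.2.2 : ℝ) + (p.1 + 1) * (p.2.1 + 1)) := by
  have hin : Le (fun _ (_ : ℕ × ℕ × List α) => True) (fun p : ℕ × ℕ × List α => (sz p : ℝ))
      (fun p => (sz p.2.2 : ℝ) + (p.1 + 1) * (p.2.1 + 1)) :=
    Le.of_le_mul 4 (by norm_num) fun _ p _ => by
      obtain ⟨c, k, l⟩ := p
      have h := sz_nat_le c
      have h' := sz_nat_le k
      have : sz (c, k, l) ≤ 4 * (sz l + (c + 1) * (k + 1)) := by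
        rw [sz_pair, sz_pair]; nlinarith [Nat.zero_le (c * k), Nat.zero_le (sz l)]
      exact_mod_cast this
  have h0 := L0.input hin
  have hu := (L0.lin (g := fun p : ℕ × ℕ × List α => p.2.1) (by fun_prop) h0).un
    (Le.of_le fun _ p _ => by
      have h1 : (0 : ℝ) ≤ sz p.2.2 := by positivity
      have h2 : (0 : ℝ) ≤ p.1 := by positivity
      have h3 : (0 : ℝ) ≤ p.2.1 := by positivity
      nlinarith)
  have hr := L0.sub sub_replicate ((L0.lin lin_fst h0).pair hu) (fun _ _ _ => trivial)
    (Le.of_le_mul 2 (by norm_num) fun _ p _ => by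
      have h1 : (0 : ℝ) ≤ sz p.2.2 := by positivity
      simp only [sz_un]
      push_cast
      nlinarith)
  have h1 := l0_scan hr (L0.lin (g := fun p : ℕ × ℕ × List α => p.2.2) (by fun_prop) h0) sub_split
    (fun _ _ _ _ _ => trivial)
    (Le.of_le_mul 4 (by norm_num) fun _ p _ => by
      obtain ⟨c, k, l⟩ := p
      simp only
      rw [List.sum_map_add, cast_sum_map, cast_sum_map]
      have e1 : (scanIn split (List.replicate c (un k)) l).map (fun x => sz x.1) =
          List.replicate c (2 * k + 1) := by
        have := congrArg (List.map sz) (scanIn_fst split (List.replicate c (un k)) l)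
        rw [List.map_map, List.map_replicate, sz_un] at this
        exact this
      have e2 : (scanIn split (List.replicate c (un k)) l).map (fun x => sz (split x).1) =
          (blocks c k l).map sz := by
        rw [← scan_split, scan_fst, List.map_map]; rfl
      rw [e1, e2, List.sum_replicate, smul_eq_mul]
      have h1 := (sum_sz_le (blocks c k l)).trans (sz_blocks c k l)
      have : c * (2 * k + 1) + ((blocks c k l).map sz).sum ≤ 4 * (sz l + (c + 1) * (k + 1)) := by
        nlinarith [Nat.zero_le (c * k), Nat.zero_le (sz l)]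
      exact_mod_cast this)
    (Le.of_le_mul 2 (by norm_num) fun _ p _ => by
      obtain ⟨c, k, l⟩ := p
      simp only
      rw [scan_split]
      have h1 := sz_blocks c k l
      have : sz (blocks c k l) ≤ 2 * (sz l + (c + 1) * (k + 1)) := by
        nlinarith [Nat.zero_le (c * k), Nat.zero_le (sz l)]
      exact_mod_cast this)
  refine L0.toSub ((L0.lin lin_fst h1).congr fun _ p _ => ?_)
  simp only [scan_split]

theorem sub_expand : Sub (fun _ : α × List Bool × List α => True)
    (fun p => expand p.1 p.2.1 p.2.2)
    (fun p => (sz p.2.2 : ℝ) + (p.2.1.length + 1) * (sz p.1 + 1)) := by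
  have hin : Le (fun _ (_ : α × List Bool × List α) => True)
      (fun p : α × List Bool × List α => (sz p : ℝ))
      (fun p => (sz p.2.2 : ℝ) + (p.2.1.length + 1) * (sz p.1 + 1)) :=
    Le.of_le_mul 3 (by norm_num) fun _ p _ => by
      obtain ⟨z, m, l⟩ := p
      have : sz (z, m, l) ≤ 3 * (sz l + (m.length + 1) * (sz z + 1)) := by
        rw [sz_pair, sz_pair, sz_bits]
        nlinarith [Nat.zero_le (m.length * sz z), Nat.zero_le (sz l), Nat.zero_le (sz z)]
      exact_mod_cast this
  have h0 := L0.input hin
  have hm := L0.map_ctx (g := fun q : α × Bool => q)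
    (L0.lin (g := fun p : α × List Bool × List α => p.2.1) (by fun_prop) h0)
    (L0.lin lin_fst h0) Lin.id
    (Le.of_le fun _ p _ => by
      have h1 : (0 : ℝ) ≤ sz p.2.2 := by positivity
      have h2 : (0 : ℝ) ≤ p.2.1.length := by positivity
      nlinarith)
  have h1 := l0_scan hm
    (L0.lin (g := fun p : α × List Bool × List α => p.2.2) (by fun_prop) h0) sub_exStep
    (fun _ _ _ _ _ => trivial)
    (Le.of_le fun _ p _ => by
      obtain ⟨z, m, l⟩ := p
      simp only
      rw [cast_sum_map]
      have e1 : (scanIn exStep (m.map fun b => (z, b)) l).map (fun x => sz x.1.1) =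
          List.replicate m.length (sz z) := by
        have := congrArg (List.map fun y : α × Bool => sz y.1)
          (scanIn_fst exStep (m.map fun b => (z, b)) l)
        rw [List.map_map, List.map_map] at this
        rw [← List.map_const']
        exact this
      rw [e1, List.sum_replicate, smul_eq_mul]
      have : m.length * sz z ≤ sz l + (m.length + 1) * (sz z + 1) := by
        nlinarith [Nat.zero_le (sz l), Nat.zero_le (sz z), Nat.zero_le m.length]
      exact_mod_cast this)
    (Le.of_le fun _ p _ => by
      obtain ⟨z, m, l⟩ := p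
      simp only
      rw [scan_exStep]
      have h1 := sz_expand z m l
      have : sz (expand z m l) ≤ sz l + (m.length + 1) * (sz z + 1) := by
        nlinarith [Nat.zero_le (sz z)]
      exact_mod_cast this)
  refine L0.toSub ((L0.lin lin_fst h1).congr fun _ p _ => ?_)
  simp only [scan_exStep]

omit [Enc α] in
theorem flatten_blocks {c k : ℕ} {l : List α} (h : l.length = c * k) :
    (blocks c k l).flatten = l := by
  rw [flatten_blocks', ← h, List.take_length]

omit [Enc α] in
theorem blocks_flatten {k : ℕ} {L : List (List α)} (h : ∀ r ∈ L, r.length = k) :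
    blocks L.length k L.flatten = L := by
  induction L with
  | nil => rfl
  | cons r L ih =>
    have hr : r.length = k := h r (by simp)
    rw [List.length_cons, blocks_succ, List.flatten_cons, List.take_left' hr, List.drop_left' hr,
      ih fun r' hr' => h r' (by simp [hr'])]

omit [Enc α] in
theorem length_of_mem_blocks {c k : ℕ} {l r : List α} (h : c * k ≤ l.length)
    (hr : r ∈ blocks c k l) : r.length = k := by
  obtain ⟨j, hj, rfl⟩ := List.mem_map.1 hr
  have hj' : j + 1 ≤ c := List.mem_range.1 hj
  have : (j + 1) * k ≤ c * k := Nat.mul_le_mul_right _ hj'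
  rw [Nat.succ_mul] at this
  rw [List.length_take, List.length_drop]
  omega

end Crest.Agent.R326
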