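import Crest.Agent.R326.ArrDefs
import Crest.Agent.R326.Ex
import Crest.Agent.R326.Poly
import Crest.Agent.R326.Prims

/-! Row 326: list identities behind the flat-array operations. -/

set_option autoImplicit false

namespace Crest.Agent.R326

namespace ArrAux

theorem flatten_range {α : Type} (R K : ℕ) (f : ℕ → ℕ → α) :
    ((List.range R).map fun r => (List.range K).map (f r)).flatten =
      (List.range (R * K)).map fun j => f (j / K) (j % K) := by
  induction R with
  | zero => simp
  | succ R ih =>
    rw [List.range_succ, List.map_append, List.flatten_append, ih, Nat.succ_mul, List.range_add,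
      List.map_append, List.map_map]
    congr 1
    simp only [List.map_cons, List.map_nil, List.flatten_cons, List.flatten_nil, List.append_nil]
    refine List.map_congr_left fun s hs => ?_
    have hs' : s < K := List.mem_range.1 hs
    have hK : 0 < K := by omega
    simp only [Function.comp]
    rw [Nat.mul_comm R K, Nat.mul_add_div hK, Nat.mul_add_mod, Nat.div_eq_of_lt hs',
      Nat.mod_eq_of_lt hs', Nat.add_zero]

theorem flatten_range' {α : Type} (R K : ℕ) (f : ℕ → α) :
    (List.range (R * K)).map f =
      ((List.range R).map fun r => (List.range K).map fun s => f (r * K + s)).flatten := by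
  rw [flatten_range R K fun r s => f (r * K + s)]
  refine List.map_congr_left fun j _ => ?_
  rw [Nat.div_add_mod']

theorem take_drop_range {α : Type} {n m k : ℕ} (f : ℕ → α) (h : m + k ≤ n) :
    (((List.range n).map f).drop m).take k = (List.range k).map fun s => f (m + s) := by
  refine List.ext_getElem (by simp; omega) fun i h1 h2 => ?_
  simp

theorem blocks_range {α : Type} {c k n : ℕ} (f : ℕ → α) (h : c * k ≤ n) :
    blocks c k ((List.range n).map f) =
      (List.range c).map fun j => (List.range k).map fun s => f (j * k + s) := by
  refine List.map_congr_left fun j hj => take_drop_range f ?_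
  have hj' : j + 1 ≤ c := List.mem_range.1 hj
  have : (j + 1) * k ≤ c * k := Nat.mul_le_mul_right _ hj'
  rw [Nat.succ_mul] at this
  omega

theorem range_bat {n : ℕ} {a : List Bool} (h : a.length = n) :
    (List.range n).map (bat a) = a := by
  refine List.ext_getElem (by simp [h]) fun i h1 h2 => ?_
  simp [bat, List.getD_eq_getElem?_getD, h2]

/-- rows of an array -/
theorem blocks_arr {c k : ℕ} {a : List Bool} (h : a.length = c * k) :
    blocks c k a = (List.range c).map fun j => bmk k fun s => bat a (j * k + s) := by
  conv_lhs => rw [← range_bat h]
  exact blocks_range _ le_rfl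

/-- the cell `(r, x)` of an array of shape `[R][N][L]` -/
def cell (N L : ℕ) (a : List Bool) (r x : ℕ) : List Bool := bmk L fun l => bat a ((r * N + x) * L + l)

/-- rows of cells -/
def view (R N L : ℕ) (a : List Bool) : List (List (List Bool)) := blocks R N (blocks (R * N) L a)

theorem view_eq {R N L : ℕ} {a : List Bool} (h : a.length = R * N * L) :
    view R N L a = (List.range R).map fun r => (List.range N).map (cell N L a r) := by
  rw [view, blocks_arr h, blocks_range _ le_rfl]
  rfl

theorem axA_eq (R N L : ℕ) (g : ℕ → ℕ) (a : List Bool) :
    axA R N L g a = ((List.range R).map fun r =>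
      ((List.range N).map fun y => cell N L a r (g y)).flatten).flatten := by
  have e : ∀ r, ((List.range N).map fun y => cell N L a r (g y)).flatten =
      (List.range (N * L)).map fun j => bat a ((r * N + g (j / L)) * L + j % L) := fun r =>
    flatten_range N L fun y l => bat a ((r * N + g y) * L + l)
  simp only [e]
  rw [flatten_range R (N * L) fun r j => bat a ((r * N + g (j / L)) * L + j % L), axA, bmk,
    Nat.mul_assoc]
  refine List.map_congr_left fun j _ => ?_
  rw [Nat.mod_mul_left_div_self, Nat.mod_mul_left_mod]

/-! ### negation -/

def negR (row : List (List Bool)) : List Bool := row.headD [] ++ row.tail.reverse.flatten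

theorem lin_negR : Lin negR := by unfold negR; fun_prop

theorem negR_eq {N : ℕ} (hN : 0 < N) (c : ℕ → List Bool) :
    negR ((List.range N).map c) = ((List.range N).map fun y => c ((N - y) % N)).flatten := by
  obtain ⟨M, rfl⟩ : ∃ M, N = M + 1 := ⟨N - 1, by omega⟩
  rw [List.range_succ_eq_map, List.map_cons, List.map_cons, List.flatten_cons, negR, List.headD_cons,
    List.tail_cons, Nat.sub_zero, Nat.mod_self]
  congr 2
  refine List.ext_getElem (by simp) fun i h1 h2 => ?_
  have hi : i < M := by simpa using h1
  simp only [List.getElem_reverse, List.getElem_map, List.getElem_range, List.length_map,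
    List.length_range]
  rw [Nat.mod_eq_of_lt (by omega)]
  congr 1
  omega

/-! ### multiplication by a constant -/

def mark (c : ℕ) : List Bool := (List.range c).map fun s => decide (s = 0)

def scaleR (c : ℕ) (row : List (List Bool)) : List Bool :=
  (List.zipWith (fun x b => cond b x []) (List.replicate c row).flatten
    (row.map fun _ => mark c).flatten).flatten

theorem lin_copies {α : Type} [Enc α] (c : ℕ) :
    Lin (fun row : List α => (List.replicate c row).flatten) := by
  induction c with
  | zero => simpa using Lin.const (α := List α) ([] : List α)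
  | succ c ih =>
    simp only [List.replicate_succ, List.flatten_cons]
    exact Lin.append Lin.id ih

theorem lin_scaleR (c : ℕ) : Lin (scaleR c) := by
  unfold scaleR
  refine Lin.flatten (Lin.zipWith ?_ (lin_copies c) (Lin.flatten (Lin.map' (Lin.const _))))
  exact Lin.cond (Lin.snd Lin.id) (Lin.fst Lin.id) (Lin.const _)

theorem flatten_mark {c : ℕ} (hc : 0 < c) (f : ℕ → List Bool) :
    ((List.range c).map fun s => cond (decide (s = 0)) (f s) []).flatten = f 0 := by
  obtain ⟨d, rfl⟩ : ∃ d, c = d + 1 := ⟨c - 1, by omega⟩
  rw [List.range_succ_eq_map, List.map_cons, List.flatten_cons, List.map_map]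
  simp [Function.comp_def]

theorem scaleR_eq {c : ℕ} (hc : 0 < c) (N : ℕ) (f : ℕ → List Bool) :
    scaleR c ((List.range N).map f) = ((List.range N).map fun y => f (c * y % N)).flatten := by
  have e1 : (List.replicate c ((List.range N).map f)).flatten =
      (List.range (N * c)).map fun j => f (j % N) := by
    rw [Nat.mul_comm N c, ← flatten_range c N fun _ s => f s]
    simp
  have e2 : (((List.range N).map f).map fun _ => mark c).flatten =
      (List.range (N * c)).map fun j => decide (j % c = 0) := by
    rw [← flatten_range N c fun _ s => decide (s = 0), List.map_map]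
    rfl
  rw [scaleR, e1, e2, List.zipWith_map, List.zipWith_self, flatten_range', List.flatten_flatten,
    List.map_map]
  congr 1
  refine List.map_congr_left fun y _ => ?_
  simp only [Function.comp]
  rw [← Nat.mul_comm y c]
  refine Eq.trans ?_ (flatten_mark hc fun s => f ((y * c + s) % N))
  congr 1
  refine List.map_congr_left fun s hs => ?_
  have hs' : s < c := List.mem_range.1 hs
  rw [Nat.mul_add_mod_self_right, Nat.mod_eq_of_lt hs']

/-! ### division by a constant -/

/-- cut into `t` pieces as long as `u` and concatenate them entrywise -/
def merge : ℕ → List (List Bool) → List (List Bool) → List (List Bool)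
  | 0, u, _ => u.map fun _ => []
  | t + 1, u, E => List.zipWith (· ++ ·) (E.take u.length) (merge t u (E.drop u.length))

theorem lin_merge (t : ℕ) : Lin (fun p : List (List Bool) × List (List Bool) => merge t p.1 p.2) := by
  induction t with
  | zero => exact Lin.comp (Lin.map' (Lin.const _)) (Lin.fst Lin.id)
  | succ t ih =>
    simp only [merge]
    refine Lin.zipWith (Lin.append (Lin.fst Lin.id) (Lin.snd Lin.id))
      (Lin.take (Lin.fst Lin.id) (Lin.snd Lin.id)) ?_
    exact Lin.comp (f := fun p : List (List Bool) × List (List Bool) => (p.1, p.2.drop p.1.length))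
      ih (Lin.pair (Lin.fst Lin.id) (Lin.drop (Lin.fst Lin.id) (Lin.snd Lin.id)))

theorem merge_eq (t : ℕ) {N : ℕ} {u : List (List Bool)} (hu : u.length = N) (e : ℕ → List Bool) :
    merge t u ((List.range (t * N)).map e) =
      (List.range N).map fun y => ((List.range t).map fun s => e (s * N + y)).flatten := by
  induction t generalizing e with
  | zero =>
    refine List.ext_getElem (by simp [merge, hu]) fun i h1 h2 => ?_
    simp [merge]
  | succ t ih =>
    have e1 : ((List.range ((t + 1) * N)).map e).take N = (List.range N).map e := by
      have := take_drop_range (n := (t + 1) * N) (m := 0) (k := N) e (by rw [Nat.succ_mul]; omega)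
      simpa using this
    have e2 : ((List.range ((t + 1) * N)).map e).drop N =
        (List.range (t * N)).map fun j => e (N + j) := by
      refine List.ext_getElem (by simp [Nat.succ_mul]) fun i h1 h2 => ?_
      simp
    rw [merge, hu, e1, e2, ih, List.zipWith_map, List.zipWith_self]
    refine List.map_congr_left fun y _ => ?_
    rw [List.range_succ_eq_map, List.map_cons, List.flatten_cons, List.map_map]
    simp only [Nat.zero_mul, Nat.zero_add]
    congr 2
    refine List.map_congr_left fun s _ => ?_
    simp only [Function.comp, Nat.succ_mul]
    congr 1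
    omega

def unscaleR (c : ℕ) (row : List (List Bool)) : List Bool :=
  (merge c row (row.map fun x => (mark c).map fun b => cond b x []).flatten).flatten

theorem lin_spread (m : List Bool) : Lin (fun x : List Bool => m.map fun b => cond b x []) := by
  induction m with
  | nil => simpa using Lin.const (α := List Bool) ([] : List (List Bool))
  | cons b m ih =>
    simp only [List.map_cons]
    refine Lin.cons ?_ ih
    cases b
    · exact Lin.const _
    · exact Lin.id

theorem lin_unscaleR (c : ℕ) : Lin (unscaleR c) := by
  unfold unscaleR
  refine Lin.flatten ?_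
  exact Lin.comp (f := fun row : List (List Bool) =>
    (row, (row.map fun x => (mark c).map fun b => cond b x []).flatten)) (lin_merge c)
    (Lin.pair Lin.id (Lin.flatten (Lin.map' (lin_spread _))))

theorem flatten_single {c s0 : ℕ} (h0 : s0 < c) (f : ℕ → List Bool)
    (h : ∀ s < c, s ≠ s0 → f s = []) : ((List.range c).map f).flatten = f s0 := by
  induction c with
  | zero => omega
  | succ c ih =>
    rw [List.range_succ, List.map_append, List.flatten_append]
    simp only [List.map_cons, List.map_nil, List.flatten_cons, List.flatten_nil, List.append_nil]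
    by_cases hs : s0 = c
    · subst hs
      have : ((List.range s0).map f).flatten = [] := by
        rw [List.flatten_eq_nil_iff]
        intro l hl
        obtain ⟨s, hs, rfl⟩ := List.mem_map.1 hl
        have := List.mem_range.1 hs
        exact h s (by omega) (by omega)
      rw [this, List.nil_append]
    · rw [ih (by omega) fun s hs' hne => h s (by omega) hne, h c (by omega) (Ne.symm hs),
        List.append_nil]

theorem unscaleR_eq {c N : ℕ} (hc : 0 < c) (hN : 0 < N) (hco : Nat.Coprime c N)
    (f : ℕ → List Bool) :
    unscaleR c ((List.range N).map f) =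
      ((List.range N).map fun y : ℕ => f (((c : ZMod N)⁻¹ * (y : ZMod N)).val)).flatten := by
  have e1 : (((List.range N).map f).map fun x => (mark c).map fun b => cond b x []).flatten =
      (List.range (c * N)).map fun j => cond (decide (j % c = 0)) (f (j / c)) [] := by
    rw [Nat.mul_comm c N, ← flatten_range N c fun y s => cond (decide (s = 0)) (f y) [],
      List.map_map]
    congr 1
    refine List.map_congr_left fun y _ => ?_
    simp [mark, Function.comp_def]
  rw [unscaleR, e1, merge_eq c (by simp)]
  congr 1
  refine List.map_congr_left fun y hy => ?_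
  have hy' : y < N := List.mem_range.1 hy
  haveI : NeZero N := ⟨hN.ne'⟩
  set i := ((c : ZMod N)⁻¹ * (y : ZMod N)).val with hi
  have hiN : i < N := ZMod.val_lt _
  have hmod : c * i % N = y := by
    have h1 : ((c * i : ℕ) : ZMod N) = (y : ZMod N) := by
      rw [Nat.cast_mul, hi, ZMod.natCast_zmod_val, ← mul_assoc, ZMod.coe_mul_inv_eq_one c hco,
        one_mul]
    have := (ZMod.natCast_eq_natCast_iff' _ _ _).1 h1
    rwa [Nat.mod_eq_of_lt hy'] at this
  have hs0 : c * i / N < c := by
    rw [Nat.div_lt_iff_lt_mul hN]
    exact Nat.mul_lt_mul_of_pos_left hiN hc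
  have hdec : c * i / N * N + y = c * i := by rw [← hmod]; exact Nat.div_add_mod' _ _
  rw [flatten_single hs0]
  · rw [hdec, Nat.mul_mod_right, Nat.mul_div_cancel_left _ hc]
    rfl
  · intro s hs hne
    have : ¬ (s * N + y) % c = 0 := by
      intro h0
      apply hne
      have h1 : s * N + y ≡ c * i / N * N + y [MOD c] := by
        rw [hdec, Nat.ModEq, h0, Nat.mul_mod_right]
      have h2 : s ≡ c * i / N [MOD c] :=
        Nat.ModEq.cancel_right_of_coprime hco (Nat.ModEq.add_right_cancel' y h1)
      exact Nat.ModEq.eq_of_lt_of_lt h2 hs hs0
    simp [this]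

/-! ### rotation and padding of a row -/

theorem rotate_row {N L : ℕ} (hL : 0 < L) (F : ℕ) (f : ℕ → Bool) :
    (bmk (N * L) f).rotate (F % N * L) =
      bmk (N * L) fun j => f ((j / L + F) % N * L + j % L) := by
  refine List.ext_getElem (by simp [bmk]) fun i h1 h2 => ?_
  have hi : i < N * L := by simpa [bmk] using h2
  simp only [bmk, List.getElem_rotate, List.getElem_map, List.getElem_range, List.length_map,
    List.length_range]
  congr 1
  have e : i + F % N * L = (i / L + F % N) * L + i % L := by
    rw [Nat.add_mul]
    have := Nat.div_add_mod' i L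
    omega
  rw [e, Nat.mul_comm N L, Nat.mod_mul, Nat.mul_add_mod_self_right, Nat.mod_mod,
    Nat.mul_comm (i / L + F % N) L, Nat.mul_add_div hL, Nat.div_eq_of_lt (Nat.mod_lt _ hL),
    Nat.add_zero, Nat.add_mod_mod, Nat.mul_comm, Nat.add_comm]

theorem pad_row (K K' : ℕ) (f : ℕ → Bool) :
    (bmk K f ++ List.replicate K' false).take K' =
      bmk K' fun j => if j < K then f j else false := by
  refine List.ext_getElem (by simp [bmk]) fun i h1 h2 => ?_
  simp only [bmk, List.getElem_take, List.getElem_append, List.getElem_map, List.getElem_range,
    List.length_map, List.length_range, List.getElem_replicate]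
  split_ifs <;> rfl

end ArrAux

end Crest.Agent.R326
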