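import Crest.Agent.R326.ArrDefs
import Crest.Agent.R326.Ex
import Crest.Agent.R326.Poly
import Crest.Agent.R326.ArrAux

/-! Row 326: linear-time operations on flat arrays, part 1. -/

set_option autoImplicit false

namespace Crest.Agent.R326

@[simp] theorem length_bmk (n : ℕ) (f : ℕ → Bool) : (bmk n f).length = n := by
  simp [bmk]
theorem bat_bmk {n j : ℕ} (f : ℕ → Bool) (h : j < n) : bat (bmk n f) j = f j := by
  simp [bat, bmk, List.getD_eq_getElem?_getD, h]
theorem bmk_bat {n : ℕ} {a : List Bool} (h : a.length = n) : bmk n (bat a) = a :=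
  ArrAux.range_bat h
theorem bmk_congr {n : ℕ} {f g : ℕ → Bool} (h : ∀ j < n, f j = g j) : bmk n f = bmk n g :=
  List.map_congr_left fun j hj => h j (List.mem_range.1 hj)

namespace ArrAux

theorem le_prod3 {R N L : ℕ} (hR : 0 < R) (hN : 0 < N) (hL : 0 < L) :
    R ≤ R * N * L ∧ N ≤ R * N * L ∧ L ≤ R * N * L ∧ R * N ≤ R * N * L ∧ N * L ≤ R * N * L ∧
      1 ≤ R * N * L := by
  have h1 : R ≤ R * N := Nat.le_mul_of_pos_right _ hN
  have h2 : N ≤ R * N := Nat.le_mul_of_pos_left _ hR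
  have h3 : R * N ≤ R * N * L := Nat.le_mul_of_pos_right _ hL
  have h4 : L ≤ R * N * L := Nat.le_mul_of_pos_left _ (by omega)
  have h5 : N * L ≤ R * N * L := by rw [Nat.mul_assoc]; exact Nat.le_mul_of_pos_left _ hR
  omega

/-- the product of two computed numbers below `n` costs `O(Ex n)` -/
theorem l0_mul {ι γ : Type} [Enc γ] {pre : World → ι → Prop} {inp : ι → γ} {σ : ι → ℝ}
    {f g : ι → ℕ} (hf : L0 pre inp σ f) (hg : L0 pre inp σ g) (n : ι → ℕ)
    (hn : ∀ w i, pre w i → f i ≤ n i ∧ g i ≤ n i)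
    (hσ : Le pre (fun i => (Ex (n i) : ℝ)) σ) : L0 pre inp σ (fun i => f i * g i) := by
  have hp : Poly (fun p : ℕ × ℕ => p.1 * p.2) := by fun_prop
  refine L0.poly hp (hf.pair hg) fun e => ?_
  obtain ⟨K, hK⟩ := poly_lg_le_Ex 4 e 1
  refine Le.trans (Le.of_le_mul K (Nat.cast_nonneg _) fun w i hi => ?_) hσ
  obtain ⟨h1, h2⟩ := hn w i hi
  have h3 := sz_nat_le_lg h1
  have h4 := sz_nat_le_lg h2
  have h5 : sz (f i, g i) + 1 ≤ 4 * lg (n i) ^ 1 + 4 := by rw [sz_pair, pow_one]; omega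
  have h6 : (sz (f i, g i) + 1) ^ e ≤ K * Ex (n i) := (Nat.pow_le_pow_left h5 e).trans (hK _)
  exact_mod_cast h6

end ArrAux

/-- rotation of the rows by amounts computed in polynomial time from a small parameter and the
row number; input `(P, R, N, L, a)` -/
theorem sub_rotA {π : Type} [Enc π] {g : π × ℕ → ℕ} (hg : Poly g) (c e : ℕ) :
    Sub (fun x : π × ℕ × ℕ × ℕ × List Bool => 0 < x.2.1 ∧ 0 < x.2.2.1 ∧ 0 < x.2.2.2.1 ∧
        x.2.2.2.2.length = x.2.1 * x.2.2.1 * x.2.2.2.1 ∧ sz x.1 ≤ c * lg x.2.2.2.2.length ^ e)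
      (fun x => rotA x.2.1 x.2.2.1 x.2.2.2.1 (fun r => g (x.1, r)) x.2.2.2.2)
      (fun x => (x.2.2.2.2.length : ℝ) + x.2.1 * Ex x.2.2.2.2.length) := by
  set pre : World → π × ℕ × ℕ × ℕ × List Bool → Prop := fun _ x =>
    0 < x.2.1 ∧ 0 < x.2.2.1 ∧ 0 < x.2.2.2.1 ∧
        x.2.2.2.2.length = x.2.1 * x.2.2.1 * x.2.2.2.1 ∧ sz x.1 ≤ c * lg x.2.2.2.2.length ^ e
    with hpre
  set σ : π × ℕ × ℕ × ℕ × List Bool → ℝ :=
    fun x => (x.2.2.2.2.length : ℝ) + x.2.1 * Ex x.2.2.2.2.length with hσ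
  have hlen : Le pre (fun x => (x.2.2.2.2.length : ℝ)) σ := Le.of_le fun _ x _ => by
    simp only [hσ]
    exact le_add_of_nonneg_right (by positivity)
  have hREx : Le pre (fun x => (x.2.1 : ℝ) * Ex x.2.2.2.2.length) σ := Le.of_le fun _ x _ => by
    simp only [hσ]
    exact le_add_of_nonneg_left (by positivity)
  have hEx : Le pre (fun x => (Ex x.2.2.2.2.length : ℝ)) σ := by
    refine Le.trans (Le.of_le fun _ x hx => ?_) hREx
    have : Ex x.2.2.2.2.length ≤ x.2.1 * Ex x.2.2.2.2.length := Nat.le_mul_of_pos_left _ hx.1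
    exact_mod_cast this
  -- the polylogarithmic bound on the sizes of the parameters
  let s : π × ℕ × ℕ × ℕ × List Bool → ℕ := fun x => (c + 6) * lg x.2.2.2.2.length ^ (e + 1)
  have hs : ∀ w x, pre w x → sz (x.1, x.2.2.1, x.2.2.2.1) ≤ s x ∧ 2 * lg x.2.2.2.2.length ≤ s x := by
    rintro w ⟨P, R, N, L, a⟩ ⟨hR, hN, hL, ha, hP⟩
    simp only at hR hN hL ha hP
    obtain ⟨h1, h2, h3, h4, h5, h6⟩ := ArrAux.le_prod3 hR hN hL
    rw [← ha] at h1 h2 h3 h4 h5 h6
    have a1 := sz_nat_le_lg h2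
    have a2 := sz_nat_le_lg h3
    have a3 := one_le_lg a.length
    have a4 : lg a.length ^ e ≤ lg a.length ^ (e + 1) := Nat.pow_le_pow_right a3 (by omega)
    have a5 : lg a.length ≤ lg a.length ^ (e + 1) := Nat.le_self_pow (by omega) _
    have a6 : c * lg a.length ^ e ≤ c * lg a.length ^ (e + 1) := Nat.mul_le_mul_left _ a4
    simp only [s, sz_pair, Nat.add_mul]
    omega
  have hpow : ∀ k : ℕ, Le pre (fun x => ((x.2.1 : ℝ) + 1) * ((s x : ℝ) + 1) ^ k) σ := fun k => by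
    obtain ⟨K, hK⟩ := poly_lg_le_Ex (c + 6) k (e + 1)
    refine Le.trans (Le.of_le_mul (2 * K) (by positivity) fun w x hx => ?_) hREx
    have h1 : (s x + 1) ^ k ≤ K * Ex x.2.2.2.2.length :=
      (Nat.pow_le_pow_left (by simp only [s]; omega) k).trans (hK _)
    have h2 : x.2.1 + 1 ≤ 2 * x.2.1 := by have := hx.1; omega
    have h3 : (x.2.1 + 1) * (s x + 1) ^ k ≤ 2 * K * (x.2.1 * Ex x.2.2.2.2.length) := by
      calc (x.2.1 + 1) * (s x + 1) ^ k ≤ (2 * x.2.1) * (K * Ex x.2.2.2.2.length) :=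
            Nat.mul_le_mul h2 h1
        _ = 2 * K * (x.2.1 * Ex x.2.2.2.2.length) := by ring
    exact_mod_cast h3
  have hin : Le pre (fun x => (sz x : ℝ)) σ := by
    refine Le.trans (Le.of_le fun w x hx => ?_) ((hpow 1).add (hlen.const_mul 10 (by norm_num)))
    obtain ⟨b1, b2⟩ := hs w x hx
    obtain ⟨P, R, N, L, a⟩ := x
    obtain ⟨hR, hN, hL, ha, hP⟩ := hx
    simp only at hR hN hL ha hP b1 b2 ⊢
    obtain ⟨h1, h2, h3, h4, h5, h6⟩ := ArrAux.le_prod3 hR hN hL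
    rw [← ha] at h1 h2 h3 h4 h5 h6
    have a1 := Prims.sz_nat_le R
    have a2 : s (P, R, N, L, a) + 1 ≤ (R + 1) * (s (P, R, N, L, a) + 1) ^ 1 := by
      rw [pow_one]; exact Nat.le_mul_of_pos_left _ (by omega)
    have : sz (P, R, N, L, a) ≤ (R + 1) * (s (P, R, N, L, a) + 1) ^ 1 + 10 * a.length := by
      simp only [sz_pair, sz_bits] at b1 ⊢
      omega
    exact_mod_cast this
  have h0 := L0.input hin
  have hR := L0.lin (g := fun x : π × ℕ × ℕ × ℕ × List Bool => x.2.1) (by fun_prop) h0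
  have hN := L0.lin (g := fun x : π × ℕ × ℕ × ℕ × List Bool => x.2.2.1) (by fun_prop) h0
  have hL := L0.lin (g := fun x : π × ℕ × ℕ × ℕ × List Bool => x.2.2.2.1) (by fun_prop) h0
  have ha := L0.lin (g := fun x : π × ℕ × ℕ × ℕ × List Bool => x.2.2.2.2) (by fun_prop) h0
  have hctx := L0.lin (g := fun x : π × ℕ × ℕ × ℕ × List Bool => (x.1, x.2.2.1, x.2.2.2.1))
    (by fun_prop) h0
  have hNL := ArrAux.l0_mul hN hL (fun x => x.2.2.2.2.length) (fun w x hx => by
    obtain ⟨h1, h2, h3, h4, h5, h6⟩ := ArrAux.le_prod3 hx.1 hx.2.1 hx.2.2.1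
    rw [hx.2.2.2.1]; exact ⟨h2, h3⟩) hEx
  have hrange := L0.sub sub_range' hR (fun _ _ _ => trivial) (by
    refine Le.trans (Le.of_le fun w x hx => ?_) (hpow 1)
    obtain ⟨b1, b2⟩ := hs w x hx
    obtain ⟨h1, h2, h3, h4, h5, h6⟩ := ArrAux.le_prod3 hx.1 hx.2.1 hx.2.2.1
    rw [← hx.2.2.2.1] at h1
    have a1 := sz_nat_le_lg h1
    have : (x.2.1 + 1) * (sz x.2.1 + 1) ≤ (x.2.1 + 1) * (s x + 1) ^ 1 := by
      rw [pow_one]; exact Nat.mul_le_mul_left _ (by omega)
    exact_mod_cast this)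
  have hgp : Poly (fun q : (π × ℕ × ℕ) × ℕ => g (q.1.1, q.2) % q.1.2.1 * q.1.2.2) := by
    have : Poly (fun q : (π × ℕ × ℕ) × ℕ => g (q.1.1, q.2)) :=
      Poly.comp (f := fun q : (π × ℕ × ℕ) × ℕ => (q.1.1, q.2)) hg (by fun_prop)
    fun_prop
  have hamt := L0.map_poly hrange hctx hgp (fun x => (s x : ℝ)) (fun w x hx => by
    obtain ⟨b1, b2⟩ := hs w x hx
    refine ⟨by exact_mod_cast b1, fun r hr => ?_⟩
    obtain ⟨h1, h2, h3, h4, h5, h6⟩ := ArrAux.le_prod3 hx.1 hx.2.1 hx.2.2.1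
    rw [← hx.2.2.2.1] at h1
    have a1 := sz_nat_le_lg ((List.mem_range.1 hr).le.trans h1)
    exact_mod_cast a1.trans b2) (fun k => by simpa only [List.length_range] using hpow k)
  have hrows := L0.sub (sub_blocks (α := Bool)) (hR.pair (hNL.pair ha)) (fun _ _ _ => trivial) (by
    refine Le.trans (Le.of_le_mul 7 (by norm_num) fun w x hx => ?_) hlen
    obtain ⟨h1, h2, h3, h4, h5, h6⟩ := ArrAux.le_prod3 hx.1 hx.2.1 hx.2.2.1
    have h7 := hx.2.2.2.1
    have : sz x.2.2.2.2 + (x.2.1 + 1) * (x.2.2.1 * x.2.2.2.1 + 1) ≤ 7 * x.2.2.2.2.length := by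
      rw [sz_bits, Nat.add_mul, Nat.mul_add, Nat.mul_add, ← Nat.mul_assoc x.2.1]
      omega
    exact_mod_cast this)
  have hzip := L0.lin (g := fun p : List ℕ × List (List Bool) => p.1.zip p.2) (by fun_prop)
    (hamt.pair hrows)
  have hz : ∀ w x, pre w x →
      ((List.range x.2.1).map fun r => g (x.1, r) % x.2.2.1 * x.2.2.2.1).zip
        (blocks x.2.1 (x.2.2.1 * x.2.2.2.1) x.2.2.2.2) =
      (List.range x.2.1).map fun r => (g (x.1, r) % x.2.2.1 * x.2.2.2.1,
        bmk (x.2.2.1 * x.2.2.2.1) fun j => bat x.2.2.2.2 (r * (x.2.2.1 * x.2.2.2.1) + j)) := by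
    intro w x hx
    rw [ArrAux.blocks_arr (by rw [hx.2.2.2.1, Nat.mul_assoc]), List.zip_map']
  have hrot := L0.map_sub hzip (sub_rotate (α := Bool)) (fun w x hx p hp => by
    simp only at hp
    rw [hz w x hx] at hp
    obtain ⟨r, -, rfl⟩ := List.mem_map.1 hp
    simp only [length_bmk]
    exact Nat.mul_le_mul_right _ (Nat.mod_lt _ hx.2.1).le) (by
    refine Le.trans (Le.of_le fun w x hx => ?_) hzip.sz_le
    rw [Prims.cast_sum_map]
    refine Nat.cast_le.2 (le_trans (List.sum_le_sum fun p _ => ?_) (Prims.sum_sz_le _))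
    obtain ⟨p1, p2⟩ := p
    rw [sz_pair]
    show sz p2 ≤ _
    omega)
  refine L0.toSub ((L0.lin (Lin.flatten Lin.id) hrot).congr fun w x hx => ?_)
  simp only
  rw [hz w x hx, List.map_map]
  obtain ⟨P, R, N, L, a⟩ := x
  obtain ⟨hR, hN, hL, ha, hP⟩ := hx
  simp only [Function.comp_def] at hR hN hL ha hP ⊢
  simp only [ArrAux.rotate_row hL]
  unfold rotA bmk
  rw [ArrAux.flatten_range R (N * L)
    fun r j => bat a (r * (N * L) + ((j / L + g (P, r)) % N * L + j % L)), Nat.mul_assoc]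
  refine List.map_congr_left fun j _ => ?_
  rw [Nat.mod_mul_left_div_self, Nat.mod_mul_left_mod]
  congr 1
  ring

/-- the precondition of the three-axis operations on `(R, N, L, a)` -/
def Ok3 (x : ℕ × ℕ × ℕ × List Bool) : Prop :=
  0 < x.1 ∧ 0 < x.2.1 ∧ 0 < x.2.2.1 ∧ x.2.2.2.length = x.1 * x.2.1 * x.2.2.1

namespace ArrAux

/-- nonempty rows of cells of the same positive length -/
def Rect (row : List (List Bool)) : Prop :=
  ∃ N L, 0 < N ∧ 0 < L ∧ row.length = N ∧ ∀ x ∈ row, x.length = L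

/-- a linear-time operation on every row of cells -/
theorem sub_rows {φ : List (List Bool) → List Bool} (hφ : Sub Rect φ fun row => (sz row : ℝ)) :
    Sub Ok3 (fun x => ((view x.1 x.2.1 x.2.2.1 x.2.2.2).map φ).flatten)
      (fun x => (x.2.2.2.length : ℝ) + Ex x.2.2.2.length) := by
  set pre : World → ℕ × ℕ × ℕ × List Bool → Prop := fun _ x => Ok3 x with hpre
  set σ : ℕ × ℕ × ℕ × List Bool → ℝ :=
    fun x => (x.2.2.2.length : ℝ) + Ex x.2.2.2.length with hσ
  have hlen : Le pre (fun x => (x.2.2.2.length : ℝ)) σ := Le.of_le fun _ x _ => by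
    simp only [hσ]
    exact le_add_of_nonneg_right (by positivity)
  have hEx : Le pre (fun x => (Ex x.2.2.2.length : ℝ)) σ := Le.of_le fun _ x _ => by
    simp only [hσ]
    exact le_add_of_nonneg_left (by positivity)
  have hin : Le pre (fun x => (sz x : ℝ)) σ := by
    refine Le.trans (Le.of_le_mul 15 (by norm_num) fun w x hx => ?_) hlen
    obtain ⟨R, N, L, a⟩ := x
    obtain ⟨hR, hN, hL, ha⟩ := hx
    simp only at hR hN hL ha ⊢
    obtain ⟨h1, h2, h3, h4, h5, h6⟩ := le_prod3 hR hN hL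
    rw [← ha] at h1 h2 h3 h4 h5 h6
    have a1 := Prims.sz_nat_le R
    have a2 := Prims.sz_nat_le N
    have a3 := Prims.sz_nat_le L
    have : sz (R, N, L, a) ≤ 15 * a.length := by
      simp only [sz_pair, sz_bits]
      omega
    exact_mod_cast this
  have h0 := L0.input hin
  have hR := L0.lin (g := fun x : ℕ × ℕ × ℕ × List Bool => x.1) (by fun_prop) h0
  have hN := L0.lin (g := fun x : ℕ × ℕ × ℕ × List Bool => x.2.1) (by fun_prop) h0
  have hL := L0.lin (g := fun x : ℕ × ℕ × ℕ × List Bool => x.2.2.1) (by fun_prop) h0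
  have ha := L0.lin (g := fun x : ℕ × ℕ × ℕ × List Bool => x.2.2.2) (by fun_prop) h0
  have hRN := l0_mul hR hN (fun x => x.2.2.2.length) (fun w x hx => by
    obtain ⟨h1, h2, h3, h4, h5, h6⟩ := le_prod3 hx.1 hx.2.1 hx.2.2.1
    rw [hx.2.2.2]; exact ⟨h1, h2⟩) hEx
  have hcells := L0.sub (sub_blocks (α := Bool)) (hRN.pair (hL.pair ha)) (fun _ _ _ => trivial) (by
    refine Le.trans (Le.of_le_mul 7 (by norm_num) fun w x hx => ?_) hlen
    obtain ⟨h1, h2, h3, h4, h5, h6⟩ := le_prod3 hx.1 hx.2.1 hx.2.2.1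
    have h7 := hx.2.2.2
    have : sz x.2.2.2 + (x.1 * x.2.1 + 1) * (x.2.2.1 + 1) ≤ 7 * x.2.2.2.length := by
      rw [sz_bits, h7, Nat.add_mul, Nat.mul_add, Nat.mul_add]
      omega
    exact_mod_cast this)
  have hview := L0.sub (sub_blocks (α := List Bool)) (hR.pair (hN.pair hcells))
    (fun _ _ _ => trivial) (by
    refine hcells.sz_le.add (Le.trans (Le.of_le_mul 4 (by norm_num) fun w x hx => ?_) hlen)
    obtain ⟨h1, h2, h3, h4, h5, h6⟩ := le_prod3 hx.1 hx.2.1 hx.2.2.1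
    have h7 := hx.2.2.2
    have : (x.1 + 1) * (x.2.1 + 1) ≤ 4 * x.2.2.2.length := by
      rw [h7, Nat.add_mul, Nat.mul_add, Nat.mul_add]
      omega
    exact_mod_cast this)
  have hmap := L0.map_sub hview hφ (fun w x hx row hrow => by
    have hrow' : row ∈ view x.1 x.2.1 x.2.2.1 x.2.2.2 := hrow
    rw [view_eq hx.2.2.2] at hrow'
    obtain ⟨r, -, rfl⟩ := List.mem_map.1 hrow'
    refine ⟨x.2.1, x.2.2.1, hx.2.1, hx.2.2.1, by simp, fun y hy => ?_⟩
    obtain ⟨t, -, rfl⟩ := List.mem_map.1 hy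
    simp [cell]) (by
    refine Le.trans (Le.of_le fun w x hx => ?_) hview.sz_le
    rw [Prims.cast_sum_map]
    exact Nat.cast_le.2 (Prims.sum_sz_le _))
  exact L0.toSub (L0.lin (Lin.flatten Lin.id) hmap)

theorem sub_ax {P : ℕ × ℕ × ℕ × List Bool → Prop} (hP : ∀ x, P x → Ok3 x)
    {φ : List (List Bool) → List Bool} (hφ : Sub Rect φ fun row => (sz row : ℝ))
    {g : ℕ → ℕ → ℕ} (hg : ∀ x, P x → ∀ f : ℕ → List Bool,
      φ ((List.range x.2.1).map f) = ((List.range x.2.1).map fun y => f (g x.2.1 y)).flatten) :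
    Sub P (fun x => axA x.1 x.2.1 x.2.2.1 (g x.2.1) x.2.2.2)
      (fun x => (x.2.2.2.length : ℝ) + Ex x.2.2.2.length) := by
  refine ((sub_rows hφ).mono hP ⟨1, zero_le_one, fun _ _ => by rw [one_mul]⟩).congr fun x hx => ?_
  rw [axA_eq, view_eq (hP x hx).2.2.2, List.map_map]
  congr 1
  refine List.map_congr_left fun r _ => ?_
  simp only [Function.comp]
  rw [hg x hx]

theorem rect_of_lin {φ : List (List Bool) → List Bool} (h : Lin φ) :
    Sub Rect φ fun row => (sz row : ℝ) :=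
  Sub.mono h (fun _ _ => trivial) ⟨1, zero_le_one, fun _ _ => by rw [one_mul]⟩

/-- every cell replaced by the first -/
theorem sub_headR : Sub Rect (fun row => (row.map fun _ => row.headD []).flatten)
    fun row => (sz row : ℝ) := by
  have h0 : L0 (fun _ row => Rect row) (fun row => row) (fun row => (sz row : ℝ))
    (fun row => row) := L0.input Le.refl
  have hh := L0.lin (g := fun row : List (List Bool) => row.headD []) (by fun_prop) h0
  have h1 := L0.map_ctx (g := fun q : List Bool × List Bool => q.1) h0 hh (by fun_prop)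
    (Le.of_le_mul 2 (by norm_num) fun _ row hrow => by
      obtain ⟨N, L, hN, hL, h1, h2⟩ := hrow
      have e1 : sz (row.headD []) = 2 * L + 1 := by
        cases row with
        | nil => simp at h1; omega
        | cons x row => rw [List.headD_cons, sz_bits, h2 x (by simp)]
      have e2 : row.map sz = List.replicate N (2 * L + 1) := by
        rw [← h1, ← List.map_const']
        exact List.map_congr_left fun x hx => by rw [sz_bits, h2 x hx]
      have e3 : sz row = N * (2 * L + 1) + N + 1 := by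
        rw [sz_list, e2, List.sum_replicate, smul_eq_mul, h1]
      have : (row.length + 1) * sz (row.headD []) ≤ 2 * sz row := by
        rw [e1, e3, h1]; nlinarith
      exact_mod_cast this)
  exact L0.toSub (L0.lin (Lin.flatten Lin.id) h1)

end ArrAux

/-- `x ↦ -x` -/
theorem sub_negA : Sub Ok3 (fun x => axA x.1 x.2.1 x.2.2.1 (fun y => (x.2.1 - y) % x.2.1) x.2.2.2)
    (fun x => (x.2.2.2.length : ℝ) + Ex x.2.2.2.length) :=
  ArrAux.sub_ax (g := fun N y => (N - y) % N) (fun _ h => h) (ArrAux.rect_of_lin ArrAux.lin_negR)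
    fun _ hx f => ArrAux.negR_eq hx.2.1 f

/-- `x ↦ c x` for a fixed `c` -/
theorem sub_scaleA (c : ℕ) :
    Sub Ok3 (fun x => axA x.1 x.2.1 x.2.2.1 (fun y => c * y % x.2.1) x.2.2.2)
      (fun x => (x.2.2.2.length : ℝ) + Ex x.2.2.2.length) := by
  rcases Nat.eq_zero_or_pos c with rfl | hc
  · refine ArrAux.sub_ax (g := fun N y => 0 * y % N) (fun _ h => h) ArrAux.sub_headR
      fun x hx f => ?_
    obtain ⟨M, hM⟩ : ∃ M, x.2.1 = M + 1 := ⟨x.2.1 - 1, by have := hx.2.1; omega⟩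
    have e : ((List.range x.2.1).map f).headD [] = f 0 := by
      rw [hM, List.range_succ_eq_map]; rfl
    simp only [e, List.map_map, Function.comp_def, Nat.zero_mul, Nat.zero_mod]
  · exact ArrAux.sub_ax (g := fun N y => c * y % N) (fun _ h => h)
      (ArrAux.rect_of_lin (ArrAux.lin_scaleR c)) fun x _ f => ArrAux.scaleR_eq hc _ f

/-- `x ↦ c⁻¹ x` for a fixed `c` -/
theorem sub_unscaleA (c : ℕ) :
    Sub (fun x => Ok3 x ∧ Nat.Coprime c x.2.1)
      (fun x => axA x.1 x.2.1 x.2.2.1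
        (fun y => (((c : ZMod x.2.1)⁻¹ * (y : ZMod x.2.1)).val)) x.2.2.2)
      (fun x => (x.2.2.2.length : ℝ) + Ex x.2.2.2.length) := by
  rcases Nat.eq_zero_or_pos c with rfl | hc
  · refine ArrAux.sub_ax (g := fun N y => ((((0 : ℕ) : ZMod N)⁻¹ * (y : ZMod N)).val))
      (fun _ h => h.1) (ArrAux.rect_of_lin (Lin.flatten Lin.id)) fun x hx f => ?_
    have h1 : x.2.1 = 1 := by simpa using hx.2
    rw [h1]
    rfl
  · exact ArrAux.sub_ax (g := fun N y => (((c : ZMod N)⁻¹ * (y : ZMod N)).val))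
      (fun _ h => h.1) (ArrAux.rect_of_lin (ArrAux.lin_unscaleR c))
      fun x hx f => ArrAux.unscaleR_eq hc hx.1.2.1 hx.2 f

/-- input `(N', R, N, L, a)` -/
theorem sub_padA : Sub (fun x : ℕ × ℕ × ℕ × ℕ × List Bool => 0 < x.1 ∧ Ok3 x.2)
    (fun x => padA x.2.1 x.2.2.1 x.1 x.2.2.2.1 x.2.2.2.2)
    (fun x => (x.2.2.2.2.length : ℝ) + x.2.1 * x.1 * x.2.2.2.1
      + Ex (x.2.2.2.2.length + x.2.1 * x.1 * x.2.2.2.1)) := by
  set pre : World → ℕ × ℕ × ℕ × ℕ × List Bool → Prop := fun _ x => 0 < x.1 ∧ Ok3 x.2 with hpre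
  set σ : ℕ × ℕ × ℕ × ℕ × List Bool → ℝ :=
    fun x => (x.2.2.2.2.length : ℝ) + x.2.1 * x.1 * x.2.2.2.1
      + Ex (x.2.2.2.2.length + x.2.1 * x.1 * x.2.2.2.1) with hσ
  have hlen : Le pre (fun x => ((x.2.2.2.2.length + x.2.1 * x.1 * x.2.2.2.1 : ℕ) : ℝ)) σ :=
    Le.of_le fun _ x _ => by
      simp only [hσ]
      push_cast
      exact le_add_of_nonneg_right (by positivity)
  have hEx : Le pre (fun x => (Ex (x.2.2.2.2.length + x.2.1 * x.1 * x.2.2.2.1) : ℝ)) σ :=
    Le.of_le fun _ x _ => by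
      simp only [hσ]
      exact le_add_of_nonneg_left (by positivity)
  have hin : Le pre (fun x => (sz x : ℝ)) σ := by
    refine Le.trans (Le.of_le_mul 20 (by norm_num) fun w x hx => ?_) hlen
    obtain ⟨N', R, N, L, a⟩ := x
    obtain ⟨hN', hR, hN, hL, ha⟩ := hx
    simp only at hN' hR hN hL ha ⊢
    obtain ⟨h1, h2, h3, h4, h5, h6⟩ := ArrAux.le_prod3 hR hN hL
    obtain ⟨h1', h2', h3', h4', h5', h6'⟩ := ArrAux.le_prod3 hR hN' hL
    rw [← ha] at h1 h2 h3 h4 h5 h6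
    have a1 := Prims.sz_nat_le R
    have a2 := Prims.sz_nat_le N
    have a3 := Prims.sz_nat_le L
    have a4 := Prims.sz_nat_le N'
    have : sz (N', R, N, L, a) ≤ 20 * (a.length + R * N' * L) := by
      simp only [sz_pair, sz_bits]
      omega
    exact_mod_cast this
  have h0 := L0.input hin
  have hN' := L0.lin (g := fun x : ℕ × ℕ × ℕ × ℕ × List Bool => x.1) (by fun_prop) h0
  have hR := L0.lin (g := fun x : ℕ × ℕ × ℕ × ℕ × List Bool => x.2.1) (by fun_prop) h0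
  have hN := L0.lin (g := fun x : ℕ × ℕ × ℕ × ℕ × List Bool => x.2.2.1) (by fun_prop) h0
  have hL := L0.lin (g := fun x : ℕ × ℕ × ℕ × ℕ × List Bool => x.2.2.2.1) (by fun_prop) h0
  have ha := L0.lin (g := fun x : ℕ × ℕ × ℕ × ℕ × List Bool => x.2.2.2.2) (by fun_prop) h0
  have hNL := ArrAux.l0_mul hN hL (fun x => x.2.2.2.2.length + x.2.1 * x.1 * x.2.2.2.1)
    (fun w x hx => by
      obtain ⟨h1, h2, h3, h4, h5, h6⟩ := ArrAux.le_prod3 hx.2.1 hx.2.2.1 hx.2.2.2.1
      have h7 := hx.2.2.2.2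
      constructor <;> omega) hEx
  have hNL' := ArrAux.l0_mul hN' hL (fun x => x.2.2.2.2.length + x.2.1 * x.1 * x.2.2.2.1)
    (fun w x hx => by
      obtain ⟨h1, h2, h3, h4, h5, h6⟩ := ArrAux.le_prod3 hx.2.1 hx.1 hx.2.2.2.1
      constructor <;> omega) hEx
  have hrows := L0.sub (sub_blocks (α := Bool)) (hR.pair (hNL.pair ha)) (fun _ _ _ => trivial) (by
    refine Le.trans (Le.of_le_mul 7 (by norm_num) fun w x hx => ?_) hlen
    obtain ⟨h1, h2, h3, h4, h5, h6⟩ := ArrAux.le_prod3 hx.2.1 hx.2.2.1 hx.2.2.2.1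
    have h7 := hx.2.2.2.2
    have : sz x.2.2.2.2 + (x.2.1 + 1) * (x.2.2.1 * x.2.2.2.1 + 1) ≤
        7 * (x.2.2.2.2.length + x.2.1 * x.1 * x.2.2.2.1) := by
      rw [sz_bits, Nat.add_mul, Nat.mul_add x.2.1, ← Nat.mul_assoc x.2.1]
      omega
    exact_mod_cast this)
  have hz := L0.sub (sub_replicate (α := Bool)) (hNL'.pair (L0.const hin false))
    (fun _ _ _ => trivial) (by
    refine Le.trans (Le.of_le_mul 4 (by norm_num) fun w x hx => ?_) hlen
    obtain ⟨h1, h2, h3, h4, h5, h6⟩ := ArrAux.le_prod3 hx.2.1 hx.1 hx.2.2.2.1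
    have : (x.1 * x.2.2.2.1 + 1) * (sz false + 1) ≤
        4 * (x.2.2.2.2.length + x.2.1 * x.1 * x.2.2.2.1) := by
      rw [sz_bool]
      omega
    exact_mod_cast this)
  have hmap := L0.map_ctx (g := fun q : List Bool × List Bool => (q.2 ++ q.1).take q.1.length)
    hrows hz (by fun_prop) (by
    refine Le.trans (Le.of_le_mul 6 (by norm_num) fun w x hx => ?_) hlen
    obtain ⟨h1, h2, h3, h4, h5, h6⟩ := ArrAux.le_prod3 hx.2.1 hx.1 hx.2.2.2.1
    have : ((blocks x.2.1 (x.2.2.1 * x.2.2.2.1) x.2.2.2.2).length + 1) *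
        sz (List.replicate (x.1 * x.2.2.2.1) false) ≤
        6 * (x.2.2.2.2.length + x.2.1 * x.1 * x.2.2.2.1) := by
      rw [sz_bits, length_blocks, List.length_replicate, Nat.add_mul, Nat.mul_add, Nat.mul_add,
        Nat.mul_left_comm, ← Nat.mul_assoc x.2.1]
      omega
    exact_mod_cast this)
  refine L0.toSub ((L0.lin (Lin.flatten Lin.id) hmap).congr fun w x hx => ?_)
  obtain ⟨N', R, N, L, a⟩ := x
  obtain ⟨hN', hR, hN, hL, ha⟩ := hx
  simp only at hN' hR hN hL ha ⊢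
  rw [ArrAux.blocks_arr (by rw [ha, Nat.mul_assoc]), List.map_map]
  simp only [Function.comp_def, List.length_replicate, ArrAux.pad_row]
  unfold padA bmk
  rw [ArrAux.flatten_range R (N' * L)
    fun r j => if j < N * L then bat a (r * (N * L) + j) else false, Nat.mul_assoc]
  refine List.map_congr_left fun j _ => ?_
  have e1 : j / L % N' = j % (N' * L) / L := (Nat.mod_mul_left_div_self _ _ _).symm
  have e2 : j % L = j % (N' * L) % L := (Nat.mod_mul_left_mod _ _ _).symm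
  rw [e1, e2]
  generalize j % (N' * L) = i
  simp only [Nat.div_lt_iff_lt_mul hL]
  congr 2
  have := Nat.div_add_mod' i L
  rw [Nat.add_mul, Nat.mul_assoc]
  omega

theorem lin_xorA : Lin (fun x : List Bool × List Bool => List.zipWith xor x.1 x.2) :=
  Lin.zipWith (Lin.xor (Lin.fst Lin.id) (Lin.snd Lin.id)) (Lin.fst Lin.id) (Lin.snd Lin.id)

end Crest.Agent.R326
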