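import Crest.Agent.R326.Arr

/-! Row 326: operations on flat arrays, part 2: naive transpositions. -/

set_option autoImplicit false

namespace Crest.Agent.R326

namespace Arr2

/-! ### index arithmetic -/

theorem lt_mul {p A q B : ℕ} (hp : p < A) (hq : q < B) : p * B + q < A * B := by
  have := Nat.mul_le_mul_right B (Nat.succ_le_of_lt hp)
  rw [Nat.succ_mul] at this
  omega

theorem div_eq {p q B : ℕ} (hq : q < B) : (p * B + q) / B = p := by
  rw [add_comm, Nat.add_mul_div_right _ _ (by omega), Nat.div_eq_of_lt hq, zero_add]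

theorem mod_eq {p q B : ℕ} (hq : q < B) : (p * B + q) % B = q := by
  rw [add_comm, Nat.add_mul_mod_self_right, Nat.mod_eq_of_lt hq]

theorem decomp {j A B : ℕ} (h : j < A * B) : ∃ p < A, ∃ q < B, j = p * B + q := by
  have hB : 0 < B := Nat.pos_of_ne_zero fun e => by simp [e] at h
  exact ⟨j / B, Nat.div_lt_of_lt_mul (mul_comm A B ▸ h), j % B, Nat.mod_lt _ hB,
    (Nat.div_add_mod' j B).symm⟩

theorem div_div3 {r x l N L : ℕ} (hx : x < N) (hl : l < L) :
    ((r * N + x) * L + l) / (N * L) = r := by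
  rw [mul_comm N L, ← Nat.div_div_eq_div_mul, div_eq hl, div_eq hx]

theorem arr_ext {n : ℕ} {a b : List Bool} (ha : a.length = n) (hb : b.length = n)
    (h : ∀ j < n, bat a j = bat b j) : a = b := by
  rw [← bmk_bat ha, ← bmk_bat hb]
  exact bmk_congr h

theorem flatten_bmk (R L : ℕ) (f : ℕ → ℕ → Bool) :
    ((List.range R).map fun r => bmk L (f r)).flatten =
      bmk (R * L) fun j => f (j / L) (j % L) := by
  induction R with
  | zero => simp [bmk]
  | succ R ih =>
    rw [List.range_succ, List.map_append, List.flatten_append, ih, Nat.succ_mul]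
    simp only [bmk, List.range_add, List.map_append, List.map_map, List.map_cons, List.map_nil,
      List.flatten_cons, List.flatten_nil, List.append_nil, List.append_cancel_left_eq]
    refine List.map_congr_left fun l hl => ?_
    have hl := List.mem_range.1 hl
    simp only [Function.comp, div_eq hl, mod_eq hl]

theorem blocks_map_range {β : Type} (R W : ℕ) (g : ℕ → β) :
    blocks R W ((List.range (R * W)).map g) =
      (List.range R).map fun r => (List.range W).map fun w => g (r * W + w) := by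
  refine List.map_congr_left fun r hr => ?_
  have hr := List.mem_range.1 hr
  have h1 := Nat.mul_le_mul_right W (Nat.succ_le_of_lt hr)
  rw [Nat.succ_mul] at h1
  apply List.ext_getElem
  · simp only [List.length_take, List.length_drop, List.length_map, List.length_range]
    omega
  · intro i _ _
    simp

theorem blocks_bat {c L : ℕ} {a : List Bool} (h : a.length = c * L) :
    blocks c L a = (List.range c).map fun j => bmk L fun l => bat a (j * L + l) := by
  conv_lhs => rw [← bmk_bat h]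
  exact blocks_map_range c L (bat a)

/-- the array as rows of blocks -/
def nest (R W L : ℕ) (a : List Bool) : List (List (List Bool)) := blocks R W (blocks (R * W) L a)

theorem nest_eq {R W L : ℕ} {a : List Bool} (h : a.length = R * W * L) :
    nest R W L a = (List.range R).map fun r => (List.range W).map fun w =>
      bmk L fun l => bat a ((r * W + w) * L + l) := by
  rw [nest, blocks_bat h, blocks_map_range]

theorem unsh_eq (W R L : ℕ) (a : List Bool) :
    unsh W R L a = (List.range W).map fun w => ((List.range R).map fun r =>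
      bmk L fun l => bat a ((r * W + w) * L + l)).flatten := by
  simp only [unsh, flatten_bmk]

/-- transposition `[R][W][L] → [W][R][L]` -/
def trA (R W L : ℕ) (a : List Bool) : List Bool := (unsh W R L a).flatten

theorem trA_eq (R W L : ℕ) (a : List Bool) : trA R W L a = bmk (W * (R * L)) fun j =>
    bat a ((j % (R * L) / L * W + j / (R * L)) * L + j % (R * L) % L) :=
  flatten_bmk W (R * L) fun w j => bat a ((j / L * W + w) * L + j % L)

theorem length_trA (R W L : ℕ) (a : List Bool) : (trA R W L a).length = W * R * L := by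
  rw [trA_eq, length_bmk, mul_assoc]

theorem bat_trA {R W L r w l : ℕ} (a : List Bool) (hr : r < R) (hw : w < W) (hl : l < L) :
    bat (trA R W L a) ((w * R + r) * L + l) = bat a ((r * W + w) * L + l) := by
  have h1 := lt_mul hr hl
  have e : (w * R + r) * L + l = w * (R * L) + (r * L + l) := by ring
  rw [trA_eq, e, bat_bmk _ (lt_mul hw h1), div_eq h1, mod_eq h1, div_eq hl, mod_eq hl]

theorem bat_unsh {R W L r w l : ℕ} (a : List Bool) (hr : r < R) (hw : w < W) (hl : l < L) :
    bat ((unsh W R L a).getD w []) (r * L + l) = bat a ((r * W + w) * L + l) := by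
  have : (unsh W R L a).getD w [] = bmk (R * L) fun j => bat a ((j / L * W + w) * L + j % L) := by
    simp [unsh, hw]
  rw [this, bat_bmk _ (lt_mul hr hl), div_eq hl, mod_eq hl]

theorem bat_resh {R W L r w l : ℕ} (ws : List (List Bool)) (hr : r < R) (hw : w < W) (hl : l < L) :
    bat (resh W R L ws) ((r * W + w) * L + l) = bat (ws.getD w []) (r * L + l) := by
  rw [resh, bat_bmk _ (lt_mul (lt_mul hr hw) hl), div_eq hl, mod_eq hl, mod_eq hw, div_div3 hw hl]

theorem bat_padA {R N N' L r x l : ℕ} (a : List Bool) (hr : r < R) (hx : x < N') (hx' : x < N)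
    (hl : l < L) : bat (padA R N N' L a) ((r * N' + x) * L + l) = bat a ((r * N + x) * L + l) := by
  rw [padA, bat_bmk _ (lt_mul (lt_mul hr hx) hl), div_eq hl, mod_eq hl, mod_eq hx, div_div3 hx hl,
    if_pos hx']

theorem bat_swapA {H N M L h y u x l : ℕ} (a : List Bool) (hh : h < H) (hy : y < N) (hu : u < M)
    (hx : x < N) (hl : l < L) :
    bat (swapA H N M L a) ((((h * N + y) * M + u) * N + x) * L + l) =
      bat a ((((h * N + x) * M + u) * N + y) * L + l) := by
  have e1 : ((((h * N + y) * M + u) * N + x) * L + l) / (M * N * L) = h * N + y := by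
    rw [mul_assoc M, mul_comm M, ← Nat.div_div_eq_div_mul, div_div3 hx hl, div_eq hu]
  have e2 : ((((h * N + y) * M + u) * N + x) * L + l) / (N * M * N * L) = h := by
    rw [show N * M * N * L = M * N * L * N by ring, ← Nat.div_div_eq_div_mul, e1, div_eq hy]
  rw [swapA, bat_bmk _ (lt_mul (lt_mul (lt_mul (lt_mul hh hy) hu) hx) hl), e1, e2, div_div3 hx hl,
    div_eq hl, mod_eq hl, mod_eq hx, mod_eq hu, mod_eq hy]

theorem ext5 {H N M N' L : ℕ} {a b : List Bool} (ha : a.length = H * N * M * N' * L)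
    (hb : b.length = H * N * M * N' * L)
    (e : ∀ h < H, ∀ y < N, ∀ u < M, ∀ x < N', ∀ l < L,
      bat a ((((h * N + y) * M + u) * N' + x) * L + l) =
        bat b ((((h * N + y) * M + u) * N' + x) * L + l)) : a = b := by
  refine arr_ext ha hb fun j hj => ?_
  obtain ⟨j₁, h₁, l, hl, rfl⟩ := decomp hj
  obtain ⟨j₂, h₂, x, hx, rfl⟩ := decomp h₁
  obtain ⟨j₃, h₃, u, hu, rfl⟩ := decomp h₂
  obtain ⟨h, hh, y, hy, rfl⟩ := decomp h₃
  exact e h hh y hy u hu x hx l hl

theorem resh_eq {W R L : ℕ} {ws : List (List Bool)} (h : ws.length = W)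
    (h' : ∀ r ∈ ws, r.length = R * L) : resh W R L ws = trA W R L ws.flatten := by
  have e : ws = (List.range W).map fun w => bmk (R * L) (bat (ws.getD w [])) := by
    apply List.ext_getElem
    · simp [h]
    · intro i h1 _
      simp only [List.getElem_map, List.getElem_range, List.getD_eq_getElem _ _ h1]
      exact (bmk_bat (h' _ (List.getElem_mem h1))).symm
  refine arr_ext (n := R * W * L) (length_bmk _ _) (length_trA _ _ _ _) fun j hj => ?_
  obtain ⟨j₁, h₁, l, hl, rfl⟩ := decomp hj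
  obtain ⟨r, hr, w, hw, rfl⟩ := decomp h₁
  have h1 := lt_mul hr hl
  rw [bat_resh _ hr hw hl, bat_trA _ hw hr hl]
  conv_rhs => rw [e, flatten_bmk]
  rw [show (w * R + r) * L + l = w * (R * L) + (r * L + l) by ring, bat_bmk _ (lt_mul hw h1),
    div_eq h1, mod_eq h1]

theorem swapA_eq (H N M L : ℕ) (a : List Bool) : swapA H N M L a =
    trA N H (M * N * L) (trA N (N * H * M) L (trA (N * H) N (M * L) (trA (H * N * M) N L a))) := by
  refine ext5 (length_bmk _ _) (by rw [length_trA]; ring) fun h hh y hy u hu x hx l hl => ?_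
  rw [bat_swapA _ hh hy hu hx hl,
    show (((h * N + y) * M + u) * N + x) * L + l =
      (h * N + y) * (M * N * L) + ((u * N + x) * L + l) by ring,
    bat_trA _ hy hh (lt_mul (lt_mul hu hx) hl),
    show (y * H + h) * (M * N * L) + ((u * N + x) * L + l) =
      (((y * H + h) * M + u) * N + x) * L + l by ring,
    bat_trA _ hx (lt_mul (lt_mul hy hh) hu) hl,
    show (x * (N * H * M) + ((y * H + h) * M + u)) * L + l =
      (x * (N * H) + (y * H + h)) * (M * L) + (u * L + l) by ring,
    bat_trA _ (lt_mul hy hh) hx (lt_mul hu hl),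
    show ((y * H + h) * N + x) * (M * L) + (u * L + l) =
      (y * (H * N * M) + ((h * N + x) * M + u)) * L + l by ring,
    bat_trA _ (lt_mul (lt_mul hh hx) hu) hy hl]

/-! ### loops by linear-time steps -/

section loops

variable {ι α β γ δ : Type} [Enc α] [Enc β] [Enc γ] [Enc δ] {pre : World → ι → Prop}
  {inp : ι → γ} {σ : ι → ℝ}

theorem le_nat (K : ℕ) {f : ι → ℝ} (u v : ι → ℕ) (hu : ∀ w i, pre w i → f i ≤ u i)
    (hv : Le pre (fun i => (v i : ℝ)) σ) (h : ∀ w i, pre w i → u i ≤ K * v i) : Le pre f σ :=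
  Le.trans (Le.of_le_mul K (Nat.cast_nonneg K) fun w i hi =>
    (hu w i hi).trans (by exact_mod_cast h w i hi)) hv

theorem l0_scan_lin {l : ι → List α} {s : ι → δ} {f : α × δ → β × δ} (hf : Lin f)
    (hl : L0 pre inp σ l) (hs : L0 pre inp σ s) (B : ι → ℕ)
    (hB : ∀ w i, pre w i → ∀ x ∈ scanIn f (l i) (s i), sz x ≤ B i)
    (hσ : Le pre (fun i => ((((l i).length + 1) * (B i + 1) : ℕ) : ℝ)) σ) :
    L0 pre inp σ (fun i => scan f (l i) (s i)) := by
  have hlen : ∀ i, (scanIn f (l i) (s i)).length = (l i).length := fun i => by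
    conv_rhs => rw [← Prims.scanIn_fst f (l i) (s i), List.length_map]
  obtain ⟨K, hK⟩ := hf.sz_le
  refine Prims.l0_scan hl hs hf (fun _ _ _ _ _ => trivial)
    (le_nat 1 (fun i => ((scanIn f (l i) (s i)).map sz).sum) _
      (fun _ i _ => (Prims.cast_sum_map _ _).le) hσ fun w i hi => ?_)
    (le_nat (K + 1) _ _ (fun _ _ _ => le_rfl) hσ fun w i hi => ?_)
  · have := List.sum_le_card_nsmul ((scanIn f (l i) (s i)).map sz) (B i) fun x hx => by
      obtain ⟨y, hy, rfl⟩ := List.mem_map.1 hx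
      exact hB w i hi y hy
    rw [List.length_map, hlen, smul_eq_mul] at this
    nlinarith [Nat.zero_le (B i), Nat.zero_le (l i).length]
  · have := sz_list_le (l := (scan f (l i) (s i)).1) (s := K * B i) fun x hx => by
      rw [Prims.scan_fst] at hx
      obtain ⟨y, hy, rfl⟩ := List.mem_map.1 hx
      have h1 := hK y
      have h2 := Nat.mul_le_mul_left K (hB w i hi y hy)
      have h3 : sz (f y) = sz (f y).1 + sz (f y).2 + 1 := rfl
      omega
    rw [Prims.length_scan] at this
    nlinarith [Nat.zero_le (B i), Nat.zero_le (l i).length, Nat.zero_le K,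
      Nat.zero_le (K * B i), Nat.zero_le ((l i).length * B i), Nat.zero_le (K * (l i).length)]

theorem l0_foldl_lin {l : ι → List α} {s : ι → δ} {f : δ → α → δ}
    (hf : Lin fun p : α × δ => f p.2 p.1) (hg : ∀ t x, sz (f t x) ≤ sz t + sz x)
    (hl : L0 pre inp σ l) (hs : L0 pre inp σ s)
    (hσ : Le pre (fun i => ((l i).length : ℝ) * ((sz (s i) + 2 * sz (l i) + 1 : ℕ) : ℝ)) σ) :
    L0 pre inp σ (fun i => (l i).foldl f (s i)) := by
  have h := Cf.foldl (pre := pre) (σ := σ) (l := l) (s := s) (f := fun _ => f)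
    (σb := fun i => ((sz (s i) + 2 * sz (l i) + 1 : ℕ) : ℝ)) (cb := fun _ => 0)
    (fun i n t => sz t ≤ sz (s i) + (((l i).take n).map sz).sum) (fun _ _ _ => by simp)
    (fun _ i _ n hn t ht => by
      rw [List.take_succ_eq_append_getElem hn, List.map_append, List.sum_append]
      have := hg t (l i)[n]
      simp only [List.map_cons, List.map_nil, List.sum_cons, List.sum_nil] at ht ⊢
      omega) ?_ hσ hl.sz_le
  · exact ⟨hl.1, Cf.mono ((hl.pair hs).thenCf h) (fun _ _ h => h) Le.refl fun _ _ _ => by simp⟩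
  · refine Cf.mono (Cf.reindex hf (pre' := fun _ (_ : ι × α × δ) => True) (fun j => j.2)
      (fun _ _ _ => trivial)) (fun _ _ _ => trivial) (Le.of_le ?_) (fun _ _ _ => le_rfl)
    rintro w ⟨i, x, t⟩ ⟨-, n, hn, hx, ht⟩
    dsimp only at hx ht hn ⊢
    have h1 : sz x ≤ sz (l i) := sz_mem (hx ▸ List.getElem_mem hn)
    have h2 := (Prims.sum_sz_le ((l i).take n)).trans (Prims.sz_take_le n (l i))
    have h3 : sz (x, t) ≤ sz (s i) + 2 * sz (l i) + 1 := by
      rw [sz_pair]
      omega
    exact_mod_cast h3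

theorem l0_mul {m n : ι → ℕ} (hm : L0 pre inp σ m) (hn : L0 pre inp σ n) (N : ι → ℕ)
    (hN : ∀ w i, pre w i → m i ≤ N i ∧ n i ≤ N i) (hσ : Le pre (fun i => (Ex (N i) : ℝ)) σ) :
    L0 pre inp σ (fun i => m i * n i) := by
  refine L0.poly (g := fun p : ℕ × ℕ => p.1 * p.2) (by fun_prop) (hm.pair hn) fun e => ?_
  obtain ⟨K, hK⟩ := poly_lg_le_Ex 4 e 1
  refine le_nat K (fun i => (sz (m i, n i) + 1) ^ e) _ (fun _ _ _ => by push_cast; exact le_rfl) hσ
    fun w i hi => le_trans (Nat.pow_le_pow_left ?_ e) (hK (N i))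
  have h1 := sz_nat_le_lg (hN w i hi).1
  have h2 := sz_nat_le_lg (hN w i hi).2
  rw [sz_pair, pow_one]
  omega

end loops

/-! ### the two naive transpositions -/

/-- output the first column, keep the others -/
def colStep (p : Unit × List (List (List Bool))) : List Bool × List (List (List Bool)) :=
  ((p.2.map fun row => row.headD []).flatten, p.2.map List.tail)

theorem lin_colStep : Lin colStep :=
  Lin.pair (Lin.flatten (Lin.map (Lin.headD Lin.id (Lin.const _)) (Lin.snd Lin.id)))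
    (Lin.map (g := List.tail) (Lin.tail Lin.id) (Lin.snd Lin.id))

theorem scan_colStep (n : ℕ) (A : List (List (List Bool))) : (scan colStep (un n) A).1 =
    (List.range n).map fun w => (A.map fun row => row.getD w []).flatten := by
  induction n generalizing A with
  | zero => rfl
  | succ n ih =>
    rw [List.range_succ_eq_map, un, List.replicate_succ, scan, ih, List.map_cons, List.map_map]
    refine congrArg₂ List.cons (congrArg List.flatten ?_) (List.map_congr_left fun w _ => ?_)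
    · exact List.map_congr_left fun row _ => by cases row <;> rfl
    · simp only [colStep, List.map_map, Function.comp]
      exact congrArg List.flatten (List.map_congr_left fun row _ => by cases row <;> simp)

theorem sz_map_tail {β : Type} [Enc β] (A : List (List β)) : sz (A.map List.tail) ≤ sz A := by
  induction A with
  | nil => exact le_rfl
  | cons r A ih =>
    have : sz r.tail ≤ sz r := by
      cases r with
      | nil => exact le_rfl
      | cons b r => rw [List.tail_cons, sz_cons]; omega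
    rw [List.map_cons, sz_cons, sz_cons]
    omega

theorem scanIn_colStep (u : List Unit) (A : List (List (List Bool))) :
    ∀ x ∈ scanIn colStep u A, sz x ≤ sz A + 2 := by
  induction u generalizing A with
  | nil => simp [scanIn]
  | cons b u ih =>
    intro x hx
    rcases List.mem_cons.1 hx with rfl | hx
    · rw [sz_pair, sz_unit]
      omega
    · have := ih _ x hx
      have := sz_map_tail A
      simp only [colStep] at *
      omega

theorem sz_zipWith_append {β : Type} [Enc β] (t x : List (List β)) :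
    sz (List.zipWith (· ++ ·) t x) ≤ sz t + sz x := by
  induction t generalizing x with
  | nil => simp
  | cons a t ih =>
    cases x with
    | nil => simp
    | cons b x =>
      have := ih x
      have := sz_append a b
      simp only [List.zipWith_cons_cons, sz_cons]
      omega

theorem foldl_rows {β : Type} (W n : ℕ) (g : ℕ → ℕ → List β) :
    ((List.range n).map fun r => (List.range W).map (g r)).foldl
      (fun t x => List.zipWith (· ++ ·) t x) (List.replicate W []) =
      (List.range W).map fun w => ((List.range n).map fun r => g r w).flatten := by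
  induction n with
  | zero => simp
  | succ n ih =>
    rw [List.range_succ, List.map_append, List.foldl_append, ih]
    simp [List.zipWith_map]

theorem Ok3.le {x : ℕ × ℕ × ℕ × List Bool} (h : Ok3 x) :
    x.1 ≤ x.1 * x.2.1 ∧ x.2.1 ≤ x.1 * x.2.1 ∧ x.1 * x.2.1 ≤ x.2.2.2.length ∧
      x.2.2.1 ≤ x.2.2.2.length := by
  obtain ⟨h1, h2, h3, h4⟩ := h
  rw [h4]
  exact ⟨Nat.le_mul_of_pos_right _ h2, Nat.le_mul_of_pos_left _ h1, Nat.le_mul_of_pos_right _ h3,
    Nat.le_mul_of_pos_left _ (Nat.mul_pos h1 h2)⟩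

theorem Ok3.sz_le {x : ℕ × ℕ × ℕ × List Bool} (h : Ok3 x) : sz x ≤ 15 * x.2.2.2.length := by
  obtain ⟨h1, h2, h3, h4⟩ := Ok3.le h
  have := h.1
  obtain ⟨R, W, L, a⟩ := x
  have := Prims.sz_nat_le R
  have := Prims.sz_nat_le W
  have := Prims.sz_nat_le L
  simp only [sz_pair, sz_bits] at *
  omega

theorem Ok3.sz_nest {x : ℕ × ℕ × ℕ × List Bool} (h : Ok3 x) :
    sz (nest x.1 x.2.1 x.2.2.1 x.2.2.2) ≤ 9 * x.2.2.2.length := by
  obtain ⟨h1, h2, h3, h4⟩ := Ok3.le h
  have := h.1
  have := sz_blocks x.1 x.2.1 (blocks (x.1 * x.2.1) x.2.2.1 x.2.2.2)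
  have := sz_blocks (x.1 * x.2.1) x.2.2.1 x.2.2.2
  rw [sz_bits] at this
  unfold nest
  omega

theorem l0_nest {σ : ℕ × ℕ × ℕ × List Bool → ℝ}
    (h1 : Le (fun _ x => Ok3 x) (fun x => (x.2.2.2.length : ℝ)) σ)
    (h2 : Le (fun _ x => Ok3 x) (fun x => (Ex x.2.2.2.length : ℝ)) σ) :
    L0 (fun _ x => Ok3 x) (fun x => x) σ (fun x => x) ∧
      L0 (fun _ x => Ok3 x) (fun x => x) σ (fun x => nest x.1 x.2.1 x.2.2.1 x.2.2.2) := by
  have h0 : L0 (fun _ x => Ok3 x) (fun x => x) σ (fun x => x) :=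
    L0.input (le_nat 15 _ _ (fun _ _ _ => le_rfl) h1 fun _ _ h => Ok3.sz_le h)
  have hR := L0.lin (g := fun x : ℕ × ℕ × ℕ × List Bool => x.1) (by fun_prop) h0
  have hW := L0.lin (g := fun x : ℕ × ℕ × ℕ × List Bool => x.2.1) (by fun_prop) h0
  have hL := L0.lin (g := fun x : ℕ × ℕ × ℕ × List Bool => x.2.2) (by fun_prop) h0
  have hRW := l0_mul hR hW (fun x => x.2.2.2.length)
    (fun _ x h => by obtain ⟨h1, h2, h3, h4⟩ := Ok3.le h; omega) h2
  have hB := L0.sub sub_blocks (hRW.pair hL) (fun _ _ _ => trivial)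
    (le_nat 7 (fun x => sz x.2.2.2 + (x.1 * x.2.1 + 1) * (x.2.2.1 + 1)) _
      (fun _ _ _ => by push_cast; exact le_rfl) h1 fun _ x h => by
        obtain ⟨h1, h2, h3, h4⟩ := Ok3.le h
        have h5 := h.1
        have h6 := h.2.2.2
        rw [sz_bits, add_mul, mul_add, ← h6]
        omega)
  refine ⟨h0, L0.sub sub_blocks (hR.pair (hW.pair hB)) (fun _ _ _ => trivial)
    (le_nat 10 (fun x => sz (blocks (x.1 * x.2.1) x.2.2.1 x.2.2.2) + (x.1 + 1) * (x.2.1 + 1)) _
      (fun _ _ _ => by push_cast; exact le_rfl) h1 fun _ x h => ?_)⟩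
  obtain ⟨h1, h2, h3, h4⟩ := Ok3.le h
  have h5 := h.1
  have := sz_blocks (x.1 * x.2.1) x.2.2.1 x.2.2.2
  rw [sz_bits] at this
  rw [add_mul, mul_add]
  omega

theorem le_left {ι : Type} {pre : World → ι → Prop} {c n : ι → ℕ} :
    Le pre (fun i => ((c i * n i : ℕ) : ℝ)) fun i => (c i : ℝ) * n i + Ex (n i) :=
  Le.of_le fun _ i _ => by
    push_cast
    exact le_add_of_nonneg_right (Nat.cast_nonneg _)

theorem le_right {ι : Type} {pre : World → ι → Prop} {c n : ι → ℕ} :
    Le pre (fun i => (Ex (n i) : ℝ)) fun i => (c i : ℝ) * n i + Ex (n i) :=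
  Le.of_le fun _ i _ => le_add_of_nonneg_left (by positivity)

theorem le_len {ι : Type} {pre : World → ι → Prop} {c n : ι → ℕ} (h : ∀ w i, pre w i → 0 < c i) :
    Le pre (fun i => (n i : ℝ)) fun i => (c i : ℝ) * n i + Ex (n i) :=
  le_nat 1 n _ (fun _ _ _ => le_rfl) le_left fun w i hi => by
    rw [one_mul]
    exact Nat.le_mul_of_pos_left _ (h w i hi)

/-- the slices, at a cost proportional to the number of rows -/
theorem sub_unsh' : Sub Ok3 (fun x => unsh x.2.1 x.1 x.2.2.1 x.2.2.2)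
    (fun x => (x.1 : ℝ) * x.2.2.2.length + Ex x.2.2.2.length) := by
  have hlen := le_len (pre := fun _ x => Ok3 x) (c := fun x => x.1) (n := fun x => x.2.2.2.length)
    fun _ _ h => h.1
  obtain ⟨h0, hA⟩ := l0_nest hlen le_right
  have hz := L0.sub sub_replicate
    ((L0.lin (g := fun x : ℕ × ℕ × ℕ × List Bool => x.2.1) (by fun_prop) h0).pair
      (L0.const h0.1 ([] : List Bool))) (fun _ _ _ => trivial)
    (le_nat 4 (fun x => (x.2.1 + 1) * 2) _
      (fun _ _ _ => by simp only [sz_nil]; push_cast; norm_num) hlen fun _ x h => by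
        obtain ⟨h1, h2, h3, h4⟩ := Ok3.le h
        have h5 := h.1
        omega)
  have h1 := l0_foldl_lin (f := fun t x : List (List Bool) => List.zipWith (· ++ ·) t x)
    (Lin.zipWith (by fun_prop) (Lin.snd Lin.id) (Lin.fst Lin.id)) sz_zipWith_append hA hz
    (le_nat 22 (fun x => (nest x.1 x.2.1 x.2.2.1 x.2.2.2).length *
        (sz (List.replicate x.2.1 ([] : List Bool)) + 2 * sz (nest x.1 x.2.1 x.2.2.1 x.2.2.2) + 1)) _
      (fun _ _ _ => by push_cast; exact le_rfl) le_left fun _ x h => by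
        obtain ⟨h1, h2, h3, h4⟩ := Ok3.le h
        have h5 := h.1
        have h6 := Ok3.sz_nest h
        have h7 := sz_list_le (l := List.replicate x.2.1 ([] : List Bool)) (s := 1) fun r hr => by
          rw [List.eq_of_mem_replicate hr, sz_nil]
        rw [List.length_replicate] at h7
        rw [show (nest x.1 x.2.1 x.2.2.1 x.2.2.2).length = x.1 from length_blocks _ _ _,
          mul_left_comm]
        exact Nat.mul_le_mul_left _ (by omega))
  refine L0.toSub (h1.congr fun _ x h => ?_)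
  rw [nest_eq h.2.2.2, foldl_rows, unsh_eq]

end Arr2

open Arr2

/-- input `(R, W, L, a)` -/
theorem sub_unsh : Sub Ok3 (fun x => unsh x.2.1 x.1 x.2.2.1 x.2.2.2)
    (fun x => (x.2.1 : ℝ) * x.2.2.2.length + Ex x.2.2.2.length) := by
  have hlen := le_len (pre := fun _ x => Ok3 x) (c := fun x => x.2.1) (n := fun x => x.2.2.2.length)
    fun _ _ h => h.2.1
  obtain ⟨h0, hA⟩ := l0_nest hlen le_right
  have hu := L0.un (L0.lin (g := fun x : ℕ × ℕ × ℕ × List Bool => x.2.1) (by fun_prop) h0)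
    (le_nat 2 (fun x => x.2.1 + 1) _ (fun _ _ _ => by push_cast; exact le_rfl) hlen fun _ x h => by
      obtain ⟨h1, h2, h3, h4⟩ := Ok3.le h
      have h5 := h.1
      omega)
  have h1 := l0_scan_lin lin_colStep hu hA (fun x => sz (nest x.1 x.2.1 x.2.2.1 x.2.2.2) + 2)
    (fun _ _ _ => scanIn_colStep _ _)
    (le_nat 24 _ _ (fun _ _ _ => le_rfl) le_left fun _ x h => by
      obtain ⟨h1, h2, h3, h4⟩ := Ok3.le h
      have h5 := h.1
      have h6 := h.2.1
      have h7 := Ok3.sz_nest h
      rw [List.length_replicate, show 24 * (x.2.1 * x.2.2.2.length) =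
        (2 * x.2.1) * (12 * x.2.2.2.length) by ring]
      exact Nat.mul_le_mul (by omega) (by omega))
  refine L0.toSub ((L0.lin Prims.lin_fst h1).congr fun _ x h => ?_)
  rw [scan_colStep, nest_eq h.2.2.2, unsh_eq]
  refine List.map_congr_left fun w hw => ?_
  have hw := List.mem_range.1 hw
  simp [Function.comp_def, hw]

namespace Arr2

section
variable {ι γ : Type} [Enc γ] {pre : World → ι → Prop} {inp : ι → γ} {σ : ι → ℝ}
  {R W L : ι → ℕ} {a : ι → List Bool}

theorem l0_trA (c n : ι → ℕ) (hR : L0 pre inp σ R) (hW : L0 pre inp σ W) (hL : L0 pre inp σ L)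
    (ha : L0 pre inp σ a) (hc : c = R ∨ c = W)
    (h : ∀ w i, pre w i → 0 < R i ∧ 0 < W i ∧ 0 < L i ∧ (a i).length = n i ∧
      n i = R i * W i * L i)
    (hσ : Le pre (fun i => (c i : ℝ) * n i + Ex (n i)) σ) :
    L0 pre inp σ fun i => trA (R i) (W i) (L i) (a i) := by
  have h0 := hR.pair (hW.pair (hL.pair ha))
  have hP : ∀ w i, pre w i → Ok3 (R i, W i, L i, a i) := fun w i hi => by
    obtain ⟨h1, h2, h3, h4, h5⟩ := h w i hi
    exact ⟨h1, h2, h3, h4.trans h5⟩
  refine L0.lin (g := fun A : List (List Bool) => A.flatten) (by fun_prop) ?_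
  rcases hc with rfl | rfl
  · exact L0.sub sub_unsh' h0 hP (Le.trans (Le.of_le fun w i hi => by
      simp only [(h w i hi).2.2.2.1, le_refl]) hσ)
  · exact L0.sub sub_unsh h0 hP (Le.trans (Le.of_le fun w i hi => by
      simp only [(h w i hi).2.2.2.1, le_refl]) hσ)

end

end Arr2

/-- input `(R, W, L, ws)` -/
theorem sub_resh : Sub (fun x : ℕ × ℕ × ℕ × List (List Bool) => 0 < x.1 ∧ 0 < x.2.1 ∧ 0 < x.2.2.1 ∧
      x.2.2.2.length = x.2.1 ∧ ∀ r ∈ x.2.2.2, r.length = x.1 * x.2.2.1)
    (fun x => resh x.2.1 x.1 x.2.2.1 x.2.2.2)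
    (fun x => (x.2.1 : ℝ) * (x.1 * x.2.1 * x.2.2.1) + Ex (x.1 * x.2.1 * x.2.2.1)) := by
  let pre : World → ℕ × ℕ × ℕ × List (List Bool) → Prop := fun _ x =>
    0 < x.1 ∧ 0 < x.2.1 ∧ 0 < x.2.2.1 ∧
      x.2.2.2.length = x.2.1 ∧ ∀ r ∈ x.2.2.2, r.length = x.1 * x.2.2.1
  have hfl : ∀ w x, pre w x → x.2.2.2.flatten.length = x.1 * x.2.1 * x.2.2.1 := fun w x h => by
    rw [List.length_flatten, List.map_congr_left (g := fun _ => x.1 * x.2.2.1) h.2.2.2.2,
      List.map_const', List.sum_replicate, h.2.2.2.1, smul_eq_mul]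
    ring
  have hlen := le_len (pre := pre) (c := fun x => x.2.1) (n := fun x => x.1 * x.2.1 * x.2.2.1)
    fun _ _ h => h.2.1
  have h0 := L0.input (inp := fun x => x) (le_nat 17 _ _ (fun _ _ _ => le_rfl) hlen fun w x h => by
    have h1 := Ok3.sz_le (x := (x.1, x.2.1, x.2.2.1, x.2.2.2.flatten))
      ⟨h.1, h.2.1, h.2.2.1, hfl w x h⟩
    obtain ⟨-, h2, h3, -⟩ := Ok3.le (x := (x.1, x.2.1, x.2.2.1, x.2.2.2.flatten))
      ⟨h.1, h.2.1, h.2.2.1, hfl w x h⟩
    have h4 := Prims.sz_eq_flatten x.2.2.2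
    have h5 := h.2.2.2.1
    have h6 := hfl w x h
    obtain ⟨R, W, L, ws⟩ := x
    simp only [sz_pair] at *
    omega)
  have h1 := l0_trA (fun x => x.2.1) (fun x => x.1 * x.2.1 * x.2.2.1)
    (L0.lin (g := fun x : ℕ × ℕ × ℕ × List (List Bool) => x.2.1) (by fun_prop) h0)
    (L0.lin (g := fun x : ℕ × ℕ × ℕ × List (List Bool) => x.1) (by fun_prop) h0)
    (L0.lin (g := fun x : ℕ × ℕ × ℕ × List (List Bool) => x.2.2.1) (by fun_prop) h0)
    (L0.lin (g := fun x : ℕ × ℕ × ℕ × List (List Bool) => x.2.2.2.flatten) (by fun_prop) h0)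
    (Or.inl rfl) (fun w x h => ⟨h.2.1, h.1, h.2.2.1, hfl w x h, by ring⟩) Le.refl
  refine Sub.mono (L0.toSub (h1.congr fun _ x h => resh_eq h.2.2.2.1 h.2.2.2.2)) (fun _ h => h)
    ⟨1, zero_le_one, fun x _ => ?_⟩
  push_cast
  rw [one_mul]

/-- the precondition of the five-axis operations on `(H, N, M, L, a)` -/
def Ok5 (x : ℕ × ℕ × ℕ × ℕ × List Bool) : Prop :=
  0 < x.1 ∧ 0 < x.2.1 ∧ 0 < x.2.2.1 ∧ 0 < x.2.2.2.1 ∧
    x.2.2.2.2.length = x.1 * x.2.1 * x.2.2.1 * x.2.1 * x.2.2.2.1

/-- naive exchange of two axes: a factor `N` (any fixed power of `N` would do) -/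
theorem sub_swapNaive : Sub Ok5 (fun x => swapA x.1 x.2.1 x.2.2.1 x.2.2.2.1 x.2.2.2.2)
    (fun x => (x.2.1 : ℝ) ^ 2 * x.2.2.2.2.length + Ex x.2.2.2.2.length) := by
  have hlen := le_len (pre := fun _ x => Ok5 x) (c := fun x => x.2.1)
    (n := fun x => x.2.2.2.2.length) fun _ _ h => h.2.1
  have hb : ∀ x, Ok5 x → ∀ p q : ℕ, x.1 * x.2.1 * x.2.2.1 * x.2.1 * x.2.2.2.1 = p * q →
      p ≤ x.2.2.2.2.length := fun x h p q e => by
    have h1 : 0 < x.1 * x.2.1 * x.2.2.1 * x.2.1 * x.2.2.2.1 := by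
      obtain ⟨h1, h2, h3, h4, -⟩ := h
      positivity
    rw [h.2.2.2.2, e]
    exact Nat.le_mul_of_pos_right _ (Nat.pos_of_mul_pos_left (e ▸ h1))
  have bH := fun x h => hb x h x.1 (x.2.1 * x.2.2.1 * x.2.1 * x.2.2.2.1) (by ring)
  have bN := fun x h => hb x h x.2.1 (x.1 * x.2.2.1 * x.2.1 * x.2.2.2.1) (by ring)
  have bM := fun x h => hb x h x.2.2.1 (x.1 * x.2.1 * x.2.1 * x.2.2.2.1) (by ring)
  have bL := fun x h => hb x h x.2.2.2.1 (x.1 * x.2.1 * x.2.2.1 * x.2.1) (by ring)
  have h0 := L0.input (inp := fun x => x) (le_nat 19 _ _ (fun _ _ _ => le_rfl) hlen fun w x h => by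
    have h1 := bH x h
    have h2 := bN x h
    have h3 := bM x h
    have h4 := bL x h
    have h5 := h.1
    obtain ⟨H, N, M, L, a⟩ := x
    have := Prims.sz_nat_le H
    have := Prims.sz_nat_le N
    have := Prims.sz_nat_le M
    have := Prims.sz_nat_le L
    simp only [sz_pair, sz_bits] at *
    omega)
  have hH := L0.lin (g := fun x : ℕ × ℕ × ℕ × ℕ × List Bool => x.1) (by fun_prop) h0
  have hN := L0.lin (g := fun x : ℕ × ℕ × ℕ × ℕ × List Bool => x.2.1) (by fun_prop) h0
  have hM := L0.lin (g := fun x : ℕ × ℕ × ℕ × ℕ × List Bool => x.2.2.1) (by fun_prop) h0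
  have hL := L0.lin (g := fun x : ℕ × ℕ × ℕ × ℕ × List Bool => x.2.2.2.1) (by fun_prop) h0
  have ha := L0.lin (g := fun x : ℕ × ℕ × ℕ × ℕ × List Bool => x.2.2.2.2) (by fun_prop) h0
  have hHN := l0_mul hH hN _ (fun _ x h => ⟨bH x h, bN x h⟩) le_right
  have hNH := l0_mul hN hH _ (fun _ x h => ⟨bN x h, bH x h⟩) le_right
  have hML := l0_mul hM hL _ (fun _ x h => ⟨bM x h, bL x h⟩) le_right
  have hMN := l0_mul hM hN _ (fun _ x h => ⟨bM x h, bN x h⟩) le_right
  have hHNM := l0_mul hHN hM _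
    (fun _ x h => ⟨hb x h _ (x.2.2.1 * x.2.1 * x.2.2.2.1) (by ring), bM x h⟩) le_right
  have hNHM := l0_mul hNH hM _
    (fun _ x h => ⟨hb x h _ (x.2.2.1 * x.2.1 * x.2.2.2.1) (by ring), bM x h⟩) le_right
  have hMNL := l0_mul hMN hL _
    (fun _ x h => ⟨hb x h _ (x.1 * x.2.1 * x.2.2.2.1) (by ring), bL x h⟩) le_right
  have h1 := l0_trA _ (fun x => x.2.2.2.2.length) hHNM hN hL ha (Or.inr rfl)
    (fun _ x ⟨h1, h2, h3, h4, h5⟩ => ⟨by positivity, h2, h4, rfl, h5⟩) Le.refl
  have h2 := l0_trA _ (fun x => x.2.2.2.2.length) hNH hN hML h1 (Or.inr rfl)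
    (fun _ x ⟨h1, h2, h3, h4, h5⟩ => ⟨by positivity, h2, by positivity,
      by rw [length_trA, h5]; ring, by rw [h5]; ring⟩) Le.refl
  have h3 := l0_trA _ (fun x => x.2.2.2.2.length) hN hNHM hL h2 (Or.inl rfl)
    (fun _ x ⟨h1, h2, h3, h4, h5⟩ => ⟨h2, by positivity, h4,
      by rw [length_trA, h5]; ring, by rw [h5]; ring⟩) Le.refl
  have h4 := l0_trA _ (fun x => x.2.2.2.2.length) hN hH hMNL h3 (Or.inl rfl)
    (fun _ x ⟨h1, h2, h3, h4, h5⟩ => ⟨h2, h1, by positivity,
      by rw [length_trA, h5]; ring, by rw [h5]; ring⟩) Le.refl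
  refine Sub.mono (L0.toSub (h4.congr fun _ x _ => swapA_eq _ _ _ _ _)) (fun _ h => h)
    ⟨1, zero_le_one, fun x h => ?_⟩
  have h5 : (1 : ℝ) ≤ x.2.1 := by exact_mod_cast h.2.1
  have h6 : (x.2.1 : ℝ) ≤ (x.2.1 : ℝ) ^ 2 := by nlinarith
  rw [one_mul]
  gcongr

/-- an exchange of axes acts on each slice of the lowest axis separately -/
theorem swapA_resh {H N M W L : ℕ} {a : List Bool} (hN : 0 < N) (hM : 0 < M) (hW : 0 < W)
    (hL : 0 < L) :
    swapA H N M (W * L) a =
      resh W (H * N * M * N) L ((unsh W (H * N * M * N) L a).map (swapA H N M L)) := by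
  refine ext5 (length_bmk _ _) (by rw [resh, length_bmk]; ring) fun h hh y hy u hu x hx j hj => ?_
  obtain ⟨w, hw, l, hl, rfl⟩ := decomp hj
  have e : ∀ r, r * (W * L) + (w * L + l) = (r * W + w) * L + l := fun r => by ring
  have e' : ((unsh W (H * N * M * N) L a).map (swapA H N M L)).getD w [] =
      swapA H N M L ((unsh W (H * N * M * N) L a).getD w []) := by
    simp [unsh, hw]
  rw [bat_swapA _ hh hy hu hx hj, e, e, bat_resh _ (lt_mul (lt_mul (lt_mul hh hy) hu) hx) hw hl,
    e', bat_swapA _ hh hy hu hx hl, bat_unsh _ (lt_mul (lt_mul (lt_mul hh hx) hu) hy) hw hl]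

/-- padding both exchanged axes and the lowest axis, exchanging, and cutting back -/
theorem swapA_pad {H N N' M L L' : ℕ} {a : List Bool} (hN : 0 < N) (hM : 0 < M) (hL : 0 < L)
    (hNN : N ≤ N') (hLL : L ≤ L') :
    swapA H N M L a =
      padA H N' N (M * N * L) (padA (H * N' * M) N' N L (padA (H * N' * M * N') L' L 1
        (swapA H N' M L' (padA (H * N' * M * N') L L' 1 (padA (H * N' * M) N N' L
          (padA H N N' (M * N * L) a)))))) := by
  refine ext5 (length_bmk _ _) (by rw [padA, length_bmk]; ring) fun h hh y hy u hu x hx l hl => ?_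
  have hy' : y < N' := hy.trans_le hNN
  have hx' : x < N' := hx.trans_le hNN
  have hl' : l < L' := hl.trans_le hLL
  have e1 : ∀ r s, ((r * M + u) * N + s) * L + l = r * (M * N * L) + ((u * N + s) * L + l) :=
    fun r s => by ring
  have e2 : ∀ j : ℕ, j = j * 1 + 0 := fun j => by ring
  rw [bat_swapA _ hh hy hu hx hl, e1, e1, bat_padA _ hh hy hy' (lt_mul (lt_mul hu hx) hl),
    ← e1 (h * N' + y),
    bat_padA _ (lt_mul (lt_mul hh hy') hu) hx hx' hl,
    e2 ((((h * N' + y) * M + u) * N' + x) * L + l),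
    bat_padA _ (lt_mul (lt_mul (lt_mul hh hy') hu) hx') hl hl' Nat.one_pos, ← e2,
    bat_swapA _ hh hy' hu hx' hl', e2 ((((h * N' + x) * M + u) * N' + y) * L' + l),
    bat_padA _ (lt_mul (lt_mul (lt_mul hh hx') hu) hy') hl' hl Nat.one_pos, ← e2,
    bat_padA _ (lt_mul (lt_mul hh hx') hu) hy' hy hl, e1 (h * N' + x),
    bat_padA _ hh hx' hx (lt_mul (lt_mul hu hy) hl)]

end Crest.Agent.R326
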