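import Crest.Agent.R326.Mach

/-! Row 326: flat bit arrays, multi-axis views, and the index permutations used (definitions). -/

set_option autoImplicit false

namespace Crest.Agent.R326

open Function

/-- a logarithm that is at least one -/
def lg (n : ℕ) : ℕ := n.size + 1

/-- `2^√log`: above every power of the logarithm, below every power of `n` -/
def Ex (n : ℕ) : ℕ := 2 ^ Nat.sqrt (lg n)

/-- entry of a bit array -/
def bat (a : List Bool) (j : ℕ) : Bool := a.getD j false

/-- the bit array with the given entries -/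
def bmk (n : ℕ) (f : ℕ → Bool) : List Bool := (List.range n).map f

/-! ### three- and five-axis operations; all are gathers `out[j] = in[σ j]` -/

/-- shape `[R][N][L]`: `out[r,x,l] = in[r, (x + F r) % N, l]` -/
def rotA (R N L : ℕ) (F : ℕ → ℕ) (a : List Bool) : List Bool :=
  bmk (R * N * L) fun j => bat a ((j / (N * L) * N + (j / L % N + F (j / (N * L))) % N) * L + j % L)

/-- shape `[R][N][L]`: `out[r,x,l] = in[r, g x, l]` -/
def axA (R N L : ℕ) (g : ℕ → ℕ) (a : List Bool) : List Bool :=
  bmk (R * N * L) fun j => bat a ((j / (N * L) * N + g (j / L % N)) * L + j % L)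

/-- shape `[H][N][M][N][L]`: `out[h,y,u,x,l] = in[h,x,u,y,l]` -/
def swapA (H N M L : ℕ) (a : List Bool) : List Bool :=
  bmk (H * N * M * N * L) fun j =>
    bat a ((((j / (N * M * N * L) * N + j / L % N) * M + j / (N * L) % M) * N
      + j / (M * N * L) % N) * L + j % L)

/-- change the length of the middle axis of `[R][N][L]` to `N'` (cut, or pad with zeros) -/
def padA (R N N' L : ℕ) (a : List Bool) : List Bool :=
  bmk (R * N' * L) fun j =>
    if j / L % N' < N then bat a ((j / (N' * L) * N + j / L % N') * L + j % L) else false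

/-- the `W` slices of `[R][W][L]` along the middle axis, each of shape `[R][L]` -/
def unsh (W R L : ℕ) (a : List Bool) : List (List Bool) :=
  (List.range W).map fun w => bmk (R * L) fun j => bat a ((j / L * W + w) * L + j % L)

/-- the inverse of `unsh` -/
def resh (W R L : ℕ) (ws : List (List Bool)) : List Bool :=
  bmk (R * W * L) fun j => bat (ws.getD (j / L % W) []) (j / (W * L) * L + j % L)

/-! ### multi-axis views: a shape is a list of axis lengths (highest axis first), an index is a
digit vector `ℕ → ℕ` -/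

/-- length of axis `t` -/
def ax (s : List ℕ) (t : ℕ) : ℕ := s.getD t 1

/-- product of the lengths of the axes `a, …, b-1` -/
def vol (s : List ℕ) (a b : ℕ) : ℕ := ((s.take b).drop a).prod

/-- Horner value of the first `n` digits -/
def posN (s : List ℕ) (ι : ℕ → ℕ) : ℕ → ℕ
  | 0 => 0
  | n + 1 => posN s ι n * ax s n + ι n

/-- position of an index -/
def pos (s : List ℕ) (ι : ℕ → ℕ) : ℕ := posN s ι s.length

/-- digits of a position (zero beyond the shape) -/
def dig (s : List ℕ) (j : ℕ) : ℕ → ℕ := fun t => j / vol s (t + 1) s.length % ax s t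

/-- valid digit vectors -/
def Valid (s : List ℕ) (ι : ℕ → ℕ) : Prop := ∀ t, ι t < ax s t

/-- gather along a map of digit vectors -/
def gathS (s : List ℕ) (σ : (ℕ → ℕ) → ℕ → ℕ) (a : List Bool) : List Bool :=
  bmk s.prod fun j => bat a (pos s (σ (dig s j)))

/-- `a` is an array of shape `s`, which has `n` axes -/
def OkS (n : ℕ) (s : List ℕ) (a : List Bool) : Prop :=
  s.length = n ∧ (∀ x ∈ s, 0 < x) ∧ a.length = s.prod

/-- the digits above axis `t` -/
def hiD (t : ℕ) (ι : ℕ → ℕ) : List ℕ := (List.range t).map ι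

/-- add to digit `t` a function of the higher digits -/
def shI (s : List ℕ) (t : ℕ) (G : List ℕ → ℕ) (ι : ℕ → ℕ) : ℕ → ℕ :=
  update ι t ((ι t + G (hiD t ι)) % ax s t)

/-- apply `g` to digit `t` -/
def axI (t : ℕ) (g : ℕ → ℕ) (ι : ℕ → ℕ) : ℕ → ℕ := update ι t (g (ι t))

/-- exchange two digits -/
def swI (t t' : ℕ) (ι : ℕ → ℕ) : ℕ → ℕ := fun u => ι (Equiv.swap t t' u)

/-- multiply the digits `t` and `t'` by `c` modulo `N` -/
def tauI (N t t' c : ℕ) (ι : ℕ → ℕ) : ℕ → ℕ :=
  update (update ι t (c * ι t % N)) t' (c * ι t' % N)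

end Crest.Agent.R326
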