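import Crest.Agent.R326.Arr2

/-! Row 326: multi-axis views of flat arrays. -/

set_option autoImplicit false

namespace Crest.Agent.R326

open Function

section
variable {s : List ℕ}

theorem ax_of_le {t : ℕ} (h : s.length ≤ t) : ax s t = 1 := by
  simp [ax, List.getD_eq_getElem?_getD, List.getElem?_eq_none h]
theorem ax_of_lt {t : ℕ} (h : t < s.length) : ax s t = s[t] := by
  simp [ax, List.getD_eq_getElem?_getD, List.getElem?_eq_getElem h]
theorem ax_take {t b : ℕ} (s : List ℕ) (h : t < b) : ax (s.take b) t = ax s t := by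
  simp [ax, List.getD_eq_getElem?_getD, h]
theorem ax_drop (s : List ℕ) (a t : ℕ) : ax (s.drop a) t = ax s (t + a) := by
  simp [ax, List.getD_eq_getElem?_getD, List.getElem?_drop, Nat.add_comm]
theorem vol_of_le {a b : ℕ} (s : List ℕ) (h : b ≤ a) : vol s a b = 1 := by
  unfold vol
  rw [List.drop_eq_nil_of_le (by simp; omega), List.prod_nil]
theorem vol_self (s : List ℕ) (a : ℕ) : vol s a a = 1 := vol_of_le s le_rfl
theorem vol_succ_right {a b : ℕ} (s : List ℕ) (h : a ≤ b) :
    vol s a (b + 1) = vol s a b * ax s b := by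
  unfold vol
  rcases lt_or_ge b s.length with hb | hb
  · rw [List.take_add_one, List.getElem?_eq_getElem hb, List.drop_append_of_le_length
      (by simp; omega), List.prod_append, ax_of_lt hb]
    simp
  · rw [List.take_of_length_le hb, List.take_of_length_le (by omega), ax_of_le hb, mul_one]

theorem vol_zero_length (s : List ℕ) : vol s 0 s.length = s.prod := by simp [vol]
theorem vol_mul {a b c : ℕ} (s : List ℕ) (hab : a ≤ b) (hbc : b ≤ c) :
    vol s a b * vol s b c = vol s a c := by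
  induction c, hbc using Nat.le_induction with
  | base => rw [vol_self, mul_one]
  | succ c hc ih => rw [vol_succ_right s hc, vol_succ_right s (hab.trans hc), ← mul_assoc, ih]
theorem vol_succ (s : List ℕ) (t : ℕ) : vol s t (t + 1) = ax s t := by
  rw [vol_succ_right s le_rfl, vol_self, one_mul]
theorem vol_succ_left {a b : ℕ} (s : List ℕ) (h : a < b) :
    vol s a b = ax s a * vol s (a + 1) b := by
  rw [← vol_succ, vol_mul s (Nat.le_succ a) h]
theorem vol_pos (hs : ∀ x ∈ s, 0 < x) (a b : ℕ) : 0 < vol s a b :=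
  List.prod_pos fun x hx => hs x (List.mem_of_mem_take (List.mem_of_mem_drop hx))
theorem ax_pos (hs : ∀ x ∈ s, 0 < x) (t : ℕ) : 0 < ax s t := by
  rw [← vol_succ]; exact vol_pos hs _ _
theorem vol_take {a b c : ℕ} (s : List ℕ) (h : b ≤ c) : vol (s.take c) a b = vol s a b := by
  unfold vol
  rw [List.take_take, min_eq_left h]
theorem vol_drop (s : List ℕ) (a k : ℕ) : vol (s.drop a) 0 k = vol s a (a + k) := by
  unfold vol
  rw [List.drop_zero, List.take_drop]
theorem vol_three {t : ℕ} (ht : t < s.length) :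
    vol s 0 t * ax s t * vol s (t + 1) s.length = s.prod := by
  rw [← vol_succ, vol_mul s (Nat.zero_le _) (Nat.le_succ t), vol_mul s (Nat.zero_le _) ht,
    vol_zero_length]
theorem vol_five {t t' : ℕ} (htt : t < t') (ht : t' < s.length) :
    vol s 0 t * ax s t * vol s (t + 1) t' * ax s t' * vol s (t' + 1) s.length = s.prod := by
  rw [← vol_succ s t, vol_mul s (Nat.zero_le _) (Nat.le_succ t), vol_mul s (Nat.zero_le _) htt,
    vol_three ht]

theorem posN_congr {ι ι' : ℕ → ℕ} {n : ℕ} (h : ∀ t < n, ι t = ι' t) :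
    posN s ι n = posN s ι' n := by
  induction n with
  | zero => rfl
  | succ n ih => rw [posN, posN, ih fun t ht => h t (by omega), h n (by omega)]
theorem posN_take {ι : ℕ → ℕ} {n b : ℕ} (s : List ℕ) (h : n ≤ b) :
    posN (s.take b) ι n = posN s ι n := by
  induction n with
  | zero => rfl
  | succ n ih => rw [posN, posN, ih (by omega), ax_take s h]
theorem posN_add (s : List ℕ) (ι : ℕ → ℕ) (a k : ℕ) :
    posN s ι (a + k) = posN s ι a * vol s a (a + k) + posN (s.drop a) (fun u => ι (u + a)) k := by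
  induction k with
  | zero => simp [posN, vol_self]
  | succ k ih =>
    rw [← add_assoc, posN, posN, ih, vol_succ_right s (Nat.le_add_right a k), ax_drop,
      Nat.add_comm k a]
    ring
theorem posN_lt {ι : ℕ → ℕ} {n : ℕ} (h : ∀ t < n, ι t < ax s t) : posN s ι n < vol s 0 n := by
  induction n with
  | zero => simp [posN, vol_self]
  | succ n ih =>
    rw [posN, vol_succ_right s (Nat.zero_le n)]
    have h1 := ih fun t ht => h t (by omega)
    have h2 := h n (by omega)
    calc posN s ι n * ax s n + ι n < posN s ι n * ax s n + ax s n := by omega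
      _ = (posN s ι n + 1) * ax s n := by ring
      _ ≤ _ := Nat.mul_le_mul_right _ h1
theorem posN_dig (s : List ℕ) (j : ℕ) {n : ℕ} (hn : n ≤ s.length) :
    posN s (dig s j) n = j / vol s n s.length % vol s 0 n := by
  induction n with
  | zero => simp [posN, vol_self, Nat.mod_one]
  | succ n ih =>
    rw [posN, ih (by omega), vol_succ_right s (Nat.zero_le n), vol_succ_left s hn, dig,
      mul_comm (vol s 0 n), Nat.mod_mul, mul_comm (ax s n) (vol s (n + 1) s.length),
      ← Nat.div_div_eq_div_mul]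
    ring
theorem pos_take {t : ℕ} (ht : t ≤ s.length) (ι : ℕ → ℕ) : pos (s.take t) ι = posN s ι t := by
  rw [pos, List.length_take, min_eq_left ht, posN_take s le_rfl]
/-- splitting a position at an axis -/
theorem pos_split {a : ℕ} (ha : a ≤ s.length) (ι : ℕ → ℕ) :
    pos s ι = posN s ι a * vol s a s.length + pos (s.drop a) (fun u => ι (u + a)) := by
  have h := posN_add s ι a (s.length - a)
  rw [Nat.add_sub_cancel' ha] at h
  rw [pos, h, pos, List.length_drop]
theorem Valid.drop {ι : ℕ → ℕ} (h : Valid s ι) (a : ℕ) : Valid (s.drop a) fun u => ι (u + a) :=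
  fun u => by rw [ax_drop]; exact h _
theorem prod_drop (s : List ℕ) (a : ℕ) : (s.drop a).prod = vol s a s.length := by simp [vol]
theorem dm_div {q L l : ℕ} (h : l < L) : (q * L + l) / L = q := by
  rw [add_comm, Nat.add_mul_div_right _ _ (by omega), Nat.div_eq_of_lt h, zero_add]
theorem dm_mod {q L l : ℕ} (h : l < L) : (q * L + l) % L = l := by
  rw [add_comm, Nat.add_mul_mod_self_right, Nat.mod_eq_of_lt h]

theorem valid_dig (hs : ∀ x ∈ s, 0 < x) (j : ℕ) : Valid s (dig s j) :=
  fun t => Nat.mod_lt _ (ax_pos hs t)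
theorem pos_dig (hs : ∀ x ∈ s, 0 < x) {j : ℕ} (hj : j < s.prod) : pos s (dig s j) = j := by
  have _ := hs
  rw [pos, posN_dig s j le_rfl, vol_self, Nat.div_one, vol_zero_length, Nat.mod_eq_of_lt hj]
theorem pos_lt {ι : ℕ → ℕ} (h : Valid s ι) : pos s ι < s.prod := by
  rw [← vol_zero_length]; exact posN_lt fun t _ => h t
theorem dig_pos {ι : ℕ → ℕ} (h : Valid s ι) : dig s (pos s ι) = ι := by
  funext t
  rcases lt_or_ge t s.length with ht | ht
  · have h1 := pos_lt (h.drop (t + 1))
    rw [prod_drop] at h1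
    rw [dig, pos_split (a := t + 1) ht, dm_div h1, posN, dm_mod (h t)]
  · have h1 := h t
    rw [ax_of_le ht] at h1
    rw [dig, ax_of_le ht, Nat.mod_one]
    omega
theorem pos_congr {ι ι' : ℕ → ℕ} (h : ∀ t < s.length, ι t = ι' t) : pos s ι = pos s ι' :=
  posN_congr h
@[simp] theorem length_gathS (σ : (ℕ → ℕ) → ℕ → ℕ) (a : List Bool) :
    (gathS s σ a).length = s.prod := length_bmk _ _
theorem bat_gathS (σ : (ℕ → ℕ) → ℕ → ℕ) (a : List Bool) {ι : ℕ → ℕ} (h : Valid s ι) :
    bat (gathS s σ a) (pos s ι) = bat a (pos s (σ ι)) := by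
  rw [gathS, bat_bmk _ (pos_lt h), dig_pos h]
theorem gathS_congr (hs : ∀ x ∈ s, 0 < x) {σ σ' : (ℕ → ℕ) → ℕ → ℕ} (a : List Bool)
    (h : ∀ ι, Valid s ι → σ ι = σ' ι) : gathS s σ a = gathS s σ' a :=
  bmk_congr fun j _ => by rw [h _ (valid_dig hs j)]
theorem gathS_gathS (hs : ∀ x ∈ s, 0 < x) {σ σ' : (ℕ → ℕ) → ℕ → ℕ} (a : List Bool)
    (h : ∀ ι, Valid s ι → Valid s (σ ι)) :
    gathS s σ (gathS s σ' a) = gathS s (fun ι => σ' (σ ι)) a :=
  bmk_congr fun j _ => bat_gathS σ' a (h _ (valid_dig hs j))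
theorem gathS_id (hs : ∀ x ∈ s, 0 < x) {a : List Bool} (ha : a.length = s.prod) :
    gathS s (fun ι => ι) a = a :=
  (bmk_congr fun j hj => by rw [pos_dig hs hj]).trans (bmk_bat ha)
/-- arrays of shape `s` are determined by their entries at valid indices -/
theorem arr_ext (hs : ∀ x ∈ s, 0 < x) {a b : List Bool} (ha : a.length = s.prod)
    (hb : b.length = s.prod) (h : ∀ ι, Valid s ι → bat a (pos s ι) = bat b (pos s ι)) : a = b := by
  rw [← bmk_bat ha, ← bmk_bat hb]
  refine bmk_congr fun j hj => ?_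
  have := h _ (valid_dig hs j)
  rwa [pos_dig hs hj] at this

/-- the position seen through three merged axes around `t` -/
theorem pos_three {t : ℕ} (ht : t < s.length) (ι : ℕ → ℕ) :
    pos s ι = (pos (s.take t) ι * ax s t + ι t) * vol s (t + 1) s.length
      + pos (s.drop (t + 1)) (fun u => ι (u + (t + 1))) := by
  rw [pos_split (a := t + 1) ht, posN, pos_take ht.le]

/-- the position seen through five merged axes around `t < t'` -/
theorem pos_five {t t' : ℕ} (htt : t < t') (ht : t' < s.length) (ι : ℕ → ℕ) :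
    pos s ι = (((pos (s.take t) ι * ax s t + ι t) * vol s (t + 1) t'
      + pos ((s.take t').drop (t + 1)) (fun u => ι (u + (t + 1)))) * ax s t' + ι t')
        * vol s (t' + 1) s.length + pos (s.drop (t' + 1)) (fun u => ι (u + (t' + 1))) := by
  have hl : (s.take t').length = t' := by rw [List.length_take, min_eq_left ht.le]
  rw [pos_three ht, pos_three (s := s.take t') (t := t) (by omega), hl, List.take_take,
    min_eq_left htt.le, ax_take s htt, vol_take s le_rfl]

theorem pos_update_dig (hs : ∀ x ∈ s, 0 < x) {t : ℕ} (ht : t < s.length) {j : ℕ}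
    (hj : j < s.prod) (v : ℕ) : pos s (update (dig s j) t v) =
      (j / (ax s t * vol s (t + 1) s.length) * ax s t + v) * vol s (t + 1) s.length
        + j % vol s (t + 1) s.length := by
  have hv := valid_dig hs j
  have h1 := pos_lt (hv.drop (t + 1))
  rw [prod_drop] at h1
  have h0 := pos_three ht (dig s j)
  rw [pos_dig hs hj] at h0
  have e1 : j % vol s (t + 1) s.length = pos (s.drop (t + 1)) fun u => dig s j (u + (t + 1)) := by
    conv_lhs => rw [h0]
    exact dm_mod h1
  have e2 : j / (ax s t * vol s (t + 1) s.length) = pos (s.take t) (dig s j) := by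
    rw [mul_comm, ← Nat.div_div_eq_div_mul]
    conv_lhs => rw [h0]
    rw [dm_div h1, dm_div (hv t)]
  rw [pos_three ht, e1, e2, update_self]
  congr 3
  · congr 1
    refine pos_congr fun u hu => update_of_ne ?_ _ _
    rw [List.length_take] at hu
    omega
  · funext u
    exact update_of_ne (by omega) _ _

theorem hiD_dig {t : ℕ} (ht : t < s.length) (j : ℕ) :
    hiD t (dig s j) = hiD t (dig (s.take t) (j / (ax s t * vol s (t + 1) s.length))) := by
  refine List.map_congr_left fun u hu => ?_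
  rw [List.mem_range] at hu
  rw [dig, dig, List.length_take, min_eq_left ht.le, ax_take s hu, vol_take s le_rfl,
    Nat.div_div_eq_div_mul, ← vol_succ_left s ht, mul_comm, vol_mul s hu ht.le]

theorem gathS_shI (hs : ∀ x ∈ s, 0 < x) {t : ℕ} (ht : t < s.length) (G : List ℕ → ℕ)
    (a : List Bool) : gathS s (shI s t G) a =
      rotA (vol s 0 t) (ax s t) (vol s (t + 1) s.length)
        (fun r => G (hiD t (dig (s.take t) r))) a := by
  rw [gathS, rotA, vol_three ht]
  refine bmk_congr fun j hj => ?_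
  rw [shI, pos_update_dig hs ht hj, hiD_dig ht]
  rfl
theorem gathS_axI (hs : ∀ x ∈ s, 0 < x) {t : ℕ} (ht : t < s.length) (g : ℕ → ℕ) (a : List Bool) :
    gathS s (axI t g) a = axA (vol s 0 t) (ax s t) (vol s (t + 1) s.length) g a := by
  rw [gathS, axA, vol_three ht]
  refine bmk_congr fun j hj => ?_
  rw [axI, pos_update_dig hs ht hj]
  rfl
theorem five_digits {h x u y l N M L j : ℕ} (hx : x < N) (hu : u < M) (hy : y < N) (hl : l < L)
    (hj : j = (((h * N + x) * M + u) * N + y) * L + l) :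
    j / (N * M * N * L) = h ∧ j / L % N = y ∧ j / (N * L) % M = u ∧ j / (M * N * L) % N = x ∧
      j % L = l := by
  have e1 : j / L = ((h * N + x) * M + u) * N + y := by rw [hj, dm_div hl]
  have e2 : j / (N * L) = (h * N + x) * M + u := by
    rw [mul_comm, ← Nat.div_div_eq_div_mul, e1, dm_div hy]
  have e3 : j / (M * N * L) = h * N + x := by
    rw [mul_assoc, mul_comm, ← Nat.div_div_eq_div_mul, e2, dm_div hu]
  refine ⟨?_, by rw [e1, dm_mod hy], by rw [e2, dm_mod hu], by rw [e3, dm_mod hx],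
    by rw [hj, dm_mod hl]⟩
  rw [show N * M * N * L = M * N * L * N by ring, ← Nat.div_div_eq_div_mul, e3, dm_div hx]
theorem gathS_swI (hs : ∀ x ∈ s, 0 < x) {t t' : ℕ} (htt : t < t') (ht : t' < s.length)
    (he : ax s t = ax s t') (a : List Bool) : gathS s (swI t t') a =
      swapA (vol s 0 t) (ax s t) (vol s (t + 1) t') (vol s (t' + 1) s.length) a := by
  have hp := vol_five htt ht
  rw [← he] at hp
  rw [gathS, swapA, hp]
  refine bmk_congr fun j hj => ?_
  have hv := valid_dig hs j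
  have h0 := pos_five htt ht (dig s j)
  rw [pos_dig hs hj, ← he] at h0
  have h1 := pos_lt (hv.drop (t' + 1))
  rw [prod_drop] at h1
  have hl : ((s.take t').drop (t + 1)).length = t' - (t + 1) := by
    rw [List.length_drop, List.length_take, min_eq_left ht.le]
  have h2 : (pos ((s.take t').drop (t + 1)) fun u => dig s j (u + (t + 1))) < vol s (t + 1) t' := by
    have e : vol s (t + 1) t' = vol ((s.take t').drop (t + 1)) 0
        ((s.take t').drop (t + 1)).length := by rw [vol_zero_length, vol]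
    rw [e]
    refine posN_lt fun u hu => ?_
    rw [hl] at hu
    rw [ax_drop, ax_take s (by omega)]
    exact hv _
  obtain ⟨e1, e2, e3, e4, e5⟩ := five_digits (hv t) h2 (he ▸ hv t') h1 h0
  rw [e1, e2, e3, e4, e5, pos_five htt ht, ← he]
  have c1 : pos (s.take t) (swI t t' (dig s j)) = pos (s.take t) (dig s j) :=
    pos_congr fun u hu => by
      rw [List.length_take] at hu
      rw [swI, Equiv.swap_apply_of_ne_of_ne (by omega) (by omega)]
  have c2 : (pos ((s.take t').drop (t + 1)) fun u => swI t t' (dig s j) (u + (t + 1))) =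
      pos ((s.take t').drop (t + 1)) fun u => dig s j (u + (t + 1)) :=
    pos_congr fun u hu => by
      rw [hl] at hu
      rw [swI, Equiv.swap_apply_of_ne_of_ne (by omega) (by omega)]
  have c3 : (pos (s.drop (t' + 1)) fun u => swI t t' (dig s j) (u + (t' + 1))) =
      pos (s.drop (t' + 1)) fun u => dig s j (u + (t' + 1)) :=
    pos_congr fun u _ => by
      rw [swI, Equiv.swap_apply_of_ne_of_ne (by omega) (by omega)]
  rw [c1, c2, c3, swI, swI, Equiv.swap_apply_left, Equiv.swap_apply_right]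

end

@[fun_prop] theorem Poly.ax {α : Type} [Enc α] {s : α → List ℕ} {t : α → ℕ} (hs : Poly s)
    (ht : Poly t) : Poly (fun a => ax (s a) (t a)) := Poly.getD ht hs (Poly.const 1)
@[fun_prop] theorem Poly.vol {α : Type} [Enc α] {s : α → List ℕ} {t u : α → ℕ} (hs : Poly s)
    (ht : Poly t) (hu : Poly u) : Poly (fun a => vol (s a) (t a) (u a)) :=
  Poly.prod (Poly.drop ht (Poly.take hu hs))
@[fun_prop] theorem Poly.hiD_dig {α : Type} [Enc α] {s : α → List ℕ} {j : α → ℕ} (hs : Poly s)
    (hj : Poly j) (t : ℕ) : Poly (fun a => hiD t (dig (s a) (j a))) := by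
  have h1 : Poly fun p : α × ℕ => s p.1 := hs.comp (Poly.fst Poly.id)
  have h2 : Poly fun p : α × ℕ => j p.1 := hj.comp (Poly.fst Poly.id)
  exact Poly.map (g := fun a u => dig (s a) (j a) u) (l := fun _ => List.range t)
    (Poly.mod (Poly.div h2 (Poly.vol h1 (Poly.add (Poly.snd Poly.id) (Poly.const 1))
      (Poly.length h1))) (Poly.ax h1 (Poly.snd Poly.id))) (Poly.const _)
theorem OkS.sz_le {n : ℕ} {s : List ℕ} {a : List Bool} (h : OkS n s a) :
    sz s ≤ (3 * n + 1) * lg a.length := by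
  obtain ⟨h1, h2, h3⟩ := h
  have h4 : ∀ x ∈ s, sz x ≤ 2 * lg a.length := fun x hx =>
    sz_nat_le_lg (h3 ▸ Nat.le_of_dvd (List.prod_pos h2) (List.dvd_prod hx))
  have h5 := sz_list_le h4
  have h6 := one_le_lg a.length
  rw [h1] at h5
  nlinarith

namespace Ax

variable {ι : Type} {pre : World → ι → Prop} {σ : ι → ℝ}

/-- a datum of polylogarithmic size: all powers of its size are affordable -/
theorem le_pow {α : Type} [Enc α] {f : ι → α} {m : ι → ℕ} (c e' : ℕ)
    (hf : ∀ w i, pre w i → sz (f i) ≤ c * lg (m i) ^ e')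
    (hσ : ∀ w i, pre w i → (Ex (m i) : ℝ) ≤ σ i) (e : ℕ) :
    Le pre (fun i => ((sz (f i) : ℝ) + 1) ^ e) σ := by
  obtain ⟨K, hK⟩ := poly_lg_le_Ex (c + 1) e e'
  refine Le.of_le_mul K (Nat.cast_nonneg K) fun w i hi => ?_
  have h1 : (sz (f i) + 1) ^ e ≤ K * Ex (m i) := by
    refine le_trans (Nat.pow_le_pow_left ?_ e) (hK (m i))
    have := hf w i hi
    nlinarith [Nat.zero_le (lg (m i) ^ e')]
  have h2 : ((sz (f i) : ℝ) + 1) ^ e ≤ K * (Ex (m i) : ℝ) := by exact_mod_cast h1
  exact h2.trans (mul_le_mul_of_nonneg_left (hσ w i hi) (Nat.cast_nonneg K))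

theorem le_sz {α : Type} [Enc α] {f : ι → α} {m : ι → ℕ} (c e' : ℕ)
    (hf : ∀ w i, pre w i → sz (f i) ≤ c * lg (m i) ^ e')
    (hσ : ∀ w i, pre w i → (Ex (m i) : ℝ) ≤ σ i) : Le pre (fun i => (sz (f i) : ℝ)) σ :=
  Le.trans (Le.of_le fun _ _ _ => by simp) (le_pow c e' hf hσ 1)

theorem le_sz_pair {α β : Type} [Enc α] [Enc β] {f : ι → α} {g : ι → β}
    (hf : Le pre (fun i => (sz (f i) : ℝ)) σ) (hg : Le pre (fun i => (sz (g i) : ℝ)) σ) :
    Le pre (fun i => (sz (f i, g i) : ℝ)) σ :=
  Le.trans (Le.of_le fun _ _ _ => by simp) ((hf.add hg).add (hf.const_of_sz 1))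

theorem le_sz_bits {a : ι → List Bool} (h1 : ∀ w i, pre w i → ((a i).length : ℝ) + 1 ≤ σ i) :
    Le pre (fun i => (sz (a i) : ℝ)) σ :=
  Le.of_le_mul 2 (by norm_num) fun w i hi => by
    have := h1 w i hi
    rw [sz_bits]
    push_cast
    linarith

theorem one_le_Ex (n : ℕ) : (1 : ℝ) ≤ Ex n := by
  have := two_le_Ex n
  exact_mod_cast (by omega : 1 ≤ Ex n)

/-- the cost of the routines on a shape and an array -/
abbrev cst (x : List ℕ × List Bool) : ℝ := (x.2.length : ℝ) + Ex x.2.length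

theorem shape_sz {n : ℕ} {P : List ℕ × List Bool → Prop} (hP : ∀ x, P x → OkS n x.1 x.2) :
    ∀ (_ : World) (x : List ℕ × List Bool), P x → sz x.1 ≤ (3 * n + 1) * lg x.2.length ^ 1 :=
  fun _ x hx => by rw [pow_one]; exact (hP x hx).sz_le

theorem ex_le {P : List ℕ × List Bool → Prop} :
    ∀ (_ : World) (x : List ℕ × List Bool), P x → (Ex x.2.length : ℝ) ≤ cst x :=
  fun _ _ _ => le_add_of_nonneg_left (Nat.cast_nonneg _)

theorem l0_input {n : ℕ} {P : List ℕ × List Bool → Prop} (hP : ∀ x, P x → OkS n x.1 x.2) :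
    L0 (fun _ x => P x) (fun x => x) cst (fun x => x) :=
  L0.input (le_sz_pair (f := fun x : List ℕ × List Bool => x.1) (g := fun x => x.2)
    (le_sz _ _ (shape_sz hP) ex_le)
    (le_sz_bits fun _ x _ => by have := one_le_Ex x.2.length; unfold cst; linarith))

theorem l0_shape {n : ℕ} {P : List ℕ × List Bool → Prop} (hP : ∀ x, P x → OkS n x.1 x.2)
    {β : Type} [Enc β] {g : List ℕ → β} (hg : Poly g) :
    L0 (fun _ x => P x) (fun x => x) cst (fun x => g x.1) :=
  L0.poly hg (L0.lin (Lin.fst Lin.id) (l0_input hP)) (le_pow _ _ (shape_sz hP) ex_le)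

theorem l0_three {n : ℕ} {P : List ℕ × List Bool → Prop} (hP : ∀ x, P x → OkS n x.1 x.2) (t : ℕ) :
    L0 (fun _ x => P x) (fun x => x) cst
      (fun x => (vol x.1 0 t, ax x.1 t, vol x.1 (t + 1) x.1.length, x.2)) :=
  (l0_shape hP (g := fun s => vol s 0 t) (by fun_prop)).pair
    ((l0_shape hP (g := fun s => ax s t) (by fun_prop)).pair
      ((l0_shape hP (g := fun s => vol s (t + 1) s.length) (by fun_prop)).pair
        (L0.lin (Lin.snd Lin.id) (l0_input hP))))

end Ax

theorem ok3_of_okS {n t : ℕ} {s : List ℕ} {a : List Bool} (h : OkS n s a) (ht : t < n) :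
    Ok3 (vol s 0 t, ax s t, vol s (t + 1) s.length, a) :=
  ⟨vol_pos h.2.1 _ _, ax_pos h.2.1 _, vol_pos h.2.1 _ _,
    h.2.2.trans (vol_three (h.1 ▸ ht)).symm⟩

open Ax in
/-- shear of axis `t` by a polynomial-time function of a small parameter and the higher digits;
input `(P, s, a)` -/
theorem sub_shS {π : Type} [Enc π] {g : π × List ℕ → ℕ} (hg : Poly g) (n t c e : ℕ) (ht : t < n) :
    Sub (fun x : π × List ℕ × List Bool => OkS n x.2.1 x.2.2 ∧ sz x.1 ≤ c * lg x.2.2.length ^ e)
      (fun x => gathS x.2.1 (shI x.2.1 t fun ds => g (x.1, ds)) x.2.2)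
      (fun x => (x.2.2.length : ℝ) + vol x.2.1 0 t * Ex x.2.2.length) := by
  set P : π × List ℕ × List Bool → Prop :=
    fun x => OkS n x.2.1 x.2.2 ∧ sz x.1 ≤ c * lg x.2.2.length ^ e with hPdef
  set τ : π × List ℕ × List Bool → ℝ :=
    fun x => (x.2.2.length : ℝ) + vol x.2.1 0 t * Ex x.2.2.length with hτdef
  have hv : ∀ x, P x → (Ex x.2.2.length : ℝ) ≤ vol x.2.1 0 t * Ex x.2.2.length := fun x hx => by
    have h1 : (1 : ℝ) ≤ vol x.2.1 0 t := by exact_mod_cast vol_pos hx.1.2.1 0 t
    exact le_mul_of_one_le_left (Nat.cast_nonneg _) h1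
  have hex : ∀ (_ : World) x, P x → (Ex x.2.2.length : ℝ) ≤ τ x := fun _ x hx =>
    (hv x hx).trans (le_add_of_nonneg_left (Nat.cast_nonneg _))
  have hs : ∀ (_ : World) x, P x → sz x.2.1 ≤ (3 * n + 1) * lg x.2.2.length ^ 1 :=
    fun _ x hx => by rw [pow_one]; exact hx.1.sz_le
  have hin : L0 (fun _ x => P x) (fun x => x) τ (fun x => x) :=
    L0.input (le_sz_pair (f := fun x : π × List ℕ × List Bool => x.1) (g := fun x => x.2)
      (le_sz c e (fun _ _ hx => hx.2) hex)
      (le_sz_pair (f := fun x : π × List ℕ × List Bool => x.2.1) (g := fun x => x.2.2)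
        (le_sz _ _ hs hex) (le_sz_bits fun _ x hx => by
          have h1 := one_le_Ex x.2.2.length
          have h2 := hv x hx
          simp only [hτdef]
          linarith)))
  have hsh : L0 (fun _ x => P x) (fun x => x) τ (fun x => x.2.1) :=
    L0.lin (g := fun x : π × List ℕ × List Bool => x.2.1) (Lin.fst (Lin.snd Lin.id)) hin
  have hpoly : ∀ {g : List ℕ → ℕ}, Poly g → L0 (fun _ x => P x) (fun x => x) τ (fun x => g x.2.1) :=
    fun hg => L0.poly hg hsh (le_pow _ _ hs hex)
  have harg : L0 (fun _ x => P x) (fun x => x) τ (fun x => ((x.1, x.2.1), vol x.2.1 0 t,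
      ax x.2.1 t, vol x.2.1 (t + 1) x.2.1.length, x.2.2)) :=
    ((L0.lin (g := fun x : π × List ℕ × List Bool => x.1) (Lin.fst Lin.id) hin).pair hsh).pair
      ((hpoly (g := fun s => vol s 0 t) (by fun_prop)).pair
        ((hpoly (g := fun s => ax s t) (by fun_prop)).pair
          ((hpoly (g := fun s => vol s (t + 1) s.length) (by fun_prop)).pair
            (L0.lin (g := fun x : π × List ℕ × List Bool => x.2.2) (Lin.snd (Lin.snd Lin.id)) hin))))
  have hg' : Poly fun p : (π × List ℕ) × ℕ => g (p.1.1, hiD t (dig (p.1.2.take t) p.2)) :=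
    hg.comp (Poly.pair (Poly.fst (Poly.fst Poly.id)) (Poly.hiD_dig
      (Poly.take (Poly.const t) (Poly.snd (Poly.fst Poly.id))) (Poly.snd Poly.id) t))
  refine (L0.sub (sub_rotA hg' (c + (3 * n + 1) + 1) (e + 1)) harg (fun w x hx => ?_)
    Le.refl).toSub.congr fun x hx => gathS_shI hx.1.2.1 (hx.1.1 ▸ ht) _ _
  obtain ⟨h1, h2, h3, h4⟩ := ok3_of_okS hx.1 ht
  refine ⟨h1, h2, h3, h4, ?_⟩
  have h5 := hs w x hx
  have h6 := hx.2
  have h7 := one_le_lg x.2.2.length
  have h8 : lg x.2.2.length ^ e ≤ lg x.2.2.length ^ (e + 1) := Nat.pow_le_pow_right h7 (by omega)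
  have h9 : lg x.2.2.length ^ 1 ≤ lg x.2.2.length ^ (e + 1) := Nat.pow_le_pow_right h7 (by omega)
  have h10 : 1 ≤ lg x.2.2.length ^ (e + 1) := Nat.one_le_pow _ _ h7
  have h11 := Nat.mul_le_mul_left c h8
  have h12 := Nat.mul_le_mul_left (3 * n + 1) h9
  show sz x.1 + sz x.2.1 + 1 ≤ (c + (3 * n + 1) + 1) * lg x.2.2.length ^ (e + 1)
  rw [add_mul, add_mul]
  omega
open Ax in
theorem sub_negS (n t : ℕ) (ht : t < n) :
    Sub (fun x : List ℕ × List Bool => OkS n x.1 x.2)
      (fun x => gathS x.1 (axI t fun y => (ax x.1 t - y) % ax x.1 t) x.2)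
      (fun x => (x.2.length : ℝ) + Ex x.2.length) :=
  (L0.sub sub_negA (l0_three (fun _ h => h) t) (fun _ _ hx => ok3_of_okS hx ht)
    Le.refl).toSub.congr fun _ hx => gathS_axI hx.2.1 (hx.1 ▸ ht) _ _
open Ax in
theorem sub_scaleS (n t c : ℕ) (ht : t < n) :
    Sub (fun x : List ℕ × List Bool => OkS n x.1 x.2)
      (fun x => gathS x.1 (axI t fun y => c * y % ax x.1 t) x.2)
      (fun x => (x.2.length : ℝ) + Ex x.2.length) :=
  (L0.sub (sub_scaleA c) (l0_three (fun _ h => h) t) (fun _ _ hx => ok3_of_okS hx ht)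
    Le.refl).toSub.congr fun _ hx => gathS_axI hx.2.1 (hx.1 ▸ ht) _ _
open Ax in
theorem sub_unscaleS (n t c : ℕ) (ht : t < n) :
    Sub (fun x : List ℕ × List Bool => OkS n x.1 x.2 ∧ Nat.Coprime c (ax x.1 t))
      (fun x => gathS x.1 (axI t fun y =>
        (((c : ZMod (ax x.1 t))⁻¹ * (y : ZMod (ax x.1 t))).val)) x.2)
      (fun x => (x.2.length : ℝ) + Ex x.2.length) :=
  (L0.sub (sub_unscaleA c) (l0_three (fun _ h => h.1) t)
    (fun _ _ hx => ⟨ok3_of_okS hx.1 ht, hx.2⟩)
    Le.refl).toSub.congr fun _ hx => gathS_axI hx.1.2.1 (hx.1.1 ▸ ht) _ _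
open Ax in
/-- the arguments `(H, N, M, L, a)` of a five-axis routine acting on the axes `t < t'` -/
theorem sub_five (n t t' : ℕ) :
    Sub (fun x : List ℕ × List Bool => OkS n x.1 x.2)
      (fun x => (vol x.1 0 t, ax x.1 t, vol x.1 (t + 1) t', vol x.1 (t' + 1) x.1.length, x.2))
      (fun x => (x.2.length : ℝ) + Ex x.2.length) :=
  ((l0_shape (fun _ h => h) (g := fun s => vol s 0 t) (by fun_prop)).pair
    ((l0_shape (fun _ h => h) (g := fun s => ax s t) (by fun_prop)).pair
      ((l0_shape (fun _ h => h) (g := fun s => vol s (t + 1) t') (by fun_prop)).pair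
        ((l0_shape (fun _ h => h) (g := fun s => vol s (t' + 1) s.length) (by fun_prop)).pair
          (L0.lin (Lin.snd Lin.id) (l0_input fun _ h => h)))))).toSub
theorem ok5_of_okS {n t t' : ℕ} {s : List ℕ} {a : List Bool} (h : OkS n s a) (htt : t < t')
    (ht : t' < n) (he : ax s t = ax s t') :
    Ok5 (vol s 0 t, ax s t, vol s (t + 1) t', vol s (t' + 1) s.length, a) := by
  have hp := vol_five htt (h.1 ▸ ht : t' < s.length)
  rw [← he] at hp
  exact ⟨vol_pos h.2.1 _ _, ax_pos h.2.1 _, vol_pos h.2.1 _ _, vol_pos h.2.1 _ _,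
    h.2.2.trans hp.symm⟩

end Crest.Agent.R326
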