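import Crest.Agent.R326.Poly

/-! Row 326: polynomial-time arithmetic on integers and Gaussian integers, modular inverses. -/

set_option autoImplicit false

namespace Crest.Agent.R326

variable {α β : Type} [Enc α] [Enc β]

/-- the inverse of `a` modulo `n` -/
def invMod (a n : ℕ) : ℕ := ((a : ZMod n)⁻¹).val

theorem invMod_lt (a : ℕ) {n : ℕ} (hn : 0 < n) : invMod a n < n := by
  have : NeZero n := ⟨hn.ne'⟩
  exact ZMod.val_lt _
theorem mul_invMod {a n : ℕ} (h : Nat.Coprime a n) : a * invMod a n ≡ 1 [MOD n] := by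
  rw [← ZMod.natCast_eq_natCast_iff]
  push_cast
  exact ZMod.mul_val_inv h

namespace PI

/-- one step of the extended Euclidean algorithm, the cofactors being kept modulo `n` -/
def estep (n : ℕ) (t : (ℕ × ℕ) × ℕ × ℕ) : (ℕ × ℕ) × ℕ × ℕ :=
  cond (decide (t.1.2 = 0)) t
    ((t.1.2, t.1.1 % t.1.2), t.2.2, (t.2.1 + (n - t.1.1 / t.1.2 * t.2.2 % n)) % n)

def EI (a n k : ℕ) (t : (ℕ × ℕ) × ℕ × ℕ) : Prop :=
  t.1.2 < t.1.1 ∧ t.1.1 ≤ n ∧ t.2.1 < n ∧ t.2.2 < n ∧ Nat.gcd t.1.2 t.1.1 = Nat.gcd a n ∧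
    (t.1.1 : ZMod n) = t.2.1 * a ∧ (t.1.2 : ZMod n) = t.2.2 * a ∧ 2 ^ k * (t.1.1 * t.1.2) ≤ n * n

theorem EI.step {a n k : ℕ} {t : (ℕ × ℕ) × ℕ × ℕ} (h : EI a n k t) :
    EI a n (k + 1) (estep n t) := by
  obtain ⟨⟨r, r'⟩, s, s'⟩ := t
  obtain ⟨h1, h2, h3, h4, h5, h6, h7, h8⟩ := h
  simp only at h1 h2 h3 h4 h5 h6 h7 h8
  by_cases h0 : r' = 0
  · subst h0
    simp only [estep, decide_true, cond_true]
    exact ⟨h1, h2, h3, h4, h5, h6, h7, by simp⟩
  · have hn : 0 < n := by omega
    have hr' : 0 < r' := Nat.pos_of_ne_zero h0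
    simp only [estep, h0, decide_false, cond_false]
    refine ⟨Nat.mod_lt _ hr', by simp only; omega, h4, Nat.mod_lt _ hn, ?_, h7, ?_, ?_⟩
    · simp only
      rw [← h5, Nat.gcd_rec r' r]
    · simp only
      have e : (r : ZMod n) = (r' : ZMod n) * (r / r' : ℕ) + (r % r' : ℕ) := by
        rw [← Nat.cast_mul, ← Nat.cast_add, Nat.div_add_mod]
      rw [ZMod.natCast_mod, Nat.cast_add, Nat.cast_sub (Nat.mod_lt _ hn).le, ZMod.natCast_mod,
        ZMod.natCast_self, Nat.cast_mul]
      rw [h6, h7] at e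
      linear_combination -e
    · simp only
      have h9 : 2 * (r % r') ≤ r := by
        have e := Nat.div_add_mod r r'
        have e1 : 1 ≤ r / r' := (Nat.one_le_div_iff hr').2 h1.le
        have e2 := Nat.mod_lt r hr'
        have e3 : r' ≤ r' * (r / r') := Nat.le_mul_of_pos_right _ e1
        omega
      calc 2 ^ (k + 1) * (r' * (r % r')) = 2 ^ k * ((2 * (r % r')) * r') := by ring
        _ ≤ 2 ^ k * (r * r') := Nat.mul_le_mul_left _ (Nat.mul_le_mul_right _ h9)
        _ ≤ n * n := h8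

theorem EI.init (a : ℕ) {n : ℕ} (hn : 0 < n) : EI a n 0 ((n, a % n), 0, 1 % n) := by
  refine ⟨Nat.mod_lt _ hn, le_rfl, hn, Nat.mod_lt _ hn, ?_, by simp, by simp, ?_⟩
  · simp only
    rw [← Nat.gcd_rec, Nat.gcd_comm]
  · simp only [pow_zero, one_mul]
    exact Nat.mul_le_mul_left _ (Nat.mod_lt _ hn).le

theorem EI.foldl {a n k : ℕ} {t : (ℕ × ℕ) × ℕ × ℕ} (h : EI a n k t) (u : List Unit) :
    EI a n (k + u.length) (u.foldl (fun t _ => estep n t) t) := by
  induction u generalizing k t with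
  | nil => simpa using h
  | cons x u ih =>
    have := ih h.step
    rw [List.foldl_cons, List.length_cons]
    convert this using 1
    omega

def fuel (n : ℕ) : List Unit := un n.size ++ un n.size ++ [()]

def erun (p : ℕ × ℕ) : (ℕ × ℕ) × ℕ × ℕ :=
  (fuel (p.2 + 1)).foldl (fun t _ => estep (p.2 + 1) t)
    ((p.2 + 1, p.1 % (p.2 + 1)), 0, 1 % (p.2 + 1))

theorem poly_erun : Poly erun := by
  have hn : Poly fun p : ℕ × ℕ => p.2 + 1 := Poly.id.snd.add (Poly.const 1)
  have hf : Poly fun q : (ℕ × ℕ) × ((ℕ × ℕ) × ℕ × ℕ) × Unit => estep (q.1.2 + 1) q.2.1 := by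
    have h0 : Poly fun q : (ℕ × ℕ) × ((ℕ × ℕ) × ℕ × ℕ) × Unit => q.1.2 + 1 :=
      Poly.id.fst.snd.add (Poly.const 1)
    have ht : Poly fun q : (ℕ × ℕ) × ((ℕ × ℕ) × ℕ × ℕ) × Unit => q.2.1 := Poly.id.snd.fst
    exact Poly.cond (ht.fst.snd.eq (Poly.const 0)) ht
      ((ht.fst.snd.pair (ht.fst.fst.mod ht.fst.snd)).pair (ht.snd.snd.pair
        ((ht.snd.fst.add (h0.sub (((ht.fst.fst.div ht.fst.snd).mul ht.snd.snd).mod h0))).mod h0)))
  refine Poly.foldl (f := fun (p : ℕ × ℕ) t (_ : Unit) => estep (p.2 + 1) t)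
    (s := fun p => ((p.2 + 1, p.1 % (p.2 + 1)), 0, 1 % (p.2 + 1))) (l := fun p => fuel (p.2 + 1))
    hf ((hn.pair (Poly.id.fst.mod hn)).pair ((Poly.const 0).pair ((Poly.const 1).mod hn)))
    ((hn.un_size.append hn.un_size).append (Poly.const [()])) 11 1 ?_
  rintro ⟨a, k⟩ m
  obtain ⟨h1, h2, h3, h4, -⟩ := (EI.init a (Nat.succ_pos k)).foldl ((fuel (k + 1)).take m)
  simp only [Nat.succ_eq_add_one] at h1 h2 h3 h4
  simp only
  generalize List.foldl _ _ _ = t at *
  obtain ⟨⟨r, r'⟩, s, s'⟩ := t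
  simp only at h1 h2 h3 h4
  have e1 : sz r ≤ sz (k + 1) := sz_nat_mono h2
  have e2 : sz r' ≤ sz k := sz_nat_mono (by omega)
  have e3 : sz s ≤ sz k := sz_nat_mono (by omega)
  have e4 : sz s' ≤ sz k := sz_nat_mono (by omega)
  have e5 : sz (k + 1) ≤ sz k + 2 := by
    have := size_add_le k 1
    rw [sz_nat, sz_nat]
    have h : (k + 1).size ≤ k.size + 1 := by
      rw [Nat.size_le, pow_succ]
      have := Nat.lt_size_self k
      omega
    omega
  simp only [sz_pair, pow_one]
  omega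

theorem erun_spec {a n : ℕ} (hn : 0 < n) (h : Nat.Coprime a n) :
    (erun (a, n - 1)).2.1 = invMod a n := by
  have e : n - 1 + 1 = n := by omega
  obtain ⟨h1, -, h3, -, h5, h6, -, h8⟩ := (EI.init a hn).foldl (fuel n)
  simp only [erun, e]
  generalize List.foldl _ _ _ = t at *
  obtain ⟨⟨r, r'⟩, s, s'⟩ := t
  simp only at h1 h3 h5 h6 h8 ⊢
  have hl : 0 + (fuel n).length = n.size + n.size + 1 := by simp [fuel, add_assoc]
  rw [hl] at h8
  have hr' : r' = 0 := by
    by_contra h0
    have p1 : 1 ≤ r * r' := Nat.mul_pos (by omega) (Nat.pos_of_ne_zero h0)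
    have p2 := Nat.lt_size_self n
    have p3 : n * n ≤ 2 ^ n.size * 2 ^ n.size := Nat.mul_le_mul p2.le p2.le
    have p4 : 2 ^ (n.size + n.size + 1) ≤ 2 ^ (n.size + n.size + 1) * (r * r') :=
      Nat.le_mul_of_pos_right _ p1
    have p5 : 0 < 2 ^ n.size * 2 ^ n.size := by positivity
    rw [pow_succ, pow_add] at p4 h8
    omega
  subst hr'
  rw [Nat.gcd_zero_left, h] at h5
  subst h5
  have h7 : ((a : ZMod n))⁻¹ = s := by
    apply ZMod.inv_eq_of_mul_eq_one
    rw [mul_comm, ← h6, Nat.cast_one]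
  rw [invMod, h7, ZMod.val_cast_of_lt h3]

end PI

/-- on coprime arguments a polynomial-time function computes the inverse -/
theorem exists_poly_invMod : ∃ f : ℕ × ℕ → ℕ, Poly f ∧
    ∀ a n, 0 < n → Nat.Coprime a n → f (a, n) = invMod a n :=
  ⟨fun p => (PI.erun (p.1, p.2 - 1)).2.1,
    (PI.poly_erun.comp (Poly.id.fst.pair (Poly.id.snd.sub (Poly.const 1)))).snd.fst,
    fun _ _ hn h => PI.erun_spec hn h⟩

theorem sz_int (z : ℤ) : sz z = 2 * z.natAbs.size + 3 := by
  have h : sz z = sz (decide (z < 0), z.natAbs) := rfl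
  rw [h, sz_pair, sz_bool, sz_nat]
  omega

theorem sz_gauss (z : GaussianInt) : sz z = sz z.re + sz z.im + 1 := rfl

/-! linear-time versions -/

theorem Lin.idec : Lin fun z : ℤ => (decide (z < 0), z.natAbs) := Lin.of_enc_eq fun _ => rfl

/-- the difference of two naturals as an integer -/
theorem Lin.idif {f g : α → ℕ} (hf : Lin f) (hg : Lin g) : Lin fun a => (f a : ℤ) - g a := by
  refine ((hf.lt hg).pair ((hf.sub hg).add (hg.sub hf))).congr_enc fun a => ?_
  have e1 : decide ((f a : ℤ) - g a < 0) = decide (f a < g a) := by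
    apply decide_eq_decide.2; omega
  have e2 : ((f a : ℤ) - g a).natAbs = f a - g a + (g a - f a) := by omega
  rw [← e1, ← e2]
  rfl

theorem Lin.ofNat {f : α → ℕ} (hf : Lin f) : Lin fun a => (f a : ℤ) :=
  (hf.idif (Lin.const 0)).congr' fun a => by simp
theorem Lin.natAbs {f : α → ℤ} (hf : Lin f) : Lin fun a => (f a).natAbs := (Lin.idec.comp hf).snd
theorem Lin.ineg? {f : α → ℤ} (hf : Lin f) : Lin fun a => decide (f a < 0) :=
  (Lin.idec.comp hf).fst
theorem Lin.itoNat {f : α → ℤ} (hf : Lin f) : Lin fun a => (f a).toNat := by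
  refine (Lin.cond hf.ineg? (Lin.const 0) hf.natAbs).congr' fun a => ?_
  by_cases h : f a < 0
  · simp only [h, decide_true, cond_true]; omega
  · simp only [h, decide_false, cond_false]; omega
theorem Lin.inegPart {f : α → ℤ} (hf : Lin f) : Lin fun a => (-f a).toNat := by
  refine (Lin.cond hf.ineg? hf.natAbs (Lin.const 0)).congr' fun a => ?_
  by_cases h : f a < 0
  · simp only [h, decide_true, cond_true]; omega
  · simp only [h, decide_false, cond_false]; omega
theorem Lin.ineg {f : α → ℤ} (hf : Lin f) : Lin fun a => -f a :=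
  (hf.inegPart.idif hf.itoNat).congr' fun a => by omega
theorem Lin.iadd {f g : α → ℤ} (hf : Lin f) (hg : Lin g) : Lin fun a => f a + g a :=
  ((hf.itoNat.add hg.itoNat).idif (hf.inegPart.add hg.inegPart)).congr' fun a => by omega
theorem Lin.isub {f g : α → ℤ} (hf : Lin f) (hg : Lin g) : Lin fun a => f a - g a :=
  (hf.iadd hg.ineg).congr' fun a => by omega
theorem Lin.ile {f g : α → ℤ} (hf : Lin f) (hg : Lin g) : Lin fun a => decide (f a ≤ g a) := by
  refine (Lin.not (hg.isub hf).ineg?).congr' fun a => ?_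
  by_cases h : f a ≤ g a
  · simp [h]
  · simp [h, not_le.mp h]
theorem Lin.gdec : Lin fun z : GaussianInt => (z.re, z.im) := Lin.of_enc_eq fun _ => rfl
theorem Lin.gre {f : α → GaussianInt} (hf : Lin f) : Lin fun a => (f a).re := (Lin.gdec.comp hf).fst
theorem Lin.gim {f : α → GaussianInt} (hf : Lin f) : Lin fun a => (f a).im := (Lin.gdec.comp hf).snd
theorem Lin.gmk {f g : α → ℤ} (hf : Lin f) (hg : Lin g) :
    Lin fun a => (⟨f a, g a⟩ : GaussianInt) := (hf.pair hg).congr_enc fun _ => rfl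
theorem Lin.gadd {f g : α → GaussianInt} (hf : Lin f) (hg : Lin g) : Lin fun a => f a + g a :=
  ((hf.gre.iadd hg.gre).gmk (hf.gim.iadd hg.gim)).congr' fun _ => by ext <;> simp
theorem Lin.gstar {f : α → GaussianInt} (hf : Lin f) : Lin fun a => star (f a) :=
  (hf.gre.gmk hf.gim.ineg).congr' fun _ => by ext <;> simp

theorem Poly.idif {f g : α → ℕ} (hf : Poly f) (hg : Poly g) : Poly fun a => (f a : ℤ) - g a :=
  (Lin.idif (Lin.fst Lin.id) (Lin.snd Lin.id)).poly.comp (hf.pair hg)
theorem Poly.inegPart {f : α → ℤ} (hf : Poly f) : Poly fun a => (-f a).toNat :=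
  (Lin.inegPart Lin.id).poly.comp hf

@[fun_prop] theorem Poly.ofNat {f : α → ℕ} (hf : Poly f) : Poly (fun a => (f a : ℤ)) :=
  (Lin.ofNat Lin.id).poly.comp hf
@[fun_prop] theorem Poly.natAbs {f : α → ℤ} (hf : Poly f) : Poly (fun a => (f a).natAbs) :=
  (Lin.natAbs Lin.id).poly.comp hf
@[fun_prop] theorem Poly.toNat {f : α → ℤ} (hf : Poly f) : Poly (fun a => (f a).toNat) :=
  (Lin.itoNat Lin.id).poly.comp hf
@[fun_prop] theorem Poly.ineg {f : α → ℤ} (hf : Poly f) : Poly (fun a => -f a) :=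
  (Lin.ineg Lin.id).poly.comp hf
@[fun_prop] theorem Poly.iadd {f g : α → ℤ} (hf : Poly f) (hg : Poly g) :
    Poly (fun a => f a + g a) :=
  (Lin.iadd (Lin.fst Lin.id) (Lin.snd Lin.id)).poly.comp (hf.pair hg)
@[fun_prop] theorem Poly.isub {f g : α → ℤ} (hf : Poly f) (hg : Poly g) :
    Poly (fun a => f a - g a) :=
  (Lin.isub (Lin.fst Lin.id) (Lin.snd Lin.id)).poly.comp (hf.pair hg)
@[fun_prop] theorem Poly.imul {f g : α → ℤ} (hf : Poly f) (hg : Poly g) :
    Poly (fun a => f a * g a) := by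
  refine (((hf.toNat.mul hg.toNat).add (hf.inegPart.mul hg.inegPart)).idif
    ((hf.toNat.mul hg.inegPart).add (hf.inegPart.mul hg.toNat))).congr fun a => ?_
  have e1 := Int.toNat_sub_toNat_neg (f a)
  have e2 := Int.toNat_sub_toNat_neg (g a)
  push_cast
  linear_combination (-(g a)) * e1 - (((f a).toNat : ℤ) - (-f a).toNat) * e2

theorem Poly.imod' {f g : α → ℤ} (hf : Poly f) (hg : Poly g) : Poly (fun a => f a % g a) := by
  have hm := hg.natAbs
  refine (Poly.cond (hm.eq (Poly.const 0)) hf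
    ((hf.toNat.add (hm.sub (hf.inegPart.mod hm))).mod hm).ofNat).congr fun a => ?_
  by_cases h : (g a).natAbs = 0
  · have h' : g a = 0 := by omega
    simp [h']
  · simp only [h, decide_false, cond_false]
    have hpos : 0 < (g a).natAbs := Nat.pos_of_ne_zero h
    have e1 := Int.toNat_sub_toNat_neg (f a)
    rw [Int.natCast_mod, Nat.cast_add, Nat.cast_sub (Nat.mod_lt _ hpos).le, Int.natCast_mod]
    have e0 : f a % g a = f a % ((g a).natAbs : ℤ) := by rw [Int.natCast_natAbs, Int.emod_abs]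
    rw [e0]
    generalize ((g a).natAbs : ℤ) = m
    generalize (((-f a).toNat : ℕ) : ℤ) = N at *
    have e2 := Int.emod_add_mul_ediv N m
    have e3 : ((f a).toNat : ℤ) + (m - N % m) = f a + m * (1 + N / m) := by
      linear_combination e1 - e2
    rw [e3, Int.add_mul_emod_self_left]

@[fun_prop] theorem Poly.idiv {f g : α → ℤ} (hf : Poly f) (hg : Poly g) :
    Poly (fun a => f a / g a) := by
  have hm := hg.natAbs.mul hg.natAbs
  have hy := (hf.isub (hf.imod' hg)).imul hg
  refine ((hy.toNat.div hm).idif (hy.inegPart.div hm)).congr fun a => ?_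
  by_cases h : g a = 0
  · simp [h]
  · have hpos : 0 < (g a).natAbs * (g a).natAbs := by
      have : 0 < (g a).natAbs := Int.natAbs_pos.2 h
      positivity
    have e1 := Int.emod_add_mul_ediv (f a) (g a)
    have e2 : (f a - f a % g a) * g a = f a / g a * ((g a).natAbs * (g a).natAbs : ℕ) := by
      rw [Nat.cast_mul, Int.natAbs_mul_self']
      linear_combination (-(g a)) * e1
    rw [e2]
    generalize (g a).natAbs * (g a).natAbs = M at *
    generalize f a / g a = q
    obtain ⟨k, rfl | rfl⟩ := Int.eq_nat_or_neg q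
    · have e3 : (-((k : ℤ) * M)).toNat = 0 := by
        have : (0 : ℤ) ≤ k * M := by positivity
        omega
      rw [e3, ← Nat.cast_mul, Int.toNat_natCast, Nat.mul_div_cancel _ hpos]
      simp
    · have e3 : (-(k : ℤ) * M).toNat = 0 := by
        have : (0 : ℤ) ≤ k * M := by positivity
        rw [neg_mul]
        omega
      rw [e3, neg_mul, neg_neg, ← Nat.cast_mul, Int.toNat_natCast, Nat.mul_div_cancel _ hpos]
      simp
@[fun_prop] theorem Poly.imod {f g : α → ℤ} (hf : Poly f) (hg : Poly g) :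
    Poly (fun a => f a % g a) := hf.imod' hg
@[fun_prop] theorem Poly.ile {f g : α → ℤ} (hf : Poly f) (hg : Poly g) :
    Poly (fun a => decide (f a ≤ g a)) :=
  (Lin.ile (Lin.fst Lin.id) (Lin.snd Lin.id)).poly.comp (hf.pair hg)
@[fun_prop] theorem Poly.gre {f : α → GaussianInt} (hf : Poly f) : Poly (fun a => (f a).re) :=
  (Lin.gre Lin.id).poly.comp hf
@[fun_prop] theorem Poly.gim {f : α → GaussianInt} (hf : Poly f) : Poly (fun a => (f a).im) :=
  (Lin.gim Lin.id).poly.comp hf
@[fun_prop] theorem Poly.gmk {f g : α → ℤ} (hf : Poly f) (hg : Poly g) :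
    Poly (fun a => (⟨f a, g a⟩ : GaussianInt)) :=
  (Lin.gmk (Lin.fst Lin.id) (Lin.snd Lin.id)).poly.comp (hf.pair hg)
@[fun_prop] theorem Poly.gadd {f g : α → GaussianInt} (hf : Poly f) (hg : Poly g) :
    Poly (fun a => f a + g a) :=
  (Lin.gadd (Lin.fst Lin.id) (Lin.snd Lin.id)).poly.comp (hf.pair hg)
@[fun_prop] theorem Poly.gmul {f g : α → GaussianInt} (hf : Poly f) (hg : Poly g) :
    Poly (fun a => f a * g a) := by
  refine (((hf.gre.imul hg.gre).isub (hf.gim.imul hg.gim)).gmk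
    ((hf.gre.imul hg.gim).iadd (hf.gim.imul hg.gre))).congr fun a => ?_
  ext
  · simp; ring
  · simp
@[fun_prop] theorem Poly.gstar {f : α → GaussianInt} (hf : Poly f) : Poly (fun a => star (f a)) :=
  (Lin.gstar Lin.id).poly.comp hf

namespace PI

/-- the `ℓ¹` norm -/
def n1 (z : GaussianInt) : ℕ := z.re.natAbs + z.im.natAbs

theorem n1_mul (z w : GaussianInt) : n1 (z * w) ≤ n1 z * n1 w := by
  have e1 : (z * w).re = z.re * w.re - z.im * w.im := by simp; ring
  have e2 : (z * w).im = z.re * w.im + z.im * w.re := by simp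
  have h1 := Int.natAbs_sub_le (z.re * w.re) (z.im * w.im)
  have h2 := Int.natAbs_add_le (z.re * w.im) (z.im * w.re)
  simp only [Int.natAbs_mul] at h1 h2
  rw [n1, e1, e2, n1, n1, add_mul, mul_add, mul_add]
  omega

theorem n1_pow (z : GaussianInt) (k : ℕ) : n1 (z ^ k) ≤ 2 ^ (k * (n1 z).size) := by
  induction k with
  | zero => simp [n1]
  | succ k ih =>
    rw [pow_succ, add_mul, one_mul, pow_add]
    exact (n1_mul _ _).trans (Nat.mul_le_mul ih (Nat.lt_size_self _).le)

theorem foldl_gmul {ι : Type} (z t : GaussianInt) (u : List ι) :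
    u.foldl (fun t _ => t * z) t = t * z ^ u.length := by
  induction u generalizing t with
  | nil => simp
  | cons x u ih => rw [List.foldl_cons, ih, List.length_cons]; ring

theorem poly_gpow : Poly fun p : GaussianInt × List β => p.1 ^ p.2.length := by
  have h := Poly.foldl (f := fun (p : GaussianInt × List β) t (_ : β) => t * p.1)
    (s := fun _ => 1) (l := fun p => p.2) (Poly.id.snd.fst.gmul Poly.id.fst.fst) (Poly.const 1)
    Poly.id.snd 11 2
    (by
      rintro ⟨z, u⟩ m
      simp only [foldl_gmul, one_mul]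
      set k := (u.take m).length with hk
      have h1 := n1_pow z k
      have h2 : ∀ x : ℕ, x ≤ n1 (z ^ k) → x.size ≤ k * (n1 z).size + 1 := fun x hx => by
        rw [Nat.size_le, pow_succ]
        have : 0 < 2 ^ (k * (n1 z).size) := by positivity
        omega
      have h3 := h2 (z ^ k).re.natAbs (Nat.le_add_right _ _)
      have h4 := h2 (z ^ k).im.natAbs (Nat.le_add_left _ _)
      have h5 : k ≤ sz (z, u) := by
        have := length_le_sz u
        have : k ≤ u.length := by rw [hk, List.length_take]; omega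
        rw [sz_pair]; omega
      have h6 : (n1 z).size ≤ sz (z, u) := by
        have := size_add_le z.re.natAbs z.im.natAbs
        rw [sz_pair, sz_gauss, sz_int, sz_int, n1]
        omega
      have h7 : k * (n1 z).size ≤ sz (z, u) * sz (z, u) := Nat.mul_le_mul h5 h6
      rw [sz_gauss, sz_int, sz_int]
      nlinarith)
  exact h.congr fun p => by rw [foldl_gmul, one_mul]

theorem poly_gsum : Poly fun l : List GaussianInt => l.sum := by
  have h := Poly.foldl_add (f := fun (_ : List GaussianInt) (t x : GaussianInt) => t + x)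
    (s := fun _ => 0) (l := fun l => l) (Poly.id.snd.fst.gadd Poly.id.snd.snd) (Poly.const 0)
    Poly.id 1 1
    (by
      intro l t x _
      have h1 := size_add_le t.re.natAbs x.re.natAbs
      have h2 := size_add_le t.im.natAbs x.im.natAbs
      have h3 : (t + x).re.natAbs.size ≤ (t.re.natAbs + x.re.natAbs).size :=
        Nat.size_le_size (Int.natAbs_add_le _ _)
      have h4 : (t + x).im.natAbs.size ≤ (t.im.natAbs + x.im.natAbs).size :=
        Nat.size_le_size (Int.natAbs_add_le _ _)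
      simp only [sz_gauss, sz_int, pow_one]
      omega)
  exact h.congr fun l => List.sum_eq_foldl

end PI

@[fun_prop] theorem Poly.gpow_length {f : α → GaussianInt} {u : α → List β} (hf : Poly f)
    (hu : Poly u) : Poly (fun a => f a ^ (u a).length) := PI.poly_gpow.comp (hf.pair hu)
@[fun_prop] theorem Poly.gsum {l : α → List GaussianInt} (hl : Poly l) :
    Poly (fun a => (l a).sum) := PI.poly_gsum.comp hl

end Crest.Agent.R326
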