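import Crest.Agent.R326.WordDefs
import Crest.Agent.R326.Ax
import Crest.Agent.R326.PolyInt

/-! Row 326: arrays of elements: basic lemmas and linear-time arithmetic. -/

set_option autoImplicit false

namespace Crest.Agent.R326

open scoped QuadraticAlgebra

theorem iB_mul_iB (B : ℕ) : iB B * iB B = -1 := by
  ext <;> simp [iB]

namespace Wd

theorem two_pow_zmod (B : ℕ) : ((2 ^ B : ℕ) : ZMod (2 ^ B - 1)) = 1 := by
  have h : 2 ^ B = (2 ^ B - 1) + 1 := (Nat.sub_add_cancel Nat.one_le_two_pow).symm
  rw [congrArg (Nat.cast : ℕ → ZMod (2 ^ B - 1)) h, Nat.cast_add, ZMod.natCast_self, zero_add,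
    Nat.cast_one]

theorem two_pow_RB (B : ℕ) : ((2 ^ B : ℕ) : RB B) = 1 := by
  ext
  · rw [QuadraticAlgebra.re_natCast, two_pow_zmod]; rfl
  · rfl

theorem P_pos {B : ℕ} (hB : 1 ≤ B) : 0 < 2 ^ B - 1 := by
  have : 2 ^ 1 ≤ 2 ^ B := Nat.pow_le_pow_right (by norm_num) hB
  omega

theorem neZero_P {B : ℕ} (hB : 1 ≤ B) : NeZero (2 ^ B - 1) := ⟨(P_pos hB).ne'⟩

theorem testBit_valLE (l : List Bool) (i : ℕ) : (valLE l).testBit i = l.getD i false := by
  induction l generalizing i with
  | nil => simp
  | cons b l ih =>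
    rw [valLE_cons_bit]
    cases i with
    | zero => simp
    | succ i => rw [Nat.testBit_bit_succ, ih]; rfl

theorem getD_wordLE (B z i : ℕ) : (wordLE B z).getD i false = (decide (i < B) && z.testBit i) := by
  unfold wordLE
  by_cases h : i < B <;> simp [List.getD_eq_getElem?_getD, h]

theorem valLE_wordLE_mod (B z : ℕ) : valLE (wordLE B z) = z % 2 ^ B :=
  Nat.eq_of_testBit_eq fun i => by rw [testBit_valLE, getD_wordLE, Nat.testBit_mod_two_pow]

end Wd

open Wd

theorem two_mul_hB {B : ℕ} (h : 1 ≤ B) : 2 * hB B = 1 := by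
  rw [← two_pow_RB B, hB]
  obtain ⟨k, rfl⟩ := Nat.exists_eq_add_of_le' h
  rw [Nat.add_sub_cancel]
  push_cast
  ring
/-- reduction is a ring homomorphism -/
theorem exists_toRB_hom (B : ℕ) : ∃ φ : GaussianInt →+* RB B, ∀ z, φ z = toRB B z := by
  refine ⟨Zsqrtd.lift ⟨iB B, by rw [iB_mul_iB]; simp⟩, fun z => ?_⟩
  rw [Zsqrtd.lift_apply_apply]
  ext <;> simp [iB, toRB]
theorem toRB_I (B : ℕ) : toRB B ⟨0, 1⟩ = iB B := by
  ext <;> simp [iB, toRB]
theorem length_wordLE (B z : ℕ) : (wordLE B z).length = B := by simp [wordLE]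
theorem valLE_wordLE {B z : ℕ} (h : z < 2 ^ B) : valLE (wordLE B z) = z := by
  rw [valLE_wordLE_mod, Nat.mod_eq_of_lt h]
theorem wordLE_valLE (l : List Bool) : wordLE l.length (valLE l) = l := by
  refine List.ext_getElem (length_wordLE _ _) fun i h1 h2 => ?_
  simp [wordLE, testBit_valLE, h2]
theorem length_ebits (B : ℕ) (z : RB B) : (ebits B z).length = 2 * B := by
  simp [ebits, length_wordLE, two_mul]

namespace Wd

theorem blocks_emk_one (B n : ℕ) (f : ℕ → RB B) :
    blocks n (2 * B) (emk B n f) = (List.range n).map fun j => ebits B (f j) := by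
  have h := blocks_flatten (k := 2 * B) (L := (List.range n).map fun j => ebits B (f j))
    (by simp [length_ebits])
  rwa [List.length_map, List.length_range] at h

theorem block_emk {B n j : ℕ} (f : ℕ → RB B) (hj : j < n) :
    ((emk B n f).drop (j * (2 * B))).take (2 * B) = ebits B (f j) := by
  have h := blocks_emk_one B n f
  exact List.map_inj_left.1 h j (List.mem_range.2 hj)

/-- the entries of an array are the values of its blocks -/
theorem eat_block (B : ℕ) (a : List Bool) (j : ℕ) :
    eat B ((a.drop (j * (2 * B))).take (2 * B)) 0 = eat B a j := by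
  unfold eat
  rw [mul_zero, List.drop_zero, zero_add, List.take_take, min_eq_left (by omega), List.drop_take,
    List.take_take, List.drop_drop, min_eq_left (by omega), mul_comm j]

theorem eat_ebits {B : ℕ} (hB : 1 ≤ B) (z : RB B) : eat B (ebits B z) 0 = z := by
  have := neZero_P hB
  have h : ∀ x : ZMod (2 ^ B - 1), valLE (wordLE B x.val) = x.val := fun x =>
    valLE_wordLE ((ZMod.val_lt x).trans_le (Nat.sub_le _ _))
  unfold eat ebits
  rw [mul_zero, List.drop_zero, zero_add, List.take_left' (length_wordLE _ _),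
    List.drop_left' (length_wordLE _ _), List.take_of_length_le (length_wordLE _ _).le, h, h,
    ZMod.natCast_zmod_val, ZMod.natCast_zmod_val]

end Wd

@[simp] theorem length_emk (B n : ℕ) (f : ℕ → RB B) : (emk B n f).length = n * (2 * B) := by
  simp [emk, List.length_flatten, Function.comp_def, length_ebits]
theorem eat_emk {B n j : ℕ} (hB : 2 ≤ B) (f : ℕ → RB B) (hj : j < n) : eat B (emk B n f) j = f j := by
  rw [← eat_block, block_emk f hj, eat_ebits (by omega)]
theorem emk_congr {B n : ℕ} {f g : ℕ → RB B} (h : ∀ j < n, f j = g j) : emk B n f = emk B n g := by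
  unfold emk
  rw [List.map_congr_left fun j hj => by rw [h j (List.mem_range.1 hj)]]
theorem canon_emk {B : ℕ} (hB : 2 ≤ B) (n : ℕ) (f : ℕ → RB B) : Canon B n (emk B n f) :=
  emk_congr fun _ hj => (eat_emk hB f hj).symm
theorem emk_zero (B n : ℕ) : emk B n (fun _ => 0) = List.replicate (n * (2 * B)) false := by
  have h : ebits B 0 = List.replicate (2 * B) false := by
    simp [ebits, wordLE, two_mul]
  simp [emk, h]
theorem emk_add (B n n' : ℕ) (f : ℕ → RB B) :
    emk B (n + n') f = emk B n f ++ emk B n' (fun j => f (n + j)) := by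
  simp [emk, List.range_add, Function.comp_def]
theorem flatten_emk (B c n : ℕ) (f : ℕ → ℕ → RB B) :
    ((List.range c).map fun r => emk B n (f r)).flatten =
      emk B (c * n) fun j => f (j / n) (j % n) := by
  induction c with
  | zero => simp [emk]
  | succ c ih =>
    rw [List.range_succ, List.map_append, List.flatten_append, ih, add_mul, one_mul, emk_add]
    simp only [List.map_cons, List.map_nil, List.flatten_cons, List.flatten_nil, List.append_nil]
    congr 1
    refine emk_congr fun j hj => ?_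
    rw [add_comm, Nat.add_mul_div_right _ _ (by omega), Nat.add_mul_mod_self_right,
      Nat.div_eq_of_lt hj, Nat.mod_eq_of_lt hj, zero_add]
theorem blocks_emk (B c n : ℕ) (f : ℕ → RB B) :
    blocks c (n * (2 * B)) (emk B (c * n) f) =
      (List.range c).map fun r => emk B n fun j => f (r * n + j) := by
  have h := blocks_flatten (k := n * (2 * B))
    (L := (List.range c).map fun r => emk B n fun j => f (r * n + j)) (by simp)
  rw [List.length_map, List.length_range, flatten_emk] at h
  simpa only [Nat.div_add_mod'] using h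
theorem bat_emk {B n j l : ℕ} (f : ℕ → RB B) (hj : j < n) (hl : l < 2 * B) :
    bat (emk B n f) (j * (2 * B) + l) = bat (ebits B (f j)) l := by
  rw [← block_emk f hj]
  simp [bat, List.getD_eq_getElem?_getD, hl]

namespace Wd

theorem ax_snoc_ne {s : List ℕ} {m t : ℕ} (h : t ≠ s.length) : ax (s ++ [m]) t = ax s t := by
  unfold ax
  rcases lt_or_gt_of_ne h with h | h
  · rw [List.getD_append _ _ _ _ h]
  · rw [List.getD_eq_default _ _ h.le, List.getD_eq_default _ _ (by simpa using h)]

theorem ax_snoc_self (s : List ℕ) (m : ℕ) : ax (s ++ [m]) s.length = m := by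
  simp [ax]

theorem pos_snoc (s : List ℕ) (m l : ℕ) (ι : ℕ → ℕ) :
    pos (s ++ [m]) (Function.update ι s.length l) = pos s ι * m + l := by
  have h : ∀ k ≤ s.length, posN (s ++ [m]) (Function.update ι s.length l) k = posN s ι k := by
    intro k
    induction k with
    | zero => intro _; rfl
    | succ k ih =>
      intro hk
      rw [posN, posN, ih (by omega), ax_snoc_ne (by omega), Function.update_of_ne (by omega)]
  rw [pos, List.length_append, List.length_singleton, posN, h _ le_rfl, ax_snoc_self,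
    Function.update_self, pos]

theorem valid_snoc {s : List ℕ} {m l : ℕ} {ι : ℕ → ℕ} (h : Valid s ι) (hl : l < m) :
    Valid (s ++ [m]) (Function.update ι s.length l) := by
  intro t
  by_cases ht : t = s.length
  · rw [ht, ax_snoc_self, Function.update_self]; exact hl
  · rw [ax_snoc_ne ht, Function.update_of_ne ht]; exact h t

end Wd

/-- a gather that neither reads nor changes the bit axis moves whole elements -/
theorem gathS_emk {B : ℕ} (hB : 2 ≤ B) {s : List ℕ} (hs : ∀ x ∈ s, 0 < x)
    {σ : (ℕ → ℕ) → ℕ → ℕ} (hv : ∀ ι, Valid s ι → Valid s (σ ι))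
    (hl : ∀ ι y, Valid s ι →
      σ (Function.update ι s.length y) = Function.update (σ ι) s.length y) (f : ℕ → RB B) :
    gathS (s ++ [2 * B]) σ (emk B s.prod f) =
      emk B s.prod fun j => f (pos s (σ (dig s j))) := by
  have hlen : (emk B s.prod fun j => f (pos s (σ (dig s j)))).length = (s ++ [2 * B]).prod := by
    simp
  rw [← bmk_bat hlen, gathS]
  refine bmk_congr fun J hJ => ?_
  have hm : 0 < 2 * B := by omega
  have hj : J / (2 * B) < s.prod := by
    apply Nat.div_lt_of_lt_mul
    simpa [mul_comm] using hJ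
  have hr : J % (2 * B) < 2 * B := Nat.mod_lt _ hm
  have hJe := Nat.div_add_mod' J (2 * B)
  generalize J / (2 * B) = j at *
  generalize J % (2 * B) = l at *
  subst hJe
  have hd := valid_dig hs j
  have e : dig (s ++ [2 * B]) (j * (2 * B) + l) = Function.update (dig s j) s.length l := by
    rw [← dig_pos (valid_snoc hd hr), pos_snoc, pos_dig hs hj]
  rw [e, hl _ _ hd, pos_snoc, bat_emk _ (pos_lt (hv _ hd)) hr, bat_emk _ hj hr]

/-! ### linear-time operations on words; the word length `B` is the length of a list `u` -/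

namespace Wd

section
variable {α β : Type} [Enc α] [Enc β]

omit [Enc β] in
theorem wordLE_eq (u : List β) (z : ℕ) :
    wordLE u.length z = (z.bits ++ u.map fun _ => false).take u.length := by
  refine List.ext_getElem (by simp [length_wordLE]) fun i h1 h2 => ?_
  have h3 : i < u.length := by simpa [length_wordLE] using h1
  simp only [wordLE, List.getElem_map, List.getElem_range, List.getElem_take, Nat.testBit_eq_inth]
  rw [List.getElem_append]
  split_ifs with h
  · rw [List.getI_eq_getElem _ h]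
  · rw [List.getI_eq_default _ (not_lt.1 h)]
    simp

/-- `wordLE` in linear time -/
theorem lin_wordLE {u : α → List β} {z : α → ℕ} (hu : Lin u) (hz : Lin z) :
    Lin fun a => wordLE (u a).length (z a) :=
  (Lin.take hu ((Lin.bits.comp hz).append (Lin.map (Lin.const false) hu))).congr' fun _ =>
    wordLE_eq _ _

omit [Enc β] in
theorem valLE_ones (u : List β) : valLE (u.map fun _ => true) = 2 ^ u.length - 1 := by
  induction u with
  | nil => rfl
  | cons a u ih =>
    rw [List.map_cons, valLE_cons, ih, List.length_cons, pow_succ]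
    have : 0 < 2 ^ u.length := Nat.two_pow_pos _
    simp only [Bool.toNat_true]
    omega

/-- the modulus in linear time -/
theorem lin_P {u : α → List β} (hu : Lin u) : Lin fun a => 2 ^ (u a).length - 1 :=
  (Lin.valLE.comp (Lin.map (Lin.const true) hu)).congr' fun _ => (valLE_ones _).symm

/-- conditional subtraction -/
def red (P x : ℕ) : ℕ := cond (decide (P ≤ x)) (x - P) x

theorem lin_red {P x : α → ℕ} (hP : Lin P) (hx : Lin x) : Lin fun a => red (P a) (x a) :=
  Lin.cond (hP.le hx) (hx.sub hP) hx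

theorem red_red {P x : ℕ} (hP : 0 < P) (hx : x ≤ 2 * P) : red P (red P x) = x % P := by
  unfold red
  by_cases h1 : P ≤ x
  · by_cases h2 : P ≤ x - P
    · obtain rfl : x = 2 * P := by omega
      simp [h1, h2]
      omega
    · simp only [h1, h2, decide_true, decide_false, cond_true, cond_false]
      rw [Nat.mod_eq_sub_mod h1, Nat.mod_eq_of_lt (by omega)]
  · simp only [h1, decide_false, cond_false]
    rw [Nat.mod_eq_of_lt (by omega)]

/-- the canonical word of a number that is at most twice the modulus -/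
def wn (B x : ℕ) : List Bool := wordLE B (red (2 ^ B - 1) (red (2 ^ B - 1) x))

theorem lin_wn {u : α → List β} {x : α → ℕ} (hu : Lin u) (hx : Lin x) :
    Lin fun a => wn (u a).length (x a) :=
  lin_wordLE hu (lin_red (lin_P hu) (lin_red (lin_P hu) hx))

theorem wn_eq {B x : ℕ} (hB : 1 ≤ B) (hx : x ≤ 2 * (2 ^ B - 1)) :
    wn B x = wordLE B (x : ZMod (2 ^ B - 1)).val := by
  rw [wn, red_red (P_pos hB) hx, ZMod.val_natCast]

theorem valLE_le {B : ℕ} {w : List Bool} (h : w.length ≤ B) : valLE w ≤ 2 ^ B - 1 := by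
  have h1 := valLE_lt w
  have h2 : 2 ^ w.length ≤ 2 ^ B := Nat.pow_le_pow_right (by norm_num) h
  omega

/-- the canonical word of the residue of a number with at most `2 B` bits -/
def wr (B : ℕ) (z : List Bool) : List Bool := wn B (valLE (z.take B) + valLE (z.drop B))

theorem lin_wr {u : α → List β} {z : α → List Bool} (hu : Lin u) (hz : Lin z) :
    Lin fun a => wr (u a).length (z a) :=
  lin_wn hu ((Lin.valLE.comp (Lin.take hu hz)).add (Lin.valLE.comp (Lin.drop hu hz)))

theorem cast_valLE_fold (B : ℕ) (z : List Bool) :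
    ((valLE (z.take B) + valLE (z.drop B) : ℕ) : ZMod (2 ^ B - 1)) = (valLE z : ℕ) := by
  rcases le_total z.length B with h | h
  · rw [List.take_of_length_le h, List.drop_eq_nil_of_le h, valLE_nil, add_zero]
  · conv_rhs => rw [← List.take_append_drop B z, valLE_append, List.length_take, min_eq_left h]
    rw [Nat.cast_add, Nat.cast_add, Nat.cast_mul, two_pow_zmod, one_mul]

theorem wr_eq {B : ℕ} (hB : 1 ≤ B) {z : List Bool} (hz : z.length ≤ 2 * B) :
    wr B z = wordLE B ((valLE z : ℕ) : ZMod (2 ^ B - 1)).val := by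
  have h1 : valLE (z.take B) ≤ 2 ^ B - 1 := valLE_le (by simp)
  have h2 : valLE (z.drop B) ≤ 2 ^ B - 1 := valLE_le (by simp; omega)
  rw [wr, wn_eq hB (by omega), cast_valLE_fold]

/-- the real and the imaginary word of an element -/
def lo (B : ℕ) (e : List Bool) : List Bool := e.take B
def hi (B : ℕ) (e : List Bool) : List Bool := (e.drop B).take B

theorem lin_lo {u : α → List β} {e : α → List Bool} (hu : Lin u) (he : Lin e) :
    Lin fun a => lo (u a).length (e a) := Lin.take hu he
theorem lin_hi {u : α → List β} {e : α → List Bool} (hu : Lin u) (he : Lin e) :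
    Lin fun a => hi (u a).length (e a) := Lin.take hu (Lin.drop hu he)

theorem length_lo (B : ℕ) (e : List Bool) : (lo B e).length ≤ B := by simp [lo]
theorem length_hi (B : ℕ) (e : List Bool) : (hi B e).length ≤ B := by simp [hi]
theorem eat_re (B : ℕ) (e : List Bool) : (eat B e 0).re = (valLE (lo B e) : ℕ) := by simp [eat, lo]
theorem eat_im (B : ℕ) (e : List Bool) : (eat B e 0).im = (valLE (hi B e) : ℕ) := by simp [eat, hi]

/-- sum, negative and multiple by `2 ^ K` of words -/
def addW (B : ℕ) (v w : List Bool) : List Bool := wn B (valLE v + valLE w)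
def negW (B : ℕ) (w : List Bool) : List Bool := wn B (2 ^ B - 1 - valLE w)
def shlW (B K : ℕ) (w : List Bool) : List Bool := wr B (List.replicate K false ++ w)

theorem lin_addW {u : α → List β} {v w : α → List Bool} (hu : Lin u) (hv : Lin v) (hw : Lin w) :
    Lin fun a => addW (u a).length (v a) (w a) :=
  lin_wn hu ((Lin.valLE.comp hv).add (Lin.valLE.comp hw))

theorem lin_negW {u : α → List β} {w : α → List Bool} (hu : Lin u) (hw : Lin w) :
    Lin fun a => negW (u a).length (w a) :=
  lin_wn hu ((lin_P hu).sub (Lin.valLE.comp hw))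

theorem lin_shlW {γ : Type} [Enc γ] {u : α → List β} {k : α → List γ} {w : α → List Bool}
    (hu : Lin u) (hk : Lin k) (hw : Lin w) :
    Lin fun a => shlW (u a).length (k a).length (w a) :=
  (lin_wr hu ((Lin.map (Lin.const false) hk).append hw)).congr' fun a => by simp [shlW]

theorem addW_eq {B : ℕ} (hB : 1 ≤ B) {v w : List Bool} (hv : v.length ≤ B) (hw : w.length ≤ B) :
    addW B v w = wordLE B (((valLE v : ℕ) : ZMod (2 ^ B - 1)) + (valLE w : ℕ)).val := by
  have h1 := valLE_le hv
  have h2 := valLE_le hw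
  rw [addW, wn_eq hB (by omega), Nat.cast_add]

theorem negW_eq {B : ℕ} (hB : 1 ≤ B) {w : List Bool} (hw : w.length ≤ B) :
    negW B w = wordLE B (-((valLE w : ℕ) : ZMod (2 ^ B - 1))).val := by
  rw [negW, wn_eq hB (by omega), Nat.cast_sub (valLE_le hw), ZMod.natCast_self, zero_sub]

theorem shlW_eq {B K : ℕ} (hB : 1 ≤ B) (hK : K ≤ B) {w : List Bool} (hw : w.length ≤ B) :
    shlW B K w = wordLE B (((2 ^ K : ℕ) : ZMod (2 ^ B - 1)) * (valLE w : ℕ)).val := by
  have h0 : valLE (List.replicate K false) = 0 := by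
    simpa using valLE_map_false (List.replicate K ())
  rw [shlW, wr_eq hB (by simp; omega), valLE_append, h0, zero_add, List.length_replicate,
    Nat.cast_mul]

end

/-! ### arrays -/

section
variable {ι γ δ β : Type} [Enc γ] [Enc δ] [Enc β] {pre : World → ι → Prop} {inp : ι → γ} {σ : ι → ℝ}
  {B n : ι → ℕ} {a : ι → List Bool}

theorem le_of_sz (ha : L0 pre inp σ a) {f : ι → ℝ} (K : ℕ) (g : ι → ℕ)
    (hf : ∀ i, f i = g i) (h : ∀ w i, pre w i → g i ≤ K * (a i).length) : Le pre f σ := by
  refine Le.trans (Le.of_le_mul K (by positivity) fun w i hi => ?_) ha.sz_le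
  have h1 := h w i hi
  have h2 : K * (a i).length ≤ K * sz (a i) := Nat.mul_le_mul_left _ (length_le_sz _)
  rw [hf]
  exact_mod_cast h1.trans h2

theorem l0_unB (hB : L0 pre inp σ B) (ha : L0 pre inp σ a)
    (hok : ∀ w i, pre w i → OkE (B i) (n i) (a i)) : L0 pre inp σ fun i => un (B i) := by
  refine L0.un hB (le_of_sz ha 1 (fun i => B i + 1) (fun i => by push_cast; rfl) fun w i hi => ?_)
  obtain ⟨h1, h2, h3⟩ := hok w i hi
  rw [h3]
  nlinarith

/-- the list of the elements of an array -/
theorem l0_elems (hB : L0 pre inp σ B) (hn : L0 pre inp σ n) (ha : L0 pre inp σ a)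
    (hok : ∀ w i, pre w i → OkE (B i) (n i) (a i)) :
    L0 pre inp σ fun i => blocks (n i) (2 * B i) (a i) := by
  have h2 : L0 pre inp σ fun i => 2 * B i :=
    (L0.lin (Lin.add Lin.id Lin.id) hB).congr fun _ _ _ => two_mul _
  refine L0.sub sub_blocks (hn.pair (h2.pair ha)) (fun _ _ _ => trivial) ?_
  refine le_of_sz ha 6 (fun i => sz (a i) + (n i + 1) * (2 * B i + 1))
    (fun i => by push_cast; rfl) fun w i hi => ?_
  obtain ⟨h1, h2, h3⟩ := hok w i hi
  rw [sz_bits, h3]
  nlinarith [Nat.mul_le_mul h2 h1]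

/-- an elementwise operation with a context of size `O(B)` -/
theorem l0_mapE {l : ι → List β} {x : ι → δ} {g : δ × β → List Bool} (hl : L0 pre inp σ l)
    (hx : L0 pre inp σ x) (hg : Lin g) (ha : L0 pre inp σ a)
    (hok : ∀ w i, pre w i → OkE (B i) (n i) (a i)) (K : ℕ)
    (hsz : ∀ w i, pre w i → (l i).length = n i ∧ sz (x i) ≤ K * B i) (F : ∀ i, ℕ → RB (B i))
    (hF : ∀ w i, pre w i →
      ((l i).map fun e => g (x i, e)) = (List.range (n i)).map fun j => ebits (B i) (F i j)) :
    L0 pre inp σ fun i => emk (B i) (n i) (F i) := by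
  have h := L0.map_ctx hl hx hg (le_of_sz ha K (fun i => ((l i).length + 1) * sz (x i))
    (fun i => by push_cast; rfl) fun w i hi => by
      obtain ⟨h1, h2, h3⟩ := hok w i hi
      obtain ⟨h4, h5⟩ := hsz w i hi
      rw [h3, h4]
      calc (n i + 1) * sz (x i) ≤ (n i * 2) * (K * B i) := Nat.mul_le_mul (by omega) h5
        _ = K * (n i * (2 * B i)) := by ring)
  exact (L0.lin (Lin.flatten Lin.id) h).congr fun w i hi => by rw [hF w i hi]; rfl

end

theorem OkE_sz {B n : ℕ} {a : List Bool} (h : OkE B n a) :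
    sz B ≤ 3 * a.length ∧ sz n ≤ 3 * a.length ∧ sz a ≤ 3 * a.length ∧ 1 ≤ a.length := by
  obtain ⟨h1, h2, h3⟩ := h
  have e1 : B.size ≤ B := Nat.size_le.2 Nat.lt_two_pow_self
  have e2 : n.size ≤ n := Nat.size_le.2 Nat.lt_two_pow_self
  have e3 : B ≤ a.length := by rw [h3]; nlinarith
  have e4 : n ≤ a.length := by rw [h3]; nlinarith
  rw [sz_nat, sz_nat, sz_bits]
  omega

/-- a unary elementwise operation on `(B, n, a)` -/
theorem sub_unE {g : List Unit × List Bool → List Bool} (hg : Lin g) (F : ∀ B, RB B → RB B)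
    (hF : ∀ B e, 2 ≤ B → g (un B, e) = ebits B (F B (eat B e 0))) :
    Sub (fun x : ℕ × ℕ × List Bool => OkE x.1 x.2.1 x.2.2)
      (fun x => emk x.1 x.2.1 fun j => F x.1 (eat x.1 x.2.2 j)) (fun x => (x.2.2.length : ℝ)) := by
  have hin : L0 (fun _ (x : ℕ × ℕ × List Bool) => OkE x.1 x.2.1 x.2.2) (fun x => x)
      (fun x => (x.2.2.length : ℝ)) (fun x => x) :=
    L0.input (Le.of_le_mul 11 (by norm_num) fun _ ⟨B, n, a⟩ h => by
      have := OkE_sz h
      have : sz (B, n, a) ≤ 11 * a.length := by simp only [sz_pair] at *; omega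
      exact_mod_cast this)
  have hB := L0.lin (Lin.fst Lin.id) hin
  have hn := L0.lin (Lin.fst (Lin.snd Lin.id)) hin
  have ha := L0.lin (Lin.snd (Lin.snd Lin.id)) hin
  refine (l0_mapE (l0_elems hB hn ha fun _ _ h => h) (l0_unB hB ha fun _ _ h => h) hg ha
    (fun _ _ h => h) 3 (fun _ x h => ⟨length_blocks _ _ _, ?_⟩) _ fun _ x h => ?_).toSub
  · have := h.1
    rw [sz_un]
    omega
  · rw [blocks, List.map_map]
    refine List.map_congr_left fun j _ => ?_
    rw [Function.comp_apply, hF _ _ h.1, eat_block]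

theorem ebits_shl {B K : ℕ} (hB : 1 ≤ B) (hK : K ≤ B) (e : List Bool) :
    shlW B K (lo B e) ++ shlW B K (hi B e) = ebits B (((2 ^ K : ℕ) : RB B) * eat B e 0) := by
  rw [shlW_eq hB hK (length_lo _ _), shlW_eq hB hK (length_hi _ _), ebits]
  simp only [QuadraticAlgebra.re_mul, QuadraticAlgebra.im_mul, QuadraticAlgebra.re_natCast,
    QuadraticAlgebra.im_natCast, eat_re, eat_im, mul_zero, zero_mul, add_zero]

end Wd

/-- input `(B, n, a, b)` -/
theorem sub_addE : Sub (fun x : ℕ × ℕ × List Bool × List Bool =>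
      OkE x.1 x.2.1 x.2.2.1 ∧ OkE x.1 x.2.1 x.2.2.2)
    (fun x => emk x.1 x.2.1 fun j => eat x.1 x.2.2.1 j + eat x.1 x.2.2.2 j)
    (fun x => (x.2.2.1.length : ℝ)) := by
  have hin : L0 (fun _ (x : ℕ × ℕ × List Bool × List Bool) =>
      OkE x.1 x.2.1 x.2.2.1 ∧ OkE x.1 x.2.1 x.2.2.2) (fun x => x)
      (fun x => (x.2.2.1.length : ℝ)) (fun x => x) :=
    L0.input (Le.of_le_mul 15 (by norm_num) fun _ ⟨B, n, a, b⟩ h => by
      have h1 := OkE_sz h.1
      have h2 := OkE_sz h.2
      have h3 : b.length = a.length := h.2.2.2.trans h.1.2.2.symm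
      have : sz (B, n, a, b) ≤ 15 * a.length := by simp only [sz_pair] at *; omega
      exact_mod_cast this)
  have hB := L0.lin (Lin.fst Lin.id) hin
  have hn := L0.lin (Lin.fst (Lin.snd Lin.id)) hin
  have ha := L0.lin (Lin.fst (Lin.snd (Lin.snd Lin.id))) hin
  have hb := L0.lin (Lin.snd (Lin.snd (Lin.snd Lin.id))) hin
  have hl := L0.lin (Lin.zip (Lin.fst Lin.id) (Lin.snd Lin.id))
    ((l0_elems hB hn ha fun _ _ h => h.1).pair (l0_elems hB hn hb fun _ _ h => h.2))
  have hg : Lin fun p : List Unit × List Bool × List Bool =>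
      addW p.1.length (lo p.1.length p.2.1) (lo p.1.length p.2.2) ++
        addW p.1.length (hi p.1.length p.2.1) (hi p.1.length p.2.2) :=
    (lin_addW (by fun_prop) (lin_lo (by fun_prop) (by fun_prop))
      (lin_lo (by fun_prop) (by fun_prop))).append
      (lin_addW (by fun_prop) (lin_hi (by fun_prop) (by fun_prop))
        (lin_hi (by fun_prop) (by fun_prop)))
  refine (l0_mapE hl (l0_unB hB ha fun _ _ h => h.1) hg ha
    (fun _ _ h => h.1) 3 (fun _ x h => ⟨by simp [length_blocks], ?_⟩) _ fun _ x h => ?_).toSub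
  · have := h.1.1
    rw [sz_un]
    omega
  · have h1 : 1 ≤ x.1 := le_trans (by norm_num) h.1.1
    simp only [blocks, List.zip_map', List.map_map]
    refine List.map_congr_left fun j _ => ?_
    simp only [Function.comp_apply, List.length_replicate]
    rw [addW_eq h1 (length_lo _ _) (length_lo _ _), addW_eq h1 (length_hi _ _) (length_hi _ _),
      ← eat_re, ← eat_re, ← eat_im, ← eat_im, eat_block, eat_block]
    rfl
/-- input `(B, n, a)` -/
theorem sub_negE : Sub (fun x : ℕ × ℕ × List Bool => OkE x.1 x.2.1 x.2.2)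
    (fun x => emk x.1 x.2.1 fun j => -eat x.1 x.2.2 j) (fun x => (x.2.2.length : ℝ)) := by
  refine sub_unE (g := fun p => negW p.1.length (lo p.1.length p.2) ++
      negW p.1.length (hi p.1.length p.2))
    ((lin_negW (by fun_prop) (lin_lo (by fun_prop) (by fun_prop))).append
      (lin_negW (by fun_prop) (lin_hi (by fun_prop) (by fun_prop)))) (fun _ z => -z)
    fun B e hB => ?_
  have h1 : 1 ≤ B := by omega
  simp only [List.length_replicate]
  rw [negW_eq h1 (length_lo _ _), negW_eq h1 (length_hi _ _), ← eat_re, ← eat_im]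
  rfl
theorem sub_halfE : Sub (fun x : ℕ × ℕ × List Bool => OkE x.1 x.2.1 x.2.2)
    (fun x => emk x.1 x.2.1 fun j => hB x.1 * eat x.1 x.2.2 j) (fun x => (x.2.2.length : ℝ)) := by
  refine sub_unE (g := fun p => shlW p.1.length p.1.tail.length (lo p.1.length p.2) ++
      shlW p.1.length p.1.tail.length (hi p.1.length p.2))
    ((lin_shlW (by fun_prop) (by fun_prop) (lin_lo (by fun_prop) (by fun_prop))).append
      (lin_shlW (by fun_prop) (by fun_prop) (lin_hi (by fun_prop) (by fun_prop))))
    (fun B z => hB B * z) fun B e hB => ?_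
  simp only [List.length_replicate, List.length_tail]
  exact ebits_shl (by omega) (by omega) e
theorem sub_mulIE : Sub (fun x : ℕ × ℕ × List Bool => OkE x.1 x.2.1 x.2.2)
    (fun x => emk x.1 x.2.1 fun j => iB x.1 * eat x.1 x.2.2 j) (fun x => (x.2.2.length : ℝ)) := by
  refine sub_unE (g := fun p => negW p.1.length (hi p.1.length p.2) ++
      addW p.1.length (lo p.1.length p.2) [])
    ((lin_negW (by fun_prop) (lin_hi (by fun_prop) (by fun_prop))).append
      (lin_addW (by fun_prop) (lin_lo (by fun_prop) (by fun_prop)) (Lin.const [])))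
    (fun B z => iB B * z) fun B e hB => ?_
  have h1 : 1 ≤ B := by omega
  simp only [List.length_replicate]
  rw [negW_eq h1 (length_hi _ _), addW_eq h1 (length_lo _ _) (by simp), ← eat_re, ← eat_im]
  simp [ebits, iB]
/-- multiplication by `2 ^ K`; input `(K, B, n, a)` -/
theorem sub_shlE : Sub (fun x : ℕ × ℕ × ℕ × List Bool => x.1 ≤ x.2.1 ∧ OkE x.2.1 x.2.2.1 x.2.2.2)
    (fun x => emk x.2.1 x.2.2.1 fun j => 2 ^ x.1 * eat x.2.1 x.2.2.2 j)
    (fun x => (x.2.2.2.length : ℝ)) := by
  have hin : L0 (fun _ (x : ℕ × ℕ × ℕ × List Bool) => x.1 ≤ x.2.1 ∧ OkE x.2.1 x.2.2.1 x.2.2.2)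
      (fun x => x) (fun x => (x.2.2.2.length : ℝ)) (fun x => x) :=
    L0.input (Le.of_le_mul 15 (by norm_num) fun _ ⟨K, B, n, a⟩ h => by
      have h1 := OkE_sz h.2
      have h2 := sz_nat_mono h.1
      have : sz (K, B, n, a) ≤ 15 * a.length := by simp only [sz_pair] at *; omega
      exact_mod_cast this)
  have hK := L0.lin (Lin.fst Lin.id) hin
  have hB := L0.lin (Lin.fst (Lin.snd Lin.id)) hin
  have hn := L0.lin (Lin.fst (Lin.snd (Lin.snd Lin.id))) hin
  have ha := L0.lin (Lin.snd (Lin.snd (Lin.snd Lin.id))) hin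
  have hu := l0_unB hB ha fun _ _ h => h.2
  have hk := L0.un hK (le_of_sz ha 1 (fun x => x.1 + 1) (fun i => by push_cast; rfl)
    fun _ x h => by
      obtain ⟨h0, h1, h2, h3⟩ := h
      rw [h3]
      nlinarith)
  have hg : Lin fun p : (List Unit × List Unit) × List Bool =>
      shlW p.1.1.length p.1.2.length (lo p.1.1.length p.2) ++
        shlW p.1.1.length p.1.2.length (hi p.1.1.length p.2) :=
    (lin_shlW (by fun_prop) (by fun_prop) (lin_lo (by fun_prop) (by fun_prop))).append
      (lin_shlW (by fun_prop) (by fun_prop) (lin_hi (by fun_prop) (by fun_prop)))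
  refine (l0_mapE (l0_elems hB hn ha fun _ _ h => h.2) (hu.pair hk) hg ha
    (fun _ _ h => h.2) 6 (fun _ x h => ⟨length_blocks _ _ _, ?_⟩) _ fun _ x h => ?_).toSub
  · have := h.2.1
    have := h.1
    rw [sz_pair, sz_un, sz_un]
    omega
  · rw [blocks, List.map_map]
    refine List.map_congr_left fun j _ => ?_
    simp only [Function.comp_apply, List.length_replicate]
    rw [ebits_shl (le_trans (by norm_num) h.2.1) h.1, eat_block, Nat.cast_pow, Nat.cast_ofNat]
/-- the bits of a reduced Gaussian integer, `B` in unary -/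
theorem poly_ebits : Poly (fun x : List Unit × GaussianInt =>
    ebits x.1.length (toRB x.1.length x.2)) := by
  have e : ∀ (B : ℕ) (z : ℤ), wordLE B (z : ZMod (2 ^ B - 1)).val =
      wordLE B (z % ((2 ^ B - 1 : ℕ) : ℤ)).toNat := by
    intro B z
    rcases Nat.eq_zero_or_pos B with rfl | hB
    · rfl
    · have := neZero_P hB
      rw [← ZMod.val_intCast, Int.toNat_natCast]
  have hu : Poly fun x : List Unit × GaussianInt => x.1 := by fun_prop
  have hP : Poly fun x : List Unit × GaussianInt => ((2 ^ x.1.length - 1 : ℕ) : ℤ) :=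
    Poly.ofNat (lin_P (Lin.fst Lin.id)).poly
  refine ((Poly.word_LE hu (((Poly.gre (Poly.snd Poly.id)).imod hP).toNat)).append
    (Poly.word_LE hu (((Poly.gim (Poly.snd Poly.id)).imod hP).toNat))).congr fun x => ?_
  rw [← e, ← e]
  rfl

end Crest.Agent.R326
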