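import Crest.Agent.R326.CrtDefs
import Crest.Agent.R326.Words

/-! Row 326: Chinese remaindering lemmas. -/

set_option autoImplicit false

namespace Crest.Agent.R326

section
variable {ps : List ℕ}

theorem GoodP.pos (h : GoodP ps) {p : ℕ} (hp : p ∈ ps) : 0 < p := by
  have := (h.2 p hp).2
  omega
theorem GoodP.prod_pos (h : GoodP ps) : 0 < ps.prod := List.prod_pos fun _ ha => h.pos ha
theorem GoodP.nodup (h : GoodP ps) : ps.Nodup := by
  refine List.Pairwise.imp_of_mem ?_ h.1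
  intro a b ha _ hab e
  subst e
  rw [Nat.coprime_self] at hab
  have := (h.2 a ha).2
  omega
theorem GoodP.sublist {qs : List ℕ} (h : GoodP ps) (hq : qs.Sublist ps) : GoodP qs :=
  ⟨h.1.sublist hq, fun p hp => h.2 p (hq.subset hp)⟩
theorem GoodP.coprime (h : GoodP ps) {p p' : ℕ} (hp : p ∈ ps) (hp' : p' ∈ ps) (hne : p ≠ p') :
    Nat.Coprime p p' :=
  haveI : Std.Symm Nat.Coprime := ⟨fun _ _ h => Nat.Coprime.symm h⟩
  List.Pairwise.forall h.1 hp hp' hne
theorem GoodP.coprime_div (h : GoodP ps) {p : ℕ} (hp : p ∈ ps) : Nat.Coprime (ps.prod / p) p := by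
  induction ps with
  | nil => simp at hp
  | cons a l ih =>
    have hl : GoodP l := h.sublist (List.sublist_cons_self a l)
    have ha := (List.pairwise_cons.1 h.1).1
    rw [List.prod_cons]
    rcases List.mem_cons.1 hp with rfl | hp'
    · rw [Nat.mul_div_cancel_left _ (h.pos hp)]
      exact Nat.coprime_list_prod_left_iff.2 fun k hk => (ha k hk).symm
    · rw [Nat.mul_div_assoc _ (List.dvd_prod hp')]
      exact Nat.Coprime.mul_left (ha p hp') (ih hl hp')
theorem GoodP.two_pow_length_le (h : GoodP ps) : 2 ^ ps.length ≤ ps.prod := by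
  induction ps with
  | nil => simp
  | cons a l ih =>
    have hl := ih (h.sublist (List.sublist_cons_self a l))
    have ha := (h.2 a List.mem_cons_self).2
    rw [List.prod_cons, List.length_cons, pow_succ, mul_comm]
    exact Nat.mul_le_mul (by omega) hl
theorem GoodP.sz_le (h : GoodP ps) : sz ps ≤ 6 * lg ps.prod := by
  have key : ∃ k, 2 ^ k ≤ ps.prod ∧ sz ps ≤ 6 * k + 1 := by
    induction ps with
    | nil => exact ⟨0, by simp, by simp⟩
    | cons a l ih =>
      obtain ⟨k, h1, h2⟩ := ih (h.sublist (List.sublist_cons_self a l))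
      have ha := (h.2 a List.mem_cons_self).2
      have h3 : 1 < a.size := Nat.lt_size.2 (by omega)
      have h4 : 2 ^ (a.size - 1) ≤ a := Nat.lt_size.1 (by omega)
      refine ⟨a.size - 1 + k, ?_, ?_⟩
      · rw [List.prod_cons, pow_add]
        exact Nat.mul_le_mul h4 h1
      · rw [sz_cons, sz_nat]
        omega
  obtain ⟨k, h1, h2⟩ := key
  have := Nat.lt_size.2 h1
  unfold lg
  omega
theorem modEq_prod (h : ps.Pairwise Nat.Coprime) {a b : ℕ} (H : ∀ p ∈ ps, a ≡ b [MOD p]) :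
    a ≡ b [MOD ps.prod] := by
  induction ps with
  | nil => simpa using Nat.modEq_one
  | cons c l ih =>
    obtain ⟨h1, h2⟩ := List.pairwise_cons.1 h
    rw [List.prod_cons]
    exact (Nat.modEq_and_modEq_iff_modEq_mul (Nat.coprime_list_prod_right_iff.2 h1)).1
      ⟨H c List.mem_cons_self, ih h2 fun p hp => H p (List.mem_cons_of_mem _ hp)⟩
theorem crtE_self (h : GoodP ps) {p : ℕ} (hp : p ∈ ps) : crtE ps.prod p ≡ 1 [MOD p] :=
  mul_invMod (h.coprime_div hp)
theorem crtE_other (h : GoodP ps) {p p' : ℕ} (hp : p ∈ ps) (hp' : p' ∈ ps) (hne : p ≠ p') :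
    crtE ps.prod p ≡ 0 [MOD p'] := by
  rw [Nat.modEq_zero_iff_dvd]
  refine Dvd.dvd.mul_right ?_ _
  refine (h.coprime hp' hp hne.symm).dvd_of_dvd_mul_left ?_
  rw [Nat.mul_div_cancel' (List.dvd_prod hp)]
  exact List.dvd_prod hp'
theorem sgnc_lt (h : GoodP ps) (p : ℕ) : sgnc ps.prod p < ps.prod := Nat.mod_lt _ h.prod_pos
theorem sgnc_self (h : GoodP ps) {p : ℕ} (hp : p ∈ ps) : sgnc ps.prod p + 1 ≡ 0 [MOD p] := by
  have hd : p ∣ ps.prod := List.dvd_prod hp
  have h1 : sgnc ps.prod p ≡ 1 + 2 * (ps.prod - 1) * 1 [MOD p] :=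
    (Nat.mod_modEq _ _).of_dvd hd |>.trans (((crtE_self h hp).mul_left _).add_left _)
  refine (h1.add_right 1).trans ?_
  have := h.prod_pos
  rw [show 1 + 2 * (ps.prod - 1) * 1 + 1 = 2 * ps.prod by omega, Nat.modEq_zero_iff_dvd]
  exact hd.mul_left 2
theorem sgnc_other (h : GoodP ps) {p p' : ℕ} (hp : p ∈ ps) (hp' : p' ∈ ps) (hne : p ≠ p') :
    sgnc ps.prod p ≡ 1 [MOD p'] := by
  have h1 : sgnc ps.prod p ≡ 1 + 2 * (ps.prod - 1) * 0 [MOD p'] :=
    (Nat.mod_modEq _ _).of_dvd (List.dvd_prod hp') |>.trans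
      (((crtE_other h hp hp' hne).mul_left _).add_left _)
  simpa using h1
theorem sgnc_sq (h : GoodP ps) {p : ℕ} (hp : p ∈ ps) :
    sgnc ps.prod p * sgnc ps.prod p ≡ 1 [MOD ps.prod] := by
  refine modEq_prod h.1 fun p' hp' => ?_
  by_cases e : p = p'
  · subst e
    have h1 := (ZMod.natCast_eq_natCast_iff _ _ _).2 (sgnc_self h hp)
    rw [← ZMod.natCast_eq_natCast_iff]
    push_cast at h1 ⊢
    linear_combination ((sgnc ps.prod p : ZMod p) - 1) * h1
  · simpa using (sgnc_other h hp hp' e).mul (sgnc_other h hp hp' e)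
theorem crtL_lt (h : GoodP ps) (rs : List ℕ) : crtL ps rs < ps.prod := Nat.mod_lt _ h.prod_pos
theorem crtL_map (h : GoodP ps) (r : ℕ → ℕ) {p : ℕ} (hp : p ∈ ps) :
    crtL ps (ps.map r) ≡ r p [MOD p] := by
  refine ((Nat.mod_modEq _ _).of_dvd (List.dvd_prod hp)).trans ?_
  have e : ((ps.zip (ps.map r)).map fun q => q.2 * crtE ps.prod q.1) =
      ps.map fun q => r q * crtE ps.prod q := by
    generalize crtE ps.prod = g
    clear h hp
    induction ps with
    | nil => rfl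
    | cons a l ih => simp [ih]
  rw [e, ← List.sum_toFinset _ h.nodup, ← ZMod.natCast_eq_natCast_iff]
  push_cast
  rw [Finset.sum_eq_single p]
  · rw [(ZMod.natCast_eq_natCast_iff _ _ _).2 (crtE_self h hp)]
    simp
  · intro q hq hne
    rw [(ZMod.natCast_eq_natCast_iff _ _ _).2 (crtE_other h (List.mem_toFinset.1 hq) hp hne)]
    simp
  · intro hq
    exact absurd (List.mem_toFinset.2 hp) hq
theorem prod_sq_modEq {N : ℕ} {l : List ℕ} (H : ∀ x ∈ l, x * x ≡ 1 [MOD N]) :
    l.prod * l.prod ≡ 1 [MOD N] := by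
  induction l with
  | nil => rfl
  | cons a l ih =>
    have h1 := (H a List.mem_cons_self).mul (ih fun x hx => H x (List.mem_cons_of_mem _ hx))
    rw [List.prod_cons, mul_mul_mul_comm]
    simpa using h1
theorem sgnMul_sq {b : List ℕ} (h : GoodP b) (b₀ : List ℕ) (y : ℕ) :
    sgnMul b₀ b y * sgnMul b₀ b y ≡ 1 [MOD b.prod] := by
  refine ((Nat.mod_modEq _ _).mul (Nat.mod_modEq _ _)).trans (prod_sq_modEq fun x hx => ?_)
  obtain ⟨q, hq, rfl⟩ := List.mem_map.1 hx
  split_ifs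
  · exact sgnc_sq h (List.of_mem_zip hq).2
  · rfl

theorem exists_poly_crtE : ∃ f : List ℕ × ℕ → ℕ, Poly f ∧
    ∀ ps p, GoodP ps → p ∈ ps → f (ps, p) = crtE ps.prod p := by
  obtain ⟨g, hg, H⟩ := exists_poly_invMod
  refine ⟨fun x => x.1.prod / x.2 * g (x.1.prod / x.2, x.2), by fun_prop, fun ps p h hp => ?_⟩
  simp only [crtE, H _ _ (h.pos hp) (h.coprime_div hp)]
theorem exists_poly_sgnc : ∃ f : List ℕ × ℕ → ℕ, Poly f ∧
    ∀ ps p, GoodP ps → p ∈ ps → f (ps, p) = sgnc ps.prod p := by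
  obtain ⟨g, hg, H⟩ := exists_poly_crtE
  refine ⟨fun x => (1 + 2 * (x.1.prod - 1) * g x) % x.1.prod, by fun_prop, fun ps p h hp => ?_⟩
  simp only [sgnc, H _ _ h hp]
theorem exists_poly_crtL : ∃ f : List ℕ × List ℕ → ℕ, Poly f ∧
    ∀ ps rs, GoodP ps → f (ps, rs) = crtL ps rs := by
  obtain ⟨g, hg, H⟩ := exists_poly_crtE
  refine ⟨fun x => ((x.1.zip x.2).map fun q => q.2 * g (x.1, q.1)).sum % x.1.prod, by fun_prop,
    fun ps rs h => ?_⟩
  simp only [crtL]
  rw [List.map_congr_left fun q hq => by rw [H _ _ h (List.of_mem_zip hq).1]]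
theorem exists_poly_sgnMul : ∃ f : List ℕ × List ℕ × ℕ → ℕ, Poly f ∧
    ∀ b₀ b y, GoodP b → f (b₀, b, y) = sgnMul b₀ b y := by
  obtain ⟨g, hg, H⟩ := exists_poly_sgnc
  refine ⟨fun x => ((x.1.zip x.2.1).map fun q =>
    if q.1 < 2 * (x.2.2 % q.1) then g (x.2.1, q.2) else 1).prod % x.2.1.prod, by fun_prop,
    fun b₀ b y h => ?_⟩
  simp only [sgnMul]
  rw [List.map_congr_left fun q hq => by rw [H _ _ h (List.of_mem_zip hq).2]]
theorem poly_blk2 : Poly (fun x : List ℕ × ℕ => blk x.1 x.2) := by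
  unfold blk
  fun_prop
theorem poly_blk (i : ℕ) : Poly (fun ps : List ℕ => blk ps i) :=
  Poly.comp poly_blk2 (Poly.id.pair (Poly.const i))
theorem poly_blkN : Poly blkN :=
  Poly.map (g := fun ps i => (blk ps i).prod) poly_blk2.prod (Poly.const _)

theorem mm_pos : 0 < mm := by rw [mm_eq]; norm_num

theorem blk_sublist (ps : List ℕ) (i : ℕ) : (blk ps i).Sublist ps := by
  unfold blk
  split_ifs
  · exact (List.take_sublist _ _).trans (List.drop_sublist _ _)
  · exact List.drop_sublist _ _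
theorem length_blk (ps : List ℕ) {i : ℕ} (hi : i < mm) : (blk ps i).length = ps.length / mm := by
  have h1 : (i + 1) * (ps.length / mm) ≤ mm * (ps.length / mm) := Nat.mul_le_mul_right _ hi
  have h2 := Nat.mul_div_le ps.length mm
  rw [blk, if_pos hi, List.length_take, List.length_drop]
  rw [add_mul, one_mul] at h1
  omega
theorem length_blk_last (ps : List ℕ) : (blk ps mm).length < mm := by
  have h1 := Nat.mod_lt ps.length mm_pos
  have h2 := Nat.div_add_mod ps.length mm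
  rw [blk, if_neg (lt_irrefl _), List.length_drop]
  omega
theorem flatten_blk_take (ps : List ℕ) {c : ℕ} (hc : c ≤ mm) :
    ((List.range c).map (blk ps)).flatten = ps.take (c * (ps.length / mm)) := by
  induction c with
  | zero => simp
  | succ c ih =>
    rw [List.range_succ, List.map_append, List.flatten_append, ih (by omega), add_mul, one_mul,
      List.take_add]
    simp [blk, show c < mm by omega]
theorem flatten_blk (ps : List ℕ) : ((List.range (mm + 1)).map (blk ps)).flatten = ps := by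
  rw [List.range_succ, List.map_append, List.flatten_append, flatten_blk_take ps le_rfl]
  simp [blk]
theorem length_blkN (ps : List ℕ) : (blkN ps).length = mm + 1 := by simp [blkN]
theorem blkN_eq (ps : List ℕ) : blkN ps = ((List.range (mm + 1)).map (blk ps)).map List.prod := by
  rw [blkN, List.map_map]
  rfl
theorem prod_blkN (ps : List ℕ) : (blkN ps).prod = ps.prod := by
  rw [blkN_eq, ← List.prod_flatten, flatten_blk]
theorem getD_blkN (ps : List ℕ) {i : ℕ} (hi : i ≤ mm) : (blkN ps).getD i 1 = (blk ps i).prod := by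
  simp [blkN, List.getD_eq_getElem?_getD, Nat.lt_succ_of_le hi]
theorem blkN_coprime (h : GoodP ps) : (blkN ps).Pairwise Nat.Coprime := by
  have h1 := h.1
  rw [← flatten_blk ps, List.pairwise_flatten] at h1
  rw [blkN_eq, List.pairwise_map]
  refine h1.2.imp fun {a b} H => ?_
  exact Nat.coprime_list_prod_left_iff.2 fun x hx => Nat.coprime_list_prod_right_iff.2 (H x hx)
theorem blkN_pos (h : GoodP ps) : ∀ x ∈ blkN ps, 0 < x := by
  intro x hx
  obtain ⟨i, -, rfl⟩ := List.mem_map.1 hx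
  exact (h.sublist (blk_sublist ps i)).prod_pos

end

theorem length_sD (H M : ℕ) (Ns tl : List ℕ) : (sD H Ns M tl).length = 2 * Ns.length + 2 + tl.length := by
  simp only [sD, List.length_cons, List.length_append]
  omega
theorem prod_sD (H M : ℕ) (Ns tl : List ℕ) : (sD H Ns M tl).prod = (s5 H Ns.prod M tl).prod := by
  simp only [sD, s5, List.prod_cons, List.prod_append]
theorem ax_sD_zero (H M : ℕ) (Ns tl : List ℕ) : ax (sD H Ns M tl) 0 = H := rfl
theorem ax_sD_y (H M : ℕ) (Ns tl : List ℕ) {i : ℕ} (hi : i < Ns.length) :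
    ax (sD H Ns M tl) (1 + i) = Ns.getD i 1 := by
  rw [Nat.add_comm, ax, sD, List.getD_cons_succ, List.getD_append _ _ _ _ hi]
theorem ax_sD_M (H M : ℕ) (Ns tl : List ℕ) : ax (sD H Ns M tl) (Ns.length + 1) = M := by
  rw [ax, sD, List.getD_cons_succ, List.getD_append_right _ _ _ _ le_rfl, Nat.sub_self,
    List.getD_cons_zero]
theorem ax_sD_x (H M : ℕ) (Ns tl : List ℕ) {i : ℕ} (hi : i < Ns.length) :
    ax (sD H Ns M tl) (Ns.length + 2 + i) = Ns.getD i 1 := by
  rw [show Ns.length + 2 + i = Ns.length + (i + 1) + 1 by omega, ax, sD, List.getD_cons_succ,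
    List.getD_append_right _ _ _ _ (Nat.le_add_right _ _), Nat.add_sub_cancel_left,
    List.getD_cons_succ, List.getD_append _ _ _ _ hi]
theorem ax_sD_tl (H M : ℕ) (Ns tl : List ℕ) (u : ℕ) :
    ax (sD H Ns M tl) (2 * Ns.length + 2 + u) = ax tl u := by
  rw [show 2 * Ns.length + 2 + u = Ns.length + (Ns.length + u + 1) + 1 by omega, ax, sD,
    List.getD_cons_succ, List.getD_append_right _ _ _ _ (Nat.le_add_right _ _),
    Nat.add_sub_cancel_left, List.getD_cons_succ,
    List.getD_append_right _ _ _ _ (Nat.le_add_right _ _), Nat.add_sub_cancel_left, ax]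
theorem ax_s5_tl (H N M : ℕ) (tl : List ℕ) (u : ℕ) : ax (s5 H N M tl) (u + 4) = ax tl u := rfl

theorem mrg_congr {Ns : List ℕ} {y y' : ℕ → ℕ} (h : ∀ i < Ns.length, y i = y' i) :
    mrg Ns y = mrg Ns y' := by
  induction Ns generalizing y y' with
  | nil => rfl
  | cons N r ih =>
    have h1 : mrg r (fun t => y (t + 1)) = mrg r (fun t => y' (t + 1)) :=
      ih fun i hi => h _ (by simpa using hi)
    simp only [mrg, h1, h 0 (by simp)]

theorem mrgI_zero (Ns : List ℕ) (ι : ℕ → ℕ) : mrgI Ns ι 0 = ι 0 := rfl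
theorem mrgI_one (Ns : List ℕ) (ι : ℕ → ℕ) : mrgI Ns ι 1 = mrg Ns fun u => ι (u + 1) := rfl
theorem mrgI_two (Ns : List ℕ) (ι : ℕ → ℕ) : mrgI Ns ι 2 = ι (Ns.length + 1) := rfl
theorem mrgI_three (Ns : List ℕ) (ι : ℕ → ℕ) :
    mrgI Ns ι 3 = mrg Ns fun u => ι (u + (Ns.length + 2)) := rfl
theorem mrgI_tl (Ns : List ℕ) (ι : ℕ → ℕ) (u : ℕ) :
    mrgI Ns ι (u + 4) = ι (2 * Ns.length + 2 + u) := by
  unfold mrgI
  rw [if_neg (by omega), if_neg (by omega), if_neg (by omega), if_neg (by omega)]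
  congr 1
  omega
theorem splI_zero (Ns : List ℕ) (ι : ℕ → ℕ) : splI Ns ι 0 = ι 0 := rfl
theorem splI_y (Ns : List ℕ) (ι : ℕ → ℕ) {i : ℕ} (hi : i < Ns.length) :
    splI Ns ι (1 + i) = spl Ns (ι 1) i := by
  unfold splI
  rw [if_neg (by omega), if_pos (by omega), Nat.add_sub_cancel_left]
theorem splI_M (Ns : List ℕ) (ι : ℕ → ℕ) : splI Ns ι (Ns.length + 1) = ι 2 := by
  unfold splI
  rw [if_neg (by omega), if_neg (by omega), if_pos rfl]
theorem splI_x (Ns : List ℕ) (ι : ℕ → ℕ) {i : ℕ} (hi : i < Ns.length) :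
    splI Ns ι (Ns.length + 2 + i) = spl Ns (ι 3) i := by
  unfold splI
  rw [if_neg (by omega), if_neg (by omega), if_neg (by omega), if_pos (by omega),
    Nat.add_sub_cancel_left]
theorem splI_tl (Ns : List ℕ) (ι : ℕ → ℕ) (u : ℕ) :
    splI Ns ι (2 * Ns.length + 2 + u) = ι (u + 4) := by
  unfold splI
  rw [if_neg (by omega), if_neg (by omega), if_neg (by omega), if_neg (by omega)]
  congr 1
  omega

/-- case distinction on an axis of the split shape -/
theorem sD_cases (n t : ℕ) : t = 0 ∨ (∃ i < n, t = 1 + i) ∨ t = n + 1 ∨ (∃ i < n, t = n + 2 + i) ∨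
    ∃ u, t = 2 * n + 2 + u := by
  by_cases h0 : t = 0
  · exact Or.inl h0
  by_cases h1 : t ≤ n
  · exact Or.inr (Or.inl ⟨t - 1, by omega, by omega⟩)
  by_cases h2 : t = n + 1
  · exact Or.inr (Or.inr (Or.inl h2))
  by_cases h3 : t ≤ 2 * n + 1
  · exact Or.inr (Or.inr (Or.inr (Or.inl ⟨t - (n + 2), by omega, by omega⟩)))
  · exact Or.inr (Or.inr (Or.inr (Or.inr ⟨t - (2 * n + 2), by omega⟩)))

/-- case distinction on an axis of the unsplit shape -/
theorem s5_cases (t : ℕ) : t = 0 ∨ t = 1 ∨ t = 2 ∨ t = 3 ∨ ∃ u, t = u + 4 := by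
  by_cases h : t < 4
  · omega
  · exact Or.inr (Or.inr (Or.inr (Or.inr ⟨t - 4, by omega⟩)))

theorem getD_mem {Ns : List ℕ} {i : ℕ} (hi : i < Ns.length) : Ns.getD i 1 ∈ Ns := by
  rw [List.getD_eq_getElem _ _ hi]
  exact List.getElem_mem hi

theorem coprime_drop_getD {Ns : List ℕ} (hc : Ns.Pairwise Nat.Coprime) {i : ℕ}
    (hi : i < Ns.length) : Nat.Coprime (Ns.drop (i + 1)).prod (Ns.getD i 1) := by
  have h1 : (Ns.drop i).Pairwise Nat.Coprime := hc.sublist (List.drop_sublist _ _)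
  rw [List.drop_eq_getElem_cons hi, List.pairwise_cons] at h1
  rw [List.getD_eq_getElem _ _ hi]
  exact Nat.coprime_list_prod_left_iff.2 fun k hk => (h1.1 k hk).symm

section
variable {Ns : List ℕ} (hc : Ns.Pairwise Nat.Coprime) (hp : ∀ x ∈ Ns, 0 < x)
include hc hp

theorem mrg_lt (y : ℕ → ℕ) : mrg Ns y < Ns.prod := by
  induction Ns generalizing y with
  | nil => simp [mrg]
  | cons N r ih =>
    have h1 := ih (List.pairwise_cons.1 hc).2 (fun x hx => hp x (List.mem_cons_of_mem _ hx))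
      fun t => y (t + 1)
    have h2 := Nat.mod_lt (y 0 + (N - invMod r.prod N * mrg r (fun t => y (t + 1)) % N))
      (hp N List.mem_cons_self)
    have h3 := Nat.mul_le_mul_right r.prod (Nat.succ_le_of_lt h2)
    rw [Nat.succ_mul] at h3
    rw [mrg, List.prod_cons]
    omega
theorem mrg_modEq (y : ℕ → ℕ) {i : ℕ} (hi : i < Ns.length) :
    mrg Ns y ≡ (Ns.drop (i + 1)).prod * y i [MOD Ns.getD i 1] := by
  induction Ns generalizing y i with
  | nil => simp at hi
  | cons N r ih =>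
    obtain ⟨h1, h2⟩ := List.pairwise_cons.1 hc
    cases i with
    | zero =>
      have hN := hp N List.mem_cons_self
      have hcop : Nat.Coprime r.prod N := Nat.coprime_list_prod_left_iff.2 fun k hk => (h1 k hk).symm
      have h3 := (ZMod.natCast_eq_natCast_iff _ _ _).2 (mul_invMod hcop)
      rw [mrg, List.getD_cons_zero, List.drop_succ_cons, List.drop_zero,
        ← ZMod.natCast_eq_natCast_iff]
      push_cast [Nat.cast_sub (Nat.mod_lt _ hN).le, ZMod.natCast_mod, ZMod.natCast_self] at h3 ⊢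
      linear_combination (-(mrg r fun t => y (t + 1) : ℕ) : ZMod N) * h3
    | succ i =>
      have hi' : i < r.length := by simpa using hi
      have h3 := ih h2 (fun x hx => hp x (List.mem_cons_of_mem _ hx)) (fun t => y (t + 1)) hi'
      rw [mrg, List.getD_cons_succ, List.drop_succ_cons]
      have h4 := (Nat.modEq_zero_iff_dvd.2 ((List.dvd_prod (getD_mem hi')).mul_left
        ((y 0 + (N - invMod r.prod N * mrg r (fun t => y (t + 1)) % N)) % N))).add h3
      simpa using h4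
theorem spl_mrg {y : ℕ → ℕ} {i : ℕ} (hi : i < Ns.length) (hy : y i < Ns.getD i 1) :
    spl Ns (mrg Ns y) i = y i := by
  have h1 := (mrg_modEq hc hp y hi).mul_left (invMod (Ns.drop (i + 1)).prod (Ns.getD i 1))
  have h2 := (mul_invMod (coprime_drop_getD hc hi)).mul_right (y i)
  rw [← mul_assoc, mul_comm (invMod _ _) (List.prod _)] at h1
  have h3 := h1.trans h2
  rw [one_mul] at h3
  rw [spl, h3, Nat.mod_eq_of_lt hy]
theorem mrg_spl {Y : ℕ} (hY : Y < Ns.prod) : mrg Ns (spl Ns Y) = Y := by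
  refine Nat.ModEq.eq_of_lt_of_lt (modEq_prod hc fun p hp' => ?_) (mrg_lt hc hp _) hY
  obtain ⟨i, hi, rfl⟩ := List.getElem_of_mem hp'
  rw [← List.getD_eq_getElem _ 1 hi]
  refine (mrg_modEq hc hp _ hi).trans (((Nat.mod_modEq _ _).mul_left _).trans ?_)
  have h2 := (mul_invMod (coprime_drop_getD hc hi)).mul_right Y
  rwa [one_mul, mul_assoc] at h2
theorem mrgI_valid {H M : ℕ} {tl : List ℕ} {ι : ℕ → ℕ} (h : Valid (sD H Ns M tl) ι) :
    Valid (s5 H Ns.prod M tl) (mrgI Ns ι) := by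
  intro t
  rcases s5_cases t with rfl | rfl | rfl | rfl | ⟨u, rfl⟩
  · exact h 0
  · exact mrg_lt hc hp _
  · have := h (Ns.length + 1)
    rwa [ax_sD_M] at this
  · exact mrg_lt hc hp _
  · have := h (2 * Ns.length + 2 + u)
    rw [ax_sD_tl] at this
    rwa [mrgI_tl]
theorem splI_valid {H M : ℕ} {tl : List ℕ} {ι : ℕ → ℕ} (h : Valid (s5 H Ns.prod M tl) ι) :
    Valid (sD H Ns M tl) (splI Ns ι) := by
  have _ := hc
  intro t
  rcases sD_cases Ns.length t with rfl | ⟨i, hi, rfl⟩ | rfl | ⟨i, hi, rfl⟩ | ⟨u, rfl⟩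
  · exact h 0
  · rw [ax_sD_y _ _ _ _ hi, splI_y _ _ hi]
    exact Nat.mod_lt _ (hp _ (getD_mem hi))
  · rw [ax_sD_M, splI_M]
    exact h 2
  · rw [ax_sD_x _ _ _ _ hi, splI_x _ _ hi]
    exact Nat.mod_lt _ (hp _ (getD_mem hi))
  · rw [ax_sD_tl, splI_tl]
    exact h (u + 4)
theorem splI_mrgI {H M : ℕ} {tl : List ℕ} {ι : ℕ → ℕ} (h : Valid (sD H Ns M tl) ι) :
    splI Ns (mrgI Ns ι) = ι := by
  funext t
  rcases sD_cases Ns.length t with rfl | ⟨i, hi, rfl⟩ | rfl | ⟨i, hi, rfl⟩ | ⟨u, rfl⟩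
  · rfl
  · have := h (1 + i)
    rw [ax_sD_y _ _ _ _ hi, Nat.add_comm] at this
    rw [splI_y _ _ hi, mrgI_one, spl_mrg hc hp hi this, Nat.add_comm]
  · rw [splI_M, mrgI_two]
  · have := h (Ns.length + 2 + i)
    rw [ax_sD_x _ _ _ _ hi, Nat.add_comm] at this
    rw [splI_x _ _ hi, mrgI_three, spl_mrg hc hp hi this, Nat.add_comm]
  · rw [splI_tl, mrgI_tl]
theorem mrgI_splI {H M : ℕ} {tl : List ℕ} {ι : ℕ → ℕ} (h : Valid (s5 H Ns.prod M tl) ι) :
    mrgI Ns (splI Ns ι) = ι := by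
  funext t
  rcases s5_cases t with rfl | rfl | rfl | rfl | ⟨u, rfl⟩
  · rfl
  · rw [mrgI_one, mrg_congr (y' := spl Ns (ι 1)) fun i hi => by rw [Nat.add_comm, splI_y _ _ hi]]
    exact mrg_spl hc hp (h 1)
  · rw [mrgI_two, splI_M]
  · rw [mrgI_three, mrg_congr (y' := spl Ns (ι 3)) fun i hi => by rw [Nat.add_comm, splI_x _ _ hi]]
    exact mrg_spl hc hp (h 3)
  · rw [mrgI_tl, splI_tl]

end

end Crest.Agent.R326
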