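import Crest.Agent.R326.DigDefs

/-! Row 326: naturality, linearity and perturbation of pipelines. -/

set_option autoImplicit false

namespace Crest.Agent.R326

section
variable {S S' : Type} [CommRing S] [CommRing S'] (φ : S →+* S') (I : S)

theorem c2s_consM {N : ℕ} (c : ℕ) (cs : List ℕ) (f : ZMod N × ZMod N → S) :
    c2s I (c :: cs) f =
      c2 I (fun v : ZMod N × ZMod N => ((c : ZMod N) * v.1, (c : ZMod N) * v.2)) (c2s I cs f) := rfl

theorem c2s_map {N : ℕ} (cs : List ℕ) (f : ZMod N × ZMod N → S) (v : ZMod N × ZMod N) :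
    φ (c2s I cs f v) = c2s (φ I) cs (fun v => φ (f v)) v := by
  induction cs generalizing v with
  | nil => rfl
  | cons c cs ih => simp [c2s_consM, c2, ih]

theorem c2s_lin {N : ℕ} (cs : List ℕ) (a b : S) (f g : ZMod N × ZMod N → S) :
    (c2s I cs fun v => a * f v + b * g v) = fun v => a * c2s I cs f v + b * c2s I cs g v := by
  induction cs with
  | nil => rfl
  | cons c cs ih =>
    funext v
    simp only [c2s_consM, c2, ih]
    ring

theorem mac_map {N : ℕ} (cs : List ℕ) (m : MacD N S) (f : ZMod N × ZMod N → S)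
    (v : ZMod N × ZMod N) :
    φ (mac I cs m f v) = mac (φ I) cs (m.map φ) (fun v => φ (f v)) v := by
  simp only [mac, map_mul, c2s_map, MacD.map]

theorem mac_lin {N : ℕ} (cs : List ℕ) (m : MacD N S) (a b : S) (f g : ZMod N × ZMod N → S) :
    (mac I cs m fun v => a * f v + b * g v) = fun v => a * mac I cs m f v + b * mac I cs m g v := by
  have e : ∀ t x y : S, t * (a * x + b * y) = a * (t * x) + b * (t * y) := fun t x y => by ring
  funext v
  simp only [mac, e, c2s_lin]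

theorem pipe_succ {N : ℕ} (cs : List ℕ) (ms : ℕ → MacD N S) (n : ℕ) (f : ZMod N × ZMod N → S) :
    pipe I cs ms (n + 1) f = mac I cs (ms n) (pipe I cs ms n f) := by
  simp [pipe, List.range_succ]

theorem pipe_lin {N : ℕ} (cs : List ℕ) (ms : ℕ → MacD N S) (n : ℕ) (a b : S)
    (f g : ZMod N × ZMod N → S) : (pipe I cs ms n fun v => a * f v + b * g v) =
      fun v => a * pipe I cs ms n f v + b * pipe I cs ms n g v := by
  induction n with
  | zero => rfl
  | succ n ih => simp only [pipe_succ, ih, mac_lin]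

theorem pipe_map {N : ℕ} (cs : List ℕ) (ms : ℕ → MacD N S) (n : ℕ) (f : ZMod N × ZMod N → S)
    (v : ZMod N × ZMod N) :
    φ (pipe I cs ms n f v) = pipe (φ I) cs (fun μ => (ms μ).map φ) n (fun v => φ (f v)) v := by
  induction n generalizing v with
  | zero => rfl
  | succ n ih => simp only [pipe_succ, mac_map, ih]

theorem pipe_add {N : ℕ} (cs : List ℕ) (ms : ℕ → MacD N S) (n : ℕ) (f g : ZMod N × ZMod N → S) :
    pipe I cs ms n (f + g) = pipe I cs ms n f + pipe I cs ms n g := by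
  have := pipe_lin I cs ms n 1 1 f g
  simp only [one_mul] at this
  exact this

theorem pipe_smul {N : ℕ} (cs : List ℕ) (ms : ℕ → MacD N S) (n : ℕ) (c : S)
    (f : ZMod N × ZMod N → S) : pipe I cs ms n (c • f) = c • pipe I cs ms n f := by
  have := pipe_lin I cs ms n c 0 f f
  simp only [zero_mul, add_zero] at this
  exact this

theorem bat3_map (ps : List ℕ) (ms : ℕ → MacD ps.prod S) (n : ℕ) (f : ℕ → ℕ → ℕ → S) (i j k : ℕ) :
    φ (bat3 I ps ms n f i j k) =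
      bat3 (φ I) ps (fun μ => (ms μ).map φ) n (fun i j k => φ (f i j k)) i j k := by
  simp only [bat3, batchS, pipe_map]
  congr 1
  funext v
  simp only [embedZ, apply_ite φ, map_zero]

theorem d3_map (ps : List ℕ) (ms : ℕ → MacD ps.prod S) (n : ℕ) (f : ℕ → ℕ → ℕ → S) (i j k : ℕ) :
    φ (d3 I ps ms n f i j k) =
      d3 (φ I) ps (fun μ => (ms μ).map φ) n (fun i j k => φ (f i j k)) i j k := by
  unfold d3 sw02 sw12
  simp only [bat3_map]

theorem conv3_map (ps : List ℕ) (ms : ℕ → MacD ps.prod S) (n Sh : ℕ) (f g : ℕ → ℕ → ℕ → S)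
    (i j k : ℕ) : φ (conv3 I ps ms n Sh f g i j k) =
      conv3 (φ I) ps (fun μ => (ms μ).map φ) n Sh (fun i j k => φ (f i j k))
        (fun i j k => φ (g i j k)) i j k := by
  simp only [conv3, map_add, map_mul, map_pow, map_natCast, map_ofNat, d3_map]

/-- the batched transform only reads the cube -/
theorem bat3_congr {ps : List ℕ} (hN : 0 < ps.prod) (ms : ℕ → MacD ps.prod S) (n : ℕ)
    {f g : ℕ → ℕ → ℕ → S}
    (h : ∀ i < ps.prod, ∀ j < ps.prod, ∀ k < ps.prod, f i j k = g i j k) :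
    bat3 I ps ms n f = bat3 I ps ms n g := by
  have : NeZero ps.prod := ⟨hN.ne'⟩
  funext i j k
  simp only [bat3, batchS]
  congr 1
  funext v
  simp only [embedZ]
  split_ifs with hc
  · exact h _ (Nat.div_lt_of_lt_mul (by rw [← sq]; exact hc.2)) _ (Nat.mod_lt _ hN) _ (ZMod.val_lt _)
  · rfl

theorem d3_congr {ps : List ℕ} (hN : 0 < ps.prod) (ms : ℕ → MacD ps.prod S) (n : ℕ)
    {f g : ℕ → ℕ → ℕ → S}
    (h : ∀ i < ps.prod, ∀ j < ps.prod, ∀ k < ps.prod, f i j k = g i j k) :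
    d3 I ps ms n f = d3 I ps ms n g := by
  rw [d3, d3, bat3_congr I hN ms n h]

end

/-- growth factor of one macro -/
noncomputable def Gam (Λ : ℝ) (K : ℕ) : ℝ := (Λ + 1) ^ 5 * 256 ^ K

namespace MacX

variable {X : Type}

/-- `g` approximates `s f` with relative error `ε`, and `f` is bounded by `A` -/
def Rel (s ε A : ℝ) (f g : X → ℂ) : Prop := ∀ v, ‖g v - s * f v‖ ≤ s * ε ∧ ‖f v‖ ≤ A

theorem Rel.comp {s ε A : ℝ} {f g : X → ℂ} (h : Rel s ε A f g) (σ : X → X) :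
    Rel s ε A (fun v => f (σ v)) (fun v => g (σ v)) := fun v => h (σ v)

theorem Rel.tab {s ε A Λ : ℝ} {f g T T' : X → ℂ} (h : Rel s ε A f g) (hs : 0 ≤ s) {b : ℕ}
    (hb : 2 ≤ b) (hΛ : 0 ≤ Λ) (ht : ∀ v, ‖T' v - 2 ^ b * T v‖ ≤ 3 ∧ ‖T v‖ ≤ Λ) :
    Rel (s * 2 ^ b) ((Λ + 1) * (ε + 3 / 2 ^ b * A)) ((Λ + 1) * A) (fun v => T v * f v)
      (fun v => T' v * g v) := by
  intro v
  obtain ⟨h1, h2⟩ := h v
  obtain ⟨h3, h4⟩ := ht v
  have hA : 0 ≤ A := (norm_nonneg _).trans h2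
  have h5 : (4 : ℝ) ≤ 2 ^ b := by
    calc (4 : ℝ) = 2 ^ 2 := by norm_num
      _ ≤ 2 ^ b := pow_le_pow_right₀ (by norm_num) hb
  have h6 : ‖T' v‖ ≤ 2 ^ b * (Λ + 1) := by
    have : ‖T' v‖ ≤ ‖T' v - 2 ^ b * T v‖ + ‖(2 : ℂ) ^ b * T v‖ := by
      simpa using norm_add_le (T' v - 2 ^ b * T v) (2 ^ b * T v)
    rw [norm_mul, norm_pow, Complex.norm_ofNat] at this
    nlinarith
  constructor
  · have e : T' v * g v - ((s * 2 ^ b : ℝ) : ℂ) * (T v * f v) =
        T' v * (g v - s * f v) + s * ((T' v - 2 ^ b * T v) * f v) := by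
      push_cast
      ring
    have a1 : ‖T' v * (g v - s * f v)‖ ≤ 2 ^ b * (Λ + 1) * (s * ε) := by
      rw [norm_mul]
      exact mul_le_mul h6 h1 (norm_nonneg _) (by positivity)
    have a2 : ‖(s : ℂ) * ((T' v - 2 ^ b * T v) * f v)‖ ≤ s * (3 * A) := by
      rw [norm_mul, norm_mul, Complex.norm_real, Real.norm_eq_abs, abs_of_nonneg hs]
      exact mul_le_mul_of_nonneg_left (mul_le_mul h3 h2 (norm_nonneg _) (by norm_num)) hs
    have a3 : s * 2 ^ b * ((Λ + 1) * (ε + 3 / 2 ^ b * A)) =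
        2 ^ b * (Λ + 1) * (s * ε) + (Λ + 1) * (s * (3 * A)) := by
      field_simp
    have a4 : 0 ≤ Λ * (s * (3 * A)) := by positivity
    simp only
    rw [e, a3]
    refine (norm_add_le _ _).trans ?_
    linarith
  · simp only [norm_mul]
    exact mul_le_mul (by linarith) h2 (norm_nonneg _) (by linarith)

theorem norm_c2s {N : ℕ} (cs : List ℕ) {h : ZMod N × ZMod N → ℂ} {B : ℝ} (hB : ∀ v, ‖h v‖ ≤ B)
    (v : ZMod N × ZMod N) : ‖c2s Complex.I cs h v‖ ≤ 4 ^ cs.length * B := by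
  induction cs generalizing v with
  | nil => rw [List.length_nil, pow_zero, one_mul]; exact hB v
  | cons c cs ih =>
    have h1 : ‖1 + Complex.I‖ ≤ 2 := (norm_add_le _ _).trans (by simp; norm_num)
    have h2 : ‖1 - Complex.I‖ ≤ 2 := (norm_sub_le _ _).trans (by simp; norm_num)
    rw [c2s_consM, c2, List.length_cons, pow_succ]
    refine (norm_add_le _ _).trans ?_
    rw [norm_mul, norm_mul]
    have a1 := mul_le_mul h1 (ih v) (norm_nonneg _) (by norm_num)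
    have a2 := mul_le_mul h2 (ih ((c : ZMod N) * v.1, (c : ZMod N) * v.2)) (norm_nonneg _)
      (by norm_num)
    linarith

theorem Rel.c2s {N : ℕ} (cs : List ℕ) {s ε A : ℝ} {f g : ZMod N × ZMod N → ℂ}
    (h : Rel s ε A f g) : Rel s (4 ^ cs.length * ε) (4 ^ cs.length * A) (c2s Complex.I cs f)
      (c2s Complex.I cs g) := by
  intro v
  refine ⟨?_, norm_c2s cs (fun v => (h v).2) v⟩
  have h1 := norm_c2s cs (h := fun v => 1 * g v + -(s : ℂ) * f v) (B := s * ε)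
    (fun v => by simpa [sub_eq_add_neg] using (h v).1) v
  rw [c2s_lin] at h1
  rw [mul_left_comm]
  simpa [sub_eq_add_neg] using h1

theorem Rel.mac {N : ℕ} (cs : List ℕ) {m m' : MacD N ℂ} {b : ℕ} (hb : 2 ≤ b) {Λ : ℝ}
    (hΛ : 0 ≤ Λ) (hd : m'.d = m.d ∧ m'.F = m.F)
    (ht : ∀ ν v, ‖m'.tab ν v - 2 ^ b * m.tab ν v‖ ≤ 3 ∧ ‖m.tab ν v‖ ≤ Λ) {s ε A : ℝ} (hs : 0 ≤ s)
    {f g : ZMod N × ZMod N → ℂ} (h : Rel s ε A f g) :
    Rel (s * 2 ^ (5 * b)) (Gam Λ cs.length * (ε + 15 * A / 2 ^ b)) (Gam Λ cs.length * A)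
      (mac Complex.I cs m f) (mac Complex.I cs m' g) := by
  have h0 := h.comp fun v => (v.1 + m.d, v.2 + m.F (v.1 + m.d))
  have h1 := (h0.tab hs hb hΛ (ht 0)).c2s cs
  have h2 := (h1.tab (by positivity) hb hΛ (ht 1)).c2s cs
  have h3 := (h2.tab (by positivity) hb hΛ (ht 2)).c2s cs
  have h4 := (h3.tab (by positivity) hb hΛ (ht 3)).c2s cs
  have h5 := (h4.tab (by positivity) hb hΛ (ht 4)).comp fun v => (v.1 - m.d, v.2 - m.F v.1)
  have e : (256 : ℝ) ^ cs.length = (4 ^ cs.length) ^ 4 := by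
    rw [← pow_mul, mul_comm, pow_mul]; norm_num
  unfold R326.mac
  rw [hd.1, hd.2]
  convert h5 using 1
  · ring
  · rw [Gam, e]; ring
  · rw [Gam, e]; ring

end MacX

theorem pipe_err {N : ℕ} (cs : List ℕ) (ms mt : ℕ → MacD N ℂ) (b : ℕ) (hb : 2 ≤ b) {Λ : ℝ}
    (hΛ : 0 ≤ Λ) (hd : ∀ μ, (mt μ).d = (ms μ).d ∧ (mt μ).F = (ms μ).F)
    (ht : ∀ μ ν v, ‖(mt μ).tab ν v - 2 ^ b * (ms μ).tab ν v‖ ≤ 3 ∧ ‖(ms μ).tab ν v‖ ≤ Λ) (n : ℕ)
    {f g : ZMod N × ZMod N → ℂ} {s ε A : ℝ} (hs : 0 ≤ s) (hε : 0 ≤ ε)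
    (hg : ∀ v, ‖g v - s * f v‖ ≤ s * ε) (hf : ∀ v, ‖f v‖ ≤ A) (v : ZMod N × ZMod N) :
    ‖pipe Complex.I cs mt n g v - (s * 2 ^ (5 * b * n) : ℝ) * pipe Complex.I cs ms n f v‖ ≤
        s * 2 ^ (5 * b * n) * (Gam Λ cs.length ^ n * (ε + 15 * n * A / 2 ^ b)) ∧
      ‖pipe Complex.I cs ms n f v‖ ≤ Gam Λ cs.length ^ n * A := by
  suffices H : MacX.Rel (s * 2 ^ (5 * b * n)) (Gam Λ cs.length ^ n * (ε + 15 * n * A / 2 ^ b))
      (Gam Λ cs.length ^ n * A) (pipe Complex.I cs ms n f) (pipe Complex.I cs mt n g) from H v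
  induction n with
  | zero =>
    simp only [mul_zero, pow_zero, mul_one, one_mul, Nat.cast_zero, zero_mul, zero_div, add_zero]
    exact fun v => ⟨hg v, hf v⟩
  | succ n ih =>
    rw [pipe_succ, pipe_succ]
    convert ih.mac cs hb hΛ (hd n) (ht n) (by positivity) using 1
    · ring
    · push_cast; ring
    · ring

end Crest.Agent.R326
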