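import Crest.Agent.R326.Dig
import Crest.Agent.R326.Mac
import Crest.Agent.R326.Crt

/-! Row 326: the tensor product of the circuits is the batched DFT of length `N`. -/

set_option autoImplicit false

namespace Crest.Agent.R326

variable {ps : List ℕ}

namespace Ten

theorem c2s_nil {S : Type} [CommRing S] (I : S) {N : ℕ} (f : ZMod N × ZMod N → S) :
    c2s I [] f = f := rfl

theorem c2s_cons {S : Type} [CommRing S] (I : S) {N : ℕ} (c : ℕ) (cs : List ℕ)
    (f : ZMod N × ZMod N → S) : c2s I (c :: cs) f =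
      c2 I (fun v : ZMod N × ZMod N => ((c : ZMod N) * v.1, (c : ZMod N) * v.2)) (c2s I cs f) := rfl

/-- reduction of residues -/
def red {N : ℕ} (p : ℕ) (a : ZMod N) : ZMod p := (a.val : ZMod p)

section red
variable {N p : ℕ} [NeZero N] (hp : p ∣ N)

omit [NeZero N] in
theorem val_red (a : ZMod N) : (red p a).val = a.val % p := ZMod.val_natCast _ _

include hp

theorem red_eq (a : ZMod N) : red p a = ZMod.castHom hp (ZMod p) a := by
  rw [red, ZMod.natCast_val, ZMod.castHom_apply]

theorem red_add (a b : ZMod N) : red p (a + b) = red p a + red p b := by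
  simp only [red_eq hp, map_add]

theorem red_sub (a b : ZMod N) : red p (a - b) = red p a - red p b := by
  simp only [red_eq hp, map_sub]

theorem red_mul (a b : ZMod N) : red p (a * b) = red p a * red p b := by
  simp only [red_eq hp, map_mul]

theorem red_nat (a : ℕ) : red p (a : ZMod N) = (a : ZMod p) := by
  simp only [red_eq hp, map_natCast]

end red

theorem red_inj (h : GoodP ps) {a b : ZMod ps.prod} (H : ∀ p ∈ ps, red p a = red p b) : a = b := by
  haveI : NeZero ps.prod := ⟨h.prod_pos.ne'⟩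
  refine ZMod.val_injective _ (Nat.ModEq.eq_of_lt_of_lt (modEq_prod h.1 fun p hp => ?_)
    (ZMod.val_lt a) (ZMod.val_lt b))
  exact (ZMod.natCast_eq_natCast_iff _ _ _).1 (H p hp)

/-- pure tensors -/
noncomputable def tens (ps : List ℕ) (g : (p : ℕ) → ZMod p × ZMod p → ℂ)
    (v : ZMod ps.prod × ZMod ps.prod) : ℂ := ∏ p ∈ ps.toFinset, g p (red p v.1, red p v.2)

theorem tens_congr {g g' : (p : ℕ) → ZMod p × ZMod p → ℂ} (H : ∀ p ∈ ps, g p = g' p) :
    tens ps g = tens ps g' := by
  funext v
  exact Finset.prod_congr rfl fun p hp => by rw [H p (List.mem_toFinset.1 hp)]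

theorem tens_mul (g g' : (p : ℕ) → ZMod p × ZMod p → ℂ) (v : ZMod ps.prod × ZMod ps.prod) :
    tens ps g v * tens ps g' v = tens ps (fun p u => g p u * g' p u) v := by
  simp only [tens, Finset.prod_mul_distrib]

theorem c2_tens (h : GoodP ps) {q : ℕ} (hq : q ∈ ps) (g : (p : ℕ) → ZMod p × ZMod p → ℂ) :
    c2 Complex.I (fun v : ZMod ps.prod × ZMod ps.prod =>
        (((sgnc ps.prod q : ℕ) : ZMod ps.prod) * v.1, ((sgnc ps.prod q : ℕ) : ZMod ps.prod) * v.2))
      (tens ps g) = tens ps fun p => if p = q then c2s Complex.I [p - 1] (g p) else g p := by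
  haveI : NeZero ps.prod := ⟨h.prod_pos.ne'⟩
  funext v
  have hq' : q ∈ ps.toFinset := List.mem_toFinset.2 hq
  have e1 : ((sgnc ps.prod q : ℕ) : ZMod q) = ((q - 1 : ℕ) : ZMod q) := by
    rw [ZMod.natCast_eq_natCast_iff]
    refine Nat.ModEq.add_right_cancel' 1 ((sgnc_self h hq).trans ?_)
    rw [Nat.sub_add_cancel (h.pos hq)]
    exact (Nat.modEq_zero_iff_dvd.2 dvd_rfl).symm
  have e2 : ∀ p ∈ ps.toFinset.erase q, ((sgnc ps.prod q : ℕ) : ZMod p) = 1 := fun p hp => by
    obtain ⟨h1, h2⟩ := Finset.mem_erase.1 hp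
    have := (ZMod.natCast_eq_natCast_iff _ _ _).2 (sgnc_other h hq (List.mem_toFinset.1 h2) h1.symm)
    simpa using this
  simp only [c2, tens]
  rw [← Finset.mul_prod_erase _ _ hq', ← Finset.mul_prod_erase _ _ hq',
    ← Finset.mul_prod_erase _ _ hq']
  have e3 : ∏ p ∈ ps.toFinset.erase q, g p (red p (((sgnc ps.prod q : ℕ) : ZMod ps.prod) * v.1),
      red p (((sgnc ps.prod q : ℕ) : ZMod ps.prod) * v.2)) =
      ∏ p ∈ ps.toFinset.erase q, g p (red p v.1, red p v.2) :=
    Finset.prod_congr rfl fun p hp => by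
      have hd : p ∣ ps.prod := List.dvd_prod (List.mem_toFinset.1 (Finset.mem_erase.1 hp).2)
      rw [red_mul hd, red_mul hd, red_nat hd, e2 p hp, one_mul, one_mul]
  have e4 : ∏ p ∈ ps.toFinset.erase q,
      (if p = q then c2s Complex.I [p - 1] (g p) else g p) (red p v.1, red p v.2) =
      ∏ p ∈ ps.toFinset.erase q, g p (red p v.1, red p v.2) :=
    Finset.prod_congr rfl fun p hp => by rw [if_neg (Finset.mem_erase.1 hp).1]
  have hd : q ∣ ps.prod := List.dvd_prod hq
  rw [e3, e4, if_pos rfl, red_mul hd, red_mul hd, red_nat hd, e1]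
  simp only [c2s_cons, c2s_nil, c2]
  ring

theorem c2s_tens_aux (h : GoodP ps) (g : (p : ℕ) → ZMod p × ZMod p → ℂ) (qs : List ℕ)
    (hn : qs.Nodup) (hs : ∀ q ∈ qs, q ∈ ps) :
    c2s Complex.I (qs.map (sgnc ps.prod)) (tens ps g) =
      tens ps fun p => if p ∈ qs then c2s Complex.I [p - 1] (g p) else g p := by
  induction qs with
  | nil => simp [c2s_nil]
  | cons q qs ih =>
    obtain ⟨h1, h2⟩ := List.nodup_cons.1 hn
    have := ih h2 fun r hr => hs r (List.mem_cons_of_mem _ hr)
    rw [List.map_cons, c2s_cons, this]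
    refine (c2_tens h (hs q List.mem_cons_self) _).trans (tens_congr fun p _ => ?_)
    by_cases e : p = q
    · subst e
      simp [h1]
    · simp [e]

theorem c2s_tens (h : GoodP ps) (g : (p : ℕ) → ZMod p × ZMod p → ℂ) :
    c2s Complex.I (ps.map (sgnc ps.prod)) (tens ps g) =
      tens ps fun p => c2s Complex.I [p - 1] (g p) :=
  (c2s_tens_aux h g ps h.nodup fun _ hq => hq).trans (tens_congr fun p hp => by rw [if_pos hp])

theorem red_d (h : GoodP ps) (μ : ℕ) {p : ℕ} (hp : p ∈ ps) :
    red p (tenMac ps μ).d = (digMac p (dm p μ)).d := by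
  haveI : NeZero ps.prod := ⟨h.prod_pos.ne'⟩
  simp only [tenMac, digMac]
  rw [red_nat (List.dvd_prod hp), ZMod.natCast_eq_natCast_iff]
  exact crtL_map h (fun p => dOf p (dm p μ)) hp

theorem red_F (h : GoodP ps) (μ : ℕ) {p : ℕ} (hp : p ∈ ps) (y : ZMod ps.prod) :
    red p ((tenMac ps μ).F y) = (digMac p (dm p μ)).F (red p y) := by
  haveI : NeZero ps.prod := ⟨h.prod_pos.ne'⟩
  simp only [tenMac, digMac]
  rw [red_nat (List.dvd_prod hp), ZMod.natCast_eq_natCast_iff, val_red]
  exact crtL_map h (fun p => FOf p (dm p μ) (y.val % p)) hp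

theorem tab_tens (h : GoodP ps) (μ ν : ℕ) :
    (tenMac ps μ).tab ν = tens ps fun p => (digMac p (dm p μ)).tab ν := by
  funext v
  simp only [tenMac, digMac, tens, tenV, val_red]
  exact (List.prod_toFinset _ h.nodup).symm

theorem mac_tens (h : GoodP ps) (μ : ℕ) (g : (p : ℕ) → ZMod p × ZMod p → ℂ) :
    mac Complex.I (ps.map (sgnc ps.prod)) (tenMac ps μ) (tens ps g) =
      tens ps fun p => mac Complex.I [p - 1] (digMac p (dm p μ)) (g p) := by
  haveI : NeZero ps.prod := ⟨h.prod_pos.ne'⟩
  have e0 : ∀ v : ZMod ps.prod × ZMod ps.prod,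
      tens ps g (v.1 + (tenMac ps μ).d, v.2 + (tenMac ps μ).F (v.1 + (tenMac ps μ).d)) =
      tens ps (fun p u => g p (u.1 + (digMac p (dm p μ)).d,
        u.2 + (digMac p (dm p μ)).F (u.1 + (digMac p (dm p μ)).d))) v := fun v =>
    Finset.prod_congr rfl fun p hp => by
      have hp' := List.mem_toFinset.1 hp
      have hd : p ∣ ps.prod := List.dvd_prod hp'
      simp only [red_add hd, red_F h μ hp', red_d h μ hp']
  have e1 : ∀ (G : (p : ℕ) → ZMod p × ZMod p → ℂ) (v : ZMod ps.prod × ZMod ps.prod),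
      tens ps G (v.1 - (tenMac ps μ).d, v.2 - (tenMac ps μ).F v.1) =
      tens ps (fun p u => G p (u.1 - (digMac p (dm p μ)).d,
        u.2 - (digMac p (dm p μ)).F u.1)) v := fun G v =>
    Finset.prod_congr rfl fun p hp => by
      have hp' := List.mem_toFinset.1 hp
      have hd : p ∣ ps.prod := List.dvd_prod hp'
      simp only [red_sub hd, red_F h μ hp', red_d h μ hp']
  have e2 : ∀ (G G' : (p : ℕ) → ZMod p × ZMod p → ℂ),
      c2s Complex.I (ps.map (sgnc ps.prod)) (fun v => tens ps G v * tens ps G' v) =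
      tens ps fun p => c2s Complex.I [p - 1] fun u => G p u * G' p u := fun G G' => by
    rw [← c2s_tens h]
    congr 1
    funext v
    exact tens_mul G G' v
  funext v
  simp only [mac, e0, tab_tens h, e2]
  rw [tens_mul, e1]

theorem pipe_tens (h : GoodP ps) (g : (p : ℕ) → ZMod p × ZMod p → ℂ) (n : ℕ) :
    pipe Complex.I (ps.map (sgnc ps.prod)) (tenMac ps) n (tens ps g) =
      tens ps fun p => pipe Complex.I [p - 1] (fun μ => digMac p (dm p μ)) n (g p) := by
  induction n with
  | zero => rfl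
  | succ n ih => simp only [pipe_succ, ih, mac_tens h]

theorem exp_modEq {p a b : ℕ} (hp : 0 < p) (H : a ≡ b [MOD p]) :
    Complex.exp (2 * Real.pi * Complex.I * a / p) = Complex.exp (2 * Real.pi * Complex.I * b / p) := by
  obtain ⟨k, hk⟩ := (Nat.modEq_iff_dvd.1 H.symm)
  rw [Complex.exp_eq_exp_iff_exists_int]
  refine ⟨k, ?_⟩
  have h1 : (a : ℂ) = b + p * k := by
    have : (a : ℤ) = b + p * k := by linarith
    exact_mod_cast this
  have h2 : (p : ℂ) ≠ 0 := by exact_mod_cast hp.ne'
  rw [h1]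
  field_simp

theorem psi_eq (h : GoodP ps) (z : ℕ) :
    psi ps z = ∏ p ∈ ps.toFinset, Complex.exp (2 * Real.pi * Complex.I * z / p) :=
  (List.prod_toFinset _ h.nodup).symm

theorem mem_dataY {y : ℕ} : y ∈ dataY ps ↔ y < ps.prod ∧ ∀ p ∈ ps, role p (y % p) ≠ 4 := by
  simp [dataY]

theorem pipe_delta (h : GoodD ps) {n : ℕ} (hn : ∀ p ∈ ps, (digProg p).length ≤ n)
    {w : ZMod ps.prod × ZMod ps.prod} (hw : w.1.val ∈ dataY ps) (v : ZMod ps.prod × ZMod ps.prod) :
    pipe Complex.I (ps.map (sgnc ps.prod)) (tenMac ps) n (Pi.single w 1) v =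
      if v.1 = w.1 then (1 / ps.prod : ℂ) * psi ps (v.2.val * w.2.val) else 0 := by
  have e : (Pi.single w 1 : ZMod ps.prod × ZMod ps.prod → ℂ) =
      tens ps fun p => Pi.single (red p w.1, red p w.2) 1 := by
    funext u
    by_cases hu : u = w
    · subst hu
      simp [tens]
    · rw [Pi.single_eq_of_ne hu]
      by_contra hne
      apply hu
      have hne' : ∀ p ∈ ps, (red p u.1, red p u.2) = (red p w.1, red p w.2) := fun p hp => by
        by_contra hh
        exact hne (Finset.prod_eq_zero (List.mem_toFinset.2 hp) (Pi.single_eq_of_ne hh _)).symm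
      exact Prod.ext (red_inj h.1 fun p hp => congrArg Prod.fst (hne' p hp))
        (red_inj h.1 fun p hp => congrArg Prod.snd (hne' p hp))
  have key : ∀ p ∈ ps.toFinset, pipe Complex.I [p - 1] (fun μ => digMac p (dm p μ)) n
      (Pi.single (red p w.1, red p w.2) 1) (red p v.1, red p v.2) =
      if red p v.1 = red p w.1 then (1 / p : ℂ) *
        Complex.exp (2 * Real.pi * Complex.I * (v.2.val * w.2.val : ℕ) / p) else 0 := fun p hp => by
    have hp' := List.mem_toFinset.1 hp
    haveI : NeZero p := ⟨(h.1.pos hp').ne'⟩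
    rw [pipe_digMac (h.1.2 p hp').1 (h.2 p hp').1 (hn p hp') (fun u hu => by
      refine Pi.single_eq_of_ne (fun e => ?_) _
      rw [e, val_red] at hu
      exact (mem_dataY.1 hw).2 p hp' hu)]
    simp only [dft, Bool.false_eq_true, if_false]
    split_ifs with h2
    · rw [Finset.sum_eq_single (red p w.2)]
      · rw [h2, Pi.single_eq_same, mul_one, one_mul, val_red, val_red]
        congr 1
        exact exp_modEq (h.1.pos hp') ((Nat.mod_modEq _ _).mul (Nat.mod_modEq _ _))
      · intro x _ hx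
        rw [Pi.single_eq_of_ne (fun e => hx (congrArg Prod.snd e)), mul_zero]
      · intro hx
        exact absurd (Finset.mem_univ _) hx
    · rw [Finset.sum_eq_zero, mul_zero]
      intro x _
      rw [Pi.single_eq_of_ne (fun e => h2 (congrArg Prod.fst e)), mul_zero]
  rw [e, pipe_tens h.1, tens, Finset.prod_congr rfl key]
  split_ifs with hv
  · simp only [hv, if_true, Finset.prod_mul_distrib, psi_eq h.1]
    congr 1
    rw [Finset.prod_div_distrib, Finset.prod_const_one, ← Nat.cast_prod,
      List.prod_toFinset (fun p => p) h.1.nodup, List.map_id']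
  · by_contra hne
    refine hv (red_inj h.1 fun p hp => ?_)
    by_contra hh
    exact hne (Finset.prod_eq_zero (List.mem_toFinset.2 hp) (if_neg hh))

theorem sum_zmod {N : ℕ} [NeZero N] (F : ZMod N → ℂ) :
    ∑ x, F x = ∑ x ∈ Finset.range N, F (x : ZMod N) :=
  Finset.sum_nbij' (fun x => x.val) (fun x => (x : ZMod N)) (fun x _ => by simp [ZMod.val_lt])
    (fun _ _ => by simp) (fun x _ => by simp)
    (fun x hx => ZMod.val_cast_of_lt (by simpa using hx)) (fun x _ => by simp)

end Ten

open Ten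

theorem pipe_tenMac (h : GoodD ps) {n : ℕ} (hn : ∀ p ∈ ps, (digProg p).length ≤ n)
    {f : ZMod ps.prod × ZMod ps.prod → ℂ} (hf : ∀ v, v.1.val ∉ dataY ps → f v = 0)
    (v : ZMod ps.prod × ZMod ps.prod) :
    pipe Complex.I (ps.map (sgnc ps.prod)) (tenMac ps) n f v =
      (1 / ps.prod : ℂ) * ∑ x ∈ Finset.range ps.prod, psi ps (v.2.val * x) * f (v.1, (x : ZMod _)) := by
  haveI : NeZero ps.prod := ⟨h.1.prod_pos.ne'⟩
  let L : (ZMod ps.prod × ZMod ps.prod → ℂ) →ₗ[ℂ] (ZMod ps.prod × ZMod ps.prod → ℂ) :=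
    { toFun := pipe Complex.I (ps.map (sgnc ps.prod)) (tenMac ps) n
      map_add' := pipe_add _ _ _ _
      map_smul' := pipe_smul _ _ _ _ }
  have e : f = ∑ w, f w • (Pi.single w 1 : ZMod ps.prod × ZMod ps.prod → ℂ) := by
    funext u
    simp [Finset.sum_apply, Pi.single_apply]
  have e1 : L f v = ∑ w, f w * L (Pi.single w 1) v := by
    conv_lhs => rw [e]
    simp only [map_sum, map_smul, Finset.sum_apply, Pi.smul_apply, smul_eq_mul]
  have e2 : ∀ w, f w * L (Pi.single w 1) v =
      if v.1 = w.1 then (1 / ps.prod : ℂ) * (psi ps (v.2.val * w.2.val) * f w) else 0 := fun w => by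
    by_cases hw : w.1.val ∈ dataY ps
    · have := pipe_delta h hn hw v
      change L (Pi.single w 1) v = _ at this
      rw [this]
      split_ifs <;> ring
    · simp [hf w hw]
  change L f v = _
  rw [e1, Finset.sum_congr rfl fun w _ => e2 w, Fintype.sum_prod_type, Finset.sum_comm]
  simp only [Finset.sum_ite_eq, Finset.mem_univ, if_true]
  rw [← Finset.mul_sum, sum_zmod]
  congr 1
  exact Finset.sum_congr rfl fun x hx => by rw [ZMod.val_cast_of_lt (Finset.mem_range.1 hx)]

theorem norm_tenV_le (h : GoodD ps) (μ ν y x : ℕ) : ‖tenV ps μ ν y x‖ ≤ ps.prod := by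
  rw [tenV, ← List.prod_toFinset _ h.1.nodup, norm_prod]
  conv_rhs => rw [← List.map_id' ps, ← List.prod_toFinset _ h.1.nodup, Nat.cast_prod]
  refine Finset.prod_le_prod (fun _ _ => norm_nonneg _) fun p hp => ?_
  have hp' := List.mem_toFinset.1 hp
  exact norm_dVal_le (h.2 p hp').1 (okM_dm (h.1.2 p hp').2 μ) _ _ _

theorem psi_add (ps : List ℕ) (a b : ℕ) : psi ps (a + b) = psi ps a * psi ps b := by
  simp only [psi, ← List.prod_map_mul, ← Complex.exp_add]
  congr 2
  funext p
  congr 1
  push_cast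
  ring

theorem psi_modEq (h : GoodP ps) {a b : ℕ} (H : a ≡ b [MOD ps.prod]) : psi ps a = psi ps b := by
  rw [psi_eq h, psi_eq h]
  exact Finset.prod_congr rfl fun p hp =>
    exp_modEq (h.pos (List.mem_toFinset.1 hp)) (H.of_dvd (List.dvd_prod (List.mem_toFinset.1 hp)))

theorem norm_psi (ps : List ℕ) (a : ℕ) : ‖psi ps a‖ = 1 := by
  induction ps with
  | nil => simp [psi]
  | cons p l ih =>
    unfold psi at ih ⊢
    rw [List.map_cons, List.prod_cons, norm_mul, ih, mul_one]
    have : (2 * Real.pi * Complex.I * a / p : ℂ) = ((2 * Real.pi * a / p : ℝ) : ℂ) * Complex.I := by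
      push_cast
      ring
    rw [this, Complex.norm_exp_ofReal_mul_I]

theorem psi_zero (ps : List ℕ) : psi ps 0 = 1 := by simp [psi]

theorem psi_mul (ps : List ℕ) (x z : ℕ) : psi ps (x * z) = psi ps z ^ x := by
  induction x with
  | zero => simp [psi_zero]
  | succ x ih => rw [Nat.succ_mul, psi_add, ih, pow_succ]

theorem psi_eq_one (h : GoodP ps) {z : ℕ} (hz : psi ps z = 1) : ps.prod ∣ z := by
  rw [← Nat.modEq_zero_iff_dvd]
  refine modEq_prod h.1 fun q hq => ?_
  have h1 : psi ps (crtE ps.prod q * z) = 1 := by rw [psi_mul, hz, one_pow]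
  rw [psi_eq h, Finset.prod_eq_single q] at h1
  · rw [exp_modEq (h.pos hq) ((crtE_self h hq).mul_right z), one_mul,
      Complex.exp_two_pi_mul_I_mul_div_eq_one_iff (h.pos hq).ne'] at h1
    exact Nat.modEq_zero_iff_dvd.2 h1
  · intro p hp hne
    have hp' := List.mem_toFinset.1 hp
    rw [exp_modEq (h.pos hp') ((crtE_other h hq hp' hne.symm).mul_right z)]
    simp
  · intro hq'
    exact absurd (List.mem_toFinset.2 hq) hq'

theorem sum_psi (h : GoodP ps) (z : ℕ) :
    ∑ x ∈ Finset.range ps.prod, psi ps (x * z) = if ps.prod ∣ z then (ps.prod : ℂ) else 0 := by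
  simp only [psi_mul]
  split_ifs with hz
  · rw [psi_modEq h (Nat.modEq_zero_iff_dvd.2 hz), psi_zero]
    simp
  · have h1 : psi ps z ^ ps.prod = 1 := by
      rw [← psi_mul, psi_modEq h (Nat.modEq_zero_iff_dvd.2 (dvd_mul_right _ _)), psi_zero]
    rw [geom_sum_eq (fun e => hz (psi_eq_one h e)), h1, sub_self, zero_div]

theorem dataY_nodup (ps : List ℕ) : (dataY ps).Nodup := List.nodup_range.filter _

theorem le_two_mul_dataY (h : GoodD ps) : ps.prod ≤ 2 * (dataY ps).length := by
  classical
  have hbad : ∀ p ∈ ps.toFinset, 2 * ps.length *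
      ((Finset.range ps.prod).filter fun y => role p (y % p) = 4).card ≤ ps.prod := fun p hp => by
    have hp' := List.mem_toFinset.1 hp
    have hp0 := h.1.pos hp'
    have h1 : ((Finset.range ps.prod).filter fun y => role p (y % p) = 4).card ≤
        (Finset.range (ps.prod / p) ×ˢ (Finset.range p).filter fun y => role p y = 4).card := by
      refine Finset.card_le_card_of_injOn (fun y => (y / p, y % p)) (fun y hy => ?_) ?_
      · simp only [Finset.coe_filter, Finset.mem_range, Set.mem_ofPred_eq] at hy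
        simp only [Finset.coe_product, Finset.coe_range, Finset.coe_filter, Finset.mem_range,
          Set.mem_prod, Set.mem_Iio, Set.mem_ofPred_eq]
        exact ⟨Nat.div_lt_div_of_lt_of_dvd (List.dvd_prod hp') hy.1, Nat.mod_lt _ hp0, hy.2⟩
      · intro a _ b _ e
        simp only [Prod.mk.injEq] at e
        rw [← Nat.div_add_mod a p, ← Nat.div_add_mod b p, e.1, e.2]
    have h2 := card_role (h.2 p hp').1
    have h3 := Finset.card_filter_add_card_filter_not (s := Finset.range p) fun y => role p y = 4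
    rw [Finset.card_range] at h3
    have h4 : ((Finset.range p).filter fun y => role p y = 4).card ≤ 8 := by
      simp only [ne_eq] at h2
      omega
    rw [Finset.card_product, Finset.card_range] at h1
    calc _ ≤ 2 * ps.length * (ps.prod / p * 8) :=
          Nat.mul_le_mul_left _ (h1.trans (Nat.mul_le_mul_left _ h4))
      _ = 16 * ps.length * (ps.prod / p) := by ring
      _ ≤ p * (ps.prod / p) := Nat.mul_le_mul_right _ (h.2 p hp').2
      _ ≤ ps.prod := Nat.mul_div_le _ _
  have hcov : Finset.range ps.prod ⊆ (dataY ps).toFinset ∪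
      ps.toFinset.biUnion fun p => (Finset.range ps.prod).filter fun y => role p (y % p) = 4 := by
    intro y hy
    by_cases hd : y ∈ dataY ps
    · exact Finset.mem_union_left _ (List.mem_toFinset.2 hd)
    · rw [mem_dataY] at hd
      push Not at hd
      obtain ⟨p, hp, hr⟩ := hd (Finset.mem_range.1 hy)
      exact Finset.mem_union_right _ (Finset.mem_biUnion.2
        ⟨p, List.mem_toFinset.2 hp, Finset.mem_filter.2 ⟨hy, hr⟩⟩)
  have h1 := (Finset.card_le_card hcov).trans (Finset.card_union_le _ _)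
  rw [Finset.card_range, List.toFinset_card_of_nodup (dataY_nodup ps)] at h1
  have h2 := Finset.card_biUnion_le (s := ps.toFinset)
    (t := fun p => (Finset.range ps.prod).filter fun y => role p (y % p) = 4)
  have h3 := Finset.sum_le_card_nsmul _ _ _ hbad
  rw [← Finset.mul_sum, List.toFinset_card_of_nodup h.1.nodup, smul_eq_mul] at h3
  rcases Nat.eq_zero_or_pos ps.length with h0 | h0
  · obtain rfl := List.length_eq_zero_iff.1 h0
    simp [dataY]
  · have h4 : 2 * ∑ p ∈ ps.toFinset,
        ((Finset.range ps.prod).filter fun y => role p (y % p) = 4).card ≤ ps.prod := by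
      refine Nat.le_of_mul_le_mul_left ?_ h0
      calc _ = _ := by ring
        _ ≤ _ := h3
    omega

theorem dataY_lt {y : ℕ} (hy : y ∈ dataY ps) : y < ps.prod := (mem_dataY.1 hy).1

theorem bat3_tenMac (h : GoodD ps) {n : ℕ} (hn : ∀ p ∈ ps, (digProg p).length ≤ n)
    (f : ℕ → ℕ → ℕ → ℂ) {i j k : ℕ} (hi : i < ps.prod) (hj : j < ps.prod) (hk : k < ps.prod) :
    bat3 Complex.I ps (tenMac ps) n f i j k =
      (1 / ps.prod : ℂ) * ∑ x ∈ Finset.range ps.prod, psi ps (k * x) * f i j x := by
  have hL : 0 < (dataY ps).length := by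
    have := le_two_mul_dataY h
    omega
  have hr : (i * ps.prod + j) % (dataY ps).length < (dataY ps).length := Nat.mod_lt _ hL
  have hN : 0 < ps.prod := h.1.prod_pos
  have hlt : i * ps.prod + j < ps.prod ^ 2 := by nlinarith
  simp only [bat3, batchS]
  rw [pipe_tenMac h hn (fun v hv => by
    rw [embedZ, if_neg fun hh => hv (List.idxOf_lt_length_iff.1 hh.1)])]
  congr 1
  refine Finset.sum_congr rfl fun x hx => ?_
  rw [List.getD_eq_getElem _ _ hr]
  simp only [embedZ]
  rw [ZMod.val_cast_of_lt hk, ZMod.val_cast_of_lt (Finset.mem_range.1 hx),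
    ZMod.val_cast_of_lt (dataY_lt (List.getElem_mem hr)), (dataY_nodup ps).idxOf_getElem _ hr,
    Nat.div_add_mod', if_pos ⟨hr, hlt⟩]
  have e1 : (i * ps.prod + j) / ps.prod = i := by
    rw [Nat.add_comm, Nat.add_mul_div_right _ _ hN, Nat.div_eq_of_lt hj, Nat.zero_add]
  have e2 : (i * ps.prod + j) % ps.prod = j := by
    rw [Nat.add_comm, Nat.add_mul_mod_self_right, Nat.mod_eq_of_lt hj]
  rw [e1, e2]

end Crest.Agent.R326
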