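import Crest.Agent.R326.MacM
import Crest.Agent.R326.Ten

/-! Row 326: the batched transform and the three-dimensional transform on the machine. -/

set_option autoImplicit false

namespace Crest.Agent.R326

namespace Bat

/-! ### placing rows on the marked places and taking them back -/

theorem expand_map {α β : Type} [DecidableEq β] (z : α) (q : β → Bool) {L : List β} (hL : L.Nodup)
    (l : List α) : expand z (L.map q) l =
      L.map fun y => if q y = true then l.getD ((L.filter q).idxOf y) z else z := by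
  induction L generalizing l with
  | nil => rfl
  | cons a L ih =>
    obtain ⟨ha, hL⟩ := List.nodup_cons.1 hL
    cases hq : q a with
    | false =>
      simp only [List.map_cons, hq, expand, ih hL, List.filter_cons, Bool.false_eq_true, if_false]
    | true =>
      cases l with
      | nil => simp [hq, expand, ih hL]
      | cons b l =>
        simp only [List.map_cons, hq, expand, ih hL, List.filter_cons, if_true,
          List.idxOf_cons_self, List.getD_cons_zero, List.cons.injEq, true_and]
        refine List.map_congr_left fun y hy => ?_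
        have hne : a ≠ y := fun e => ha (e ▸ hy)
        rw [List.idxOf_cons_ne _ hne, List.getD_cons_succ]

theorem map_getD_range (D : List ℕ) : (List.range D.length).map (fun k => D.getD k 0) = D :=
  List.ext_getElem (by simp) fun i h1 h2 => by simp [List.getD_eq_getElem?_getD, h2]

theorem filter_range (q : ℕ → Bool) (N Z : ℕ) :
    (List.range (Z * N)).filter (fun r => q (r % N)) =
      (List.range (Z * ((List.range N).filter q).length)).map fun t =>
        t / ((List.range N).filter q).length * N +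
          ((List.range N).filter q).getD (t % ((List.range N).filter q).length) 0 := by
  set D := (List.range N).filter q with hD
  induction Z with
  | zero => simp
  | succ Z ih =>
    rw [add_mul, add_mul, one_mul, one_mul, List.range_add, List.range_add, List.filter_append,
      List.map_append, ih, List.filter_map, List.map_map]
    congr 1
    have e : (List.range N).filter ((fun r => q (r % N)) ∘ fun x => Z * N + x) = D :=
      List.filter_congr fun y hy => by
        simp only [Function.comp]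
        rw [Nat.mul_add_mod', Nat.mod_eq_of_lt (List.mem_range.1 hy)]
    rw [e]
    conv_lhs => rw [← map_getD_range D, List.map_map]
    refine List.map_congr_left fun k hk => ?_
    have hk' := List.mem_range.1 hk
    simp only [Function.comp]
    rw [Arr2.div_eq hk', Arr2.mod_eq hk']

theorem idxOf_filter_range (q : ℕ → Bool) {N Z r : ℕ} (hr : r < Z * N) (hq : q (r % N) = true) :
    ((List.range (Z * N)).filter fun r => q (r % N)).idxOf r =
      r / N * ((List.range N).filter q).length + ((List.range N).filter q).idxOf (r % N) := by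
  have hN : 0 < N := Nat.pos_of_ne_zero fun e => by simp [e] at hr
  have hnd : ((List.range (Z * N)).filter fun r => q (r % N)).Nodup := List.nodup_range.filter _
  have e := filter_range q N Z
  set D := (List.range N).filter q with hD
  have hm : r % N ∈ D := List.mem_filter.2 ⟨List.mem_range.2 (Nat.mod_lt _ hN), hq⟩
  have hk : D.idxOf (r % N) < D.length := List.idxOf_lt_length_iff.2 hm
  have ht : r / N * D.length + D.idxOf (r % N) < Z * D.length :=
    Arr2.lt_mul (Nat.div_lt_of_lt_mul (by rwa [mul_comm] at hr)) hk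
  rw [e] at hnd ⊢
  have h1 := hnd.idxOf_getElem (r / N * D.length + D.idxOf (r % N)) (by simpa using ht)
  rw [List.getElem_map, List.getElem_range, Arr2.div_eq hk, Arr2.mod_eq hk,
    List.getD_eq_getElem _ _ hk, List.getElem_idxOf hk, Nat.div_add_mod'] at h1
  exact h1

/-- the test for data rows -/
def isD (ps : List ℕ) (y : ℕ) : Bool := ps.all fun p => decide (role p (y % p) ≠ 4)

theorem dataY_eq (ps : List ℕ) : dataY ps = (List.range ps.prod).filter (isD ps) := rfl

/-- the marks of the data rows of all slabs -/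
def marks (ps : List ℕ) (Z : ℕ) : List Bool :=
  (List.range (Z * ps.prod)).map fun r => isD ps (r % ps.prod)

theorem rows_emk3 (B N : ℕ) (f : ℕ → ℕ → ℕ → RB B) :
    blocks (N ^ 2) (N * (2 * B)) (emk3 B N f) =
      (List.range (N ^ 2)).map fun r => emk B N fun x => f (r / N) (r % N) x := by
  rw [emk3, pow_succ N 2, blocks_emk]
  refine List.map_congr_left fun r _ => emk_congr fun x hx => ?_
  rw [pow_two, ← Nat.div_div_eq_div_mul, Arr2.div_eq hx, Arr2.mod_eq hx]

theorem embed_eq (B : ℕ) {ps : List ℕ} (hN : 0 < ps.prod) (Z R : ℕ) (g : ℕ → ℕ → RB B) :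
    (expand (List.replicate (ps.prod * (2 * B)) false) (marks ps Z)
      ((List.range R).map fun r => emk B ps.prod (g r))).flatten =
      emkZ B ps.prod Z (embedZ ps R g) := by
  have : NeZero ps.prod := ⟨hN.ne'⟩
  have e : emkZ B ps.prod Z (embedZ ps R g) = ((List.range (Z * ps.prod)).map fun r =>
      emk B ps.prod fun x => embedZ ps R g (r / ps.prod)
        (((r % ps.prod : ℕ) : ZMod ps.prod), (x : ZMod ps.prod))).flatten := by
    rw [flatten_emk, emkZ]
    refine emk_congr fun j _ => ?_
    rw [Nat.div_div_eq_div_mul]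
  rw [e, marks, expand_map _ _ List.nodup_range]
  congr 1
  refine List.map_congr_left fun r hr => ?_
  have hr' := List.mem_range.1 hr
  have hy : ((r % ps.prod : ℕ) : ZMod ps.prod).val = r % ps.prod :=
    ZMod.val_cast_of_lt (Nat.mod_lt _ hN)
  have hm : (dataY ps).idxOf (r % ps.prod) < (dataY ps).length ↔ isD ps (r % ps.prod) = true := by
    rw [List.idxOf_lt_length_iff, dataY_eq, List.mem_filter, List.mem_range]
    exact and_iff_right (Nat.mod_lt _ hN)
  simp only [embedZ, hy, hm]
  by_cases hq : isD ps (r % ps.prod) = true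
  · rw [if_pos hq, idxOf_filter_range (isD ps) hr' hq, ← dataY_eq]
    by_cases ht : r / ps.prod * (dataY ps).length + (dataY ps).idxOf (r % ps.prod) < R
    · rw [List.getD_eq_getElem _ _ (by simpa using ht), List.getElem_map, List.getElem_range]
      refine emk_congr fun x hx => ?_
      rw [if_pos ⟨hq, ht⟩, ZMod.val_cast_of_lt hx]
    · rw [List.getD_eq_default _ _ (by simpa using ht), ← emk_zero]
      exact emk_congr fun x _ => (if_neg fun h => ht h.2).symm
  · rw [if_neg hq, ← emk_zero]
    exact emk_congr fun x _ => (if_neg fun h => hq h.1).symm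

theorem compress_eq (B : ℕ) {ps : List ℕ} (hN : 0 < ps.prod) {Z : ℕ}
    (hZ : ps.prod ^ 2 ≤ Z * (dataY ps).length)
    (F : ℕ → ZMod ps.prod × ZMod ps.prod → RB B) :
    ((((((blocks (Z * ps.prod) (ps.prod * (2 * B)) (emkZ B ps.prod Z F)).zip (marks ps Z)).filter
      fun p => p.2).map fun p => p.1).take (ps.prod ^ 2))).flatten =
      emk3 B ps.prod fun i j k => F ((i * ps.prod + j) / (dataY ps).length)
        (((dataY ps).getD ((i * ps.prod + j) % (dataY ps).length) 0 : ℕ), (k : ZMod ps.prod)) := by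
  have hY : 0 < (dataY ps).length := Nat.pos_of_ne_zero fun e => by
    rw [e, mul_zero] at hZ
    exact absurd hZ (not_le.2 (pow_pos hN 2))
  rw [emkZ, blocks_emk, marks, List.zip_map', List.filter_map, List.map_map]
  have e : ((fun p : List Bool × Bool => p.2) ∘ fun r => (emk B ps.prod fun j =>
      F ((r * ps.prod + j) / (ps.prod * ps.prod))
        ((((r * ps.prod + j) / ps.prod % ps.prod : ℕ) : ZMod ps.prod),
          (((r * ps.prod + j) % ps.prod : ℕ) : ZMod ps.prod)), isD ps (r % ps.prod))) =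
      fun r => isD ps (r % ps.prod) := rfl
  rw [e, filter_range, ← dataY_eq, List.map_map, ← List.map_take, List.take_range,
    min_eq_left hZ, emk3, pow_succ ps.prod 2]
  have e2 := flatten_emk B (ps.prod ^ 2) ps.prod fun t k => F (t / (dataY ps).length)
    (((dataY ps).getD (t % (dataY ps).length) 0 : ℕ), (k : ZMod ps.prod))
  refine Eq.trans ?_ (e2.trans (emk_congr fun j _ => ?_))
  · congr 1
    refine List.map_congr_left fun t _ => emk_congr fun k hk => ?_
    have hlt : (dataY ps).getD (t % (dataY ps).length) 0 < ps.prod := by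
      have h1 := Nat.mod_lt t hY
      rw [List.getD_eq_getElem _ _ h1]
      exact List.mem_range.1 (List.mem_filter.1 (List.getElem_mem h1)).1
    rw [← Nat.div_div_eq_div_mul, Arr2.div_eq hk, Arr2.mod_eq hk, Arr2.div_eq hlt,
      Arr2.mod_eq hlt]
  · rw [pow_two, ← Nat.div_div_eq_div_mul, Nat.div_add_mod']

theorem foldl_range {δ : Type} (G : ℕ → δ) (n : ℕ) :
    (List.range n).foldl (fun _ μ => G (μ + 1)) (G 0) = G n := by
  cases n with
  | zero => rfl
  | succ n => rw [List.range_succ, List.foldl_append]; rfl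

/-! ### sizes -/

section
variable {P : Par}

theorem N_pos (h : OkPar P) : 0 < P.1.prod :=
  List.prod_pos fun p hp => by have := (h.good.1.2 p hp).2; omega

theorem Ex_le_B (h : OkPar P) : Ex P.len ≤ P.2.2.2 :=
  ((Ex_mono (by omega)).trans (Nat.le_self_pow two_ne_zero _)).trans h.ex

theorem NB_le (_h : OkPar P) : P.1.prod * (2 * P.2.2.2) ≤ P.len :=
  Nat.mul_le_mul_right _ (Nat.le_self_pow three_ne_zero _)

theorem NNB_le (h : OkPar P) : P.1.prod ^ 2 * (2 * P.2.2.2) ≤ P.len :=
  Nat.mul_le_mul_right _ (Nat.pow_le_pow_right (N_pos h) (by omega))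

theorem NNN_le (h : OkPar P) : P.1.prod ^ 3 ≤ P.len :=
  Nat.le_mul_of_pos_right _ (by have := h.two_le; omega)

theorem N_le (h : OkPar P) : P.1.prod ≤ P.len :=
  (Nat.le_self_pow three_ne_zero _).trans (NNN_le h)

theorem NN_le (h : OkPar P) : P.1.prod ^ 2 ≤ P.len :=
  (Nat.pow_le_pow_right (N_pos h) (by omega)).trans (NNN_le h)

theorem Ex_le_len (h : OkPar P) : Ex P.len ≤ P.len := by
  have h1 := Ex_le_B h
  have h2 := NB_le h
  have h3 := N_pos h
  nlinarith

theorem len_pos (h : OkPar P) : 0 < P.len := (N_pos h).trans_le (N_le h)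

theorem lg_le_pow (n : ℕ) : lg n ≤ lg n ^ 4 := Nat.le_self_pow (by norm_num) _

theorem sz_ps (h : OkPar P) : sz P.1 ≤ 5 * lg P.len ^ 4 := by
  have h1 : ∀ l : List ℕ, (∀ p ∈ l, 1 ≤ p) → sz l ≤ 4 * l.sum + 1 := fun l hl => by
    induction l with
    | nil => simp
    | cons a l ih =>
      have e1 := ih fun p hp => hl p (List.mem_cons_of_mem _ hp)
      have e2 := hl a List.mem_cons_self
      have e3 := Prims.sz_nat_le a
      rw [sz_cons, List.sum_cons]
      omega
  have h2 := h1 P.1 fun p hp => by have := (h.good.1.2 p hp).2; omega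
  have h3 := h.small
  have h4 := (one_le_lg P.len).trans (lg_le_pow _)
  omega

theorem sz_le_of_le (_h : OkPar P) {m : ℕ} (hm : m ≤ P.len) : sz m ≤ 2 * lg P.len ^ 4 :=
  (sz_nat_le_lg hm).trans (Nat.mul_le_mul_left _ (lg_le_pow _))

theorem sz_par (h : OkPar P) : sz P ≤ 15 * lg P.len ^ 4 := by
  have h1 := sz_ps h
  have h2 := Prims.sz_nat_le P.2.1
  have h3 := h.small
  have h4 := (one_le_lg P.len).trans (lg_le_pow _)
  have h5 : lg (P.1.sum + P.2.1 + P.2.2.1 + P.2.2.2) ≤ lg P.len ^ 4 := by
    have e1 : lg P.1.prod ^ 2 ≤ lg P.1.prod ^ 3 := Nat.pow_le_pow_right (one_le_lg _) (by omega)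
    exact ((Nat.pow_le_pow_iff_left three_ne_zero).1 (h.tabs.trans e1)).trans
      ((lg_mono (N_le h)).trans (lg_le_pow _))
  have h6 : sz P.2.2.1 ≤ 2 * lg (P.1.sum + P.2.1 + P.2.2.1 + P.2.2.2) := sz_nat_le_lg (by omega)
  have h7 : sz P.2.2.2 ≤ 2 * lg (P.1.sum + P.2.1 + P.2.2.1 + P.2.2.2) := sz_nat_le_lg (by omega)
  have e : sz P = sz P.1 + (sz P.2.1 + (sz P.2.2.1 + sz P.2.2.2 + 1) + 1) + 1 := rfl
  omega

theorem len_le_div (h : OkPar P) : (P.len : ℝ) ≤ P.cost / P.2.1 := by
  have h1 : (0 : ℝ) < P.2.1 := by exact_mod_cast h.pos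
  have h2 : (1 : ℝ) ≤ lam P.1 := by exact_mod_cast one_le_lg _
  have h3 : (1 : ℝ) ≤ ((max P.1.length 1 : ℕ) : ℝ) ^ θ :=
    Real.one_le_rpow (by exact_mod_cast le_max_right _ _) θ_pos.le
  have h4 : (0 : ℝ) ≤ P.2.1 * P.len := by positivity
  rw [le_div_iff₀ h1, Par.cost, mul_assoc, mul_comm (P.len : ℝ)]
  exact le_mul_of_one_le_right h4 (one_le_mul_of_one_le_of_one_le h2 h3)

theorem len_le_cost (h : OkPar P) : (P.len : ℝ) ≤ P.cost := by
  have h1 : (1 : ℝ) ≤ P.2.1 := by exact_mod_cast h.pos
  have h2 := len_le_div h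
  rw [le_div_iff₀ (by linarith)] at h2
  exact (le_mul_of_one_le_right (Nat.cast_nonneg _) h1).trans h2

theorem length_emkZ_le (h : OkPar P) (F : ℕ → ZMod P.1.prod × ZMod P.1.prod → RB P.2.2.2) :
    (emkZ P.2.2.2 P.1.prod (slabs P.1) F).length ≤ 3 * P.len := by
  rw [emkZ, length_emk, Par.len]
  calc _ ≤ 3 * P.1.prod * P.1.prod * P.1.prod * (2 * P.2.2.2) := by
        gcongr
        exact (slabs_le h).2.1
    _ = _ := by ring

end

section
variable {ι γ : Type} [Enc γ] {pre : World → ι → Prop} {P : ι → Par}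
  (h : ∀ w i, pre w i → OkPar (P i))
include h

theorem le_nat (K : ℕ) {f : ι → ℝ} (u : ι → ℕ) (hu : ∀ i, f i = u i)
    (H : ∀ w i, pre w i → u i ≤ K * (P i).len) : Le pre f fun i => ((P i).len : ℝ) :=
  Le.of_le_mul K (Nat.cast_nonneg _) fun w i hi => by
    have _ := h w i hi
    rw [hu]
    exact_mod_cast H w i hi

theorem ex_le (w : World) (i : ι) (hi : pre w i) : (Ex (P i).len : ℝ) ≤ (P i).len := by
  exact_mod_cast Ex_le_len (h w i hi)

theorem le_par : Le pre (fun i => (sz (P i) : ℝ)) fun i => ((P i).len : ℝ) :=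
  Ax.le_sz _ _ (fun w i hi => sz_par (h w i hi)) (ex_le h)

theorem le_bits (K : ℕ) {a : ι → List Bool} (H : ∀ w i, pre w i → (a i).length ≤ K * (P i).len) :
    Le pre (fun i => (sz (a i) : ℝ)) fun i => ((P i).len : ℝ) :=
  le_nat h (2 * K + 1) (fun i => sz (a i)) (fun _ => rfl) fun w i hi => by
    have h1 := H w i hi
    have h2 := len_pos (h w i hi)
    rw [sz_bits]
    nlinarith

theorem le_small {m : ι → ℕ} (H : ∀ w i, pre w i → m i ≤ 3 * (P i).len) :
    Le pre (fun i => (sz (m i) : ℝ)) fun i => ((P i).len : ℝ) :=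
  le_nat h 7 (fun i => sz (m i)) (fun _ => rfl) fun w i hi => by
    have h1 := H w i hi
    have h2 := len_pos (h w i hi)
    have h3 := Prims.sz_nat_le (m i)
    omega

theorem le_rows (c e : ℕ) : Le pre (fun i => (((P i).1.prod : ℝ) + 1) *
    (((c * lg (P i).len ^ 4 : ℕ) : ℝ) + 1) ^ e) fun i => ((P i).len : ℝ) := by
  obtain ⟨K, hK⟩ := poly_lg_le_Ex (c + 1) e 4
  refine le_nat h K (fun i => ((P i).1.prod + 1) * (c * lg (P i).len ^ 4 + 1) ^ e)
    (fun _ => by push_cast; rfl) fun w i hi => ?_
  have h1 : (c * lg (P i).len ^ 4 + 1) ^ e ≤ K * Ex (P i).len :=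
    le_trans (Nat.pow_le_pow_left (by nlinarith [Nat.zero_le (lg (P i).len ^ 4)]) e) (hK _)
  have h2 := Ex_le_B (h w i hi)
  have h3 := NB_le (h w i hi)
  have h4 := N_pos (h w i hi)
  calc _ ≤ ((P i).1.prod + 1) * (K * (P i).2.2.2) :=
        Nat.mul_le_mul_left _ (h1.trans (Nat.mul_le_mul_left _ h2))
    _ = K * (((P i).1.prod + 1) * (P i).2.2.2) := by ring
    _ ≤ K * (P i).len := Nat.mul_le_mul_left _ (by nlinarith)

variable {inp : ι → γ} (hP : L0 pre inp (fun i => ((P i).len : ℝ)) P)
include hP

theorem l0_par {β : Type} [Enc β] {g : Par → β} (hg : Poly g) :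
    L0 pre inp (fun i => ((P i).len : ℝ)) fun i => g (P i) :=
  L0.poly hg hP (Ax.le_pow _ _ (fun w i hi => sz_par (h w i hi)) (ex_le h))

theorem l0_mask : L0 pre inp (fun i => ((P i).len : ℝ))
    fun i => (List.range (P i).1.prod).map (isD (P i).1) := by
  have hN := l0_par h hP (g := fun P => P.1.prod) (by fun_prop)
  have hr := L0.sub sub_range' hN (fun _ _ _ => trivial)
    (Le.trans (Le.of_le fun w i hi => by
      have h1 : (sz (P i).1.prod : ℝ) ≤ (2 * lg (P i).len ^ 4 : ℕ) := by
        exact_mod_cast sz_le_of_le (h w i hi) (N_le (h w i hi))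
      rw [pow_one]
      gcongr) (le_rows h 2 1))
  have hg : Poly fun x : List ℕ × ℕ => isD x.1 x.2 := by
    have h1 : Poly fun x : (List ℕ × ℕ) × ℕ => role x.2 (x.1.2 % x.2) :=
      poly_role.comp (f := fun x : (List ℕ × ℕ) × ℕ => (x.2, x.1.2 % x.2)) (by fun_prop)
    exact Poly.all (q := fun x p => decide (role p (x.2 % p) ≠ 4))
      ((Poly.not (h1.eq (Poly.const 4))).congr fun x => by simp) (Poly.fst Poly.id)
  refine L0.map_poly hr (L0.lin (Lin.fst Lin.id) hP) hg
    (fun i => ((5 * lg (P i).len ^ 4 : ℕ) : ℝ)) (fun w i hi => ⟨?_, fun a ha => ?_⟩) fun e => ?_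
  · exact_mod_cast sz_ps (h w i hi)
  · have := sz_le_of_le (h w i hi) ((List.mem_range.1 ha).le.trans (N_le (h w i hi)))
    exact_mod_cast (by omega : sz a ≤ 5 * lg (P i).len ^ 4)
  · simpa only [List.length_range] using le_rows h 5 e

theorem l0_slabs : L0 pre inp (fun i => ((P i).len : ℝ)) fun i => slabs (P i).1 := by
  have hY : L0 pre inp (fun i => ((P i).len : ℝ)) fun i => (dataY (P i).1).length :=
    (L0.lin (g := fun m : List Bool => (m.filter fun b => b).length)
      (Lin.length (Lin.filter Lin.id Lin.id)) (l0_mask h hP)).congr fun _ i _ => by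
        rw [List.filter_map, List.length_map]; rfl
  have h1 : Poly fun x : List ℕ × ℕ => WW ^ Nat.log mm x.1.length :=
    (Poly.pow_min (Poly.const WW) (Poly.log mm (Poly.length (Poly.fst Poly.id)))
      (Poly.fst Poly.id)).congr fun x => by rw [min_eq_left (Nat.log_le_self _ _)]
  have h2 : Poly fun x : List ℕ × ℕ => x.1.prod ^ 2 := Poly.pow_const (by fun_prop) 2
  have h3 : Poly fun x : List ℕ × ℕ => WW ^ Nat.log mm x.1.length *
      (x.1.prod ^ 2 / (WW ^ Nat.log mm x.1.length * x.2) + 1) :=
    h1.mul ((h2.div (h1.mul (Poly.snd Poly.id))).add (Poly.const 1))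
  have h4 : L0 pre inp (fun i => ((P i).len : ℝ)) fun i => ((P i).1, (dataY (P i).1).length) :=
    (L0.lin (g := fun P : Par => P.1) (by fun_prop) hP).pair hY
  have h5 := L0.poly h3 h4
    (Ax.le_pow (m := fun i => (P i).len) 8 4 (fun w i hi => by
      have e1 := sz_ps (h w i hi)
      have e2 := sz_le_of_le (h w i hi) (m := (dataY (P i).1).length)
        (((List.length_filter_le _ _).trans (List.length_range).le).trans (N_le (h w i hi)))
      have e3 := (one_le_lg (P i).len).trans (lg_le_pow _)
      rw [sz_pair]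
      omega) (ex_le h))
  refine h5.congr fun _ i _ => ?_
  rw [slabs]

theorem l0_marks : L0 pre inp (fun i => ((P i).len : ℝ)) fun i => marks (P i).1 (slabs (P i).1) := by
  have h1 := L0.sub sub_replicate ((l0_slabs h hP).pair (l0_mask h hP)) (fun _ _ _ => trivial)
    (le_nat h 16 (fun i => (slabs (P i).1 + 1) * (2 * (P i).1.prod + 1 + 1))
      (fun _ => by simp [sz_bits]) fun w i hi => by
        have e1 := (slabs_le (h w i hi)).2.1
        have e2 := NN_le (h w i hi)
        have e3 := N_pos (h w i hi)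
        nlinarith)
  refine (L0.lin (g := fun l : List (List Bool) => l.flatten) (by fun_prop) h1).congr
    fun _ i _ => ?_
  rw [marks, ← ArrAux.flatten_range (slabs (P i).1) (P i).1.prod fun _ y => isD (P i).1 y,
    List.map_const', List.length_range]

theorem l0_embed (f : ∀ i, ℕ → ℕ → ℕ → RB (P i).2.2.2)
    (ha : L0 pre inp (fun i => ((P i).len : ℝ)) fun i => emk3 (P i).2.2.2 (P i).1.prod (f i)) :
    L0 pre inp (fun i => ((P i).len : ℝ)) fun i => emkZ (P i).2.2.2 (P i).1.prod (slabs (P i).1)
      (embedZ (P i).1 ((P i).1.prod ^ 2) fun r x => f i (r / (P i).1.prod) (r % (P i).1.prod) x) := by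
  have hNN := l0_par h hP (g := fun P => P.1.prod ^ 2) (Poly.pow_const (by fun_prop) 2)
  have hNB := l0_par h hP (g := fun P => P.1.prod * (2 * P.2.2.2)) (by fun_prop)
  have hrows := L0.sub sub_blocks (hNN.pair (hNB.pair ha)) (fun _ _ _ => trivial)
    (ha.sz_le.add (le_nat h 4
      (fun i => ((P i).1.prod ^ 2 + 1) * ((P i).1.prod * (2 * (P i).2.2.2) + 1))
      (fun _ => by push_cast; rfl) fun w i hi => by
        have e1 := NN_le (h w i hi)
        have e2 := NB_le (h w i hi)
        have e3 := len_pos (h w i hi)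
        have e4 : (P i).1.prod ^ 2 * ((P i).1.prod * (2 * (P i).2.2.2)) = (P i).len := by
          rw [Par.len]; ring
        nlinarith))
  have hz := L0.sub sub_replicate (hNB.pair (L0.const hP.1 false)) (fun _ _ _ => trivial)
    (le_nat h 4 (fun i => ((P i).1.prod * (2 * (P i).2.2.2) + 1) * 2)
      (fun _ => by simp only [sz_bool]; push_cast; norm_num) fun w i hi => by
        have e2 := NB_le (h w i hi)
        have e3 := len_pos (h w i hi)
        omega)
  have hex := L0.sub sub_expand (hz.pair ((l0_marks h hP).pair hrows)) (fun _ _ _ => trivial)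
    (hrows.sz_le.add (le_nat h 16
      (fun i => (slabs (P i).1 * (P i).1.prod + 1) * (2 * ((P i).1.prod * (2 * (P i).2.2.2)) + 1 + 1))
      (fun _ => by simp [marks, sz_bits]) fun w i hi => by
        have e1 := Nat.mul_le_mul_right (P i).1.prod (slabs_le (h w i hi)).2.1
        have e2 := NB_le (h w i hi)
        have e3 := N_pos (h w i hi)
        have e5 := (h w i hi).two_le
        have e4 : (P i).len = (P i).1.prod * (P i).1.prod * ((P i).1.prod * (2 * (P i).2.2.2)) := by
          rw [Par.len]; ring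
        have e6 : 1 ≤ (P i).1.prod * (P i).1.prod := Nat.mul_pos e3 e3
        have e7 : 1 ≤ (P i).1.prod * (2 * (P i).2.2.2) := Nat.mul_pos e3 (by omega)
        calc _ ≤ (4 * ((P i).1.prod * (P i).1.prod)) * (4 * ((P i).1.prod * (2 * (P i).2.2.2))) :=
              Nat.mul_le_mul (by nlinarith) (by omega)
          _ = _ := by rw [e4]; ring))
  refine (L0.lin (g := fun l : List (List Bool) => l.flatten) (by fun_prop) hex).congr
    fun w i hi => ?_
  simp only [rows_emk3]
  rw [embed_eq _ (N_pos (h w i hi))]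

theorem l0_compress (F : ∀ i, ℕ → ZMod (P i).1.prod × ZMod (P i).1.prod → RB (P i).2.2.2)
    (ha : L0 pre inp (fun i => ((P i).len : ℝ))
      fun i => emkZ (P i).2.2.2 (P i).1.prod (slabs (P i).1) (F i)) :
    L0 pre inp (fun i => ((P i).len : ℝ)) fun i => emk3 (P i).2.2.2 (P i).1.prod fun a b k =>
      F i ((a * (P i).1.prod + b) / (dataY (P i).1).length)
        (((dataY (P i).1).getD ((a * (P i).1.prod + b) % (dataY (P i).1).length) 0 : ℕ),
          (k : ZMod (P i).1.prod)) := by
  have hN := l0_par h hP (g := fun P => P.1.prod) (by fun_prop)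
  have hNN := l0_par h hP (g := fun P => P.1.prod ^ 2) (Poly.pow_const (by fun_prop) 2)
  have hNB := l0_par h hP (g := fun P => P.1.prod * (2 * P.2.2.2)) (by fun_prop)
  have hZN : L0 pre inp (fun i => ((P i).len : ℝ)) fun i => slabs (P i).1 * (P i).1.prod :=
    (L0.lin (Lin.length Lin.id) (l0_marks h hP)).congr fun _ i _ => by
      rw [marks, List.length_map, List.length_range]
  have hrows := L0.sub sub_blocks (hZN.pair (hNB.pair ha)) (fun _ _ _ => trivial)
    (ha.sz_le.add (le_nat h 8
      (fun i => (slabs (P i).1 * (P i).1.prod + 1) * ((P i).1.prod * (2 * (P i).2.2.2) + 1))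
      (fun _ => by push_cast; rfl) fun w i hi => by
        have e1 := Nat.mul_le_mul_right (P i).1.prod (slabs_le (h w i hi)).2.1
        have e3 := N_pos (h w i hi)
        have e5 := (h w i hi).two_le
        have e4 : (P i).len = (P i).1.prod * (P i).1.prod * ((P i).1.prod * (2 * (P i).2.2.2)) := by
          rw [Par.len]; ring
        have e6 : 1 ≤ (P i).1.prod * (P i).1.prod := Nat.mul_pos e3 e3
        have e7 : 1 ≤ (P i).1.prod * (2 * (P i).2.2.2) := Nat.mul_pos e3 (by omega)
        calc _ ≤ (4 * ((P i).1.prod * (P i).1.prod)) * (2 * ((P i).1.prod * (2 * (P i).2.2.2))) :=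
              Nat.mul_le_mul (by nlinarith) (by omega)
          _ = _ := by rw [e4]; ring))
  have hsel := L0.lin (g := fun p : List (List Bool) × List Bool =>
      ((p.1.zip p.2).filter fun p => p.2).map fun p => p.1)
    (Lin.map (Lin.fst Lin.id) (Lin.filter (Lin.snd Lin.id) (by fun_prop)))
    (hrows.pair (l0_marks h hP))
  have htake := L0.sub sub_take (hNN.pair hsel) (fun _ _ _ => trivial)
    (hsel.sz_le.add (le_nat h 1 (fun i => (P i).1.prod ^ 2) (fun _ => rfl) fun w i hi => by
      rw [one_mul]; exact NN_le (h w i hi)))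
  refine (L0.lin (g := fun l : List (List Bool) => l.flatten) (by fun_prop) htake).congr
    fun w i hi => ?_
  exact (compress_eq _ (N_pos (h w i hi)) (slabs_le (h w i hi)).2.2.1 _).symm

end

end Bat

open Bat in
theorem cf_bat3 {T : TabIn → GaussianInt} (hT : Poly T) (hG : GoodT T) (τ : ℕ → ℝ)
    (hτ : ∀ B, 0 ≤ τ B) {ι : Type} {pre : World → ι → Prop} (P : ι → Par)
    (f : ∀ i, ℕ → ℕ → ℕ → RB (P i).2.2.2)
    (h : ∀ w i, pre w i → OkPar (P i) ∧ CanMul τ w (P i).2.2.2) :
    Cf pre (fun i => (P i, emk3 (P i).2.2.2 (P i).1.prod (f i)))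
      (fun i => emk3 (P i).2.2.2 (P i).1.prod (bat3 (iB _) (P i).1 (rbMac T (P i)) (P i).2.1 (f i)))
      (fun i => (P i).cost)
      (fun i => 60 * ((P i).2.1 : ℝ) * ((P i).1.prod : ℝ) ^ 3 * τ (P i).2.2.2) := by
  have h' : ∀ w i, pre w i → OkPar (P i) := fun w i hi => (h w i hi).1
  have hc : Le pre (fun i => ((P i).len : ℝ)) fun i => (P i).cost :=
    Le.of_le fun w i hi => len_le_cost (h' w i hi)
  -- the contents after `μ` macros
  let F : ∀ i, ℕ → ℕ → ZMod (P i).1.prod × ZMod (P i).1.prod → RB (P i).2.2.2 := fun i μ z =>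
    pipe (iB _) ((P i).1.map (sgnc (P i).1.prod)) (rbMac T (P i)) μ
      (embedZ (P i).1 ((P i).1.prod ^ 2) (fun r x => f i (r / (P i).1.prod) (r % (P i).1.prod) x) z)
  let G : ι → ℕ → Par × ℕ × List Bool := fun i μ =>
    (P i, slabs (P i).1, emkZ (P i).2.2.2 (P i).1.prod (slabs (P i).1) (F i μ))
  have h0 := L0.input (Ax.le_sz_pair (le_par h') (le_bits h' 1
    (a := fun i => emk3 (P i).2.2.2 (P i).1.prod (f i)) fun _ i _ => by
      rw [emk3, length_emk, one_mul]; exact le_rfl))
  have hP : L0 pre (fun i => (P i, emk3 (P i).2.2.2 (P i).1.prod (f i)))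
      (fun i => ((P i).len : ℝ)) P := L0.lin (g := fun x : Par × List Bool => x.1) (by fun_prop) h0
  have ha := L0.lin (g := fun x : Par × List Bool => x.2) (by fun_prop) h0
  have hG0 : L0 pre (fun i => (P i, emk3 (P i).2.2.2 (P i).1.prod (f i)))
      (fun i => ((P i).len : ℝ)) fun i => G i 0 :=
    hP.pair ((l0_slabs h' hP).pair (l0_embed h' hP f ha))
  have hun := L0.un (L0.lin (g := fun P : Par => P.2.1) (by fun_prop) hP)
    (Le.trans (Le.of_le fun w i hi => by
      have e1 : ((P i).2.1 : ℝ) ≤ (1 * lg (P i).len ^ 4 : ℕ) := by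
        have := (h' w i hi).small
        exact_mod_cast (by omega : (P i).2.1 ≤ 1 * lg (P i).len ^ 4)
      rw [pow_one]
      exact le_trans (by linarith) (le_mul_of_one_le_left (by positivity)
        (le_add_of_nonneg_left (Nat.cast_nonneg _)))) (le_rows h' 1 1))
  have hr : L0 pre (fun i => (P i, emk3 (P i).2.2.2 (P i).1.prod (f i)))
      (fun i => ((P i).len : ℝ)) fun i => List.range (P i).2.1 :=
    (L0.poly (g := fun u : List Unit => List.range u.length) (by fun_prop) hun
      (Ax.le_pow (m := fun i => (P i).len) 3 4 (fun w i hi => by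
        have e1 := (h' w i hi).small
        have e2 := (one_le_lg (P i).len).trans (lg_le_pow _)
        rw [sz_un]
        omega) (ex_le h'))).congr fun _ i _ => by rw [List.length_replicate]
  -- one macro
  have hbody : Cf (fun w (j : ι × ℕ) => pre w j.1 ∧ j.2 < (P j.1).2.1)
      (fun j => (j.2, G j.1 j.2)) (fun j => G j.1 (j.2 + 1))
      (fun j => (P j.1).cost / (P j.1).2.1)
      (fun j => 60 * ((P j.1).1.prod : ℝ) ^ 3 * τ (P j.1).2.2.2) := by
    have k : ∀ w (j : ι × ℕ), pre w j.1 ∧ j.2 < (P j.1).2.1 → OkPar (P j.1) :=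
      fun w j hj => h' w j.1 hj.1
    have g0 := (L0.input (inp := fun j : ι × ℕ => (j.2, G j.1 j.2))
      (Ax.le_sz_pair (Ax.le_sz (m := fun j : ι × ℕ => (P j.1).len) 3 4 (fun w j hj => by
          have e1 := (k w j hj).small
          have e2 := (one_le_lg (P j.1).len).trans (lg_le_pow _)
          have e3 := Prims.sz_nat_le j.2
          have e4 := hj.2
          omega) (ex_le k))
        (Ax.le_sz_pair (le_par k) (Ax.le_sz_pair
          (le_small k fun w j hj => (slabs_le (k w j hj)).2.1.trans
            (Nat.mul_le_mul_left _ (N_le (k w j hj))))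
          (le_bits k 3 fun w j hj => length_emkZ_le (k w j hj) _))))).mono (fun _ _ h => h)
      (Le.of_le fun w j hj => len_le_div (k w j hj))
    have g1 := (L0.lin (g := fun x : ℕ × Par × ℕ × List Bool => (x.2.1, x.2.2.1, x.1, x.2.2.2))
      (by fun_prop) g0).thenCf (cf_mac hT hG τ hτ (fun j : ι × ℕ => P j.1) (fun j => j.2)
        (fun j => F j.1 j.2) fun w j hj => ⟨k w j hj, hj.2, (h w j.1 hj.1).2⟩)
    have g2 := Cf.pair g0.1
      (L0.lin (g := fun x : ℕ × Par × ℕ × List Bool => x.2.1) (by fun_prop) g0).2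
      (Cf.pair g0.1
        (L0.lin (g := fun x : ℕ × Par × ℕ × List Bool => x.2.2.1) (by fun_prop) g0).2 g1)
    refine (g2.congr (fun _ _ _ => rfl) fun _ j _ => congrArg enc ?_).mono (fun _ _ h => h)
      Le.refl fun _ _ _ => by simp
    simp only [G, F, pipe_succ]
  have hloop := Cf.foldl (pre := pre) (σ := fun i => (P i).cost)
    (l := fun i => List.range (P i).2.1) (s := fun i => G i 0)
    (f := fun i _ μ => G i (μ + 1)) (σb := fun i => (P i).cost / (P i).2.1)
    (cb := fun i => 60 * ((P i).1.prod : ℝ) ^ 3 * τ (P i).2.2.2) (fun i n t => t = G i n)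
    (fun _ _ _ => rfl) (fun _ i _ n hn t _ => by rw [List.getElem_range])
    ((hbody.reindex (fun j : ι × (ℕ × Par × ℕ × List Bool) => (j.1, j.2.1)) fun w j hj => by
        obtain ⟨h1, n, hn, e, -⟩ := hj
        rw [List.getElem_range] at e
        exact ⟨h1, by simpa [e] using hn⟩).congr
      (fun w j hj => by
        obtain ⟨-, n, hn, e, e'⟩ := hj
        rw [List.getElem_range] at e
        exact congrArg enc (Prod.ext rfl (by rw [e', e]))) fun _ _ _ => rfl)
    (Le.of_le fun w i hi => by
      have : ((P i).2.1 : ℝ) ≠ 0 := by exact_mod_cast Nat.one_le_iff_ne_zero.1 (h' w i hi).pos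
      rw [List.length_range, mul_div_cancel₀ _ this])
    (hr.sz_le.trans hc)
  simp only [foldl_range, List.length_range] at hloop
  -- taking the rows back
  have k0 := L0.input (inp := fun i => G i (P i).2.1) (Ax.le_sz_pair (le_par h') (Ax.le_sz_pair
    (le_small h' fun w i hi => (slabs_le (h' w i hi)).2.1.trans
      (Nat.mul_le_mul_left _ (N_le (h' w i hi))))
    (le_bits h' 3 fun w i hi => length_emkZ_le (h' w i hi) _)))
  have kP : L0 pre (fun i => G i (P i).2.1) (fun i => ((P i).len : ℝ)) P :=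
    L0.lin (g := fun x : Par × ℕ × List Bool => x.1) (by fun_prop) k0
  have ka := L0.lin (g := fun x : Par × ℕ × List Bool => x.2.2) (by fun_prop) k0
  have k1 := l0_compress h' kP (fun i => F i (P i).2.1) ka
  refine (((((hr.pair hG0).mono (fun _ _ h => h) hc).thenCf hloop).comp
    (k1.mono (fun _ _ h => h) hc).2).congr (fun _ _ _ => rfl) fun _ _ _ => rfl).mono
    (fun _ _ h => h) Le.refl fun _ i _ => le_of_eq (by ring)

end Crest.Agent.R326
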