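import Crest.Agent.R326.DigC

/-! Row 326: the expression `exF` is the DFT; its coefficients are good. -/

set_option autoImplicit false

namespace Crest.Agent.R326

variable {p : ℕ}

namespace DigD

/-- `exp (2πi e / M)` -/
noncomputable def ex (M : ℕ) (e : ℤ) : ℂ := Complex.exp (2 * Real.pi * Complex.I * e / M)

theorem ex_add (M : ℕ) (a b : ℤ) : ex M (a + b) = ex M a * ex M b := by
  rw [ex, ex, ex, ← Complex.exp_add]
  congr 1
  push_cast
  ring

theorem ex_zero (M : ℕ) : ex M 0 = 1 := by simp [ex]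

theorem ex_nat (M e : ℕ) : Complex.exp (2 * Real.pi * Complex.I * e / M) = ex M e := by
  rw [ex, Int.cast_natCast]

theorem norm_ex (M : ℕ) (e : ℤ) : ‖ex M e‖ = 1 := by
  have : (2 * Real.pi * Complex.I * e / M : ℂ) = ((2 * Real.pi * e / M : ℝ) : ℂ) * Complex.I := by
    push_cast; ring
  rw [ex, this, Complex.norm_exp_ofReal_mul_I]

theorem ex_eq_zpow (M : ℕ) (e : ℤ) : ex M e = Complex.exp (2 * Real.pi * Complex.I / M) ^ e := by
  rw [ex, ← Complex.exp_int_mul]
  congr 1
  ring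

theorem ex_eq_one_iff {M : ℕ} (hM : M ≠ 0) (e : ℤ) : ex M e = 1 ↔ (M : ℤ) ∣ e := by
  rw [ex_eq_zpow]
  exact (Complex.isPrimitiveRoot_exp M hM).zpow_eq_one_iff_dvd e

theorem ex_congr {M : ℕ} (hM : M ≠ 0) {a b : ℤ} (h : (M : ℤ) ∣ a - b) : ex M a = ex M b := by
  have e : a = (a - b) + b := by ring
  rw [e, ex_add, (ex_eq_one_iff hM _).2 h, one_mul]

theorem ex_mul_left {h : ℕ} (hh : h ≠ 0) (q : ℕ) (e : ℤ) : ex (h * q) (h * e) = ex q e := by
  have : (h : ℂ) ≠ 0 := Nat.cast_ne_zero.2 hh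
  rw [ex, ex]
  congr 1
  push_cast
  rw [mul_left_comm _ (h : ℂ), mul_div_mul_left _ _ this]

theorem ex_half {M : ℕ} (hM : M ≠ 0) (h2 : 2 ∣ M) : ex M ((M / 2 : ℕ) : ℤ) = -1 := by
  obtain ⟨k, rfl⟩ := h2
  have hk : (k : ℂ) ≠ 0 := Nat.cast_ne_zero.2 (by omega)
  rw [Nat.mul_div_cancel_left _ two_pos, ex, ← Complex.exp_pi_mul_I]
  congr 1
  push_cast
  field_simp

theorem sum_ex {M : ℕ} (hM : M ≠ 0) (d : ℤ) :
    ∑ y ∈ Finset.range M, ex M (y * d) = if (M : ℤ) ∣ d then (M : ℂ) else 0 := by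
  have e : ∀ y : ℕ, ex M (y * d) = ex M d ^ y := fun y => by
    rw [ex_eq_zpow, ex_eq_zpow, mul_comm (y : ℤ), zpow_mul, zpow_natCast]
  simp only [e]
  split_ifs with h
  · simp [(ex_eq_one_iff hM d).2 h]
  · have h1 : ex M d ≠ 1 := fun h' => h ((ex_eq_one_iff hM d).1 h')
    rw [geom_sum_eq h1, ← e, (ex_eq_one_iff hM _).2 (Dvd.intro _ rfl), sub_self, zero_div]

theorem sum_ex_rev (j : ℕ) (d : ℤ) :
    ∑ y ∈ Finset.range (2 ^ j), ex (2 ^ j) (rev j y * d) =
      if ((2 ^ j : ℕ) : ℤ) ∣ d then ((2 ^ j : ℕ) : ℂ) else 0 := by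
  rw [← sum_ex (Nat.two_pow_pos j).ne']
  have hb := rev_bij j
  refine Finset.sum_nbij (rev j) (fun y hy => Finset.mem_range.2 (hb.mapsTo (Finset.mem_range.1 hy)))
    ?_ ?_ fun _ _ => rfl
  · simpa only [Finset.coe_range] using hb.injOn
  · simpa only [Finset.coe_range] using hb.surjOn

theorem sum_zmod [NeZero p] (F : ZMod p → ℂ) :
    ∑ x, F x = ∑ y ∈ Finset.range p, F (y : ZMod p) := by
  refine Finset.sum_nbij' (fun x => x.val) (fun y => (y : ZMod p))
    (fun x _ => Finset.mem_range.2 (ZMod.val_lt x)) (fun _ _ => Finset.mem_univ _)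
    (fun x _ => ZMod.natCast_zmod_val x)
    (fun y hy => ZMod.val_cast_of_lt (Finset.mem_range.1 hy)) fun x _ => ?_
  rw [ZMod.natCast_zmod_val]

/-- the sign -/
def eps (sg : Bool) : ℤ := if sg then -1 else 1

theorem dft_eq [NeZero p] (sg : Bool) (u : ZMod p → ℂ) (x : ZMod p) :
    dft p sg u x = ∑ x', ex p (eps sg * (x.val * x'.val)) * u x' := by
  refine Finset.sum_congr rfl fun x' _ => ?_
  rw [ex]
  congr 2
  cases sg <;> simp [eps]

theorem hp_ne (p : ℕ) : hp p ≠ 0 := (Nat.two_pow_pos _).ne'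

theorem hp_facts (h3 : 3 ≤ p) :
    hp p = 2 * (hp p / 2) ∧ 0 < hp p / 2 ∧ hp p ≤ p ∧ p < 2 * hp p := by
  have h1 : 1 ≤ Nat.log 2 p := (Nat.le_log_iff_pow_le one_lt_two (by omega)).2 (by omega)
  have h2 : hp p ≤ p := Nat.pow_log_le_self 2 (by omega)
  have h4 : p < 2 ^ (Nat.log 2 p + 1) := Nat.lt_pow_succ_log_self one_lt_two p
  have h5 : 2 ∣ hp p := dvd_pow_self 2 (by omega)
  have h6 := hp_ne p
  rw [pow_succ] at h4
  have h7 : 2 ^ Nat.log 2 p = hp p := rfl
  omega

theorem cval_eq (c : Cd) : cval p c = (c.2.map fun e : ℕ => ex (Mo p) e).sum / c.1 := by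
  simp only [cval, ex_nat]

theorem cval_one (e : ℕ) : cval p (1, [e]) = ex (Mo p) e := by simp [cval_eq]

/-- the chirp -/
noncomputable def chi (p : ℕ) (sg : Bool) (s : ℤ) : ℂ :=
  ex p (eps sg * (((p + 1) / 2 : ℕ) : ℤ) * s ^ 2)

theorem ex_chiE (h3 : 3 ≤ p) (sg : Bool) (s : ℕ) : ex (Mo p) (chiE p sg s) = chi p sg s := by
  rw [chiE, Mo, Nat.cast_mul, ex_mul_left (hp_ne p), chi]
  refine ex_congr (by omega) ?_
  rw [Int.natCast_mod]
  refine (Int.emod_emod_of_dvd _ dvd_rfl ▸ Int.ModEq.dvd (?_ : _ ≡ _ [ZMOD p]))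
  rw [Int.ModEq, Int.emod_emod_of_dvd _ dvd_rfl, Int.emod_emod_of_dvd _ dvd_rfl]
  cases sg
  · simp [eps]
  · refine Int.modEq_iff_dvd.2 ⟨(((p + 1) / 2 : ℕ) : ℤ) * s ^ 2, ?_⟩
    simp only [eps, if_true, Nat.cast_mul, Nat.cast_pow, Nat.cast_sub (show 1 ≤ p by omega),
      Nat.cast_one]
    ring

theorem chi_congr (h3 : 3 ≤ p) (sg : Bool) {s s' : ℤ} (h : (p : ℤ) ∣ s - s') :
    chi p sg s = chi p sg s' := by
  refine ex_congr (by omega) ?_
  obtain ⟨k, hk⟩ := h
  refine ⟨eps sg * (((p + 1) / 2 : ℕ) : ℤ) * k * (s + s'), ?_⟩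
  linear_combination (eps sg * (((p + 1) / 2 : ℕ) : ℤ) * (s + s')) * hk

theorem bluestein (hodd : Odd p) (h3 : 3 ≤ p) (sg : Bool) (x x' : ℤ) :
    chi p sg x * (chi p (!sg) (x - x') * chi p sg x') = ex p (eps sg * (x * x')) := by
  rw [chi, chi, chi, ← ex_add, ← ex_add]
  refine ex_congr (by omega) ⟨eps sg * (x * x'), ?_⟩
  obtain ⟨k, rfl⟩ := hodd
  have e : (2 * k + 1 + 1) / 2 = k + 1 := by omega
  have e' : eps (!sg) = -eps sg := by cases sg <;> simp [eps]
  rw [e, e']
  push_cast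
  ring

theorem getD_map_range {α : Type} (n x : ℕ) (F : ℕ → Option α) :
    ((List.range n).map F).getD x none = if x < n then F x else none := by
  split_ifs with h
  · simp [List.getD_eq_getElem?_getD, h]
  · simp [List.getD_eq_getElem?_getD, h]

theorem fapp_single (m : Mono) (u : ZMod p → ℂ) : fapp p [m] u = mapp p m u := by simp [fapp]

theorem eIn_apply [NeZero p] (h3 : 3 ≤ p) (sg : Bool) (v : ℕ) (f : ZMod p → ℂ) {b : ℕ}
    (hb : b < p) : mapp p (eIn p sg v) f (b : ZMod p) =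
      if b < hp p / 2 ∧ v * (hp p / 2) + b < p then
        chi p sg ((v * (hp p / 2) + b : ℕ) : ℤ) * f ((v * (hp p / 2) + b : ℕ) : ZMod p) else 0 := by
  simp only [mapp, eIn, getD_map_range, ZMod.val_cast_of_lt hb]
  by_cases h1 : b < hp p / 2
  · by_cases h2 : v * (hp p / 2) + b < p
    · simp only [h1, h2, if_true, and_self, cval_one, ex_chiE h3]
      rw [Nat.cast_add (R := ZMod p), add_comm (b : ZMod p)]
    · simp [h1, h2]
  · simp [h1]

theorem eOut_apply [NeZero p] (h3 : 3 ≤ p) (sg : Bool) {u : ℕ} (hu : u < 4) (f : ZMod p → ℂ)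
    (x : ZMod p) : mapp p (eOut p sg u) f x =
      if u * (hp p / 2) ≤ x.val ∧ x.val < (u + 1) * (hp p / 2) then
        chi p sg x.val * f ((x.val - u * (hp p / 2) : ℕ) : ZMod p) else 0 := by
  obtain ⟨h1, h2, h4, h5⟩ := hp_facts h3
  simp only [mapp, eOut, getD_map_range, ZMod.val_lt x, if_true]
  split_ifs with h
  · simp only [cval_one, ex_chiE h3]
    have : u * (hp p / 2) ≤ 4 * p := by nlinarith
    rw [Nat.cast_sub this, Nat.cast_sub h.1, ZMod.natCast_zmod_val, Nat.cast_mul 4, ZMod.natCast_self,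
      mul_zero, zero_sub, sub_eq_add_neg]
  · rfl

/-- the kernel -/
noncomputable def kap (p : ℕ) (sg : Bool) (u v r : ℕ) : ℂ :=
  chi p (!sg) ((4 * p + u * (hp p / 2) + r - v * (hp p / 2)
    - (if r < hp p / 2 then 0 else hp p) : ℕ) : ℤ)

theorem sum_map_range (n : ℕ) (F : ℕ → ℂ) :
    ((List.range n).map F).sum = ∑ i ∈ Finset.range n, F i := rfl

theorem cval_kern (h3 : 3 ≤ p) (sg : Bool) (u v y : ℕ) :
    cval p (hp p, List.replicate (2 * hp p) 0 ++
      (List.range (hp p)).map fun r => chiE p (!sg) (4 * p + u * (hp p / 2) + r - v * (hp p / 2)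
        - (if r < hp p / 2 then 0 else hp p)) + p * rev (Nat.log 2 p) y * r) =
      2 + (∑ r ∈ Finset.range (hp p), kap p sg u v r * ex (hp p) (rev (Nat.log 2 p) y * r)) / hp p := by
  have h0 : (hp p : ℂ) ≠ 0 := Nat.cast_ne_zero.2 (hp_ne p)
  rw [cval_eq]
  simp only [List.map_append, List.sum_append, List.map_replicate, List.sum_replicate, List.map_map,
    Nat.cast_zero, ex_zero, nsmul_eq_mul, mul_one, sum_map_range, Function.comp]
  rw [add_div]
  congr 1
  · push_cast; field_simp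
  · congr 1
    refine Finset.sum_congr rfl fun r _ => ?_
    rw [Nat.cast_add, ex_add, ex_chiE h3, kap, Mo, Nat.mul_comm (hp p) p, Nat.mul_assoc p,
      Nat.cast_mul, ex_mul_left (by omega), Nat.cast_mul]

theorem kern_apply [NeZero p] (h3 : 3 ≤ p) (sg : Bool) (u v : ℕ) (f : ZMod p → ℂ) {y : ℕ}
    (hy : y < hp p) : fapp p (kern p sg u v) f (y : ZMod p) =
      (∑ r ∈ Finset.range (hp p), kap p sg u v r * ex (hp p) (rev (Nat.log 2 p) y * r)) / hp p *
        f (y : ZMod p) := by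
  obtain ⟨h1, h2, h4, h5⟩ := hp_facts h3
  have hM : ex (Mo p) ((Mo p / 2 : ℕ) : ℤ) = -1 :=
    ex_half (Nat.mul_ne_zero (hp_ne p) (by omega)) (Dvd.dvd.mul_right ⟨_, h1⟩ _)
  simp only [fapp, kern, List.map_cons, List.map_nil, List.sum_cons, List.sum_nil, add_zero,
    Pi.add_apply, mapp, getD_map_range, ZMod.val_cast_of_lt (show y < p by omega), hy, if_true,
    cval_kern h3, Nat.cast_zero]
  rw [cval_eq]
  simp only [List.map_cons, List.map_nil, List.sum_cons, List.sum_nil, hM]
  push_cast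
  ring

/-- the cyclic convolution computed by the middle part -/
theorem conv (j : ℕ) (κ F : ℕ → ℂ) (a : ℕ) :
    ∑ y ∈ Finset.range (2 ^ j), ex (2 ^ j) (-(rev j y * a)) *
      ((∑ r ∈ Finset.range (2 ^ j), κ r * ex (2 ^ j) (rev j y * r)) / (2 ^ j : ℕ) *
        ∑ b ∈ Finset.range (2 ^ j), ex (2 ^ j) (rev j y * b) * F b) =
    ∑ b ∈ Finset.range (2 ^ j), (∑ r ∈ Finset.range (2 ^ j),
      if ((2 ^ j : ℕ) : ℤ) ∣ (r + b - a : ℤ) then κ r else 0) * F b := by
  have h0 : ((2 ^ j : ℕ) : ℂ) ≠ 0 := Nat.cast_ne_zero.2 (Nat.two_pow_pos j).ne'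
  simp only [Finset.sum_div, Finset.sum_mul, Finset.mul_sum]
  rw [Finset.sum_comm]
  refine Finset.sum_congr rfl fun b _ => ?_
  rw [Finset.sum_comm]
  refine Finset.sum_congr rfl fun r _ => ?_
  have e : ∀ y : ℕ, ex (2 ^ j) (-(rev j y * a)) *
      (κ r * ex (2 ^ j) (rev j y * r) / (2 ^ j : ℕ) * (ex (2 ^ j) (rev j y * b) * F b)) =
      ex (2 ^ j) (rev j y * (r + b - a : ℤ)) * (κ r / (2 ^ j : ℕ) * F b) := fun y => by
    have : (rev j y * (r + b - a) : ℤ) = -(rev j y * a) + (rev j y * r + rev j y * b) := by ring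
    rw [this, ex_add, ex_add]
    ring
  rw [Finset.sum_congr rfl fun y _ => e y, ← Finset.sum_mul, sum_ex_rev]
  split_ifs
  · field_simp
  · simp

theorem sum_kap (h3 : 3 ≤ p) (sg : Bool) {u v a b : ℕ} (hu : u < 4) (hv : v < 4)
    (ha : a < hp p / 2) (hb : b < hp p / 2) :
    (∑ r ∈ Finset.range (hp p), if (hp p : ℤ) ∣ (r + b - a : ℤ) then kap p sg u v r else 0) =
      chi p (!sg) (((u * (hp p / 2) + a : ℕ) : ℤ) - (v * (hp p / 2) + b : ℕ)) := by
  obtain ⟨h1, h2, h4, h5⟩ := hp_facts h3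
  have hvg : v * (hp p / 2) ≤ 3 * (hp p / 2) := Nat.mul_le_mul_right _ (by omega)
  unfold kap
  generalize u * (hp p / 2) = U
  generalize v * (hp p / 2) = W at hvg
  generalize hp p / 2 = g at *
  generalize hp p = h at *
  rw [Finset.sum_eq_single (if b ≤ a then a - b else h + a - b)]
  · by_cases hab : b ≤ a
    · rw [if_pos hab, if_pos ⟨0, by omega⟩, if_pos (by omega)]
      exact chi_congr h3 _ ⟨4, by omega⟩
    · rw [if_neg hab, if_pos ⟨1, by omega⟩, if_neg (by omega)]
      exact chi_congr h3 _ ⟨4, by omega⟩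
  · intro r hr hne
    have hr' := Finset.mem_range.1 hr
    rw [if_neg]
    rintro ⟨k, hk⟩
    have hk1 : k < 2 := by
      by_contra hc
      have : (h : ℤ) * 2 ≤ h * k := mul_le_mul_of_nonneg_left (by omega) (by omega)
      omega
    have hk2 : -1 < k := by
      by_contra hc
      have : (h : ℤ) * k ≤ h * (-1) := mul_le_mul_of_nonneg_left (by omega) (by omega)
      omega
    have : k = 0 ∨ k = 1 := by omega
    rcases this with rfl | rfl <;> split_ifs at hne <;> omega
  · intro h'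
    exact absurd (Finset.mem_range.2 (by split_ifs <;> omega)) h'

theorem papp_cons (fac : List Mono) (P : List (List Mono)) (u : ZMod p → ℂ) :
    papp p (fac :: P) u = papp p P (fapp p fac u) := rfl

theorem prodF_apply [NeZero p] (hodd : Odd p) (h3 : 3 ≤ p) (sg : Bool) {u v : ℕ} (hu : u < 4)
    (hv : v < 4) (f : ZMod p → ℂ) (x : ZMod p) :
    papp p (prodF p sg u v) f x =
      if u * (hp p / 2) ≤ x.val ∧ x.val < (u + 1) * (hp p / 2) then
        ∑ b ∈ Finset.range (hp p / 2), if v * (hp p / 2) + b < p then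
          ex p (eps sg * (x.val * (v * (hp p / 2) + b : ℕ))) *
            f ((v * (hp p / 2) + b : ℕ) : ZMod p) else 0
      else 0 := by
  obtain ⟨h1, h2, h4, h5⟩ := hp_facts h3
  rw [prodF, papp_cons, papp_append, papp_cons, papp_append, papp_cons, fapp_single, fapp_single]
  show mapp p (eOut p sg u) _ x = _
  rw [eOut_apply h3 sg hu]
  split_ifs with hx
  swap
  · rfl
  obtain ⟨a, ha⟩ : ∃ a, x.val = u * (hp p / 2) + a := ⟨x.val - u * (hp p / 2), by omega⟩
  have ha' : a < hp p / 2 := by have := hx.2; rw [Nat.succ_mul] at this; omega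
  rw [show x.val - u * (hp p / 2) = a by omega, papp_ifft (by omega),
    ZMod.val_cast_of_lt (show a < p by omega), if_pos (by omega)]
  have e1 : ∀ y ∈ Finset.range (hp p), Complex.exp (-(2 * Real.pi * Complex.I) *
        (rev (Nat.log 2 p) y * a : ℕ) / hp p) * fapp p (kern p sg u v)
        (papp p ((List.range (Nat.log 2 p)).map (bfly p false)) (mapp p (eIn p sg v) f))
        (y : ZMod p) =
      ex (hp p) (-(rev (Nat.log 2 p) y * a)) *
        ((∑ r ∈ Finset.range (hp p), kap p sg u v r * ex (hp p) (rev (Nat.log 2 p) y * r)) / hp p *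
          ∑ b ∈ Finset.range (hp p), ex (hp p) (rev (Nat.log 2 p) y * b) *
            mapp p (eIn p sg v) f (b : ZMod p)) := by
    intro y hy
    have hy' := Finset.mem_range.1 hy
    rw [kern_apply h3 sg u v _ hy', papp_fft (by omega), ZMod.val_cast_of_lt (show y < p by omega),
      if_pos hy']
    congr 1
    rw [ex]; congr 1; push_cast; ring
  rw [Finset.sum_congr rfl e1]
  have e2 := conv (Nat.log 2 p) (kap p sg u v) (fun b => mapp p (eIn p sg v) f (b : ZMod p)) a
  change ∑ y ∈ Finset.range (hp p), ex (hp p) _ *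
    ((∑ r ∈ Finset.range (hp p), _ * ex (hp p) _) / (hp p : ℂ) *
      ∑ b ∈ Finset.range (hp p), ex (hp p) _ * _) = ∑ b ∈ Finset.range (hp p),
      (∑ r ∈ Finset.range (hp p), if (hp p : ℤ) ∣ _ then _ else _) * _ at e2
  rw [e2, Finset.mul_sum]
  symm
  refine Finset.sum_subset_zero_on_sdiff (Finset.range_subset_range.2 (by omega))
    (fun b hb => ?_) fun b hb => ?_
  · rw [Finset.mem_sdiff, Finset.mem_range, Finset.mem_range] at hb
    rw [eIn_apply h3 sg v f (by omega), if_neg (fun h => hb.2 h.1), mul_zero, mul_zero]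
  · have hb' := Finset.mem_range.1 hb
    rw [eIn_apply h3 sg v f (by omega), sum_kap h3 sg hu hv ha' hb', ← ha]
    by_cases hc : v * (hp p / 2) + b < p
    · rw [if_pos hc, if_pos ⟨hb', hc⟩, ← bluestein hodd h3]
      ring
    · rw [if_neg hc, if_neg (fun h => hc h.2), mul_zero, mul_zero]

theorem sum_blocks (n g : ℕ) (F : ℕ → ℂ) :
    ∑ v ∈ Finset.range n, ∑ b ∈ Finset.range g, F (v * g + b) = ∑ y ∈ Finset.range (n * g), F y := by
  induction n with
  | zero => simp
  | succ n ih => rw [Finset.sum_range_succ, ih, Nat.succ_mul, Finset.sum_range_add]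

theorem eapp_eq (sg : Bool) (f : ZMod p → ℂ) (x : ZMod p) :
    eapp p (exF p sg) f x =
      ∑ u ∈ Finset.range 4, ∑ v ∈ Finset.range 4, papp p (prodF p sg u v) f x := by
  simp only [eapp, exF, List.range_succ, List.range_zero, List.nil_append, List.cons_append,
    List.flatMap_cons, List.flatMap_nil, List.map_cons, List.map_nil, List.append_nil, List.sum_cons,
    List.sum_nil, Pi.add_apply, Finset.sum_range_succ, Finset.sum_range_zero, add_zero, zero_add,
    add_assoc]

theorem good_one (h3 : 3 ≤ p) (e : ℕ) : GoodCd p (1, [e]) := by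
  refine ⟨one_pos, by simp, ?_, ?_⟩
  · rw [cval_one, norm_ex, div_le_one (by exact_mod_cast (by omega : 0 < p))]
    exact_mod_cast (by omega : 1 ≤ p)
  · rw [cval_one, norm_ex]; norm_num

end DigD

open DigD

theorem eapp_exF [NeZero p] (hodd : Odd p) (h3 : 3 ≤ p) (sg : Bool) (u : ZMod p → ℂ) :
    eapp p (exF p sg) u = dft p sg u := by
  obtain ⟨h1, h2, h4, h5⟩ := hp_facts h3
  funext x
  have hx := ZMod.val_lt x
  rw [eapp_eq, dft_eq, sum_zmod, Finset.sum_eq_single (x.val / (hp p / 2))]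
  · have hu : x.val / (hp p / 2) < 4 := (Nat.div_lt_iff_lt_mul h2).2 (by omega)
    have hc : x.val / (hp p / 2) * (hp p / 2) ≤ x.val ∧
        x.val < (x.val / (hp p / 2) + 1) * (hp p / 2) :=
      ⟨Nat.div_mul_le_self _ _, (Nat.div_lt_iff_lt_mul h2).1 (Nat.lt_succ_self _)⟩
    rw [Finset.sum_congr rfl fun v hv => by
      rw [prodF_apply hodd h3 sg hu (Finset.mem_range.1 hv), if_pos hc],
      sum_blocks 4 (hp p / 2) fun y => if y < p then
        ex p (eps sg * (x.val * (y : ℕ))) * u (y : ZMod p) else 0]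
    symm
    refine Finset.sum_subset_zero_on_sdiff (Finset.range_subset_range.2 (by omega))
      (fun b hb => ?_) fun b hb => ?_
    · rw [Finset.mem_sdiff, Finset.mem_range, Finset.mem_range] at hb
      rw [if_neg hb.2]
    · rw [if_pos (Finset.mem_range.1 hb), ZMod.val_cast_of_lt (Finset.mem_range.1 hb)]
  · intro w hw hne
    refine Finset.sum_eq_zero fun v hv => ?_
    rw [prodF_apply hodd h3 sg (Finset.mem_range.1 hw) (Finset.mem_range.1 hv), if_neg]
    intro h
    exact hne (Nat.div_eq_of_lt_le h.1 h.2).symm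
  · intro h
    exact absurd (Finset.mem_range.2 ((Nat.div_lt_iff_lt_mul h2).2 (by omega))) h

theorem goodMono_exF (h3 : 3 ≤ p) (sg : Bool) :
    ∀ P ∈ exF p sg, ∀ fac ∈ P, fac.length ≤ 3 ∧ ∀ m ∈ fac, GoodMono p m := by
  have hb : ∀ adj j, (bfly p adj j).length ≤ 3 ∧ ∀ m ∈ bfly p adj j, GoodMono p m := by
    intro adj j
    refine ⟨le_rfl, fun m hm c hc => ?_⟩
    simp only [bfly, List.mem_cons, List.not_mem_nil, or_false] at hm
    rcases hm with rfl | rfl | rfl <;> obtain ⟨x, -, hx⟩ := List.mem_map.1 hc <;>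
      split_ifs at hx <;> (cases hx; exact good_one h3 _)
  have hp1 : (1 / p : ℝ) ≤ 1 := by
    rw [div_le_one (by exact_mod_cast (by omega : 0 < p))]
    exact_mod_cast (by omega : 1 ≤ p)
  intro P hP fac hfac
  obtain ⟨u, -, hP⟩ := List.mem_flatMap.1 hP
  obtain ⟨v, -, rfl⟩ := List.mem_map.1 hP
  simp only [prodF, List.mem_cons, List.mem_append, List.mem_map, List.not_mem_nil, or_false] at hfac
  rcases hfac with rfl | ⟨j, -, rfl⟩ | rfl | ⟨j, -, rfl⟩ | rfl
  · refine ⟨by simp, fun m hm c hc => ?_⟩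
    rw [List.mem_singleton.1 hm] at hc
    obtain ⟨x, -, hx⟩ := List.mem_map.1 hc
    split_ifs at hx
    cases hx
    exact good_one h3 _
  · exact hb _ _
  · refine ⟨by simp [kern], fun m hm c hc => ?_⟩
    simp only [kern, List.mem_cons, List.not_mem_nil, or_false] at hm
    rcases hm with rfl | rfl <;> obtain ⟨x, -, hx⟩ := List.mem_map.1 hc <;> cases hx
    · have h0 : (0 : ℝ) < hp p := by exact_mod_cast Nat.pos_of_ne_zero (hp_ne p)
      have ht : ‖(∑ r ∈ Finset.range (hp p),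
          kap p sg u v r * ex (hp p) (rev (Nat.log 2 p) x * r)) / hp p‖ ≤ 1 := by
        rw [norm_div, Complex.norm_natCast, div_le_one h0]
        refine (norm_sum_le _ _).trans (le_of_eq ?_)
        simp [kap, chi, norm_ex]
      refine ⟨Nat.pos_of_ne_zero (hp_ne p), by simp; omega, ?_, ?_⟩
      · rw [cval_kern h3]
        refine hp1.trans ?_
        have := norm_sub_le (2 + (∑ r ∈ Finset.range (hp p),
          kap p sg u v r * ex (hp p) (rev (Nat.log 2 p) x * r)) / hp p)
          ((∑ r ∈ Finset.range (hp p), kap p sg u v r * ex (hp p) (rev (Nat.log 2 p) x * r)) / hp p)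
        rw [add_sub_cancel_right, Complex.norm_two] at this
        linarith
      · rw [cval_kern h3]
        refine (norm_add_le _ _).trans ?_
        rw [Complex.norm_two]
        linarith
    · have e : ‖cval p (1, [Mo p / 2, Mo p / 2])‖ = 2 := by
        rw [cval_eq]
        simp only [List.map_cons, List.map_nil, List.sum_cons, List.sum_nil, add_zero, Nat.cast_one,
          div_one, ← two_mul, norm_mul, norm_ex, Complex.norm_two, mul_one]
      exact ⟨one_pos, by simp, by rw [e]; linarith, by rw [e]; norm_num⟩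
  · exact hb _ _
  · refine ⟨by simp, fun m hm c hc => ?_⟩
    rw [List.mem_singleton.1 hm] at hc
    obtain ⟨x, -, hx⟩ := List.mem_map.1 hc
    split_ifs at hx
    cases hx
    exact good_one h3 _

theorem length_exF (p : ℕ) (sg : Bool) :
    (exF p sg).length = 16 ∧ ∀ P ∈ exF p sg, P.length = 2 * Nat.log 2 p + 3 := by
  refine ⟨rfl, fun P hP => ?_⟩
  obtain ⟨u, -, hP⟩ := List.mem_flatMap.1 hP
  obtain ⟨v, -, rfl⟩ := List.mem_map.1 hP
  simp only [prodF, List.length_cons, List.length_append, List.length_map, List.length_range,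
    List.length_reverse, List.length_nil]
  omega

theorem dft_dft [NeZero p] (sg sg' : Bool) (u : ZMod p → ℂ) :
    dft p sg (dft p sg' u) = fun x => (p : ℂ) * u (if sg = sg' then -x else x) := by
  funext x
  simp only [dft_eq, Finset.mul_sum]
  rw [Finset.sum_comm]
  have e : ∀ z : ZMod p, ∑ y : ZMod p, ex p (eps sg * (x.val * y.val)) *
      (ex p (eps sg' * (y.val * z.val)) * u z) =
      (if z = (if sg = sg' then -x else x) then (p : ℂ) else 0) * u z := by
    intro z
    have h1 : ∀ y : ZMod p, ex p (eps sg * (x.val * y.val)) * (ex p (eps sg' * (y.val * z.val)) * u z)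
        = ex p (y.val * (eps sg * x.val + eps sg' * z.val)) * u z := fun y => by
      rw [← mul_assoc, ← ex_add]
      congr 2
      ring
    simp only [h1]
    rw [← Finset.sum_mul, sum_zmod, Finset.sum_congr rfl fun y hy => by
      rw [ZMod.val_cast_of_lt (Finset.mem_range.1 hy)], sum_ex (NeZero.ne p)]
    congr 1
    refine if_congr ?_ rfl rfl
    rw [← ZMod.intCast_zmod_eq_zero_iff_dvd]
    cases sg <;> cases sg' <;>
      simp only [eps, Int.cast_add, Int.cast_mul, Int.cast_natCast, ZMod.natCast_zmod_val,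
        Bool.false_eq_true, Bool.true_eq_false, if_true, if_false, Int.cast_one, Int.cast_neg] <;>
      constructor <;> intro h
    · linear_combination h
    · linear_combination h
    · linear_combination -h
    · linear_combination -h
    · linear_combination h
    · linear_combination h
    · linear_combination -h
    · linear_combination -h
  simp only [e]
  simp

end Crest.Agent.R326
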