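import Crest.Agent.R326.DigA
import Crest.Agent.R326.DigD

/-! Row 326: the circuit for one modulus computes the batched DFT. -/

set_option autoImplicit false

namespace Crest.Agent.R326

variable {p : ℕ}

namespace Dig

theorem papp_sum (P : List (List Mono)) (l : List (ZMod p → ℂ)) :
    papp p P l.sum = (l.map (papp p P)).sum := by
  induction l with
  | nil => simpa using papp_smul P 0 (0 : ZMod p → ℂ)
  | cons u l ih => rw [List.sum_cons, papp_add, ih, List.map_cons, List.sum_cons]

theorem eapp_cons (P : List (List Mono)) (A : List (List (List Mono))) (u : ZMod p → ℂ) :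
    eapp p (P :: A) u = papp p P u + eapp p A u := by simp [eapp]

theorem eapp_append (A B : List (List (List Mono))) (u : ZMod p → ℂ) :
    eapp p (A ++ B) u = eapp p A u + eapp p B u := by simp [eapp]

theorem eapp_add (A : List (List (List Mono))) (u v : ZMod p → ℂ) :
    eapp p A (u + v) = eapp p A u + eapp p A v := by
  induction A with
  | nil => simp [eapp]
  | cons P A ih => rw [eapp_cons, eapp_cons, eapp_cons, ih, papp_add]; abel

theorem eapp_smul (A : List (List (List Mono))) (c : ℂ) (u : ZMod p → ℂ) :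
    eapp p A (c • u) = c • eapp p A u := by
  induction A with
  | nil => simp [eapp]
  | cons P A ih => rw [eapp_cons, eapp_cons, ih, papp_smul, smul_add]

theorem eapp_inv [NeZero p] (P : List (List Mono)) (A : List (List (List Mono))) (u : ZMod p → ℂ) :
    eapp p (A.map fun P' => P ++ P' ++ [[minv p]]) u = (1 / p : ℂ) • eapp p A (papp p P u) := by
  induction A with
  | nil => simp [eapp]
  | cons P' A ih =>
    rw [List.map_cons, eapp_cons, eapp_cons, ih, papp_append, papp_append, smul_add]
    simp [papp, fapp, mapp_minv]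

theorem eapp_flat [NeZero p] (A B : List (List (List Mono))) (u : ZMod p → ℂ) :
    eapp p (A.flatMap fun P => B.map fun P' => P ++ P' ++ [[minv p]]) u =
      (1 / p : ℂ) • eapp p B (eapp p A u) := by
  induction A with
  | nil =>
    have h := eapp_smul (p := p) B 0 0
    rw [zero_smul, zero_smul] at h
    show 0 = _ • eapp p B 0
    rw [h, smul_zero]
  | cons P A ih => rw [List.flatMap_cons, eapp_append, ih, eapp_inv, eapp_cons, eapp_add, smul_add]

theorem dft_smul [NeZero p] (sg : Bool) (c : ℂ) (u : ZMod p → ℂ) :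
    dft p sg (c • u) = c • dft p sg u := by
  funext x
  simp only [dft, Pi.smul_apply, smul_eq_mul, Finset.mul_sum]
  exact Finset.sum_congr rfl fun _ _ => by ring

theorem inv_dft_dft [NeZero p] (sg sg' : Bool) (u : ZMod p → ℂ) :
    (1 / p : ℂ) • dft p sg (dft p sg' u) = fun x => u (if sg = sg' then -x else x) := by
  have : (p : ℂ) ≠ 0 := Nat.cast_ne_zero.2 (NeZero.ne p)
  funext x
  rw [dft_dft, Pi.smul_apply, smul_eq_mul]
  field_simp

theorem dft_neg [NeZero p] (sg : Bool) (u : ZMod p → ℂ) :
    dft p sg (fun x => u (-x)) = fun x => dft p sg u (-x) := by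
  have h1 := inv_dft_dft sg sg u
  have h2 := inv_dft_dft sg sg (dft p sg u)
  simp only [if_true] at h1 h2
  rw [← h1, ← h2, dft_smul]

theorem eapp_exFinv [NeZero p] (hodd : Odd p) (h3 : 3 ≤ p) (u : ZMod p → ℂ) :
    eapp p (exFinv p) u = (1 / p : ℂ) • dft p true u := by
  have := eapp_inv [] (exF p true) u
  rw [eapp_exF hodd h3] at this
  exact this

theorem eapp_exR [NeZero p] (hodd : Odd p) (h3 : 3 ≤ p) (u : ZMod p → ℂ) :
    eapp p (exR p) u = fun x => u (-x) := by
  rw [exR, eapp_flat, eapp_exF hodd h3, eapp_exF hodd h3, inv_dft_dft]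
  rfl

theorem exR_exFinv [NeZero p] (hodd : Odd p) (h3 : 3 ≤ p) (u : ZMod p → ℂ) :
    eapp p (exR p) (eapp p (exFinv p) u) = (1 / p : ℂ) • dft p false u := by
  rw [exR, eapp_flat, eapp_exF hodd h3, eapp_exF hodd h3, eapp_exFinv hodd h3, dft_smul,
    inv_dft_dft]
  rfl

theorem le_rr (p : ℕ) : 4 * Nat.log 2 p + 8 ≤ 2 ^ rr p := Nat.le_pow_clog one_lt_two _

theorem len_exF (sg : Bool) : ∀ P ∈ exF p sg, P.length ≤ 2 ^ rr p := fun P hP => by
  have := (length_exF p sg).2 P hP
  have := le_rr p
  omega

theorem len_exFinv : ∀ P ∈ exFinv p, P.length ≤ 2 ^ rr p := fun P hP => by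
  obtain ⟨Q, hQ, rfl⟩ := List.mem_map.1 hP
  have := (length_exF p true).2 Q hQ
  have := le_rr p
  rw [List.length_append, List.length_singleton]
  omega

theorem len_exR : ∀ P ∈ exR p, P.length ≤ 2 ^ rr p := fun P hP => by
  obtain ⟨Q, hQ, hP⟩ := List.mem_flatMap.1 hP
  obtain ⟨Q', hQ', rfl⟩ := List.mem_map.1 hP
  have := (length_exF p false).2 Q hQ
  have := (length_exF p false).2 Q' hQ'
  have := le_rr p
  rw [List.length_append, List.length_append, List.length_singleton]
  omega

theorem good_minv (h3 : 3 ≤ p) : GoodMono p (minv p) := fun c hc => by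
  have hc : c = (p, [0]) := Option.some.inj (List.eq_of_mem_replicate hc)
  subst hc
  have h : ‖cval p (p, [0])‖ = 1 / p := by simp [cval]
  have h1 : (3 : ℝ) ≤ p := by exact_mod_cast h3
  refine ⟨by omega, by simp; omega, h.ge, h.le.trans ?_⟩
  rw [div_le_iff₀ (by linarith)]
  linarith

theorem good_exFinv (h3 : 3 ≤ p) :
    ∀ P ∈ exFinv p, ∀ fac ∈ P, fac.length ≤ 3 ∧ ∀ m ∈ fac, GoodMono p m := fun P hP fac hf => by
  obtain ⟨Q, hQ, rfl⟩ := List.mem_map.1 hP
  rcases List.mem_append.1 hf with h | h
  · exact goodMono_exF h3 true Q hQ fac h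
  · rw [List.mem_singleton.1 h]
    exact ⟨by simp, fun m hm => List.mem_singleton.1 hm ▸ good_minv h3⟩

theorem good_exR (h3 : 3 ≤ p) :
    ∀ P ∈ exR p, ∀ fac ∈ P, fac.length ≤ 3 ∧ ∀ m ∈ fac, GoodMono p m := fun P hP fac hf => by
  obtain ⟨Q, hQ, hP⟩ := List.mem_flatMap.1 hP
  obtain ⟨Q', hQ', rfl⟩ := List.mem_map.1 hP
  rcases List.mem_append.1 hf with h | h
  · rcases List.mem_append.1 h with h | h
    · exact goodMono_exF h3 false Q hQ fac h
    · exact goodMono_exF h3 false Q' hQ' fac h
  · rw [List.mem_singleton.1 h]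
    exact ⟨by simp, fun m hm => List.mem_singleton.1 hm ▸ good_minv h3⟩

theorem runE_append (ms ms' : List DMac) (a : ℕ → ZMod p → ℂ) :
    runE p (ms ++ ms') a = runE p ms' (runE p ms a) := List.foldl_append

theorem mapp_nil (s : ℕ) (u : ZMod p → ℂ) : mapp p (s, []) u = 0 := rfl

theorem stepE_dflt (a : ℕ → ZMod p → ℂ) : stepE p (0, 1, (0, []), false) a = a := by
  funext r
  simp [stepE, mapp_nil]

theorem runE_getD (L : List DMac) {n : ℕ} (hn : L.length ≤ n) (a : ℕ → ZMod p → ℂ) :
    runE p ((List.range n).map fun μ => L.getD μ (0, 1, (0, []), false)) a = runE p L a := by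
  induction n, hn using Nat.le_induction with
  | base =>
    congr 1
    refine List.ext_getElem (by simp) fun i h1 h2 => ?_
    simp [h2]
  | succ n hn ih =>
    rw [List.range_succ, List.map_append, runE_append, ih, List.map_singleton,
      List.getD_eq_default _ _ hn]
    exact stepE_dflt _

theorem runE_dm {n : ℕ} (hn : (digProg p).length ≤ n) (a : ℕ → ZMod p → ℂ) :
    runE p ((List.range n).map (dm p)) a = runE p (digProg p) a := runE_getD _ hn a

theorem length_flat {α β : Type} (l : List α) (f : α → List β) {k : ℕ}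
    (h : ∀ x ∈ l, (f x).length = k) : (l.flatMap f).length = l.length * k := by
  induction l with
  | nil => simp
  | cons x l ih =>
    rw [List.flatMap_cons, List.length_append, ih fun y hy => h y (List.mem_cons_of_mem _ hy),
      h x List.mem_cons_self, List.length_cons]
    ring

end Dig

open Dig

theorem runE_digProg [NeZero p] (hodd : Odd p) (h3 : 3 ≤ p) (a : ℕ → ZMod p → ℂ) {r : ℕ}
    (hr : r < 4) : runE p (digProg p) a r = (1 / p : ℂ) • dft p false (a r) := by
  have h2 : 2 ≤ p := by omega
  have e1 : ∀ u, eapp p (exF p false) (eapp p (exFinv p) u) = u := fun u => by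
    rw [eapp_exF hodd h3, eapp_exFinv hodd h3, dft_smul, inv_dft_dft]
    rfl
  have e2 : ∀ u, eapp p (exFinv p) (eapp p (exF p false) u) = u := fun u => by
    rw [eapp_exF hodd h3, eapp_exFinv hodd h3, inv_dft_dft]
    rfl
  have e3 : ∀ u, eapp p (exR p) (eapp p (exR p) u) = u := fun u => by
    simp only [eapp_exR hodd h3, neg_neg]
  rw [digProg, runE_append, runE_append, runE_append,
    runE_diagInv h2 _ (by omega) (by omega) (by omega) (len_exF false) len_exFinv e1 e2,
    runE_diagInv h2 _ (by omega) (by omega) (by omega) (len_exF false) len_exFinv e1 e2,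
    runE_diagInv h2 _ (by omega) (by omega) (by omega) len_exR len_exR e3 e3]
  show stepE p _ _ r = _
  interval_cases r <;> simp [stepE, mapp_nil, exR_exFinv hodd h3, eapp_exF hodd h3]

theorem okM_dm (h3 : 3 ≤ p) (μ : ℕ) : OkM p (dm p μ) := by
  have h2 : 2 ≤ p := by omega
  have g1 := fun P hP fac hf => (goodMono_exF h3 false P hP fac hf).2
  have g2 := fun P hP fac hf => (good_exFinv h3 P hP fac hf).2
  have g3 := fun P hP fac hf => (good_exR h3 P hP fac hf).2
  have hd : ∀ b, OkM p (0, 1, (0, []), b) := fun b =>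
    ⟨by simp, by simp, by simp, fun _ => rfl, fun c hc => by simp at hc⟩
  rcases lt_or_ge μ (digProg p).length with h | h
  · have hm : dm p μ ∈ digProg p := by
      rw [dm, List.getD_eq_getElem _ _ h]
      exact List.getElem_mem h
    generalize dm p μ = m at hm
    simp only [digProg, List.mem_append, List.mem_singleton] at hm
    rcases hm with ((h | h) | h) | rfl
    · exact okM_diagInv h2 _ (by omega) (by omega) (by omega) g1 g2 m h
    · exact okM_diagInv h2 _ (by omega) (by omega) (by omega) g1 g2 m h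
    · exact okM_diagInv h2 _ (by omega) (by omega) (by omega) g3 g3 m h
    · exact hd _
  · rw [dm, List.getD_eq_default _ _ h]
    exact hd _

theorem length_digProg (h3 : 3 ≤ p) : (digProg p).length ≤ 10 ^ 6 * lg p ^ 2 := by
  have g1 := fun P hP fac hf => (goodMono_exF h3 false P hP fac hf).1
  have g2 := fun P hP fac hf => (good_exFinv h3 P hP fac hf).1
  have g3 := fun P hP fac hf => (good_exR h3 P hP fac hf).1
  have l1 := (length_exF p false).1
  have l2 : (exFinv p).length = 16 := by rw [exFinv, List.length_map, (length_exF p true).1]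
  have l3 : (exR p).length = 256 := by
    rw [exR, length_flat (k := 16) _ _ fun _ _ => by rw [List.length_map, l1], l1]
  have b1 := length_diagInv (p := p) (rr p) 0 1 g1 g2
  have b2 := length_diagInv (p := p) (rr p) 2 3 g1 g2
  have b3 := length_diagInv (p := p) (rr p) 0 2 g3 g3
  rw [l1, l2] at b1 b2
  rw [l3] at b3
  have c1 : Nat.log 2 p + 2 ≤ lg p :=
    Nat.succ_le_succ (Nat.lt_size.2 (Nat.pow_log_le_self 2 (by omega)))
  have c2 : 2 ^ rr p ≤ 8 * lg p := by
    obtain ⟨k, hk⟩ : ∃ k, rr p = k + 1 :=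
      ⟨rr p - 1, by have := Nat.clog_pos one_lt_two (show 1 < 4 * Nat.log 2 p + 8 by omega)
                    unfold rr; omega⟩
    have h1 : 2 ^ k < 4 * Nat.log 2 p + 8 :=
      (Nat.lt_clog_iff_pow_lt one_lt_two).1 (by unfold rr at hk; omega)
    rw [hk, pow_succ]
    omega
  have c3 : 4 ^ rr p ≤ 64 * lg p ^ 2 := by
    calc 4 ^ rr p = (2 ^ rr p) ^ 2 := by rw [← pow_mul, mul_comm, pow_mul]; rfl
      _ ≤ (8 * lg p) ^ 2 := Nat.pow_le_pow_left c2 2
      _ = 64 * lg p ^ 2 := by ring
  have c4 : 1 ≤ lg p ^ 2 := Nat.one_le_pow _ _ (by omega)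
  simp only [digProg, List.length_append, List.length_singleton]
  omega

theorem pipe_digMac [NeZero p] (hodd : Odd p) (h9 : 9 ≤ p) {n : ℕ} (hn : (digProg p).length ≤ n)
    {f : ZMod p × ZMod p → ℂ} (hf : Clean p f) (v : ZMod p × ZMod p) :
    pipe Complex.I [p - 1] (fun μ => digMac p (dm p μ)) n f v =
      (1 / p : ℂ) * dft p false (fun x => f (v.1, x)) v.2 := by
  have h3 : 3 ≤ p := by omega
  have key : ∀ k, Clean p (pipe Complex.I [p - 1] (fun μ => digMac p (dm p μ)) k f) ∧
      ∀ γ < Gp p - 1, ∀ r < 4, logi p (pipe Complex.I [p - 1] (fun μ => digMac p (dm p μ)) k f) γ r =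
        runE p ((List.range k).map (dm p)) (logi p f γ) r := by
    intro k
    induction k with
    | zero => exact ⟨hf, fun _ _ _ _ => rfl⟩
    | succ k ih =>
      have e : pipe Complex.I [p - 1] (fun μ => digMac p (dm p μ)) (k + 1) f =
          mac Complex.I [p - 1] (digMac p (dm p k))
            (pipe Complex.I [p - 1] (fun μ => digMac p (dm p μ)) k f) := by
        rw [pipe, List.range_succ, List.foldl_append]
        rfl
      obtain ⟨c1, c2⟩ := mac_digMac hodd h9 (okM_dm h3 k) ih.1
      rw [e]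
      refine ⟨c1, fun γ hγ r hr => ?_⟩
      rw [c2 γ hγ r hr, List.range_succ, List.map_append, runE_append]
      show _ = stepE p (dm p k) _ r
      simp only [stepE, ih.2 γ hγ r hr, ih.2 γ hγ _ (okM_dm h3 k).1]
  obtain ⟨y, x⟩ := v
  by_cases hy : role p y.val = 4
  · rw [(key n).1 (y, x) hy]
    simp [dft, fun x' => hf (y, x') hy]
  · obtain ⟨r, hr, γ, hγ, e⟩ := exists_rowOf h9 (ZMod.val_lt y) hy
    have e' : ((rowOf p r γ : ℕ) : ZMod p) = y := by rw [← e, ZMod.natCast_zmod_val]
    have h := (key n).2 γ hγ r hr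
    rw [runE_dm hn, runE_digProg hodd h3 _ hr] at h
    unfold logi at h
    rw [e'] at h
    by_cases h2 : r % 2 = 0
    · simp only [if_pos h2] at h
      exact congrFun h x
    · simp only [if_neg h2] at h
      have := congrFun h (-x)
      rw [dft_neg false fun x => f (y, x)] at this
      simpa using this

end Crest.Agent.R326
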