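import Crest.Agent.R326.DigDefs
import Crest.Agent.R326.Crt

/-! Row 326: the circuits are generated in polynomial time (the modulus in unary). -/

set_option autoImplicit false

namespace Crest.Agent.R326

namespace DP

variable {α β γ δ : Type} [Enc α] [Enc β] [Enc γ] [Enc δ]

/-! ### small closure lemmas -/

theorem congr_enc {g : α → β} {g' : α → γ} (h : Poly g) (e : ∀ a, enc (g' a) = enc (g a)) :
    Poly g' := by
  obtain ⟨c, h⟩ := h
  exact ⟨c, Cf.congr h (fun _ _ _ => rfl) (fun _ a _ => e a)⟩

@[fun_prop] theorem psome {f : α → β} (hf : Poly f) : Poly (fun a => some (f a)) :=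
  congr_enc (Poly.cons hf (Poly.const [])) fun _ => rfl

theorem ptoList {o : α → Option β} (ho : Poly o) : Poly (fun a => (o a).toList) :=
  congr_enc ho fun _ => rfl

@[fun_prop] theorem omap {g : α → β → γ} {o : α → Option β} (hg : Poly fun p : α × β => g p.1 p.2)
    (ho : Poly o) : Poly (fun a => Option.map (g a) (o a)) :=
  congr_enc (Poly.map hg (ptoList ho)) fun a => by cases o a <;> rfl

theorem oelim {g : α → β → γ} {o : α → Option β} {d : α → γ}
    (hg : Poly fun p : α × β => g p.1 p.2) (ho : Poly o) (hd : Poly d) :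
    Poly (fun a => (o a).elim (d a) (g a)) :=
  (Poly.headD (Poly.map hg (ptoList ho)) hd).congr fun a => by cases o a <;> rfl

@[fun_prop] theorem dand {p q : α → Prop} {dp : ∀ a, Decidable (p a)} {dq : ∀ a, Decidable (q a)}
    (hp : Poly fun a => @decide (p a) (dp a)) (hq : Poly fun a => @decide (q a) (dq a)) :
    Poly fun a => @decide (p a ∧ q a) (@instDecidableAnd _ _ (dp a) (dq a)) :=
  (Poly.and hp hq).congr fun a => by simp

@[fun_prop] theorem dor {p q : α → Prop} {dp : ∀ a, Decidable (p a)} {dq : ∀ a, Decidable (q a)}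
    (hp : Poly fun a => @decide (p a) (dp a)) (hq : Poly fun a => @decide (q a) (dq a)) :
    Poly fun a => @decide (p a ∨ q a) (@instDecidableOr _ _ (dp a) (dq a)) :=
  (Poly.or hp hq).congr fun a => by simp

@[fun_prop] theorem dne {f g : α → ℕ} (hf : Poly f) (hg : Poly g) :
    Poly fun a => decide (f a ≠ g a) :=
  (Poly.not (Poly.eq hf hg)).congr fun a => by simp

theorem range_le {n : α → ℕ} {u : α → List β} (hn : Poly n) (hu : Poly u)
    (h : ∀ a, n a ≤ (u a).length) : Poly (fun a => List.range (n a)) :=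
  (Poly.range_min hn hu).congr fun a => by rw [min_eq_left (h a)]

theorem log_le_size (p : ℕ) : Nat.log 2 p ≤ p.size := by
  rcases Nat.eq_zero_or_pos p with h0 | h0
  · simp [h0]
  · exact (Nat.log_lt_of_lt_pow h0.ne' (Nat.lt_size_self _)).le

@[fun_prop] theorem plog {p : α → ℕ} (h : Poly p) : Poly fun a => Nat.log 2 (p a) := Poly.log 2 h

@[fun_prop] theorem php {p : α → ℕ} (h : Poly p) : Poly fun a => hp (p a) :=
  (Poly.pow_min_size (Poly.const 2) (plog h) h).congr fun a => by
    rw [min_eq_left (log_le_size _)]; rfl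

theorem hp_le (p : ℕ) : hp p ≤ p + 1 := by
  rcases Nat.eq_zero_or_pos p with h0 | h0
  · simp [h0, hp]
  · exact (Nat.pow_log_le_self 2 h0.ne').trans (Nat.le_succ _)

@[fun_prop] theorem range_hp {u : α → List β} (hu : Poly u) :
    Poly fun a => List.range (hp (u a).length) :=
  range_le (u := fun a => 0 :: List.range (u a).length) (by fun_prop) (by fun_prop) fun a => by
    simpa using hp_le _

@[fun_prop] theorem range_hp2 {u : α → List β} (hu : Poly u) :
    Poly fun a => List.range (hp (u a).length / 2) :=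
  range_le (u := fun a => List.range (hp (u a).length)) (by fun_prop) (by fun_prop) fun a => by
    simpa using Nat.div_le_self _ _

@[fun_prop] theorem range_log {p : α → ℕ} (h : Poly p) :
    Poly fun a => List.range (Nat.log 2 (p a)) :=
  range_le (plog h) h.un_size fun a => by simpa using log_le_size _

@[fun_prop] theorem repl_hp {u : α → List β} (hu : Poly u) :
    Poly fun a => List.replicate (2 * hp (u a).length) 0 :=
  (P0.replicate_length (u := fun a => List.range (hp (u a).length) ++ List.range (hp (u a).length))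
    (by fun_prop) (Poly.const 0)).congr fun a => by simp [two_mul]

@[fun_prop] theorem pMo {p : α → ℕ} (h : Poly p) : Poly fun a => Mo (p a) := by
  unfold Mo; fun_prop

@[fun_prop] theorem pcneg {p : α → ℕ} {c : α → Cd} (h : Poly p) (hc : Poly c) :
    Poly fun a => cneg (p a) (c a) := by
  unfold cneg; fun_prop

@[fun_prop] theorem pmneg {p : α → ℕ} {m : α → Mono} (h : Poly p) (hm : Poly m) :
    Poly fun a => mneg (p a) (m a) := by
  unfold mneg; fun_prop

@[fun_prop] theorem pmone {u : α → List β} (hu : Poly u) : Poly fun a => mone (u a).length := by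
  unfold mone; fun_prop

@[fun_prop] theorem pminv {u : α → List β} (hu : Poly u) : Poly fun a => minv (u a).length := by
  unfold minv; fun_prop

@[fun_prop] theorem pshM {u : α → List β} {i j : α → ℕ} {m : α → Mono} (hu : Poly u) (hi : Poly i)
    (hj : Poly j) (hm : Poly m) : Poly fun a => shM (u a).length (i a) (j a) (m a) := by
  unfold shM; fun_prop

@[fun_prop] theorem pshF {u : α → List β} {sg : α → Bool} {i j : α → ℕ} {f : α → List Mono}
    (hu : Poly u) (hs : Poly sg) (hi : Poly i) (hj : Poly j) (hf : Poly f) :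
    Poly fun a => shF (u a).length (sg a) (i a) (j a) (f a) := by
  unfold shF; fun_prop

@[fun_prop] theorem pthird {i j : α → ℕ} (hi : Poly i) (hj : Poly j) :
    Poly fun a => third (i a) (j a) := by
  unfold third; fun_prop

/-! ### the recursive shear by a worklist -/

abbrev Task : Type := Bool × ℕ × ℕ × List (List Mono)

def stp (q : ℕ) (t : Task) : List Task :=
  [(!t.1, third t.2.1 t.2.2.1, t.2.2.1, t.2.2.2.drop q),
   (false, t.2.1, third t.2.1 t.2.2.1, t.2.2.2.take q),
   (t.1, third t.2.1 t.2.2.1, t.2.2.1, t.2.2.2.drop q),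
   (true, t.2.1, third t.2.1 t.2.2.1, t.2.2.2.take q)]

def shT (p r : ℕ) (t : Task) : List DMac := shP p r t.1 t.2.1 t.2.2.1 t.2.2.2

def qs (r : ℕ) : List ℕ := (List.range r).reverse.map fun k => 2 ^ k

def work (l : List ℕ) (L : List Task) : List Task := l.foldl (fun L q => L.flatMap (stp q)) L

theorem shT_succ (p r : ℕ) (t : Task) : shT p (r + 1) t = (stp (2 ^ r) t).flatMap (shT p r) := by
  simp [shT, stp, shP]

theorem flat_work (p r : ℕ) (L : List Task) :
    L.flatMap (shT p r) = (work (qs r) L).flatMap (shT p 0) := by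
  induction r generalizing L with
  | zero => rfl
  | succ r ih =>
    have e : work (qs (r + 1)) L = work (qs r) (L.flatMap (stp (2 ^ r))) := by
      simp [work, qs, List.range_succ]
    rw [e, ← ih, List.flatMap_assoc]
    exact List.flatMap_congr fun t _ => shT_succ p r t

def Sm (B : ℕ) (t : Task) : Prop := sz t.2.1 ≤ B ∧ sz t.2.2.1 ≤ B ∧ sz t.2.2.2 ≤ B

theorem sz_third (i j : ℕ) : sz (third i j) ≤ 5 := by
  have : third i j ≤ 2 := by unfold third; split_ifs <;> omega
  exact (sz_nat_mono this).trans (by rw [sz_nat]; decide)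

theorem sz_drop (n : ℕ) (l : List α) : sz (l.drop n) ≤ sz l := by
  have h := sz_append (l.take n) (l.drop n)
  have := sz_pos (l.take n)
  rw [List.take_append_drop] at h
  omega

theorem sz_take (n : ℕ) (l : List α) : sz (l.take n) ≤ sz l := by
  have h := sz_append (l.take n) (l.drop n)
  have := sz_pos (l.drop n)
  rw [List.take_append_drop] at h
  omega

theorem Sm.stp {B : ℕ} (hB : 5 ≤ B) {t : Task} (h : Sm B t) (q : ℕ) : ∀ t' ∈ stp q t, Sm B t' := by
  obtain ⟨h1, h2, h3⟩ := h
  have h4 := (sz_third t.2.1 t.2.2.1).trans hB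
  have h5 := (sz_drop q t.2.2.2).trans h3
  have h6 := (sz_take q t.2.2.2).trans h3
  intro t' ht'
  simp only [DP.stp, List.mem_cons, List.not_mem_nil, or_false] at ht'
  rcases ht' with rfl | rfl | rfl | rfl
  · exact ⟨h4, h2, h5⟩
  · exact ⟨h1, h4, h6⟩
  · exact ⟨h4, h2, h5⟩
  · exact ⟨h1, h4, h6⟩

theorem work_inv {B : ℕ} (hB : 5 ≤ B) (l : List ℕ) (L : List Task) (h : ∀ t ∈ L, Sm B t) :
    (work l L).length = 4 ^ l.length * L.length ∧ ∀ t ∈ work l L, Sm B t := by
  induction l generalizing L with
  | nil => exact ⟨by simp [work], h⟩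
  | cons q l ih =>
    have h1 : ∀ t ∈ L.flatMap (stp q), Sm B t := by
      intro t ht
      obtain ⟨t₀, h₀, ht⟩ := List.mem_flatMap.1 ht
      exact (h t₀ h₀).stp hB q t ht
    have h2 : (L.flatMap (stp q)).length = 4 * L.length := by
      rw [List.length_flatMap]
      simp [stp, mul_comm]
    obtain ⟨h3, h4⟩ := ih _ h1
    refine ⟨?_, h4⟩
    show (work l (L.flatMap (stp q))).length = _
    rw [h3, h2, List.length_cons]
    ring

theorem sz_work (l : List ℕ) (t : Task) : sz (work l [t]) ≤ 4 ^ l.length * (3 * sz t + 20) + 1 := by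
  obtain ⟨b, i, j, fs⟩ := t
  have hs : Sm (sz (b, i, j, fs) + 5) (b, i, j, fs) := by
    simp only [Sm, sz_pair]
    omega
  obtain ⟨h1, h2⟩ := work_inv (B := sz (b, i, j, fs) + 5) (by omega) l [(b, i, j, fs)] (by simpa using hs)
  have h3 := sz_list_le (l := work l [(b, i, j, fs)]) (s := 3 * sz (b, i, j, fs) + 19) (by
    rintro ⟨b', i', j', fs'⟩ ht
    obtain ⟨k1, k2, k3⟩ := h2 _ ht
    simp only [sz_pair, sz_bool] at *
    omega)
  rw [h1] at h3
  simpa using h3

theorem rr_le (p : ℕ) : rr p ≤ (4 * Nat.log 2 p + 8).size := by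
  unfold rr
  rw [Nat.clog_le_iff_le_pow (by norm_num)]
  exact (Nat.lt_size_self _).le

theorem four_pow_rr (p : ℕ) : 4 ^ rr p ≤ 64 * (p + 2) ^ 2 := by
  have h1 : 2 ^ (rr p).pred < 4 * Nat.log 2 p + 8 :=
    Nat.pow_pred_clog_lt_self (by norm_num) (by omega)
  have h2 : Nat.log 2 p ≤ p := Nat.log_le_self 2 p
  have h3 : 2 ^ rr p ≤ 2 * 2 ^ (rr p).pred := by
    cases rr p with
    | zero => simp
    | succ n => simp [pow_succ, mul_comm]
  have h4 : 2 ^ rr p ≤ 8 * (p + 2) := by omega
  calc 4 ^ rr p = (2 ^ rr p) ^ 2 := by rw [← pow_mul, mul_comm, pow_mul]; norm_num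
    _ ≤ (8 * (p + 2)) ^ 2 := Nat.pow_le_pow_left h4 2
    _ = _ := by ring

theorem pqs {p : α → ℕ} (h : Poly p) : Poly fun a => qs (rr (p a)) := by
  have hm : Poly fun a => 4 * Nat.log 2 (p a) + 8 := by fun_prop
  have h1 : Poly fun a => List.range (rr (p a)) :=
    range_le (Poly.clog 2 hm) hm.un_size fun a => by simpa using rr_le _
  have h2 : Poly fun a => (List.range (rr (p a))).reverse.map
      fun k => 2 ^ min k (4 * Nat.log 2 (p a) + 8).size :=
    Poly.map (g := fun a k => 2 ^ min k (4 * Nat.log 2 (p a) + 8).size)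
      (Poly.pow_min_size (Poly.const 2) (Poly.snd Poly.id) (hm.comp (Poly.fst Poly.id))) h1.reverse
  refine h2.congr fun a => List.map_congr_left fun k hk => ?_
  have := rr_le (p a)
  rw [List.mem_reverse, List.mem_range] at hk
  rw [min_eq_left (by omega)]

theorem pwork : Poly fun x : List β × Task => work (qs (rr x.1.length)) [x.2] := by
  refine Poly.foldl (f := fun (_ : List β × Task) (L : List Task) (q : ℕ) => L.flatMap (stp q))
    (by unfold stp; fun_prop) (by fun_prop) (pqs (by fun_prop)) 6000 3 fun x n => ?_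
  have h1 := sz_work ((qs (rr x.1.length)).take n) x.2
  have h2 : ((qs (rr x.1.length)).take n).length ≤ rr x.1.length := by
    simp [qs]
  have h3 : 4 ^ ((qs (rr x.1.length)).take n).length ≤ 64 * (x.1.length + 2) ^ 2 :=
    (Nat.pow_le_pow_right (by norm_num) h2).trans (four_pow_rr _)
  have h4 := length_le_sz x.1
  have h5 : sz x = sz x.1 + sz x.2 + 1 := rfl
  have h6 : (x.1.length + 2) ^ 2 ≤ (2 * (sz x + 1)) ^ 2 := Nat.pow_le_pow_left (by omega) 2
  have h7 : 3 * sz x.2 + 20 ≤ 20 * (sz x + 1) := by omega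
  have h8 : 1 ≤ (sz x + 1) ^ 3 := Nat.one_le_pow _ _ (by omega)
  refine le_trans h1 ?_
  calc 4 ^ ((qs (rr x.1.length)).take n).length * (3 * sz x.2 + 20) + 1
      ≤ (64 * (2 * (sz x + 1)) ^ 2) * (20 * (sz x + 1)) + 1 := by
        have := Nat.mul_le_mul (h3.trans (Nat.mul_le_mul_left 64 h6)) h7
        omega
    _ = 5120 * (sz x + 1) ^ 3 + 1 := by ring
    _ ≤ _ := by omega

@[fun_prop] theorem pshP {u : α → List β} {sg : α → Bool} {i j : α → ℕ}
    {f : α → List (List Mono)} (hu : Poly u) (hs : Poly sg) (hi : Poly i) (hj : Poly j)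
    (hf : Poly f) : Poly fun a => shP (u a).length (rr (u a).length) (sg a) (i a) (j a) (f a) := by
  have h1 : Poly fun a => work (qs (rr (u a).length)) [(sg a, i a, j a, f a)] :=
    pwork.comp (f := fun a => (u a, sg a, i a, j a, f a)) (by fun_prop)
  have h2 : Poly fun a => (work (qs (rr (u a).length)) [(sg a, i a, j a, f a)]).flatMap
      fun t => shF (u a).length t.1 t.2.1 t.2.2.1 (t.2.2.2.headD [mone (u a).length]) := by
    refine Poly.flatMap (g := fun a (t : Task) =>
      shF (u a).length t.1 t.2.1 t.2.2.1 (t.2.2.2.headD [mone (u a).length])) ?_ h1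
    fun_prop
  refine h2.congr fun a => ?_
  have := flat_work (u a).length (rr (u a).length) [(sg a, i a, j a, f a)]
  rw [List.flatMap_singleton] at this
  exact this

@[fun_prop] theorem pshA {u : α → List β} {sg : α → Bool} {i j : α → ℕ}
    {A : α → List (List (List Mono))} (hu : Poly u) (hs : Poly sg) (hi : Poly i) (hj : Poly j)
    (hA : Poly A) : Poly fun a => shA (u a).length (rr (u a).length) (sg a) (i a) (j a) (A a) := by
  unfold shA
  refine Poly.flatMap (g := fun a f => shP (u a).length (rr (u a).length) (sg a) (i a) (j a) f) ?_ hA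
  fun_prop

@[fun_prop] theorem pdiagInv {u : α → List β} {i j : α → ℕ}
    {A B : α → List (List (List Mono))} (hu : Poly u) (hi : Poly i) (hj : Poly j)
    (hA : Poly A) (hB : Poly B) :
    Poly fun a => diagInv (u a).length (rr (u a).length) (i a) (j a) (A a) (B a) := by
  unfold diagInv; fun_prop

/-! ### the FFT layers -/

theorem rev_eq (j b : ℕ) : rev j b = valLE (wordLE j b).reverse := by
  induction j generalizing b with
  | zero => rfl
  | succ j ih =>
    have e : wordLE (j + 1) b = b.testBit 0 :: wordLE j (b / 2) := by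
      simp [wordLE, List.range_succ_eq_map, Nat.testBit_succ]
    have e2 : (b.testBit 0).toNat = b % 2 := by
      rcases Nat.mod_two_eq_zero_or_one b with h | h <;> simp [h]
    rw [rev, ih, e, List.reverse_cons, valLE_append, valLE_cons, e2]
    simp [wordLE, mul_comm]

@[fun_prop] theorem prev {u : α → List β} {b : α → ℕ} (hu : Poly u) (hb : Poly b) :
    Poly fun a => rev (u a).length (b a) :=
  (Poly.val_LE (Poly.word_LE hu hb).reverse).congr fun _ => rev_eq _ _

@[fun_prop] theorem prev_log {p b : α → ℕ} (hp : Poly p) (hb : Poly b) :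
    Poly fun a => rev (Nat.log 2 (p a)) (b a) :=
  (prev (range_log hp) hb).congr fun _ => by simp

theorem pow_succ_length {u : α → List β} (hu : Poly u) :
    Poly fun a => 2 ^ ((u a).length + 1) := by
  simp only [pow_succ]
  fun_prop

theorem pbfly {u : α → List β} {adj : α → Bool} {w : α → List γ} (hu : Poly u) (ha : Poly adj)
    (hw : Poly w) : Poly fun a => bfly (u a).length (adj a) (w a).length := by
  simp only [bfly, pow_succ]
  fun_prop

theorem pbflys {u : α → List β} {l : α → List ℕ} (adj : Bool) (hu : Poly u) (hl : Poly l)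
    (h : ∀ a, ∀ j ∈ l a, j ≤ (u a).length) : Poly fun a => (l a).map (bfly (u a).length adj) := by
  have h1 : Poly fun a => (l a).map fun j =>
      bfly (u a).length adj (un (min j (u a).length)).length :=
    Poly.map (g := fun a j => bfly (u a).length adj (un (min j (u a).length)).length)
      (pbfly (by fun_prop) (Poly.const adj) (Poly.un_min (Poly.snd Poly.id) (by fun_prop))) hl
  refine h1.congr fun a => List.map_congr_left fun j hj => ?_
  rw [List.length_replicate, min_eq_left (h a j hj)]

@[fun_prop] theorem pchiE {p s : α → ℕ} {sg : α → Bool} (h : Poly p) (hg : Poly sg) (hs : Poly s) :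
    Poly fun a => chiE (p a) (sg a) (s a) := by
  unfold chiE; fun_prop

@[fun_prop] theorem peIn {u : α → List β} {sg : α → Bool} {v : α → ℕ} (hu : Poly u) (hg : Poly sg)
    (hv : Poly v) : Poly fun a => eIn (u a).length (sg a) (v a) := by
  unfold eIn; fun_prop

@[fun_prop] theorem peOut {u : α → List β} {sg : α → Bool} {v : α → ℕ} (hu : Poly u) (hg : Poly sg)
    (hv : Poly v) : Poly fun a => eOut (u a).length (sg a) (v a) := by
  unfold eOut; fun_prop

@[fun_prop] theorem pkern {u : α → List β} {sg : α → Bool} {v w : α → ℕ} (hu : Poly u)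
    (hg : Poly sg) (hv : Poly v) (hw : Poly w) :
    Poly fun a => kern (u a).length (sg a) (v a) (w a) := by
  unfold kern; fun_prop

@[fun_prop] theorem pprodF {u : α → List β} {sg : α → Bool} {v w : α → ℕ} (hu : Poly u)
    (hg : Poly sg) (hv : Poly v) (hw : Poly w) :
    Poly fun a => prodF (u a).length (sg a) (v a) (w a) := by
  have hl : Poly fun a => List.range (Nat.log 2 (u a).length) := by fun_prop
  have hb : ∀ a, ∀ j ∈ List.range (Nat.log 2 (u a).length), j ≤ (u a).length := fun a j hj =>
    (List.mem_range.1 hj).le.trans (Nat.log_le_self 2 _)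
  have h1 := pbflys false hu hl hb
  have h2 := pbflys true hu hl.reverse fun a j hj => hb a j (List.mem_reverse.1 hj)
  unfold prodF
  exact Poly.cons (by fun_prop) (Poly.append h1 (Poly.cons (by fun_prop)
    (Poly.append h2 (by fun_prop))))

@[fun_prop] theorem pexF {u : α → List β} {sg : α → Bool} (hu : Poly u) (hg : Poly sg) :
    Poly fun a => exF (u a).length (sg a) := by
  unfold exF; fun_prop

@[fun_prop] theorem pexFinv {u : α → List β} (hu : Poly u) : Poly fun a => exFinv (u a).length := by
  unfold exFinv; fun_prop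

@[fun_prop] theorem pexR {u : α → List β} (hu : Poly u) : Poly fun a => exR (u a).length := by
  unfold exR; fun_prop

@[fun_prop] theorem pdigProg {u : α → List β} (hu : Poly u) :
    Poly fun a => digProg (u a).length := by
  unfold digProg; fun_prop

@[fun_prop] theorem pdm {u : α → List β} {μ : α → ℕ} (hu : Poly u) (hμ : Poly μ) :
    Poly fun a => dm (u a).length (μ a) := by
  unfold dm; fun_prop

@[fun_prop] theorem pGp {p : α → ℕ} (h : Poly p) : Poly fun a => Gp (p a) := by
  unfold Gp; fun_prop

@[fun_prop] theorem prole {p y : α → ℕ} (h : Poly p) (hy : Poly y) :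
    Poly fun a => role (p a) (y a) := by
  unfold role; fun_prop

@[fun_prop] theorem pdOf {p : α → ℕ} {m : α → DMac} (h : Poly p) (hm : Poly m) :
    Poly fun a => dOf (p a) (m a) := by
  unfold dOf; fun_prop

@[fun_prop] theorem pFOf {p y : α → ℕ} {m : α → DMac} (h : Poly p) (hm : Poly m) (hy : Poly y) :
    Poly fun a => FOf (p a) (m a) (y a) := by
  unfold FOf; fun_prop

@[fun_prop] theorem plx {p r x : α → ℕ} (h : Poly p) (hr : Poly r) (hx : Poly x) :
    Poly fun a => lx (p a) (r a) (x a) := by
  unfold lx; fun_prop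

theorem cellK_eq (p : ℕ) (m : DMac) (y x : ℕ) : cellK p m y x =
    if y = 0 then (0, (1, [])) else
      (if role p ((y + dOf p m) % p) = m.1 ∨ role p ((y + dOf p m) % p) = m.2.1 then
        m.2.2.1.2.getD (lx p (role p ((y + dOf p m) % p)) x) none else none).elim
      (if m.2.2.2 = true ∧ role p ((y + dOf p m) % p) % 2 = 1 then (2, (1, [])) else (1, (1, [])))
      (fun c => if role p ((y + dOf p m) % p) = m.1 then (3, (1, [])) else (4, c)) := by
  unfold cellK
  by_cases hy : y = 0
  · rw [if_pos hy, if_pos hy]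
  · rw [if_neg hy, if_neg hy]
    dsimp only
    generalize (if role p ((y + dOf p m) % p) = m.1 ∨ role p ((y + dOf p m) % p) = m.2.1 then
        m.2.2.1.2.getD (lx p (role p ((y + dOf p m) % p)) x) none else none) = o
    cases o <;> rfl

@[fun_prop] theorem pcellK {p y x : α → ℕ} {m : α → DMac} (h : Poly p) (hm : Poly m) (hy : Poly y)
    (hx : Poly x) : Poly fun a => cellK (p a) (m a) (y a) (x a) := by
  simp only [cellK_eq]
  refine P0.ite' (by fun_prop) (by fun_prop) ?_
  refine oelim (g := fun a (c : Cd) => if role (p a) ((y a + dOf (p a) (m a)) % p a) = (m a).1 then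
    ((3 : ℕ), ((1 : ℕ), ([] : List ℕ))) else (4, c)) ?_ ?_ ?_ <;> fun_prop

end DP

open DP

theorem poly_digProg : Poly (fun u : List Unit => digProg u.length) := by fun_prop
theorem poly_dm : Poly (fun x : List Unit × ℕ => dm x.1.length x.2) := by fun_prop
theorem poly_role : Poly (fun x : ℕ × ℕ => role x.1 x.2) := by fun_prop
theorem poly_cellK : Poly (fun x : ℕ × DMac × ℕ × ℕ => cellK x.1 x.2.1 x.2.2.1 x.2.2.2) := by
  fun_prop
theorem exists_poly_tenD : ∃ f : List (List Unit) × ℕ → ℕ, Poly f ∧
    ∀ ps μ, GoodP ps → f (ps.map un, μ) = tenD ps μ := by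
  obtain ⟨g, hg, H⟩ := exists_poly_crtL
  refine ⟨fun x => g (x.1.map List.length, x.1.map fun u => dOf u.length (dm u.length x.2)),
    by fun_prop, fun ps μ h => ?_⟩
  simp only [List.map_map, Function.comp_def, List.length_replicate, List.map_id']
  exact H _ _ h
theorem exists_poly_tenF : ∃ f : List (List Unit) × ℕ × ℕ → ℕ, Poly f ∧
    ∀ ps μ y, GoodP ps → f (ps.map un, μ, y) = tenF ps μ y := by
  obtain ⟨g, hg, H⟩ := exists_poly_crtL
  refine ⟨fun x => g (x.1.map List.length,
      x.1.map fun u => FOf u.length (dm u.length x.2.1) (x.2.2 % u.length)),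
    by fun_prop, fun ps μ y h => ?_⟩
  simp only [List.map_map, Function.comp_def, List.length_replicate, List.map_id']
  exact H _ _ h

end Crest.Agent.R326
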