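import Crest.Agent.R326.Root
import Crest.Agent.R326.DigPoly
import Crest.Agent.R326.Dig

/-! Row 326: integer approximations of the tables. -/

set_option autoImplicit false

namespace Crest.Agent.R326

namespace TabX

variable {α : Type} [Enc α]

/-! ### polynomial-time ingredients -/

theorem n1_foldl (l : List GaussianInt) (t : GaussianInt) :
    PI.n1 (l.foldl (fun t x => t * x) t) ≤ PI.n1 t * 2 ^ sz l := by
  induction l generalizing t with
  | nil => exact Nat.le_mul_of_pos_right _ (by positivity)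
  | cons x l ih =>
    rw [List.foldl_cons]
    refine (ih _).trans ?_
    have h1 := PI.n1_mul t x
    have h2 : PI.n1 x ≤ 2 ^ sz x := by
      refine (Nat.lt_size_self _).le.trans (Nat.pow_le_pow_right (by norm_num) ?_)
      have := size_add_le x.re.natAbs x.im.natAbs
      rw [sz_gauss, sz_int, sz_int, PI.n1]
      omega
    have h3 : sz (x :: l) = sz x + sz l + 1 := rfl
    calc PI.n1 (t * x) * 2 ^ sz l ≤ PI.n1 t * 2 ^ sz x * 2 ^ sz l :=
          Nat.mul_le_mul_right _ (h1.trans (Nat.mul_le_mul_left _ h2))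
      _ ≤ PI.n1 t * 2 ^ sz (x :: l) := by
          rw [mul_assoc, ← pow_add, h3]
          exact Nat.mul_le_mul_left _ (Nat.pow_le_pow_right (by norm_num) (by omega))

theorem poly_gprod : Poly fun l : List GaussianInt => l.prod := by
  have h := Poly.foldl (f := fun (_ : List GaussianInt) (t x : GaussianInt) => t * x)
    (s := fun _ => 1) (l := fun l => l) (Poly.id.snd.fst.gmul Poly.id.snd.snd) (Poly.const 1)
    Poly.id 11 1
    (by
      intro l m
      have h1 := n1_foldl (l.take m) 1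
      have h0 : PI.n1 1 = 1 := by simp [PI.n1]
      rw [h0, one_mul] at h1
      set z := (l.take m).foldl (fun t x => t * x) 1
      have h2 : ∀ x : ℕ, x ≤ PI.n1 z → x.size ≤ sz (l.take m) + 1 := fun x hx => by
        rw [Nat.size_le, pow_succ]
        have : 0 < 2 ^ sz (l.take m) := by positivity
        omega
      have h3 := h2 z.re.natAbs (Nat.le_add_right _ _)
      have h4 := h2 z.im.natAbs (Nat.le_add_left _ _)
      have h5 : sz (l.take m) ≤ sz l := by
        clear h1 h2 h3 h4 z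
        induction l generalizing m with
        | nil => simp
        | cons x l ih =>
          rcases m with _ | m
          · exact Nat.le_add_left 1 _
          · exact Nat.add_le_add_right (Nat.add_le_add_left (ih m) _) 1
      rw [sz_gauss, sz_int, sz_int, pow_one]
      omega)
  exact h.congr fun l => List.prod_eq_foldl

/-- the norm as a natural number -/
def nrm (z : GaussianInt) : ℕ := z.norm.natAbs

theorem nrm_eq (z : GaussianInt) : nrm z = z.re.natAbs * z.re.natAbs + z.im.natAbs * z.im.natAbs := by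
  have h : (nrm z : ℤ) = z.re.natAbs * z.re.natAbs + z.im.natAbs * z.im.natAbs := by
    rw [nrm, Int.natAbs_of_nonneg (GaussianInt.norm_nonneg z), Int.natAbs_mul_self',
      Int.natAbs_mul_self', Zsqrtd.norm_def]
    ring
  exact_mod_cast h

theorem nrm_cast (z : GaussianInt) : (nrm z : ℂ) = (z.norm : ℂ) := by
  rw [nrm, ← Int.cast_natCast, Int.natAbs_of_nonneg (GaussianInt.norm_nonneg z)]

theorem nrm_mul (z : GaussianInt) : (nrm z : ℂ) = (z : ℂ) * (starRingEnd ℂ) (z : ℂ) := by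
  rw [nrm_cast, Complex.mul_conj, ← GaussianInt.intCast_complex_norm]

theorem nrm_pos {z : GaussianInt} (h : z ≠ 0) : 0 < nrm z :=
  Int.natAbs_pos.2 fun h' => h (GaussianInt.norm_eq_zero.1 h')

@[fun_prop] theorem poly_nrm {f : α → GaussianInt} (hf : Poly f) : Poly fun a => nrm (f a) :=
  Poly.congr (g := fun a => (f a).re.natAbs * (f a).re.natAbs + (f a).im.natAbs * (f a).im.natAbs)
    (by fun_prop) fun a => nrm_eq _

/-- a natural number as a Gaussian integer -/
def gn (n : ℕ) : GaussianInt := ⟨n, 0⟩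

theorem gn_cast (n : ℕ) : ((gn n : GaussianInt) : ℂ) = n := by
  simp [gn, GaussianInt.toComplex_def]

@[fun_prop] theorem poly_gn {f : α → ℕ} (hf : Poly f) : Poly fun a => gn (f a) :=
  Poly.gmk hf.ofNat (Poly.const 0)

theorem Mo_le (p : ℕ) : Mo p ≤ p * p := by
  rcases Nat.eq_zero_or_pos p with h | h
  · simp [Mo, h]
  · exact Nat.mul_le_mul_right _ (Nat.pow_log_le_self 2 h.ne')

theorem poly_uM : Poly fun u : List Unit => un (Mo u.length) := by
  have h1 : Poly fun u : List Unit => Mo u.length := by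
    have := (Poly.pow_min (Poly.const 2) (Poly.log 2 (Poly.length Poly.id))
      (Poly.id (α := List Unit))).mul (Poly.length Poly.id)
    refine this.congr fun u => ?_
    rw [min_eq_left (Nat.log_le_self 2 _)]
    rfl
  have h2 : Poly fun u : List Unit => u.flatMap fun _ => u := by fun_prop
  refine (Poly.un_min h1 h2).congr fun u => ?_
  rw [min_eq_left]
  simpa using Mo_le u.length

/-- numerator of the approximation of `w ^ e` with denominator `nrm z ^ M` -/
def term (M : ℕ) (z : GaussianInt) (e : ℕ) : GaussianInt :=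
  (z * z) ^ min (e % M) M * gn (nrm z) ^ (M - e % M)

theorem poly_term {u : α → List Unit} {z : α → GaussianInt} {e : α → ℕ} (hu : Poly u) (hz : Poly z)
    (he : Poly e) : Poly fun a => term (u a).length (z a) (e a) := by
  have h1 := (hz.gmul hz).gpow_length (Poly.un_min (he.mod hu.length) hu)
  have h2 := (poly_gn (poly_nrm hz)).gpow_length (Poly.un_min (hu.length.sub (he.mod hu.length)) hu)
  refine (h1.gmul h2).congr fun a => ?_
  simp only [term, List.length_replicate]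
  rw [min_eq_left (Nat.sub_le _ _)]

def tnum (M : ℕ) (z : GaussianInt) (c : Cd) : GaussianInt := (c.2.map (term M z)).sum
def tden (M : ℕ) (z : GaussianInt) (c : Cd) : ℕ := c.1 * nrm z ^ M

theorem poly_tnum {u : α → List Unit} {z : α → GaussianInt} {c : α → Cd} (hu : Poly u) (hz : Poly z)
    (hc : Poly c) : Poly fun a => tnum (u a).length (z a) (c a) :=
  Poly.gsum (Poly.map (g := fun a e => term (u a).length (z a) e)
    (poly_term (hu.comp Poly.id.fst) (hz.comp Poly.id.fst) Poly.id.snd) hc.snd)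

theorem poly_tden {u : α → List Unit} {z : α → GaussianInt} {c : α → Cd} (hu : Poly u) (hz : Poly z)
    (hc : Poly c) : Poly fun a => tden (u a).length (z a) (c a) :=
  hc.fst.mul ((poly_nrm hz).pow_length hu)

/-- the entry of kind `k` of table `ν` for the coefficient `N / D` -/
def ent (p k ν : ℕ) (N : GaussianInt) (D : ℕ) : GaussianInt × ℕ :=
  if k = 0 then (gn 0, 1)
  else if k = 1 then (if ν < 4 then (gn 1, 2) else (gn 1, 1))
  else if k = 2 then (if ν < 4 then (gn 1, 2) else (gn 1, p))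
  else if k = 3 then
    ([(gn 1, 2), (gn 1, 1), (gn 1, 1), (gn 3, 2)] : List (GaussianInt × ℕ)).getD ν (gn 1, 8)
  else ([((⟨0, -5⟩ : GaussianInt) * gn D * star N, 18 * nrm N), (gn 1, 2), (gn 3, 2), (gn 1, 2)] :
    List (GaussianInt × ℕ)).getD ν ((⟨0, 2⟩ : GaussianInt) * N, 5 * D)

theorem poly_ent {p k ν D : α → ℕ} {N : α → GaussianInt} (hp : Poly p) (hk : Poly k) (hν : Poly ν)
    (hN : Poly N) (hD : Poly D) : Poly fun a => ent (p a) (k a) (ν a) (N a) (D a) := by
  unfold ent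
  fun_prop

theorem ent_spec {p k ν D : ℕ} {N : GaussianInt} (hp : 0 < p) (h : k ≤ 3 ∨ (0 < D ∧ N ≠ 0)) :
    0 < (ent p k ν N D).2 ∧
      ((ent p k ν N D).1 : ℂ) / (ent p k ν N D).2 = kVal p k ν ((N : ℂ) / D) := by
  unfold ent kVal
  split_ifs with h0 h1 h1' h2 h2' h3
  · simp [gn_cast]
  · simp [gn_cast]
  · simp [gn_cast]
  · simp [gn_cast]
  · simp [gn_cast, hp]
  · rcases ν with _ | _ | _ | _ | ν <;> simp [gn_cast]
  · obtain ⟨hD, hN⟩ := h.resolve_left (by omega)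
    have hD' : (D : ℂ) ≠ 0 := by exact_mod_cast hD.ne'
    have hN' : (N : ℂ) ≠ 0 := by simpa using hN
    have hN'' : (starRingEnd ℂ) (N : ℂ) ≠ 0 := by simpa using hN
    have e1 : (((⟨0, -5⟩ : GaussianInt) : GaussianInt) : ℂ) = -5 * Complex.I := by
      simp [GaussianInt.toComplex_def]
    have e2 : (((⟨0, 2⟩ : GaussianInt) : GaussianInt) : ℂ) = 2 * Complex.I := by
      simp [GaussianInt.toComplex_def]
    rcases ν with _ | _ | _ | _ | ν
    · refine ⟨by simpa using nrm_pos hN, ?_⟩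
      simp only [List.getD_cons_zero, map_mul, e1, gn_cast, GaussianInt.toComplex_star,
        Nat.cast_mul, nrm_mul]
      field_simp
      norm_num
    · simp [gn_cast]
    · simp [gn_cast]
    · simp [gn_cast]
    · refine ⟨by simpa using hD, ?_⟩
      simp only [List.getD_cons_succ, List.getD_nil, map_mul, e2, Nat.cast_mul]
      field_simp
      norm_num

/-! ### error estimates -/

theorem kVal_err {p k ν : ℕ} (hp : 1 ≤ p) {t t' : ℂ} {δ : ℝ} (hδ : 0 ≤ δ)
    (h : k ≤ 3 ∨ ((1 / p : ℝ) ≤ ‖t‖ ∧ ‖t' - t‖ ≤ δ ∧ δ ≤ 1 / (2 * p))) :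
    ‖kVal p k ν t' - kVal p k ν t‖ ≤ (p : ℝ) ^ 2 * δ := by
  have hp' : (1 : ℝ) ≤ p := by exact_mod_cast hp
  have h0 : (0 : ℝ) ≤ (p : ℝ) ^ 2 * δ := by positivity
  unfold kVal
  split_ifs with h1 h2 h2' h3 h3' h4
  any_goals simpa using h0
  obtain ⟨ht, htt, hδ'⟩ := h.resolve_left (by omega)
  have hp0 : (0 : ℝ) < p := by linarith
  have ht' : 1 / (2 * p : ℝ) ≤ ‖t'‖ := by
    have h5 : ‖t‖ ≤ ‖t'‖ + ‖t' - t‖ := by
      have := norm_sub_le t' (t' - t)
      rwa [sub_sub_cancel] at this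
    have h6 : (1 / p : ℝ) = 1 / (2 * p) + 1 / (2 * p) := by field_simp; ring
    linarith
  have ht0 : 0 < ‖t‖ := lt_of_lt_of_le (by positivity) ht
  have ht0' : 0 < ‖t'‖ := lt_of_lt_of_le (by positivity) ht'
  have hp2 : (1 : ℝ) ≤ (p : ℝ) ^ 2 := one_le_pow₀ hp'
  rcases ν with _ | _ | _ | _ | ν
  · simp only [List.getD_cons_zero]
    have e : -5 * Complex.I / (18 * t') - -5 * Complex.I / (18 * t) =
        5 * Complex.I * (t' - t) / (18 * t * t') := by
      have := norm_pos_iff.1 ht0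
      have := norm_pos_iff.1 ht0'
      field_simp
      ring
    rw [e, norm_div, div_le_iff₀ (by
      simp only [norm_mul, Complex.norm_ofNat]; positivity)]
    simp only [norm_mul, Complex.norm_I, Complex.norm_ofNat, mul_one]
    have h7 : 1 ≤ p * ‖t‖ := by rwa [div_le_iff₀ hp0, mul_comm] at ht
    have h8 : 1 ≤ 2 * p * ‖t'‖ := by rwa [div_le_iff₀ (by positivity), mul_comm] at ht'
    have h9 : 1 ≤ (p * ‖t‖) * (2 * p * ‖t'‖) := one_le_mul_of_one_le_of_one_le h7 h8
    nlinarith [mul_le_mul_of_nonneg_left h9 hδ]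
  · simpa using h0
  · simpa using h0
  · simpa using h0
  · simp only [List.getD_cons_succ, List.getD_nil]
    have e : 2 * Complex.I * t' / 5 - 2 * Complex.I * t / 5 = 2 * Complex.I * (t' - t) / 5 := by ring
    rw [e, norm_div]
    simp only [norm_mul, Complex.norm_I, Complex.norm_ofNat, mul_one]
    nlinarith [mul_le_mul_of_nonneg_right hp2 hδ, norm_nonneg (t' - t)]

theorem norm_pow_sub {a b : ℂ} (ha : ‖a‖ = 1) (hb : ‖b‖ = 1) (n : ℕ) :
    ‖a ^ n - b ^ n‖ ≤ n * ‖a - b‖ := by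
  induction n with
  | zero => simp
  | succ n ih =>
    have e : a ^ (n + 1) - b ^ (n + 1) = a * (a ^ n - b ^ n) + (a - b) * b ^ n := by ring
    rw [e]
    refine (norm_add_le _ _).trans ?_
    rw [norm_mul, norm_mul, norm_pow, ha, hb]
    push_cast
    rw [one_pow]
    linarith

theorem term_err {M : ℕ} (hM : 0 < M) {z : GaussianInt} (hz : z ≠ 0) {ε : ℝ}
    (h : ‖(z : ℂ) ^ 2 / (z.norm : ℂ) - Complex.exp (2 * Real.pi * Complex.I / M)‖ ≤ ε) (e : ℕ) :
    ‖(term M z e : ℂ) / (nrm z : ℂ) ^ M - Complex.exp (2 * Real.pi * Complex.I * e / M)‖ ≤ M * ε := by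
  have hn : (nrm z : ℂ) ≠ 0 := by exact_mod_cast (nrm_pos hz).ne'
  have hM' : (M : ℂ) ≠ 0 := by exact_mod_cast hM.ne'
  have hr := (Nat.mod_lt e hM).le
  have e1 : (term M z e : ℂ) / (nrm z : ℂ) ^ M = ((z : ℂ) ^ 2 / (z.norm : ℂ)) ^ (e % M) := by
    rw [term, min_eq_left hr, map_mul, map_pow, map_pow, map_mul, gn_cast, ← nrm_cast, div_pow,
      show (nrm z : ℂ) ^ M = (nrm z : ℂ) ^ (e % M) * (nrm z : ℂ) ^ (M - e % M) by
        rw [← pow_add]; congr 1; omega]
    field_simp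
  have e2 : Complex.exp (2 * Real.pi * Complex.I * e / M) =
      Complex.exp (2 * Real.pi * Complex.I / M) ^ (e % M) := by
    rw [← Complex.exp_nat_mul]
    have h1 : (e : ℂ) = M * (e / M : ℕ) + (e % M : ℕ) := by exact_mod_cast (Nat.div_add_mod e M).symm
    have h2 : 2 * Real.pi * Complex.I * e / M =
        (e % M : ℕ) * (2 * Real.pi * Complex.I / M) + (e / M : ℕ) * (2 * Real.pi * Complex.I) := by
      conv_lhs => rw [h1]
      field_simp
      ring
    rw [h2, Complex.exp_add, Complex.exp_nat_mul_two_pi_mul_I, mul_one]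
  have n1 : ‖(z : ℂ) ^ 2 / (z.norm : ℂ)‖ = 1 := by
    have hz' : ‖(z : ℂ)‖ ≠ 0 := by simpa using hz
    rw [← nrm_cast, nrm_mul, norm_div, norm_pow, norm_mul, Complex.norm_conj]
    field_simp
  have n2 : ‖Complex.exp (2 * Real.pi * Complex.I / M)‖ = 1 := by
    rw [show 2 * Real.pi * Complex.I / M = ((2 * Real.pi / M : ℝ) : ℂ) * Complex.I by
      push_cast; ring]
    exact Complex.norm_exp_ofReal_mul_I _
  rw [e1, e2]
  refine (norm_pow_sub n1 n2 _).trans ?_
  exact mul_le_mul (by exact_mod_cast hr) h (norm_nonneg _) (by positivity)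

theorem sum_err {ι : Type} (l : List ι) (f g : ι → ℂ) {ε : ℝ} (h : ∀ i, ‖f i - g i‖ ≤ ε) :
    ‖(l.map f).sum - (l.map g).sum‖ ≤ l.length * ε := by
  induction l with
  | nil => simp
  | cons x l ih =>
    simp only [List.map_cons, List.sum_cons, List.length_cons]
    rw [add_sub_add_comm]
    refine (norm_add_le _ _).trans ?_
    have := h x
    push_cast
    linarith

theorem t_err {p : ℕ} (hM : 0 < Mo p) {z : GaussianInt} (hz : z ≠ 0) {ε : ℝ}
    (h : ‖(z : ℂ) ^ 2 / (z.norm : ℂ) - Complex.exp (2 * Real.pi * Complex.I / Mo p)‖ ≤ ε) {c : Cd}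
    (hc : GoodCd p c) :
    ‖(tnum (Mo p) z c : ℂ) / (tden (Mo p) z c : ℕ) - cval p c‖ ≤ 3 * (Mo p * ε) := by
  have hn : (nrm z : ℂ) ≠ 0 := by exact_mod_cast (nrm_pos hz).ne'
  have hc0 : (0 : ℝ) < c.1 := by exact_mod_cast hc.1
  have hc' : (c.1 : ℂ) ≠ 0 := by exact_mod_cast hc.1.ne'
  have hε : 0 ≤ ε := (norm_nonneg _).trans h
  have e1 : (tnum (Mo p) z c : ℂ) / (tden (Mo p) z c : ℕ) =
      (c.2.map fun e => (term (Mo p) z e : ℂ) / (nrm z : ℂ) ^ Mo p).sum / c.1 := by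
    simp only [div_eq_mul_inv]
    rw [List.sum_map_mul_right, tnum, tden, map_list_sum, List.map_map]
    push_cast
    rw [mul_inv, Function.comp_def]
    ring
  rw [e1, cval, ← sub_div, norm_div, Complex.norm_natCast, div_le_iff₀ hc0]
  refine (sum_err _ _ _ (term_err hM hz h)).trans ?_
  have h3 : (c.2.length : ℝ) ≤ 3 * c.1 := by exact_mod_cast hc.2.1
  have h4 : (0 : ℝ) ≤ Mo p * ε := by positivity
  nlinarith [mul_le_mul_of_nonneg_right h3 h4]

theorem prod_err {ι : Type} (l : List ι) (f g : ι → ℂ) (s : ι → ℕ) {ε : ℝ} (h0 : 0 ≤ ε) (h1 : ε ≤ 1)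
    (h : ∀ i ∈ l, ‖f i - g i‖ ≤ ε ∧ ‖g i‖ + 2 ≤ 2 ^ s i) :
    ‖(l.map g).prod‖ ≤ 2 ^ (l.map s).sum ∧
      ‖(l.map f).prod - (l.map g).prod‖ ≤ ε * 2 ^ (l.map s).sum := by
  induction l with
  | nil => simpa using h0
  | cons x l ih =>
    obtain ⟨i1, i2⟩ := ih fun i hi => h i (by simp [hi])
    obtain ⟨j1, j2⟩ := h x (by simp)
    simp only [List.map_cons, List.prod_cons, List.sum_cons, pow_add]
    have hg := norm_nonneg (g x)
    have hP : (0 : ℝ) ≤ 2 ^ (l.map s).sum := by positivity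
    refine ⟨?_, ?_⟩
    · rw [norm_mul]
      exact mul_le_mul (by linarith) i1 (norm_nonneg _) (by positivity)
    · have e : f x * (l.map f).prod - g x * (l.map g).prod =
          f x * ((l.map f).prod - (l.map g).prod) + (f x - g x) * (l.map g).prod := by ring
      have hf : ‖f x‖ ≤ ‖g x‖ + 1 := by
        have := norm_add_le (g x) (f x - g x)
        rw [add_sub_cancel] at this
        linarith
      rw [e]
      refine (norm_add_le _ _).trans ?_
      rw [norm_mul, norm_mul]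
      have a1 : ‖f x‖ * ‖(l.map f).prod - (l.map g).prod‖ ≤ (‖g x‖ + 1) * (ε * 2 ^ (l.map s).sum) :=
        mul_le_mul hf i2 (norm_nonneg _) (by linarith)
      have a2 : ‖f x - g x‖ * ‖(l.map g).prod‖ ≤ ε * 2 ^ (l.map s).sum :=
        mul_le_mul j1 i1 (norm_nonneg _) h0
      have a3 : (‖g x‖ + 2) * (ε * 2 ^ (l.map s).sum) ≤ 2 ^ s x * (ε * 2 ^ (l.map s).sum) :=
        mul_le_mul_of_nonneg_right j2 (by positivity)
      nlinarith

theorem int_div_err (a : ℤ) {d : ℕ} (hd : 0 < d) : |((a / d : ℤ) : ℝ) - a / d| ≤ 1 := by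
  have hd' : (0 : ℝ) < d := by exact_mod_cast hd
  have h1 : (a : ℝ) = d * (a / d : ℤ) + (a % d : ℤ) := by
    exact_mod_cast (Int.mul_ediv_add_emod a d).symm
  have h2 : (0 : ℝ) ≤ (a % d : ℤ) := by exact_mod_cast Int.emod_nonneg a (by omega)
  have h3 : ((a % d : ℤ) : ℝ) ≤ d := by exact_mod_cast (Int.emod_lt_of_pos a (by omega)).le
  have e : ((a / d : ℤ) : ℝ) - a / d = -((a % d : ℤ) / d) := by
    conv_lhs => rw [h1]
    field_simp
    ring
  rw [e, abs_neg, abs_of_nonneg (by positivity), div_le_one hd']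
  exact h3

/-- componentwise division -/
def gdiv (z : GaussianInt) (d : ℕ) : GaussianInt := ⟨z.re / d, z.im / d⟩

theorem gdiv_err (z : GaussianInt) {d : ℕ} (hd : 0 < d) : ‖(gdiv z d : ℂ) - (z : ℂ) / d‖ ≤ 2 := by
  refine (Complex.norm_le_abs_re_add_abs_im _).trans ?_
  have h1 := int_div_err z.re hd
  have h2 := int_div_err z.im hd
  have e1 : ((gdiv z d : ℂ) - (z : ℂ) / d).re = ((z.re / d : ℤ) : ℝ) - z.re / d := by
    rw [Complex.sub_re, Complex.div_natCast_re, ← GaussianInt.intCast_re, ← GaussianInt.intCast_re]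
    rfl
  have e2 : ((gdiv z d : ℂ) - (z : ℂ) / d).im = ((z.im / d : ℤ) : ℝ) - z.im / d := by
    rw [Complex.sub_im, Complex.div_natCast_im, ← GaussianInt.intCast_im, ← GaussianInt.intCast_im]
    rfl
  rw [e1, e2]
  linarith

theorem poly_gdiv {z : α → GaussianInt} {d : α → ℕ} (hz : Poly z) (hd : Poly d) :
    Poly fun a => gdiv (z a) (d a) :=
  Poly.gmk (hz.gre.idiv hd.ofNat) (hz.gim.idiv hd.ofNat)

theorem eq_un (l : List Unit) : l = un l.length := List.eq_replicate_of_mem fun _ _ => rfl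

theorem eight_le_Mo {p : ℕ} (h : 9 ≤ p) : 8 ≤ Mo p := by
  have : 0 < hp p := by unfold hp; positivity
  have := Nat.le_mul_of_pos_left p this
  unfold Mo
  omega

theorem num_bound {p : ℕ} (h : 9 ≤ p) (b : ℕ) :
    (p : ℝ) ^ 2 * (3 * (Mo p * (4 / 2 ^ (b + 5 * p)))) ≤ 1 / 2 ^ b := by
  have h1 : (Mo p : ℝ) ≤ p * p := by exact_mod_cast Mo_le p
  have h2 : (p : ℝ) ≤ 2 ^ p := by exact_mod_cast Nat.lt_two_pow_self.le
  have h3 : (12 : ℝ) ≤ 2 ^ p :=
    le_trans (by norm_num) (pow_le_pow_right₀ (by norm_num : (1 : ℝ) ≤ 2) h)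
  have h4 : (p : ℝ) ^ 4 ≤ (2 ^ p) ^ 4 := pow_le_pow_left₀ (by positivity) h2 4
  have h5 : (p : ℝ) ^ 2 * Mo p * 12 ≤ 2 ^ (5 * p) := by
    calc (p : ℝ) ^ 2 * Mo p * 12 ≤ (p : ℝ) ^ 2 * (p * p) * 12 := by gcongr
      _ = (p : ℝ) ^ 4 * 12 := by ring
      _ ≤ (2 ^ p) ^ 4 * 2 ^ p := by gcongr
      _ = 2 ^ (5 * p) := by rw [← pow_succ, ← pow_mul, mul_comm]
  rw [pow_add, show (p : ℝ) ^ 2 * (3 * (Mo p * (4 / (2 ^ b * 2 ^ (5 * p))))) =
    (p : ℝ) ^ 2 * Mo p * 12 / 2 ^ (5 * p) / 2 ^ b by field_simp; ring]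
  gcongr
  rwa [div_le_one (by positivity)]

theorem core {p : ℕ} (h9 : 9 ≤ p) (b ν : ℕ) {w : GaussianInt} (hz0 : w ≠ 0)
    (hze : ‖(w : ℂ) ^ 2 / (w.norm : ℂ) - Complex.exp (2 * Real.pi * Complex.I / Mo p)‖ ≤
      4 / 2 ^ (b + 5 * p)) {k : ℕ} {c : Cd} (hc : k ≤ 3 ∨ GoodCd p c) :
    0 < (ent p k ν (tnum (Mo p) w c) (tden (Mo p) w c)).2 ∧
      ‖((ent p k ν (tnum (Mo p) w c) (tden (Mo p) w c)).1 : ℂ) /
        (ent p k ν (tnum (Mo p) w c) (tden (Mo p) w c)).2 - kVal p k ν (cval p c)‖ ≤ 1 / 2 ^ b := by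
  have hp' : (1 : ℝ) ≤ p := by exact_mod_cast (by omega : 1 ≤ p)
  have hnb := num_bound h9 b
  obtain ⟨δ, hδ⟩ : ∃ δ : ℝ, δ = 3 * (Mo p * (4 / 2 ^ (b + 5 * p))) := ⟨_, rfl⟩
  have hδ0 : 0 ≤ δ := by rw [hδ]; positivity
  have hδ1 : δ ≤ 1 / (2 * p) := by
    have h3 : (9 : ℝ) ≤ p := by exact_mod_cast h9
    have h4 : (p : ℝ) ^ 2 * δ ≤ 1 := by
      rw [hδ]
      refine hnb.trans ?_
      rw [div_le_one (by positivity)]
      exact one_le_pow₀ (by norm_num)
    rw [le_div_iff₀ (by positivity)]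
    nlinarith [mul_nonneg hδ0 (by positivity : (0 : ℝ) ≤ p)]
  have hcase : k ≤ 3 ∨ ((1 / p : ℝ) ≤ ‖cval p c‖ ∧
      ‖(tnum (Mo p) w c : ℂ) / (tden (Mo p) w c : ℕ) - cval p c‖ ≤ δ ∧ 0 < tden (Mo p) w c) :=
    hc.imp_right fun hg => ⟨hg.2.2.1, hδ ▸ t_err (by have := eight_le_Mo h9; omega) hz0 hze hg,
      Nat.mul_pos hg.1 (pow_pos (nrm_pos hz0) _)⟩
  generalize tnum (Mo p) w c = N at hcase ⊢
  generalize tden (Mo p) w c = D at hcase ⊢
  have hs := ent_spec (p := p) (k := k) (ν := ν) (D := D) (N := N) (by omega)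
    (hcase.imp_right fun h => ⟨h.2.2, fun h0 => by
      have h1 := h.2.1
      rw [h0, map_zero, zero_div, zero_sub, norm_neg] at h1
      have h2 : (1 / p : ℝ) ≤ 1 / (2 * p) := h.1.trans (h1.trans hδ1)
      rw [div_le_div_iff₀ (by positivity) (by positivity)] at h2
      linarith⟩)
  refine ⟨hs.1, ?_⟩
  rw [hs.2]
  exact (kVal_err (by omega) hδ0 (hcase.imp_right fun h => ⟨h.1, h.2.1, hδ1⟩)).trans (hδ ▸ hnb)

theorem cellK_zero (p : ℕ) (m : DMac) (x : ℕ) : (cellK p m 0 x).1 = 0 := by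
  unfold cellK
  rw [if_pos rfl]

theorem ent_zero (p ν D : ℕ) (N : GaussianInt) : (ent p 0 ν N D).1 = 0 := by
  unfold ent
  rw [if_pos rfl]
  rfl

theorem core' {p : ℕ} (h9 : 9 ≤ p) (b ν y x : ℕ) {w : GaussianInt} (hz0 : w ≠ 0)
    (hze : ‖(w : ℂ) ^ 2 / (w.norm : ℂ) - Complex.exp (2 * Real.pi * Complex.I / Mo p)‖ ≤
      4 / 2 ^ (b + 5 * p)) {m : DMac} (hm : OkM p m) {c : ℕ × Cd} (hc : c = cellK p m y x)
    {r : GaussianInt × ℕ} (hr : r = ent p c.1 ν (tnum (Mo p) w c.2) (tden (Mo p) w c.2)) :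
    0 < r.2 ∧ ‖(r.1 : ℂ) / r.2 - dVal p m ν y x‖ ≤ 1 / 2 ^ b ∧ (y = 0 → r.1 = 0) := by
  have h1 : c.1 ≤ 3 ∨ GoodCd p c.2 := by
    rcases Nat.lt_or_ge c.1 4 with h | h
    · exact Or.inl (by omega)
    · rw [hc] at h ⊢
      exact Or.inr (goodCd_cellK hm (le_antisymm (cellK_le _ _ _ _) h))
  have h := core h9 b ν hz0 hze h1
  rw [← hr] at h
  refine ⟨h.1, ?_, fun hy => ?_⟩
  · unfold dVal
    rw [← hc]
    exact h.2
  · have : c.1 = 0 := by rw [hc, hy, cellK_zero]
    rw [hr, this, ent_zero]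

theorem poly_cell {p y x : α → ℕ} {m : α → DMac} (hp : Poly p) (hm : Poly m) (hy : Poly y)
    (hx : Poly x) : Poly fun a => cellK (p a) (m a) (y a) (x a) :=
  (poly_cellK.comp (hp.pair (hm.pair (hy.pair hx)))).congr fun _ => rfl

theorem prod_inv {ι : Type} (l : List ι) (f : ι → ℂ) :
    (l.map f).prod⁻¹ = (l.map fun i => (f i)⁻¹).prod := by
  induction l with
  | nil => simp
  | cons x l ih => rw [List.map_cons, List.map_cons, List.prod_cons, List.prod_cons, mul_inv, ih]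

end TabX

open TabX

/-- a Gaussian rational approximating one entry of one digit table; input `(p, b, μ, ν, y, x)` -/
theorem exists_dEnt : ∃ E : List Unit × List Unit × ℕ × ℕ × ℕ × ℕ → GaussianInt × ℕ, Poly E ∧
    ∀ p b μ ν y x : ℕ, 9 ≤ p → 0 < (E (un p, un b, μ, ν, y, x)).2 ∧
      ‖((E (un p, un b, μ, ν, y, x)).1 : ℂ) / (E (un p, un b, μ, ν, y, x)).2 -
        dVal p (dm p μ) ν y x‖ ≤ 1 / 2 ^ b ∧
      (y = 0 → (E (un p, un b, μ, ν, y, x)).1 = 0) := by
  obtain ⟨rt, hrt, hspec⟩ := exists_root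
  obtain ⟨z, hz, ez⟩ : ∃ z : List Unit × List Unit × ℕ × ℕ × ℕ × ℕ → GaussianInt, Poly z ∧
      ∀ p b μ ν y x, z (un p, un b, μ, ν, y, x) = rt (un (Mo p), un (b + 5 * p)) := by
    refine ⟨fun a => rt (un (Mo a.1.length), a.2.1 ++ (a.1 ++ a.1 ++ a.1 ++ a.1 ++ a.1)),
      hrt.comp ((poly_uM.comp Poly.id.fst).pair (by fun_prop)), fun p b μ ν y x => ?_⟩
    simp only [List.length_replicate, ← List.replicate_add]
    congr 3
    ring
  obtain ⟨k, hk, ek⟩ : ∃ k : List Unit × List Unit × ℕ × ℕ × ℕ × ℕ → ℕ × Cd, Poly k ∧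
      ∀ p b μ ν y x, k (un p, un b, μ, ν, y, x) = cellK p (dm p μ) y x := by
    have h1 : Poly fun a : List Unit × List Unit × ℕ × ℕ × ℕ × ℕ => dm a.1.length a.2.2.1 :=
      poly_dm.comp (f := fun a : List Unit × List Unit × ℕ × ℕ × ℕ × ℕ => (a.1, a.2.2.1))
        (by fun_prop)
    refine ⟨fun a => cellK a.1.length (dm a.1.length a.2.2.1) a.2.2.2.2.1 a.2.2.2.2.2,
      poly_cell Poly.id.fst.length h1 (by fun_prop) (by fun_prop), fun p b μ ν y x => ?_⟩
    simp only [List.length_replicate]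
  have hM : Poly fun a : List Unit × List Unit × ℕ × ℕ × ℕ × ℕ => un (Mo a.1.length) :=
    poly_uM.comp Poly.id.fst
  refine ⟨_, poly_ent Poly.id.fst.length hk.fst Poly.id.snd.snd.snd.fst (poly_tnum hM hz hk.snd)
      (poly_tden hM hz hk.snd), fun p b μ ν y x h9 => ?_⟩
  obtain ⟨hz0, hze⟩ := hspec (Mo p) (b + 5 * p) (eight_le_Mo h9)
  refine core' h9 b ν y x hz0 hze (okM_dm (by omega) μ) (ek p b μ ν y x) ?_
  simp only [ez, List.length_replicate]

theorem exists_tab : ∃ T : TabIn → GaussianInt, Poly T ∧ GoodT T := by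
  obtain ⟨E, hE, hspec⟩ := exists_dEnt
  let L : TabIn → List (GaussianInt × ℕ) := fun a => a.1.map fun u =>
    E (u, a.2.1 ++ a.1.flatten, a.2.2.1, a.2.2.2.1, a.2.2.2.2.1 % u.length, a.2.2.2.2.2 % u.length)
  have hL : Poly L := Poly.map (g := fun (a : TabIn) (u : List Unit) =>
    E (u, a.2.1 ++ a.1.flatten, a.2.2.1, a.2.2.2.1, a.2.2.2.2.1 % u.length, a.2.2.2.2.2 % u.length))
    (hE.comp (by fun_prop)) Poly.id.fst
  have hnum : Poly fun a => ((L a).map fun q => q.1).prod :=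
    poly_gprod.comp (Poly.map (g := fun _ (q : GaussianInt × ℕ) => q.1) (by fun_prop) hL)
  have hden : Poly fun a => ((L a).map fun q => q.2).prod :=
    Poly.prod (Poly.map (g := fun _ (q : GaussianInt × ℕ) => q.2) (by fun_prop) hL)
  refine ⟨fun a => gdiv (gn (2 ^ a.2.1.length) * ((L a).map fun q => q.1).prod)
    ((L a).map fun q => q.2).prod,
    poly_gdiv ((poly_gn ((Poly.const 2).pow_length Poly.id.snd.fst)).gmul hnum) hden,
    fun ps b μ ν y x hps => ?_⟩
  have eb : un b ++ (ps.map un).flatten = un (b + ps.sum) := by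
    rw [eq_un (un b ++ _)]
    simp [List.length_flatten, Function.comp_def]
  let F : ℕ → GaussianInt × ℕ := fun p => E (un p, un (b + ps.sum), μ, ν, y % p, x % p)
  have eL : L (ps.map un, un b, μ, ν, y, x) = ps.map F := by
    simp only [L, eb, List.map_map, Function.comp_def, List.length_replicate, F]
  have hF := fun p (hp : p ∈ ps) => hspec p (b + ps.sum) μ ν (y % p) (x % p) (hps.2 p hp).1
  simp only [eL, List.map_map, Function.comp_def, List.length_replicate]
  have hd : 0 < (ps.map fun p => (F p).2).prod :=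
    List.prod_pos fun a ha => by
      obtain ⟨p, hp, rfl⟩ := List.mem_map.1 ha
      exact (hF p hp).1
  refine ⟨?_, ?_⟩
  · have h1 := gdiv_err (gn (2 ^ b) * (ps.map fun p => (F p).1).prod) hd
    have e1 : ((gn (2 ^ b) * (ps.map fun p => (F p).1).prod : GaussianInt) : ℂ) /
        ((ps.map fun p => (F p).2).prod : ℕ) =
        2 ^ b * (ps.map fun p => ((F p).1 : ℂ) / (F p).2).prod := by
      rw [map_mul, gn_cast, map_list_prod, Nat.cast_list_prod, List.map_map, List.map_map,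
        mul_div_assoc]
      push_cast
      congr 1
      simp only [div_eq_mul_inv, List.prod_map_mul, Function.comp_def]
      rw [prod_inv]
    have h2 := (prod_err ps (fun p => ((F p).1 : ℂ) / (F p).2)
      (fun p => dVal p (dm p μ) ν (y % p) (x % p)) (fun p => p) (ε := 1 / 2 ^ (b + ps.sum))
      (by positivity) (by rw [div_le_one (by positivity)]; exact one_le_pow₀ (by norm_num))
      fun p hp => ⟨(hF p hp).2.1, by
        have h9 := (hps.2 p hp).1
        have h3 := norm_dVal_le h9 (okM_dm (by omega) μ) ν (y % p) (x % p)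
        have h4 : p + 2 ≤ 2 ^ p := by
          obtain ⟨q, rfl⟩ : ∃ q, p = q + 2 := ⟨p - 2, by omega⟩
          have := @Nat.lt_two_pow_self q
          rw [pow_add]
          omega
        have h5 : (p : ℝ) + 2 ≤ 2 ^ p := by exact_mod_cast h4
        linarith⟩).2
    rw [List.map_id', pow_add] at h2
    rw [e1] at h1
    have h3 : ‖(2 : ℂ) ^ b * (ps.map fun p => ((F p).1 : ℂ) / (F p).2).prod -
        2 ^ b * tenV ps μ ν y x‖ ≤ 1 := by
      rw [← mul_sub, norm_mul, norm_pow, Complex.norm_ofNat]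
      refine (mul_le_mul_of_nonneg_left h2 (by positivity)).trans (le_of_eq ?_)
      field_simp
    refine (norm_sub_le_norm_sub_add_norm_sub _
      (2 ^ b * (ps.map fun p => ((F p).1 : ℂ) / (F p).2).prod) _).trans ?_
    linarith
  · rintro ⟨p, hp, hy⟩
    have h0 : (ps.map fun p => (F p).1).prod = 0 :=
      List.prod_eq_zero (List.mem_map.2 ⟨p, hp, (hF p hp).2.2 (Nat.mod_eq_zero_of_dvd hy)⟩)
    rw [h0, mul_zero]
    simp [gdiv]
    rfl

end Crest.Agent.R326
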