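import Crest.Agent.R326.Kron

/-! Row 326: carrying out the final additions in linear time. -/

set_option autoImplicit false

namespace Crest.Agent.R326

namespace Unl

/-- overlap-add of numbers -/
def ov (s N : ℕ) (v : ℕ → ℕ) : ℕ := ∑ k ∈ Finset.range N, v k * 2 ^ (s * k)

theorem ov_congr {s N : ℕ} {v v' : ℕ → ℕ} (h : ∀ k < N, v k = v' k) : ov s N v = ov s N v' :=
  Finset.sum_congr rfl fun k hk => by rw [h k (Finset.mem_range.1 hk)]

theorem ov_lt {s : ℕ} (hs : 0 < s) {v : ℕ → ℕ} (N : ℕ) (h : ∀ k < N, v k < 2 ^ (3 * s)) :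
    ov s N v < 2 ^ (s * (N + 3)) := by
  induction N with
  | zero => simp [ov]
  | succ N ih =>
    have h1 := ih fun k hk => h k (by omega)
    have h2 : v N * 2 ^ (s * N) ≤ 2 ^ (s * (N + 3)) := by
      rw [show s * (N + 3) = 3 * s + s * N by ring, pow_add]
      exact Nat.mul_le_mul_right _ (h N (by omega)).le
    have h3 : 2 ^ (s * (N + 3) + 1) ≤ 2 ^ (s * (N + 1 + 3)) :=
      Nat.pow_le_pow_right two_pos (by nlinarith)
    unfold ov at h1 ⊢
    rw [Finset.sum_range_succ]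
    omega

theorem valLE_flat (K c : ℕ) {v : ℕ → ℕ} (h : ∀ t, v t < 2 ^ K) :
    valLE ((List.range c).map fun t => wordLE K (v t)).flatten = ov K c v ∧
      ((List.range c).map fun t => wordLE K (v t)).flatten.length = K * c := by
  induction c with
  | zero => simp [ov]
  | succ c ih =>
    rw [List.range_succ, List.map_append, List.flatten_append, valLE_append, List.length_append,
      ih.1, ih.2]
    simp only [List.map_cons, List.map_nil, List.flatten_cons, List.flatten_nil, List.append_nil,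
      length_wordLE, valLE_wordLE (h c), ov, Finset.sum_range_succ]
    constructor <;> ring

theorem ov_three (s c : ℕ) (v : ℕ → ℕ) : ov s (3 * c) v =
    ov (3 * s) c (fun t => v (t * 3 + 0)) + 2 ^ s * ov (3 * s) c (fun t => v (t * 3 + 1)) +
      2 ^ s * (2 ^ s * ov (3 * s) c fun t => v (t * 3 + 2)) := by
  induction c with
  | zero => simp [ov]
  | succ c ih =>
    have h : ∀ s N v, ov s (N + 1) v = ov s N v + v N * 2 ^ (s * N) := fun _ _ _ =>
      Finset.sum_range_succ _ _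
    rw [Nat.mul_succ, h, h, h, ih, h, h, h, mul_comm c 3]
    generalize ov (3 * s) c (fun t => v (t * 3 + 0)) = a
    generalize ov (3 * s) c (fun t => v (t * 3 + 1)) = b
    generalize ov (3 * s) c (fun t => v (t * 3 + 2)) = d
    ring_nf

theorem valLE_drop (k : ℕ) : ∀ l : List Bool, valLE (l.drop k) = valLE l / 2 ^ k := by
  induction k with
  | zero => simp
  | succ k ih =>
    rintro (_ | ⟨b, l⟩)
    · simp
    · rw [List.drop_succ_cons, ih, valLE_cons, pow_succ', ← Nat.div_div_eq_div_mul]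
      have : b.toNat ≤ 1 := Bool.toNat_le b
      congr 1
      omega

variable {ι γ : Type} [Enc γ] {pre : World → ι → Prop} {inp : ι → γ} {σ : ι → ℝ}

theorem le_cast (K : ℕ) {f : ι → ℝ} (u v : ι → ℕ) (hu : ∀ i, f i = u i)
    (hv : Le pre (fun i => (v i : ℝ)) σ) (h : ∀ w i, pre w i → u i ≤ K * v i) : Le pre f σ :=
  Le.trans (Le.of_le_mul K (Nat.cast_nonneg K) fun w i hi => by
    rw [hu]; exact_mod_cast h w i hi) hv

end Unl

open Unl

/-- overlap-add: input `(s, m, ws)`, all words of length at most `3 s` -/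
theorem sub_ovl : Sub (fun x : ℕ × ℕ × List (List Bool) => 0 < x.1 ∧ ∀ w ∈ x.2.2, w.length ≤ 3 * x.1)
    (fun x => wordLE x.2.1 (∑ k ∈ Finset.range x.2.2.length, valLE (x.2.2.getD k []) * 2 ^ (x.1 * k)))
    (fun x => ((x.2.2.length : ℝ) + 1) * x.1 + x.2.1) := by
  refine L0.toSub ?_
  set pre : World → ℕ × ℕ × List (List Bool) → Prop :=
    fun _ x => 0 < x.1 ∧ ∀ w ∈ x.2.2, w.length ≤ 3 * x.1
  set σ : ℕ × ℕ × List (List Bool) → ℝ := fun x => ((x.2.2.length : ℝ) + 1) * x.1 + x.2.1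
  have hσ : Le pre (fun x => (((x.2.2.length + 1) * x.1 + x.2.1 : ℕ) : ℝ)) σ :=
    Le.of_le fun _ x _ => by push_cast; exact le_rfl
  have hsz : ∀ w x, pre w x → sz x.2.2 ≤ x.2.2.length * (6 * x.1 + 1 + 1) + 1 := fun _ x hx =>
    sz_list_le fun w hw => by have := hx.2 w hw; rw [sz_bits]; omega
  have hin : L0 pre (fun x => x) σ fun x => x := L0.input (le_cast 11 sz _ (fun _ => rfl) hσ
    fun w x hx => by
      have h1 := hsz w x hx
      have h2 := Prims.sz_nat_le x.1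
      have h3 := Prims.sz_nat_le x.2.1
      have h4 : sz x = sz x.1 + (sz x.2.1 + sz x.2.2 + 1) + 1 := rfl
      have h5 := Nat.mul_le_mul_left x.2.2.length hx.1
      have := hx.1
      nlinarith)
  have hs := hin.lin (Lin.fst Lin.id)
  have hm := hin.lin (Lin.fst (Lin.snd Lin.id))
  have hw := hin.lin (Lin.snd (Lin.snd Lin.id))
  have hu : L0 pre (fun x => x) σ fun x => un x.1 := hs.un (le_cast 2 (fun x => x.1 + 1) _
    (fun _ => by push_cast; rfl) hσ fun w x hx => by have := hx.1; nlinarith)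
  have hum : L0 pre (fun x => x) σ fun x => un x.2.1 := hm.un (le_cast 1 (fun x => x.2.1 + 1) _
    (fun _ => by push_cast; rfl) hσ fun w x hx => by have := hx.1; nlinarith)
  have hb : L0 pre (fun x => x) σ fun x => blocks x.2.2.length 3 x.2.2 :=
    L0.sub sub_blocks ((hw.lin (Lin.length Lin.id)).pair ((L0.const hin.1 3).pair hw))
      (fun _ _ _ => trivial) (le_cast 13 (fun x => sz x.2.2 + (x.2.2.length + 1) * (3 + 1)) _
        (fun _ => by push_cast; ring) hσ fun w x hx => by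
          have h1 := hsz w x hx
          have h5 := Nat.mul_le_mul_left x.2.2.length hx.1
          have := hx.1
          nlinarith)
  have hF : ∀ ρ < 3, L0 pre (fun x => x) σ fun x => ((List.range x.2.2.length).map fun t =>
      wordLE (3 * x.1) (valLE (x.2.2.getD (t * 3 + ρ) []))).flatten := fun ρ hρ => by
    refine (L0.lin (Lin.flatten Lin.id) (L0.map_ctx hb hu
      (g := fun p : List Unit × List (List Bool) =>
        wordLE (p.1 ++ (p.1 ++ p.1)).length (valLE (p.2.getD ρ [])))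
      (Wd.lin_wordLE ((Lin.fst Lin.id).append ((Lin.fst Lin.id).append (Lin.fst Lin.id)))
        (Lin.valLE.comp ((Lin.getD_const ρ []).comp (Lin.snd Lin.id))))
      (le_cast 3 (fun x => (x.2.2.length + 1) * (2 * x.1 + 1)) _
        (fun _ => by rw [length_blocks, sz_un]; push_cast; rfl) hσ fun w x hx => by
          have h5 := Nat.mul_le_mul_left x.2.2.length hx.1
          have := hx.1
          nlinarith))).congr fun _ x _ => ?_
    simp only [blocks, List.map_map]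
    congr 1
    refine List.map_congr_left fun t _ => ?_
    simp only [Function.comp, List.length_append, List.length_replicate, List.getD_eq_getElem?_getD,
      List.getElem?_take, List.getElem?_drop, if_pos hρ]
    congr 1
    ring
  have hz : Lin fun p : List Unit × List Bool => (p.1.map fun _ => false) ++ p.2 :=
    (Lin.map (Lin.const false) (Lin.fst Lin.id)).append (Lin.snd Lin.id)
  have hadd : Lin fun p : ℕ × ℕ => p.1 + p.2 := Lin.nadd
  have hT := L0.lin hadd ((L0.lin hadd (((hF 0 (by omega)).lin Lin.valLE).pair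
    ((L0.lin hz (hu.pair (hF 1 (by omega)))).lin Lin.valLE))).pair
    ((L0.lin hz (hu.pair (L0.lin hz (hu.pair (hF 2 (by omega)))))).lin Lin.valLE))
  refine (L0.lin (g := fun p : List Unit × ℕ => wordLE p.1.length p.2)
    (Wd.lin_wordLE (Lin.fst Lin.id) (Lin.snd Lin.id)) (hum.pair hT)).congr fun _ x hx => ?_
  have hv : ∀ k, valLE (x.2.2.getD k []) < 2 ^ (3 * x.1) := fun k => by
    refine (valLE_lt _).trans_le (Nat.pow_le_pow_right two_pos ?_)
    rw [List.getD_eq_getElem?_getD]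
    cases h : x.2.2[k]? with
    | none => simp
    | some w => exact hx.2 w (List.mem_of_getElem? h)
  simp only [valLE_append, valLE_map_false, List.length_map, List.length_replicate, zero_add,
    (valLE_flat _ _ fun _ => hv _).1]
  rw [← ov_three x.1 x.2.2.length fun k => valLE (x.2.2.getD k [])]
  congr 1
  refine Finset.sum_subset (Finset.range_subset_range.2 (by omega)) fun k _ hk => ?_
  rw [List.getD_eq_default _ _ (by simpa using hk), valLE_nil, zero_mul]

namespace Unl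

variable {ι γ : Type} [Enc γ] {pre : World → ι → Prop} {inp : ι → γ} {σ : ι → ℝ}

/-- one level of overlap-adds -/
theorem l0_level {c N s m : ι → ℕ} {v : ι → ℕ → ℕ} (hc : L0 pre inp σ c) (hN : L0 pre inp σ N)
    (hs : L0 pre inp σ s) (hm : L0 pre inp σ m)
    (hL : L0 pre inp σ fun i => (List.range (c i * N i)).map fun j => wordLE (3 * s i) (v i j))
    (hp : ∀ w i, pre w i → 0 < s i ∧ ∀ j < c i * N i, v i j < 2 ^ (3 * s i))
    (hσ : Le pre (fun i => (((c i + 1) * ((N i + 1) * s i + m i) : ℕ) : ℝ)) σ) :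
    L0 pre inp σ fun i => (List.range (c i)).map fun r =>
      wordLE (m i) (ov (s i) (N i) fun k => v i (r * N i + k)) := by
  have hb : L0 pre inp σ fun i => (List.range (c i)).map fun r =>
      (List.range (N i)).map fun k => wordLE (3 * s i) (v i (r * N i + k)) := by
    refine (L0.sub sub_blocks (hc.pair (hN.pair hL)) (fun _ _ _ => trivial) (hL.sz_le.add
      (le_cast 1 (fun i => (c i + 1) * (N i + 1)) _ (fun _ => by push_cast; rfl) hσ
        fun w i hi => ?_))).congr fun w i _ => List.map_congr_left fun r hr => ?_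
    · rw [one_mul]
      exact Nat.mul_le_mul_left _ ((Nat.le_mul_of_pos_right _ (hp w i hi).1).trans le_self_add)
    · have : r * N i + N i ≤ c i * N i := by
        have := Nat.mul_le_mul_right (N i) (List.mem_range.1 hr)
        rwa [Nat.succ_mul] at this
      exact (ArrAux.take_drop_range (fun j => wordLE (3 * s i) (v i j)) this).symm
  have hd := L0.map_ctx hb (hs.pair hm) (g := fun p : (ℕ × ℕ) × List (List Bool) => (p.1.1, p.1.2, p.2))
    ((Lin.fst (Lin.fst Lin.id)).pair ((Lin.snd (Lin.fst Lin.id)).pair (Lin.snd Lin.id)))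
    (le_cast 5 (fun i => (c i + 1) * sz (s i, m i)) _
      (fun _ => by rw [List.length_map, List.length_range]; push_cast; rfl) hσ fun w i hi => by
        rw [mul_left_comm]
        refine Nat.mul_le_mul_left _ ?_
        have h2 := Prims.sz_nat_le (s i)
        have h3 := Prims.sz_nat_le (m i)
        have := (hp w i hi).1
        rw [sz_pair]
        nlinarith [Nat.zero_le (N i * s i)])
  refine (hd.map_sub sub_ovl (fun w i hi x hx => ?_) (le_cast 1
    (fun i => c i * ((N i + 1) * s i + m i)) _ (fun i => ?_) hσ fun w i hi => ?_)).congr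
    fun w i hi => ?_
  · simp only [List.map_map, List.mem_map, Function.comp] at hx
    obtain ⟨r, -, rfl⟩ := hx
    refine ⟨(hp w i hi).1, fun y hy => ?_⟩
    obtain ⟨k, -, rfl⟩ := List.mem_map.1 hy
    rw [length_wordLE]
  · simp [Function.comp_def, mul_add]
  · rw [one_mul]
    exact Nat.mul_le_mul_right _ (Nat.le_succ _)
  · simp only [List.map_map]
    refine List.map_congr_left fun r hr => ?_
    simp only [Function.comp, List.length_map, List.length_range]
    congr 1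
    refine Finset.sum_congr rfl fun k hk => ?_
    have hk' := Finset.mem_range.1 hk
    rw [List.getD_eq_getElem _ _ (by simpa using hk'), List.getElem_map, List.getElem_range,
      valLE_wordLE ((hp w i hi).2 _ (by
        have := Nat.mul_le_mul_right (N i) (List.mem_range.1 hr); nlinarith))]

theorem cube_eq (B₀ N : ℕ) (c : ℕ → ℕ → ℕ → ℕ) : cubeVal B₀ N c =
    ov ((N + 1) / 2 * ((N + 1) / 2 * B₀)) N fun i => ov ((N + 1) / 2 * B₀) N fun j =>
      ov B₀ N fun k => c i j k := by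
  simp only [cubeVal, ov, Finset.sum_mul]
  refine Finset.sum_congr rfl fun i _ => Finset.sum_congr rfl fun j _ =>
    Finset.sum_congr rfl fun k _ => ?_
  ring

end Unl

/-- input `(B, Sh, B₀, N, m, a)` -/
theorem sub_unload : Sub (fun x : ℕ × ℕ × ℕ × ℕ × ℕ × List Bool =>
      2 ≤ x.1 ∧ x.2.1 ≤ x.1 ∧ 0 < x.2.2.1 ∧ x.2.2.1 ≤ x.1 ∧ 9 ≤ x.2.2.2.1 ∧
      Canon x.1 (x.2.2.2.1 ^ 3) x.2.2.2.2.2 ∧
      ∀ j < x.2.2.2.1 ^ 3, (eat x.1 x.2.2.2.2.2 j).re.val / 2 ^ x.2.1 < 2 ^ (3 * x.2.2.1))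
    (fun x => wordLE x.2.2.2.2.1 (cubeVal x.2.2.1 x.2.2.2.1 fun i j k =>
      (eat3 x.1 x.2.2.2.1 x.2.2.2.2.2 i j k).re.val / 2 ^ x.2.1))
    (fun x => (x.2.2.2.2.2.length : ℝ) + x.2.2.2.2.1) := by
  refine L0.toSub ?_
  set pre : World → ℕ × ℕ × ℕ × ℕ × ℕ × List Bool → Prop := fun _ x =>
    2 ≤ x.1 ∧ x.2.1 ≤ x.1 ∧ 0 < x.2.2.1 ∧ x.2.2.1 ≤ x.1 ∧ 9 ≤ x.2.2.2.1 ∧
      Canon x.1 (x.2.2.2.1 ^ 3) x.2.2.2.2.2 ∧
      ∀ j < x.2.2.2.1 ^ 3, (eat x.1 x.2.2.2.2.2 j).re.val / 2 ^ x.2.1 < 2 ^ (3 * x.2.2.1)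
  set σ : ℕ × ℕ × ℕ × ℕ × ℕ × List Bool → ℝ := fun x => (x.2.2.2.2.2.length : ℝ) + x.2.2.2.2.1
  have hσ : Le pre (fun x => ((x.2.2.2.2.2.length + x.2.2.2.2.1 : ℕ) : ℝ)) σ :=
    Le.of_le fun _ x _ => by push_cast; exact le_rfl
  have hok : ∀ w x, pre w x → OkE x.1 (x.2.2.2.1 ^ 3) x.2.2.2.2.2 := fun _ x hx =>
    ⟨hx.1, pow_pos (by have := hx.2.2.2.2.1; omega) _, by rw [hx.2.2.2.2.2.1, length_emk]⟩
  have hle : ∀ w x, pre w x → x.1 ≤ x.2.2.2.2.2.length ∧ x.2.2.2.1 ≤ x.2.2.2.2.2.length ∧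
      2 * (x.2.2.2.1 ^ 3 * x.2.2.1) ≤ x.2.2.2.2.2.length := fun w x hx => by
    obtain ⟨h1, h2, h3⟩ := hok w x hx
    have h4 : x.2.2.2.1 ≤ x.2.2.2.1 ^ 3 := Nat.le_self_pow (by omega) _
    have h5 := Nat.mul_le_mul_left (x.2.2.2.1 ^ 3) hx.2.2.2.1
    rw [h3]
    refine ⟨by nlinarith, by nlinarith, by nlinarith⟩
  have hin : L0 pre (fun x => x) σ fun x => x := L0.input (le_cast 12 sz _ (fun _ => rfl) hσ
    fun w x hx => by
      obtain ⟨h1, h2, -⟩ := hle w x hx
      have h3 := Prims.sz_nat_le x.1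
      have h4 := Prims.sz_nat_le x.2.1
      have h5 := Prims.sz_nat_le x.2.2.1
      have h6 := Prims.sz_nat_le x.2.2.2.1
      have h7 := Prims.sz_nat_le x.2.2.2.2.1
      have h8 := sz_bits x.2.2.2.2.2
      have h9 : sz x = sz x.1 + (sz x.2.1 + (sz x.2.2.1 + (sz x.2.2.2.1 + (sz x.2.2.2.2.1 +
        sz x.2.2.2.2.2 + 1) + 1) + 1) + 1) + 1 := rfl
      obtain ⟨-, -, -, -, -, -⟩ := id hx
      omega)
  have hB := hin.lin (Lin.fst Lin.id)
  have hS := hin.lin (Lin.fst (Lin.snd Lin.id))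
  have hB₀ := hin.lin (Lin.fst (Lin.snd (Lin.snd Lin.id)))
  have hN := hin.lin (Lin.fst (Lin.snd (Lin.snd (Lin.snd Lin.id))))
  have hm := hin.lin (Lin.fst (Lin.snd (Lin.snd (Lin.snd (Lin.snd Lin.id)))))
  have ha := hin.lin (Lin.snd (Lin.snd (Lin.snd (Lin.snd (Lin.snd Lin.id)))))
  have hsm : ∀ {g : ℕ × ℕ → ℕ}, Poly g →
      L0 pre (fun x => x) σ fun x => g (x.2.2.1, x.2.2.2.1) := fun hg => by
    refine L0.poly hg (hB₀.pair hN) fun e => ?_
    obtain ⟨K, hK⟩ := poly_lg_le_Ex 4 e 1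
    obtain ⟨K', hK'⟩ := Ex_pow_le 1 1 one_pos
    refine le_cast (K * K') (fun x => (sz (x.2.2.1, x.2.2.2.1) + 1) ^ e) _
      (fun _ => by push_cast; rfl) hσ fun w x hx => ?_
    obtain ⟨h1, h2, -⟩ := hle w x hx
    have h3 := sz_nat_le_lg (hx.2.2.2.1.trans h1)
    have h4 := sz_nat_le_lg h2
    have h5 := hK' x.2.2.2.2.2.length (x.2.2.2.2.2.length + x.2.2.2.2.1)
      (by have := hx.1; omega) (by rw [pow_one]; omega)
    rw [pow_one] at h5
    rw [mul_assoc]
    refine ((Nat.pow_le_pow_left ?_ e).trans (hK x.2.2.2.2.2.length)).trans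
      (Nat.mul_le_mul_left _ h5)
    rw [sz_pair, pow_one]
    omega
  have hun : ∀ {n : ℕ × ℕ × ℕ × ℕ × ℕ × List Bool → ℕ}, L0 pre (fun x => x) σ n →
      (∀ w x, pre w x → n x ≤ x.1) → L0 pre (fun x => x) σ fun x => un (n x) := fun {n} hn h =>
    hn.un (le_cast 2 (fun x => n x + 1) _ (fun _ => by push_cast; rfl) hσ fun w x hx => by
      have := h w x hx
      have := (hle w x hx).1
      have := hx.1
      omega)
  let v : ℕ × ℕ × ℕ × ℕ × ℕ × List Bool → ℕ → ℕ := fun x j =>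
    (eat x.1 x.2.2.2.2.2 j).re.val / 2 ^ x.2.1
  have h0 : L0 pre (fun x => x) σ fun x => (List.range (x.2.2.2.1 * x.2.2.2.1 * x.2.2.2.1)).map
      fun j => wordLE (3 * x.2.2.1) (v x j) := by
    refine (L0.map_ctx (Wd.l0_elems hB (hsm (g := fun p => p.2 ^ 3)
        (Poly.pow_const (by fun_prop) 3)) ha hok)
      ((hun hB fun _ _ _ => le_rfl).pair ((hun hS fun _ _ h => h.2.1).pair
        (hun hB₀ fun _ _ h => h.2.2.2.1)))
      (g := fun p : (List Unit × List Unit × List Unit) × List Bool =>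
        wordLE (p.1.2.2 ++ (p.1.2.2 ++ p.1.2.2)).length
          (valLE ((p.2.take p.1.1.length).drop p.1.2.1.length)))
      (Wd.lin_wordLE ((Lin.snd (Lin.snd (Lin.fst Lin.id))).append
          ((Lin.snd (Lin.snd (Lin.fst Lin.id))).append (Lin.snd (Lin.snd (Lin.fst Lin.id)))))
        (Lin.valLE.comp (Lin.drop (Lin.fst (Lin.snd (Lin.fst Lin.id)))
          (Lin.take (Lin.fst (Lin.fst Lin.id)) (Lin.snd Lin.id)))))
      (le_cast 9 (fun x => (x.2.2.2.1 ^ 3 + 1) *
          (2 * x.1 + 1 + (2 * x.2.1 + 1 + (2 * x.2.2.1 + 1) + 1) + 1)) _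
        (fun _ => by rw [length_blocks, sz_pair, sz_pair, sz_un, sz_un, sz_un]; push_cast; rfl) hσ
        fun w x hx => ?_)).congr fun w x hx => ?_
    · obtain ⟨h1, h2, h3⟩ := hok w x hx
      calc _ ≤ (x.2.2.2.1 ^ 3 * 2) * (9 * x.1) := Nat.mul_le_mul (by omega) (by
            have := hx.2.1; have := hx.2.2.2.1; omega)
        _ = 9 * (x.2.2.2.1 ^ 3 * (2 * x.1)) := by ring
        _ ≤ _ := by rw [← h3]; omega
    · conv_rhs => rw [hx.2.2.2.2.2.1, Wd.blocks_emk_one, List.map_map]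
      rw [show x.2.2.2.1 * x.2.2.2.1 * x.2.2.2.1 = x.2.2.2.1 ^ 3 by ring]
      refine List.map_congr_left fun j _ => ?_
      have := Wd.neZero_P (B := x.1) (by have := hx.1; omega)
      simp only [Function.comp, List.length_append, List.length_replicate, ebits, valLE_drop]
      rw [List.take_left' (length_wordLE _ _), valLE_wordLE
        ((ZMod.val_lt _).trans_le (Nat.sub_le _ _))]
      congr 1
      ring
  have hM : ∀ w x, pre w x → x.2.2.2.1 + 3 ≤ 3 * ((x.2.2.2.1 + 1) / 2) ∧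
      (x.2.2.2.1 + 1) / 2 ≤ x.2.2.2.1 ∧ 0 < (x.2.2.2.1 + 1) / 2 := fun w x hx => by
    have := hx.2.2.2.2.1
    omega
  have hlt : ∀ {s N : ℕ} {u : ℕ → ℕ}, 0 < s → N + 3 ≤ 3 * ((N + 1) / 2) →
      (∀ k < N, u k < 2 ^ (3 * s)) → ov s N u < 2 ^ (3 * ((N + 1) / 2 * s)) := fun hs hN h =>
    (ov_lt hs _ h).trans_le (Nat.pow_le_pow_right two_pos (by nlinarith))
  have p0 : ∀ w x, pre w x → 0 < x.2.2.1 ∧
      ∀ j < x.2.2.2.1 * x.2.2.2.1 * x.2.2.2.1, v x j < 2 ^ (3 * x.2.2.1) := fun w x hx =>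
    ⟨hx.2.2.1, fun j hj => hx.2.2.2.2.2.2 j (hj.trans_eq (by ring))⟩
  have hidx : ∀ {c N r k : ℕ}, r < c → k < N → r * N + k < c * N := fun {c N r k} hr hk => by
    have := Nat.mul_le_mul_right N hr
    nlinarith
  have p1 : ∀ w x, pre w x → 0 < (x.2.2.2.1 + 1) / 2 * x.2.2.1 ∧ ∀ j < x.2.2.2.1 * x.2.2.2.1,
      (ov x.2.2.1 x.2.2.2.1 fun k => v x (j * x.2.2.2.1 + k)) <
        2 ^ (3 * ((x.2.2.2.1 + 1) / 2 * x.2.2.1)) := fun w x hx =>
    ⟨Nat.mul_pos (hM w x hx).2.2 hx.2.2.1, fun j hj => hlt hx.2.2.1 (hM w x hx).1 fun k hk =>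
      (p0 w x hx).2 _ (hidx hj hk)⟩
  have hcost : ∀ {c s m : ℕ × ℕ × ℕ × ℕ × ℕ × List Bool → ℕ}, (∀ w x, pre w x → 0 < c x ∧
      c x * x.2.2.2.1 * s x ≤ x.2.2.2.1 ^ 3 * x.2.2.1 ∧
      c x * m x ≤ 3 * (x.2.2.2.1 ^ 3 * x.2.2.1) + x.2.2.2.2.1) →
      Le pre (fun x => (((c x + 1) * ((x.2.2.2.1 + 1) * s x + m x) : ℕ) : ℝ)) σ :=
    fun {c s m} h => le_cast 5 _ _ (fun _ => rfl) hσ fun w x hx => by
      obtain ⟨h1, h2, h3⟩ := h w x hx
      have h4 := (hle w x hx).2.2
      have h5 := hx.2.2.2.2.1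
      calc _ ≤ (c x * 2) * ((x.2.2.2.1 * 2) * s x + m x) :=
            Nat.mul_le_mul (by omega) (Nat.add_le_add_right (Nat.mul_le_mul_right _ (by omega)) _)
        _ = 4 * (c x * x.2.2.2.1 * s x) + 2 * (c x * m x) := by ring
        _ ≤ _ := by omega
  have hP : Poly fun p : ℕ × ℕ => (p.2 + 1) / 2 := by fun_prop
  have hs1 := hsm (g := fun p => (p.2 + 1) / 2 * p.1) (hP.mul (by fun_prop))
  have hs2 := hsm (g := fun p => (p.2 + 1) / 2 * ((p.2 + 1) / 2 * p.1))
    (hP.mul (hP.mul (by fun_prop)))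
  have h3 : Lin fun n : ℕ => n + n + n := (Lin.id.add Lin.id).add Lin.id
  have h1 := l0_level (hsm (g := fun p => p.2 * p.2) (by fun_prop)) hN hB₀
    (m := fun x => 3 * ((x.2.2.2.1 + 1) / 2 * x.2.2.1))
    ((hs1.lin h3).congr fun _ _ _ => by ring) h0 p0 (hcost fun w x hx => by
      obtain ⟨-, h2, h3⟩ := hM w x hx
      refine ⟨Nat.mul_pos (by omega) (by omega), le_of_eq (by ring), le_add_right ?_⟩
      calc _ ≤ x.2.2.2.1 * x.2.2.2.1 * (3 * (x.2.2.2.1 * x.2.2.1)) := by gcongr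
        _ = _ := by ring)
  have h2 := l0_level hN hN hs1
    (m := fun x => 3 * ((x.2.2.2.1 + 1) / 2 * ((x.2.2.2.1 + 1) / 2 * x.2.2.1)))
    ((hs2.lin h3).congr fun _ _ _ => by ring) h1 p1 (hcost fun w x hx => by
      obtain ⟨-, h2, h3⟩ := hM w x hx
      refine ⟨by omega, ?_, le_add_right ?_⟩
      · calc _ ≤ x.2.2.2.1 * x.2.2.2.1 * (x.2.2.2.1 * x.2.2.1) := by gcongr
          _ = _ := by ring
      · calc _ ≤ x.2.2.2.1 * (3 * (x.2.2.2.1 * (x.2.2.2.1 * x.2.2.1))) := by gcongr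
          _ = _ := by ring)
  have h4 := l0_level (L0.const hin.1 1) hN hs2 hm (h2.congr fun _ _ _ => by rw [one_mul])
    (fun w x hx => ⟨Nat.mul_pos (hM w x hx).2.2 (p1 w x hx).1, fun j hj =>
      hlt (p1 w x hx).1 (hM w x hx).1 fun k hk => (p1 w x hx).2 _ (hidx (by omega) hk)⟩)
    (hcost fun w x hx => by
      obtain ⟨-, h2, h3⟩ := hM w x hx
      refine ⟨one_pos, ?_, by omega⟩
      calc _ ≤ 1 * x.2.2.2.1 * (x.2.2.2.1 * (x.2.2.2.1 * x.2.2.1)) := by gcongr
        _ = _ := by ring)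
  refine (h4.lin (Lin.headD Lin.id (Lin.const []))).congr fun _ x _ => ?_
  rw [cube_eq]
  simp [v, eat3]

end Crest.Agent.R326
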