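import Crest.Agent.R326.D3
import Crest.Agent.R326.Ana
import Crest.Agent.R326.Unload
import Crest.Agent.R326.Tab

/-! Row 326: one level of the multiplication. -/

set_option autoImplicit false

namespace Crest.Agent.R326

namespace CoreX

variable {n₀ B₀ : ℕ} {P : Par}

theorem len_le_cost (h : OkPar P) : (P.len : ℝ) ≤ P.cost := by
  have h1 : (1 : ℝ) ≤ P.2.1 := by exact_mod_cast h.pos
  have h2 : (1 : ℝ) ≤ lam P.1 := by exact_mod_cast CT.one_le_lam P.1
  have h3 := CT.one_le_rpow_max P.1.length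
  have h4 : (0 : ℝ) ≤ P.len := Nat.cast_nonneg _
  calc (P.len : ℝ) = 1 * P.len * 1 * 1 := by ring
    _ ≤ P.cost := by
      unfold Par.cost
      gcongr

theorem b_le (h : OkTop n₀ P B₀) : P.2.2.1 ≤ P.2.2.2 := by
  rw [h.word]
  exact Nat.le_mul_of_pos_left _ (by omega)

theorem B0_pos (h : OkTop n₀ P B₀) : 0 < B₀ := by
  have := h.big
  have := one_le_lg P.1.prod
  omega

theorem B0_lt (h : OkTop n₀ P B₀) : B₀ < P.2.2.2 := by
  have := b_le h
  have := B0_pos h
  have := h.prec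
  omega

theorem sh_le (h : OkTop n₀ P B₀) : 45 * P.2.2.1 * P.2.1 ≤ P.2.2.2 := by
  rw [h.word]
  nlinarith [Nat.zero_le P.2.2.1]

theorem cube_le (P : Par) : P.1.prod ^ 3 * P.2.2.2 ≤ P.len :=
  Nat.mul_le_mul_left _ (by omega)

theorem B_le_len (h : OkTop n₀ P B₀) : P.2.2.2 ≤ P.len :=
  (Nat.le_mul_of_pos_left _ (pow_pos (by have := h.nine; omega) 3)).trans (cube_le P)

theorem n0_le (h : OkTop n₀ P B₀) : n₀ ≤ P.len := by
  refine h.fit.trans (le_trans ?_ (cube_le P))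
  have := h.nine
  exact Nat.mul_le_mul (Nat.pow_le_pow_left (by omega) 3) (B0_lt h).le

theorem sz_list_nat (l : List ℕ) (hl : ∀ p ∈ l, 1 ≤ p) : sz l ≤ 4 * l.sum + 1 := by
  induction l with
  | nil => simp
  | cons a l ih =>
    have h1 := Prims.sz_nat_le a
    have h2 := hl a (by simp)
    have h3 := ih fun p hp => hl p (by simp [hp])
    simp only [sz_cons, List.sum_cons]
    omega

theorem sz_par (h : OkTop n₀ P B₀) : sz (P, B₀) + 1 ≤ 10 * lg P.len ^ 4 + 10 := by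
  have h1 := sz_list_nat P.1 fun p hp => by have := (h.ok.good.2 p hp).1; omega
  have h2 := Prims.sz_nat_le P.2.1
  have h3 := sz_nat_le_lg ((b_le h).trans (B_le_len h))
  have h4 := sz_nat_le_lg (B_le_len h)
  have h5 := sz_nat_le_lg ((B0_lt h).le.trans (B_le_len h))
  have h6 := h.ok.small
  have h7 : lg P.len ≤ lg P.len ^ 4 := Nat.le_self_pow (by norm_num) _
  have e : sz (P, B₀) = sz P.1 + (sz P.2.1 + (sz P.2.2.1 + sz P.2.2.2 + 1) + 1) + 1 + sz B₀ + 1 := rfl
  omega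

theorem sz_par_pow (e : ℕ) : ∃ K : ℕ, ∀ (n₀ B₀ : ℕ) (P : Par), OkTop n₀ P B₀ →
    (sz (P, B₀) + 1) ^ e ≤ K * P.len := by
  obtain ⟨K, hK⟩ := poly_lg_le_Ex 10 e 4
  refine ⟨K, fun n₀ B₀ P h => ((Nat.pow_le_pow_left (sz_par h) e).trans (hK _)).trans
    (Nat.mul_le_mul_left _ ?_)⟩
  calc Ex P.len ≤ Ex (3 * P.len) := Ex_mono (by omega)
    _ ≤ Ex (3 * P.len) ^ 2 := Nat.le_self_pow (by norm_num) _
    _ ≤ P.2.2.2 := h.ok.ex
    _ ≤ P.len := B_le_len h

theorem odd_prod {ps : List ℕ} (h : ∀ p ∈ ps, Odd p) : Odd ps.prod := by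
  induction ps with
  | nil => simp
  | cons a l ih =>
    rw [List.prod_cons]
    exact (h a (by simp)).mul (ih fun p hp => h p (by simp [hp]))

theorem eat3_emk3 {B N i j k : ℕ} (hB : 2 ≤ B) (f : ℕ → ℕ → ℕ → RB B) (hi : i < N) (hj : j < N)
    (hk : k < N) : eat3 B N (emk3 B N f) i j k = f i j k := by
  have hN : 0 < N := by omega
  have h1 : i * N + j < N * N := by nlinarith
  have h2 : (i * N + j) * N + k < N ^ 3 := by
    calc (i * N + j) * N + k < (i * N + j + 1) * N := by nlinarith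
      _ ≤ N * N * N := Nat.mul_le_mul_right _ h1
      _ = N ^ 3 := by ring
  have e1 : ((i * N + j) * N + k) / N = i * N + j := by
    rw [mul_comm, Nat.mul_add_div hN, Nat.div_eq_of_lt hk, add_zero]
  have e2 : (i * N + j) / N = i := by
    rw [mul_comm, Nat.mul_add_div hN, Nat.div_eq_of_lt hj, add_zero]
  rw [eat3, emk3, eat_emk hB _ h2, pow_two, ← Nat.div_div_eq_div_mul, e1, e2,
    Nat.mul_add_mod_of_lt hj, Nat.mul_add_mod_of_lt hk]

theorem val_toRB {B : ℕ} {z : GaussianInt} (h0 : 0 ≤ z.re) (h1 : z.re < 2 ^ B - 1) :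
    (toRB B z).re.val = z.re.toNat := by
  obtain ⟨m, hm⟩ := Int.eq_ofNat_of_zero_le h0
  have h2 : m < 2 ^ B - 1 := by
    rw [hm] at h1
    have : m + 1 < 2 ^ B := by
      have : (m : ℤ) + 1 < 2 ^ B := by omega
      exact_mod_cast this
    omega
  simp only [toRB, hm, Int.cast_natCast, Int.toNat_natCast]
  exact ZMod.val_cast_of_lt h2

/-- the entries of the computed cube -/
theorem conv_val {T : TabIn → GaussianInt} (hG : GoodT T) (h : OkTop n₀ P B₀)
    (f g : ℕ → ℕ → ℕ → ℕ) (hf : ∀ i j k, f i j k < 2 ^ B₀) (hg : ∀ i j k, g i j k < 2 ^ B₀)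
    {i j k : ℕ} (hi : i < P.1.prod) (hj : j < P.1.prod) (hk : k < P.1.prod) :
    (conv3 (iB _) P.1 (rbMac T P) P.2.1 (45 * P.2.2.1 * P.2.1)
      (fun i j k => (f i j k : RB P.2.2.2)) (fun i j k => (g i j k : RB P.2.2.2)) i j k).re.val /
        2 ^ (45 * P.2.2.1 * P.2.1) = cyc3 P.1.prod f g i j k := by
  obtain ⟨φ, hφ⟩ := exists_toRB_hom P.2.2.2
  have hφ' : (φ : GaussianInt → RB P.2.2.2) = toRB P.2.2.2 := funext hφ
  have h1 := conv3_map φ (⟨0, 1⟩ : GaussianInt) P.1 (intMac T P.1 P.2.2.1) P.2.1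
    (45 * P.2.2.1 * P.2.1) (fun i j k => (f i j k : GaussianInt))
    (fun i j k => (g i j k : GaussianInt)) i j k
  simp only [map_natCast] at h1
  rw [hφ', toRB_I] at h1
  obtain ⟨h2, h3, h4⟩ := conv_round hG h.ok.good h.prog h.ok.pos h.prec f g hf hg hi hj hk
  rw [← h.word] at h3
  rw [← h4, ← val_toRB h2 h3, h1]
  rfl

theorem cyc_lt (h : OkTop n₀ P B₀) {f g : ℕ → ℕ → ℕ → ℕ} (hf : ∀ i j k, f i j k < 2 ^ B₀)
    (hg : ∀ i j k, g i j k < 2 ^ B₀) (i j k : ℕ) : cyc3 P.1.prod f g i j k < 2 ^ (3 * B₀) := by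
  refine (cyc3_le hf hg i j k).trans_lt ?_
  have h1 : P.1.prod ^ 3 < 2 ^ B₀ :=
    calc P.1.prod ^ 3 < (2 ^ lg P.1.prod) ^ 3 :=
          Nat.pow_lt_pow_left (lt_two_pow_lg _) (by norm_num)
      _ = 2 ^ (3 * lg P.1.prod) := by rw [← pow_mul, mul_comm]
      _ ≤ 2 ^ B₀ := Nat.pow_le_pow_right two_pos h.big
  calc P.1.prod ^ 3 * 4 ^ B₀ < 2 ^ B₀ * 4 ^ B₀ := Nat.mul_lt_mul_of_pos_right h1 (by positivity)
    _ = 2 ^ (3 * B₀) := by
      rw [← mul_pow, pow_mul]
      norm_num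

theorem cubeVal_congr {B₀ N : ℕ} {c c' : ℕ → ℕ → ℕ → ℕ}
    (h : ∀ i < N, ∀ j < N, ∀ k < N, c i j k = c' i j k) : cubeVal B₀ N c = cubeVal B₀ N c' :=
  Finset.sum_congr rfl fun i hi => Finset.sum_congr rfl fun j hj => Finset.sum_congr rfl fun k hk => by
    rw [h i (Finset.mem_range.1 hi) j (Finset.mem_range.1 hj) k (Finset.mem_range.1 hk)]

end CoreX

open CoreX

theorem cf_core (τ : ℕ → ℝ) (hτ : ∀ B, 0 ≤ τ B) {ι : Type} {pre : World → ι → Prop} (P : ι → Par)
    (B₀ : ι → ℕ) (x y : ι → List Bool)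
    (h : ∀ w i, pre w i → (x i).length = (y i).length ∧ OkTop (x i).length (P i) (B₀ i) ∧
      CanMul τ w (P i).2.2.2) :
    Cf pre (fun i => (P i, B₀ i, x i, y i)) (fun i => mulF (x i, y i)) (fun i => (P i).cost)
      (fun i => 600 * ((P i).2.1 : ℝ) * ((P i).1.prod : ℝ) ^ 3 * τ (P i).2.2.2) := by
  obtain ⟨T, hT, hG⟩ := exists_tab
  -- sizes
  have hle : ∀ (K : ℕ) (g : ι → ℕ), (∀ w i, pre w i → g i ≤ K * (P i).len) →
      Le pre (fun i => (g i : ℝ)) fun i => (P i).cost := fun K g hg =>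
    Le.of_le_mul K (Nat.cast_nonneg _) fun w i hi => by
      have h1 : (g i : ℝ) ≤ K * ((P i).len : ℝ) := by exact_mod_cast hg w i hi
      exact h1.trans (mul_le_mul_of_nonneg_left (len_le_cost (h w i hi).2.1.ok) (Nat.cast_nonneg _))
  have hpow : ∀ e : ℕ, Le pre (fun i => ((sz (P i, B₀ i) : ℝ) + 1) ^ e) fun i => (P i).cost := by
    intro e
    obtain ⟨K, hK⟩ := sz_par_pow e
    have := hle K (fun i => (sz (P i, B₀ i) + 1) ^ e) fun w i hi => hK _ _ _ (h w i hi).2.1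
    simpa using this
  have hin : Le pre (fun i => (sz (P i, B₀ i, x i, y i) : ℝ)) fun i => (P i).cost := by
    obtain ⟨K, hK⟩ := sz_par_pow 1
    refine hle (K + 7) _ fun w i hi => ?_
    obtain ⟨h1, h2, -⟩ := h w i hi
    have h3 := hK _ _ _ h2
    have h4 := n0_le h2
    have h5 := B_le_len h2
    have h6 := h2.ok.two_le
    simp only [sz_pair, sz_bits, pow_one, add_mul] at h3 ⊢
    omega
  have l0 : L0 pre (fun i => (P i, B₀ i, x i, y i)) (fun i => (P i).cost)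
      (fun i => (P i, B₀ i, x i, y i)) := L0.input hin
  have lP := L0.lin (g := fun q : Par × ℕ × List Bool × List Bool => q.1) (by fun_prop) l0
  have lB := L0.lin (g := fun q : Par × ℕ × List Bool × List Bool => q.1.2.2.2) (by fun_prop) l0
  have lB0 := L0.lin (g := fun q : Par × ℕ × List Bool × List Bool => q.2.1) (by fun_prop) l0
  have lx := L0.lin (g := fun q : Par × ℕ × List Bool × List Bool => q.2.2.1.reverse) (by fun_prop) l0
  have ly := L0.lin (g := fun q : Par × ℕ × List Bool × List Bool => q.2.2.2.reverse) (by fun_prop) l0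
  have lm := L0.lin (g := fun q : Par × ℕ × List Bool × List Bool => q.2.2.1.length + q.2.2.1.length)
    (Lin.add (by fun_prop) (by fun_prop)) l0
  have lN := L0.poly (g := fun q : Par × ℕ => q.1.1.prod) (by fun_prop) (lP.pair lB0) hpow
  have lS := L0.poly (g := fun q : Par × ℕ => 45 * q.1.2.2.1 * q.1.2.1) (by fun_prop)
    (lP.pair lB0) hpow
  have hcube : Le pre (fun i => (((P i).1.prod : ℕ) : ℝ) ^ 3 * ((P i).2.2.2 : ℕ))
      fun i => (P i).cost := by
    have := hle 1 (fun i => (P i).1.prod ^ 3 * (P i).2.2.2) fun w i hi => by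
      simpa using cube_le (P i)
    simpa using this
  have lax := L0.sub sub_load (lB.pair (lB0.pair (lN.pair lx))) (fun w i hi => by
    have h2 := (h w i hi).2.1
    exact ⟨B0_pos h2, B0_lt h2, by have := h2.nine; simp only; omega, by simpa using h2.fit⟩) hcube
  have lay := L0.sub sub_load (lB.pair (lB0.pair (lN.pair ly))) (fun w i hi => by
    obtain ⟨h1, h2, -⟩ := h w i hi
    exact ⟨B0_pos h2, B0_lt h2, by have := h2.nine; simp only; omega,
      by simpa [← h1] using h2.fit⟩) hcube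
  have lQ := lB.pair (lS.pair (lB0.pair (lN.pair lm)))
  let fx : ι → ℕ → ℕ → ℕ → ℕ := fun i => chunkF (B₀ i) (((P i).1.prod + 1) / 2) (x i).reverse
  let fy : ι → ℕ → ℕ → ℕ → ℕ := fun i => chunkF (B₀ i) (((P i).1.prod + 1) / 2) (y i).reverse
  let a : ι → List Bool := fun i => emk3 (P i).2.2.2 (P i).1.prod
    (conv3 (iB _) (P i).1 (rbMac T (P i)) (P i).2.1 (45 * (P i).2.2.1 * (P i).2.1)
      (fun s t u => (fx i s t u : RB (P i).2.2.2)) (fun s t u => (fy i s t u : RB (P i).2.2.2)))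
  have ha : ∀ i, (a i).length = (P i).len := fun i => length_emk _ _ _
  have hconv := cf_conv3 hT hG τ hτ (pre := pre) P
    (fun i s t u => (fx i s t u : RB (P i).2.2.2)) (fun i s t u => (fy i s t u : RB (P i).2.2.2))
    fun w i hi => ⟨(h w i hi).2.1.ok, (h w i hi).2.2, sh_le (h w i hi).2.1⟩
  have c1 := (lQ.pair (lP.pair (lax.pair lay))).thenCf (Cf.second _ lQ.sz_le hconv)
  have hsa : Le pre (fun i => (sz (a i) : ℝ)) fun i => (P i).cost := hle 3 _ fun w i hi => by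
    have h5 := B_le_len (h w i hi).2.1
    have h6 := (h w i hi).2.1.ok.two_le
    rw [sz_bits, ha]
    omega
  have c2 := Cf.lin (g := fun q : (ℕ × ℕ × ℕ × ℕ × ℕ) × List Bool =>
    (q.1.1, q.1.2.1, q.1.2.2.1, q.1.2.2.2.1, q.1.2.2.2.2, q.2)) (by fun_prop) c1
    (Le.trans (Le.of_le fun w i _ => by rw [sz_pair]; push_cast; exact le_rfl)
      ((lQ.sz_le.add hsa).add (hin.const_of_sz 1)))
  have hval : ∀ w i, pre w i → ∀ s < (P i).1.prod, ∀ t < (P i).1.prod, ∀ u < (P i).1.prod,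
      (conv3 (iB _) (P i).1 (rbMac T (P i)) (P i).2.1 (45 * (P i).2.2.1 * (P i).2.1)
        (fun s t u => (fx i s t u : RB (P i).2.2.2))
        (fun s t u => (fy i s t u : RB (P i).2.2.2)) s t u).re.val /
          2 ^ (45 * (P i).2.2.1 * (P i).2.1) = cyc3 (P i).1.prod (fx i) (fy i) s t u :=
    fun w i hi s hs t ht u hu =>
      conv_val hG (h w i hi).2.1 _ _ (chunkF_lt _ _ _) (chunkF_lt _ _ _) hs ht hu
  have c3 := Cf.sub sub_unload c2 (fun w i hi => by
    have h2 := (h w i hi).2.1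
    have hN : 0 < (P i).1.prod := by have := h2.nine; omega
    refine ⟨h2.ok.two_le, sh_le h2, B0_pos h2, (B0_lt h2).le, h2.nine,
      canon_emk h2.ok.two_le _ _, fun j hj => ?_⟩
    simp only [emk3] at hj ⊢
    rw [eat_emk h2.ok.two_le _ hj, hval w i hi _
      (Nat.div_lt_of_lt_mul (by rw [← pow_succ]; exact hj)) _ (Nat.mod_lt _ hN) _ (Nat.mod_lt _ hN)]
    exact cyc_lt h2 (chunkF_lt _ _ _) (chunkF_lt _ _ _) _ _ _) (by
    have := hle 3 (fun i => (a i).length + ((x i).length + (x i).length)) fun w i hi => by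
      have := n0_le (h w i hi).2.1
      rw [ha]
      omega
    simpa using this)
  have c4 := Cf.lin (g := fun l : List Bool => l.reverse) (by fun_prop) c3 (hle 5 _ fun w i hi => by
    have h4 := n0_le (h w i hi).2.1
    have h5 := B_le_len (h w i hi).2.1
    have h6 := (h w i hi).2.1.ok.two_le
    rw [sz_bits, length_wordLE]
    simp only
    omega)
  refine c4.congr (fun _ _ _ => rfl) fun w i hi => congrArg enc ?_
  obtain ⟨h1, h2, -⟩ := h w i hi
  rw [mulF_eq, ← cubeVal_cyc3 (B₀ := B₀ i) (odd_prod fun p hp => (h2.ok.good.1.2 p hp).1)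
    (by simpa using h2.fit) (by simpa [← h1] using h2.fit), two_mul]
  congr 2
  refine cubeVal_congr fun s hs t ht u hu => ?_
  rw [eat3_emk3 h2.ok.two_le _ hs ht hu]
  exact (hval w i hi s hs t ht u hu).symm

end Crest.Agent.R326
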