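import Mathlib

/-! Row 326: the abstract network-coding gadget (definitions). A group `G` of "frames" acts
linearly on a module `U` of values; some group elements are *steps* (recursive calls, cost one),
some are *free*. -/

set_option autoImplicit false

namespace Crest.Agent.R326

/-- products of at most `r` steps and any number of free elements -/
inductive Mv {G : Type} [Group G] (St Fr : Set G) : ℕ → G → Prop
  | one : Mv St Fr 0 1
  | step {r : ℕ} {g x : G} : g ∈ St → Mv St Fr r x → Mv St Fr (r + 1) (g * x)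
  | free {r : ℕ} {g x : G} : g ∈ Fr → Mv St Fr r x → Mv St Fr r (g * x)
  | succ {r : ℕ} {x : G} : Mv St Fr r x → Mv St Fr (r + 1) x

/-- straight-line extension of a set of available values, counting the steps -/
inductive Ext {𝕜 U G : Type} [CommRing 𝕜] [AddCommGroup U] [Module 𝕜 U] [Group G]
    (act : G →* Module.End 𝕜 U) (St Fr : Set G) (Sc : Set 𝕜) : Set U → ℕ → Set U → Prop
  | refl (S : Set U) : Ext act St Fr Sc S 0 S
  | zero {S S' : Set U} {n : ℕ} : Ext act St Fr Sc S n S' → Ext act St Fr Sc S n (insert 0 S')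
  | add {S S' : Set U} {n : ℕ} {u w : U} : Ext act St Fr Sc S n S' → u ∈ S' → w ∈ S' →
      Ext act St Fr Sc S n (insert (u + w) S')
  | smul {S S' : Set U} {n : ℕ} {u : U} {c : 𝕜} : Ext act St Fr Sc S n S' → c ∈ Sc → u ∈ S' →
      Ext act St Fr Sc S n (insert (c • u) S')
  | step {S S' : Set U} {n : ℕ} {u : U} {g : G} : Ext act St Fr Sc S n S' → g ∈ St → u ∈ S' →
      Ext act St Fr Sc S (n + 1) (insert (act g u) S')
  | free {S S' : Set U} {n : ℕ} {u : U} {g : G} : Ext act St Fr Sc S n S' → g ∈ Fr → u ∈ S' →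
      Ext act St Fr Sc S n (insert (act g u) S')

/-- The frames of the two-stage gadget and the distances between them. Think of subspaces of
`V ⊗ V`, `dim V = h`: `u a b = a ⊗ b`, `col b = V ⊗ b`, `cu a b = col b ⊖ u a b`,
`rw a = full ⊖ a ⊗ V`, `ru a b = rw a ⊕ u a b`, `fu a b = full ⊖ u a b`; the pairs
`(za ζ, zb ζ)` are orthogonal. -/
structure Geo (G : Type) [Group G] (D : ℕ → G → Prop) (T Z : Type) (za zb : Z → T) (h : ℕ) where
  u : T → T → G
  col : T → G
  cu : T → T → G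
  rw : T → G
  ru : T → T → G
  fu : T → T → G
  full : G
  a1 : ∀ a b, D 1 (u a b)
  a2 : ∀ ζ b, D (h - 2) (cu (zb ζ) b * (u (za ζ) b)⁻¹)
  a3 : ∀ a b, D 1 (col b * (cu a b)⁻¹)
  a4 : ∀ a b, D (h - 1) (col b * (u a b)⁻¹)
  a5 : ∀ b, D h (col b)⁻¹
  a6 : ∀ a b, D (h - 1) (cu a b)
  m1 : ∀ a b, D ((h - 1) * (h - 1)) (ru a b * (col b)⁻¹)
  m2 : ∀ a b, D ((h - 1) * (h - 1)) (rw a * (cu a b)⁻¹)
  m3 : ∀ b, D (h * (h - 1)) (full * (col b)⁻¹)
  m4 : ∀ a, D (h * (h - 1)) (rw a)
  m5 : D (h * h) full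
  b1 : ∀ a b, D 1 (ru a b * (rw a)⁻¹)
  b2 : ∀ a ζ, D (h - 2) (fu a (za ζ) * (ru a (zb ζ))⁻¹)
  b3 : ∀ a b, D 1 (full * (fu a b)⁻¹)
  b4 : ∀ a b, D (h - 1) (full * (ru a b)⁻¹)
  b5 : ∀ a, D h (full * (rw a)⁻¹)
  b6 : ∀ a b, D (h - 1) (fu a b * (rw a)⁻¹)
  c1 : ∀ a b, D 1 (fu a b * full⁻¹)
  c2 : ∀ a b, D 0 (full * u a b * (fu a b)⁻¹)

/-- the index code: `x b` is recovered from side information on orthogonal pairs and `|J|`
broadcast combinations, all coefficients in `Sc` -/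
structure Code (𝕜 : Type) [CommRing 𝕜] (Sc : Set 𝕜) (T Z J : Type) [Fintype T] [Fintype Z]
    [Fintype J] [DecidableEq T] (za zb : Z → T) where
  e : T → Z → 𝕜
  Jc : T → J → 𝕜
  Vc : J → T → 𝕜
  he : ∀ b ζ, e b ζ ≠ 0 → zb ζ = b
  hid : ∀ a b, (∑ ζ, if za ζ = a then e b ζ else 0) + ∑ j, Jc b j * Vc j a = if a = b then 1 else 0
  e_mem : ∀ b ζ, e b ζ ∈ Sc
  J_mem : ∀ b j, Jc b j ∈ Sc
  V_mem : ∀ j a, Vc j a ∈ Sc
  neg_mem : (-1 : 𝕜) ∈ Sc

/-- triples in `Fin 100` -/
def Tri : Type := {a : Finset (Fin 100) // a.card = 3}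

instance : Finite Tri := Subtype.finite
noncomputable instance : Fintype Tri := Fintype.ofFinite _
noncomputable instance : DecidableEq Tri := Classical.decEq _

/-- number of blocks of a recursion level -/
@[irreducible] def mm : ℕ := 10000
theorem mm_eq : mm = 10000 := by unfold mm; rfl
/-- number of wires of a recursion level -/
@[irreducible] def WW : ℕ := 2 ^ 53
theorem WW_eq : WW = 2 ^ 53 := by unfold WW; rfl
/-- number of recursive calls of a recursion level -/
def calls : ℕ := mm * WW - 10 ^ 10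
/-- the exponent of both recursions -/
noncomputable def θ : ℝ := 1 - 1 / 2 ^ 60

end Crest.Agent.R326
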