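import Crest.Agent.R326.WordDefs
import Crest.Agent.R326.GadDefs
import Crest.Agent.R326.PolyInt

/-! Row 326: sign flips on `ℤ/N`, `N` a product of small coprime odd moduli; splitting a register
along a factorisation; the tensor power of `cop` (definitions). -/

set_option autoImplicit false

namespace Crest.Agent.R326

/-- admissible lists of moduli -/
def GoodP (ps : List ℕ) : Prop := ps.Pairwise Nat.Coprime ∧ ∀ p ∈ ps, Odd p ∧ 3 ≤ p

/-- the idempotent of `ℤ/N` that is `1` modulo `p` and `0` modulo `N / p` -/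
def crtE (N p : ℕ) : ℕ := N / p * invMod (N / p) p

/-- the residue that is `-1` modulo `p` and `1` modulo `N / p` -/
def sgnc (N p : ℕ) : ℕ := (1 + 2 * (N - 1) * crtE N p) % N

/-- the residue modulo `ps.prod` with the prescribed residues -/
def crtL (ps rs : List ℕ) : ℕ := ((ps.zip rs).map fun q => q.2 * crtE ps.prod q.1).sum % ps.prod

/-- the product over `p ∈ ps` of the square roots of the sign flips of the digits `t, t'` -/
def cten {R : Type} [CommRing R] (I hf : R) (ps : List ℕ) (t t' : ℕ) (f : (ℕ → ℕ) → R) :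
    (ℕ → ℕ) → R :=
  ps.foldr (fun p f => cop I hf (tauI ps.prod t t' (sgnc ps.prod p)) f) f

/-- `cten` on an array of elements of shape `s` -/
def ctenS (B : ℕ) (ps s : List ℕ) (t t' : ℕ) (a : List Bool) : List Bool :=
  emk B s.prod fun j => cten (iB B) (hB B) ps t t' (fun ι => eat B a (pos s ι)) (dig s j)

/-- the array vanishes where digit `t` is divisible by one of the moduli -/
def GenZ (B : ℕ) (ps s : List ℕ) (t : ℕ) (a : List Bool) : Prop :=
  ∀ ι, Valid s ι → (∃ p ∈ ps, p ∣ ι t) → eat B a (pos s ι) = 0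

/-- the merged residue of split digits: `≡ (∏_{j>i} N_j) * y i` modulo `N_i` -/
def mrg : List ℕ → (ℕ → ℕ) → ℕ
  | [], _ => 0
  | N :: r, y => (y 0 + (N - invMod r.prod N * mrg r (fun t => y (t + 1)) % N)) % N * r.prod
      + mrg r (fun t => y (t + 1))

/-- unsplit shape -/
def s5 (H N M : ℕ) (tl : List ℕ) : List ℕ := H :: N :: M :: N :: tl
/-- split shape -/
def sD (H : ℕ) (Ns : List ℕ) (M : ℕ) (tl : List ℕ) : List ℕ := H :: (Ns ++ M :: (Ns ++ tl))

/-- digits for `s5` from digits for `sD` -/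
def mrgI (Ns : List ℕ) (ι : ℕ → ℕ) : ℕ → ℕ := fun t =>
  if t = 0 then ι 0 else if t = 1 then mrg Ns (fun u => ι (u + 1))
  else if t = 2 then ι (Ns.length + 1) else if t = 3 then mrg Ns (fun u => ι (u + (Ns.length + 2)))
  else ι (t + 2 * Ns.length - 2)

/-- digit `i` of a residue: the inverse of `mrg` -/
def spl (Ns : List ℕ) (Y i : ℕ) : ℕ :=
  invMod (Ns.drop (i + 1)).prod (Ns.getD i 1) * Y % Ns.getD i 1

/-- digits for `sD` from digits for `s5` -/
def splI (Ns : List ℕ) (ι : ℕ → ℕ) : ℕ → ℕ := fun t =>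
  if t = 0 then ι 0 else if t ≤ Ns.length then spl Ns (ι 1) (t - 1)
  else if t = Ns.length + 1 then ι 2 else if t ≤ 2 * Ns.length + 1 then spl Ns (ι 3) (t - (Ns.length + 2))
  else ι (t + 2 - 2 * Ns.length)

def splitG (H : ℕ) (Ns : List ℕ) (M : ℕ) (tl : List ℕ) (a : List Bool) : List Bool :=
  bmk (sD H Ns M tl).prod fun j =>
    bat a (pos (s5 H Ns.prod M tl) (mrgI Ns (dig (sD H Ns M tl) j)))

def unsplitG (H : ℕ) (Ns : List ℕ) (M : ℕ) (tl : List ℕ) (a : List Bool) : List Bool :=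
  bmk (s5 H Ns.prod M tl).prod fun j =>
    bat a (pos (sD H Ns M tl) (splI Ns (dig (s5 H Ns.prod M tl) j)))

/-- block `i ≤ mm` of the moduli: `mm` blocks of length `ps.length / mm` and the rest -/
def blk (ps : List ℕ) (i : ℕ) : List ℕ :=
  if i < mm then (ps.drop (i * (ps.length / mm))).take (ps.length / mm)
  else ps.drop (mm * (ps.length / mm))

def blkN (ps : List ℕ) : List ℕ := (List.range (mm + 1)).map fun i => (blk ps i).prod

/-- the multiplier for block `b` read off the signs of `y` modulo the members of block `b₀` -/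
def sgnMul (b₀ b : List ℕ) (y : ℕ) : ℕ :=
  ((b₀.zip b).map fun q => if q.1 < 2 * (y % q.1) then sgnc b.prod q.2 else 1).prod % b.prod

/-- multiply both digits of block `i < mm` by `γ i` (shape `sD H Ns M tl` with `mm + 1` blocks) -/
def mulI (Ns : List ℕ) (γ : ℕ → ℕ) (ι : ℕ → ℕ) : ℕ → ℕ := fun t =>
  if 1 ≤ t ∧ t ≤ mm then γ (t - 1) * ι t % Ns.getD (t - 1) 1
  else if mm + 3 ≤ t ∧ t ≤ 2 * mm + 2 then γ (t - (mm + 3)) * ι t % Ns.getD (t - (mm + 3)) 1
  else ι t

/-- the multiplier of block `i` for the group element `w` -/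
def gam (ps : List ℕ) (w : Fin (ps.length / mm) → Fin mm → ZMod 2) (i : ℕ) : ℕ :=
  if h : i < mm then
    ∏ s, if w s ⟨i, h⟩ = 1 then sgnc (blk ps i).prod ((blk ps i).getD s 1) else 1
  else 1

/-- generic split indices -/
def GenI (ps : List ℕ) (H M L : ℕ) (ι : ℕ → ℕ) : Prop :=
  Valid (sD H (blkN ps) M [L]) ι ∧ ∀ i < mm, ∀ p ∈ blk ps i, ¬ p ∣ ι (1 + i)

/-- the multipliers of the change of variables that turns the flips along `u` into the flips of the
pivot block `i₀` -/
def sigG (ps : List ℕ) (u : Fin mm → ZMod 2) (i₀ : ℕ) (ι : ℕ → ℕ) (i : ℕ) : ℕ :=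
  if h : i < mm then
    (if i ≠ i₀ ∧ u ⟨i, h⟩ = 1 then sgnMul (blk ps i₀) (blk ps i) (ι (1 + i₀)) else 1)
  else 1

def sigI (ps : List ℕ) (u : Fin mm → ZMod 2) (i₀ : ℕ) (ι : ℕ → ℕ) : ℕ → ℕ :=
  mulI (blkN ps) (sigG ps u i₀ ι) ι

end Crest.Agent.R326
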