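import Crest.Agent.R326.CtenBase

/-! Row 326: semantic lemmas for the fast tensor power of `cop`. -/

set_option autoImplicit false

namespace Crest.Agent.R326.CT

open Function

/-- the array of elements of shape `s` given by a function of the digits -/
def arr (B : ℕ) (s : List ℕ) (F : (ℕ → ℕ) → RB B) : List Bool :=
  emk B s.prod fun j => F (dig s j)

section arr
variable {B : ℕ} {s : List ℕ}

theorem length_arr (F : (ℕ → ℕ) → RB B) : (arr B s F).length = s.prod * (2 * B) :=
  length_emk _ _ _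

theorem eat_arr (h2 : 2 ≤ B) (F : (ℕ → ℕ) → RB B) {d : ℕ → ℕ} (hd : Valid s d) :
    eat B (arr B s F) (pos s d) = F d := by
  rw [arr, eat_emk h2 _ (pos_lt hd), dig_pos hd]

theorem arr_congr (hs : ∀ x ∈ s, 0 < x) {F G : (ℕ → ℕ) → RB B}
    (h : ∀ d, Valid s d → F d = G d) : arr B s F = arr B s G :=
  emk_congr fun j _ => h _ (valid_dig hs j)

theorem canon_arr (h2 : 2 ≤ B) (F : (ℕ → ℕ) → RB B) : Canon B s.prod (arr B s F) :=
  canon_emk h2 _ _

theorem gathS_arr (h2 : 2 ≤ B) (hs : ∀ x ∈ s, 0 < x) {σ : (ℕ → ℕ) → ℕ → ℕ}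
    (hv : ∀ ι, Valid s ι → Valid s (σ ι))
    (hl : ∀ ι y, Valid s ι → σ (update ι s.length y) = update (σ ι) s.length y)
    (F : (ℕ → ℕ) → RB B) :
    gathS (s ++ [2 * B]) σ (arr B s F) = arr B s fun d => F (σ d) := by
  rw [arr, gathS_emk h2 hs hv hl]
  exact emk_congr fun j _ => by rw [dig_pos (hv _ (valid_dig hs j))]

theorem ctenS_arr (h2 : 2 ≤ B) (hs : ∀ x ∈ s, 0 < x) {qs : List ℕ} {t t' : ℕ} (hN : 0 < qs.prod)
    (ht : ax s t = qs.prod) (ht' : ax s t' = qs.prod) (F : (ℕ → ℕ) → RB B) :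
    ctenS B qs s t t' (arr B s F) = arr B s (cten (iB B) (hB B) qs t t' F) :=
  emk_congr fun j _ => cten_congr _ _ hN ht ht' (fun _ h => eat_arr h2 F h) (valid_dig hs j)

theorem emk_eat_arr (h2 : 2 ≤ B) (F : (ℕ → ℕ) → RB B) (φ : RB B → RB B) :
    (emk B s.prod fun j => φ (eat B (arr B s F) j)) = arr B s fun d => φ (F d) :=
  emk_congr fun j hj => by rw [arr, eat_emk h2 _ hj]

theorem emk_eat_arr₂ (h2 : 2 ≤ B) (F G : (ℕ → ℕ) → RB B) :
    (emk B s.prod fun j => eat B (arr B s F) j + eat B (arr B s G) j) =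
      arr B s fun d => F d + G d :=
  emk_congr fun j hj => by rw [arr, arr, eat_emk h2 _ hj, eat_emk h2 _ hj]

end arr

theorem foldr_cop_conj {R X Y κ : Type} [CommRing R] (I hf : R) (φ : X → Y) (l : List κ)
    (τ : κ → X → X) (τ' : κ → Y → Y) (h : ∀ s ∈ l, ∀ x, τ' s (φ x) = φ (τ s x)) {f : X → R}
    {F : Y → R} (hF : ∀ x, F (φ x) = f x) (x : X) :
    l.foldr (fun s g => cop I hf (τ' s) g) F (φ x) =
      l.foldr (fun s g => cop I hf (τ s) g) f x := by
  induction l generalizing x with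
  | nil => exact hF x
  | cons s l ih =>
    have ih' := ih fun s' hs' => h s' (List.mem_cons_of_mem _ hs')
    simp only [List.foldr_cons, cop]
    rw [h s List.mem_cons_self, ih', ih']

theorem foldr_getD {β : Type} (l : List ℕ) {k : ℕ} (hk : l.length = k) (g : ℕ → β → β) (b : β) :
    l.foldr g b = (List.finRange k).foldr (fun s : Fin k => g (l.getD s.1 1)) b := by
  subst hk
  have : l = (List.finRange l.length).map fun s : Fin l.length => l.getD s.1 1 := by
    apply List.ext_getElem (by simp)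
    intro i h1 h2
    simp [List.getD_eq_getElem?_getD]
  conv_lhs => rw [this]
  rw [List.foldr_map]

theorem exists_getD {l : List ℕ} {k p : ℕ} (hk : l.length = k) (hp : p ∈ l) :
    ∃ s : Fin k, l.getD s 1 = p := by
  subst hk
  obtain ⟨i, hi, rfl⟩ := List.mem_iff_getElem.1 hp
  exact ⟨⟨i, hi⟩, by simp [List.getD_eq_getElem?_getD, hi]⟩

theorem cop_id {R X : Type} [CommRing R] {I hf : R} (h2 : 2 * hf = 1) {τ : X → X}
    (hτ : ∀ x, τ x = x) (f : X → R) : cop I hf τ f = f := by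
  funext x
  rw [cop, hτ]
  linear_combination f x * h2

section rep
variable {R : Type} [CommRing R] (I hf : R) {ps : List ℕ} {H M L : ℕ}

/-- generic indices -/
abbrev XG (ps : List ℕ) (H M L : ℕ) : Type := {d : ℕ → ℕ // GenI ps H M L d}

/-- the action on generic indices -/
def TG (h : GoodP ps) (w : Fin (ps.length / mm) → Fin mm → ZMod 2) (x : XG ps H M L) :
    XG ps H M L := ⟨mulI (blkN ps) (gam ps w) x.1, (genI_gam h w x.2.1).2.2 x.2⟩

theorem TG_zero (h : GoodP ps) (x : XG ps H M L) : TG h 0 x = x :=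
  Subtype.ext (gam_zero h x.2.1)

theorem TG_add (h : GoodP ps) (w w' : Fin (ps.length / mm) → Fin mm → ZMod 2) (x : XG ps H M L) :
    TG h (w + w') x = TG h w (TG h w' x) :=
  Subtype.ext (gam_add h w w' x.2.1)

/-- the change of variables on generic indices -/
def SG (h : GoodP ps) (u : Fin mm → ZMod 2) (i₀ : Fin mm) (x : XG ps H M L) : XG ps H M L :=
  ⟨sigI ps u i₀ x.1, (sigI_valid h u i₀ x.2.1).2.1.2 x.2⟩

theorem SG_SG (h : GoodP ps) (u : Fin mm → ZMod 2) (i₀ : Fin mm) (x : XG ps H M L) :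
    SG h u i₀ (SG h u i₀ x) = x :=
  Subtype.ext (sigI_valid h u i₀ x.2.1).2.2.1

theorem SG_conj (h : GoodP ps) {u : Fin mm → ZMod 2} {i₀ : Fin mm} (hu : u i₀ = 1)
    (s : Fin (ps.length / mm)) (x : XG ps H M L) :
    TG h (Pi.single s (Pi.single i₀ 1)) (SG h u i₀ x) = SG h u i₀ (TG h (Pi.single s u) x) := by
  have h1 : SG h u i₀ (TG h (Pi.single s (Pi.single i₀ 1)) (SG h u i₀ x)) =
      TG h (Pi.single s u) (SG h u i₀ (SG h u i₀ x)) :=
    Subtype.ext (sigI_conj h hu s (SG h u i₀ x).2)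
  rw [SG_SG] at h1
  rw [← h1, SG_SG]

/-- `F` extends `f` by zero on the valid indices -/
def Rep (f : XG ps H M L → R) (F : (ℕ → ℕ) → R) : Prop :=
  (∀ x : XG ps H M L, F x.1 = f x) ∧
    ∀ d, Valid (sD H (blkN ps) M [L]) d → ¬ GenI ps H M L d → F d = 0

open Classical in
/-- extension by zero -/
noncomputable def ext0 (f : XG ps H M L → R) : (ℕ → ℕ) → R :=
  fun d => if h : GenI ps H M L d then f ⟨d, h⟩ else 0

theorem rep_ext0 (f : XG ps H M L → R) : Rep f (ext0 f) :=
  ⟨fun x => dif_pos x.2, fun _ _ h => dif_neg h⟩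

variable {I hf} {f f' : XG ps H M L → R} {F F' : (ℕ → ℕ) → R}

theorem Rep.eq (h : Rep f F) {d : ℕ → ℕ} (hd : Valid (sD H (blkN ps) M [L]) d) :
    ext0 f d = F d := by
  by_cases hg : GenI ps H M L d
  · exact (dif_pos hg).trans (h.1 ⟨d, hg⟩).symm
  · exact (dif_neg hg).trans (h.2 d hd hg).symm

theorem Rep.zero : Rep (0 : XG ps H M L → R) (fun _ => 0) := ⟨fun _ => rfl, fun _ _ _ => rfl⟩

theorem Rep.add (h : Rep f F) (h' : Rep f' F') : Rep (f + f') (fun d => F d + F' d) :=
  ⟨fun x => by simp only [h.1, h'.1, Pi.add_apply],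
    fun d hd hg => by simp only [h.2 d hd hg, h'.2 d hd hg, add_zero]⟩

theorem Rep.smul (h : Rep f F) (c : R) : Rep (c • f) (fun d => c * F d) :=
  ⟨fun x => by simp only [h.1, Pi.smul_apply, smul_eq_mul],
    fun d hd hg => by simp only [h.2 d hd hg, mul_zero]⟩

theorem Rep.gam (h : Rep f F) (hp : GoodP ps) (w : Fin (ps.length / mm) → Fin mm → ZMod 2) :
    Rep (fun x => f (TG hp w x)) (fun d => F (mulI (blkN ps) (gam ps w) d)) :=
  ⟨fun x => h.1 (TG hp w x), fun _ hd hg =>
    h.2 _ (genI_gam hp w hd).1 fun h' => hg ((genI_gam hp w hd).2.1 h')⟩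

theorem Rep.sig (h : Rep f F) (hp : GoodP ps) (u : Fin mm → ZMod 2) (i₀ : Fin mm) :
    Rep (fun x => f (SG hp u i₀ x)) (fun d => F (sigI ps u i₀ d)) :=
  ⟨fun x => h.1 (SG hp u i₀ x), fun _ hd hg =>
    h.2 _ (sigI_valid hp u i₀ hd).1 fun h' => hg ((sigI_valid hp u i₀ hd).2.1.1 h')⟩

theorem Rep.cten (h : Rep f F) (hp : GoodP ps) (i : Fin mm) :
    Rep ((List.finRange (ps.length / mm)).foldr
        (fun s g => cop I hf (TG hp (Pi.single s (Pi.single i 1))) g) f)
      (cten I hf (blk ps i) (1 + i) (mm + 3 + i) F) := by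
  refine ⟨fun x => ?_, fun d hd hg => ?_⟩
  · rw [R326.cten, foldr_getD _ (length_blk ps i.2)]
    exact foldr_cop_conj I hf Subtype.val _ (fun s => TG hp (Pi.single s (Pi.single i 1)))
      (fun s : Fin (ps.length / mm) => tauI (blk ps i).prod (1 + i) (mm + 3 + i)
        (sgnc (blk ps i).prod ((blk ps i).getD s 1)))
      (fun s _ y => (gam_single hp s i y.2.1).symm) h.1 x
  · refine cten_zero I hf (Z := fun d => Valid (sD H (blkN ps) M [L]) d ∧ ¬ GenI ps H M L d)
      (fun κ hκ p hpm => ?_) (fun κ hκ => h.2 κ hκ.1 hκ.2) ⟨hd, hg⟩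
    obtain ⟨s, rfl⟩ := exists_getD (length_blk ps i.2) hpm
    rw [← gam_single hp s i hκ.1]
    exact ⟨(genI_gam hp _ hκ.1).1, fun h' => hκ.2 ((genI_gam hp _ hκ.1).2.1 h')⟩

/-- the product over the first `mm` blocks -/
def Phi (I hf : R) (ps : List ℕ) (F : (ℕ → ℕ) → R) : (ℕ → ℕ) → R :=
  (List.finRange mm).foldr (fun i g => cten I hf (blk ps i) (1 + i) (mm + 3 + i) g) F

theorem Rep.full (h : Rep f F) (hp : GoodP ps) :
    Rep ((List.finRange mm).foldr (fun i f => (List.finRange (ps.length / mm)).foldr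
        (fun s g => cop I hf (TG hp (Pi.single s (Pi.single i 1))) g) f) f) (Phi I hf ps F) := by
  unfold Phi
  generalize List.finRange mm = l
  induction l with
  | nil => exact h
  | cons i l ih => exact ih.cten hp i

theorem Rep.step (h : Rep f F) (hp : GoodP ps) {u : Fin mm → ZMod 2} {i₀ : Fin mm}
    (hu : u i₀ = 1) :
    Rep ((List.finRange (ps.length / mm)).foldr
        (fun s g => cop I hf (TG hp (Pi.single s u)) g) f)
      (fun d => R326.cten I hf (blk ps i₀) (1 + i₀) (mm + 3 + i₀) (fun κ => F (sigI ps u i₀ κ))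
        (sigI ps u i₀ d)) := by
  have h1 := ((h.sig hp u i₀).cten (I := I) (hf := hf) hp i₀).sig hp u i₀
  convert h1 using 1
  funext x
  exact (foldr_cop_conj I hf (SG hp u i₀) _ _ _ (fun s _ y => SG_conj hp hu s y)
    (fun y => by rw [SG_SG]) x).symm

theorem step_zero (h2 : 2 * hf = 1) (hp : GoodP ps) (f : XG ps H M L → R) :
    (List.finRange (ps.length / mm)).foldr
      (fun s g => cop I hf (TG hp (Pi.single s (0 : Fin mm → ZMod 2))) g) f = f := by
  generalize List.finRange (ps.length / mm) = l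
  induction l with
  | nil => rfl
  | cons s l ih =>
    rw [List.foldr_cons, ih]
    exact cop_id h2 (fun x => by rw [Pi.single_zero, TG_zero]) f

end rep

theorem Rep.genZ {B : ℕ} (h2 : 2 ≤ B) {ps : List ℕ} {H M L : ℕ} {f : XG ps H M L → RB B}
    {F : (ℕ → ℕ) → RB B} (h : Rep f F) {i : ℕ} (hi : i < mm) :
    GenZ B (blk ps i) (sD H (blkN ps) M [L]) (1 + i) (arr B (sD H (blkN ps) M [L]) F) := by
  rintro d hd ⟨p, hp, hd'⟩
  rw [eat_arr h2 F hd]
  exact h.2 d hd fun hg => hg.2 i hi p hp hd'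

/-! ### chains of multiplications -/

/-- one multiplication of the chain; the multiplier is read off the higher digits -/
def stepI (ps : List ℕ) (g : ℕ → List ℕ × List ℕ → ℕ) (i : ℕ) (κ : ℕ → ℕ) : ℕ → ℕ :=
  tauI (blk ps i).prod (1 + i) (mm + 3 + i) (g i (ps, hiD (1 + i) κ)) κ

/-- the multipliers of `sigI` -/
def gS (f : List ℕ × List ℕ × ℕ → ℕ) (u : Fin mm → ZMod 2) (i₀ i : ℕ) (p : List ℕ × List ℕ) : ℕ :=
  if i₀ < i ∧ ∃ h : i < mm, u ⟨i, h⟩ = 1 then f (blk p.1 i₀, blk p.1 i, p.2.getD (1 + i₀) 0) else 1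

/-- the multipliers of a free move -/
def gF (u : Fin mm → ZMod 2) (i : ℕ) (p : List ℕ × List ℕ) : ℕ :=
  if h : i < mm then (if u ⟨i, h⟩ = 1 then (blk p.1 i).prod - 1 else 1) else 1

section chain
variable {ps : List ℕ} {H M L : ℕ}

theorem ax_y {i : ℕ} (tl : List ℕ) (hi : i ≤ mm) :
    ax (sD H (blkN ps) M tl) (1 + i) = (blk ps i).prod := by
  rw [ax_sD_y _ _ _ _ (by rw [length_blkN]; omega), getD_blkN _ hi]

theorem ax_x {i : ℕ} (tl : List ℕ) (hi : i ≤ mm) :
    ax (sD H (blkN ps) M tl) (mm + 3 + i) = (blk ps i).prod := by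
  have h := ax_sD_x H M (blkN ps) tl (i := i) (by rw [length_blkN]; omega)
  rw [length_blkN, getD_blkN _ hi] at h
  exact h

theorem len_sD (tl : List ℕ) : (sD H (blkN ps) M tl).length = 2 * mm + 4 + tl.length := by
  rw [length_sD, length_blkN]; omega

theorem pos_sD (hp : GoodP ps) (hH : 0 < H) (hM : 0 < M) {tl : List ℕ} (ht : ∀ x ∈ tl, 0 < x) :
    ∀ x ∈ sD H (blkN ps) M tl, 0 < x := by
  intro x hx
  simp only [sD, List.mem_cons, List.mem_append] at hx
  rcases hx with rfl | hx | rfl | hx | hx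
  exacts [hH, blkN_pos hp x hx, hM, blkN_pos hp x hx, ht x hx]

theorem valid_tauI {s : List ℕ} {N t t' : ℕ} (hN : 0 < N) (ht : ax s t = N) (ht' : ax s t' = N)
    (c : ℕ) {d : ℕ → ℕ} (hd : Valid s d) : Valid s (tauI N t t' c d) := by
  intro v
  unfold tauI
  by_cases h1 : v = t'
  · subst h1; rw [update_self, ht']; exact Nat.mod_lt _ hN
  · rw [update_of_ne h1]
    by_cases h2 : v = t
    · subst h2; rw [update_self, ht]; exact Nat.mod_lt _ hN
    · rw [update_of_ne h2]; exact hd v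

theorem tauI_update {N t t' v : ℕ} (ht : t ≠ v) (ht' : t' ≠ v) (c y : ℕ) (d : ℕ → ℕ) :
    tauI N t t' c (update d v y) = update (tauI N t t' c d) v y := by
  unfold tauI
  rw [update_of_ne ht, update_of_ne ht', update_comm ht.symm, update_comm ht'.symm]

theorem tauI_other {N t t' v : ℕ} (ht : v ≠ t) (ht' : v ≠ t') (c : ℕ) (d : ℕ → ℕ) :
    tauI N t t' c d v = d v := by
  unfold tauI
  rw [update_of_ne ht', update_of_ne ht]

theorem hiD_update {t v : ℕ} (h : t ≤ v) (d : ℕ → ℕ) (y : ℕ) : hiD t (update d v y) = hiD t d := by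
  unfold hiD
  refine List.map_congr_left fun a ha => update_of_ne ?_ _ _
  have := List.mem_range.1 ha
  omega

theorem getD_hiD {t v : ℕ} (h : v < t) (d : ℕ → ℕ) : (hiD t d).getD v 0 = d v := by
  simp [hiD, List.getD_eq_getElem?_getD, h]

theorem chain_free (hp : GoodP ps) (u : Fin mm → ZMod 2) {d : ℕ → ℕ}
    (hd : Valid (sD H (blkN ps) M [L]) d) :
    (List.range mm).foldr (stepI ps (gF u)) d = mulI (blkN ps) (gam ps fun _ => u) d := by
  rw [gam_const hp u hd, mulI_eq_foldr hp _ hd]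
  rfl

theorem chain_sig (hp : GoodP ps) {f : List ℕ × List ℕ × ℕ → ℕ}
    (hf : ∀ b₀ b y, GoodP b → f (b₀, b, y) = sgnMul b₀ b y) {u : Fin mm → ZMod 2} {i₀ : Fin mm}
    (hmin : ∀ i : Fin mm, u i = 1 → i₀ ≤ i) {d : ℕ → ℕ} (hd : Valid (sD H (blkN ps) M [L]) d) :
    (List.range mm).foldr (stepI ps (gS f u i₀)) d = sigI ps u i₀ d := by
  rw [sigI, mulI_eq_foldr hp _ hd]
  have hlt : d (1 + i₀) < (blk ps i₀).prod := by
    have := hd (1 + i₀)
    rwa [ax_y _ i₀.2.le] at this
  have key : ∀ l : List ℕ, (∀ i ∈ l, i < mm) →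
      l.foldr (stepI ps (gS f u i₀)) d = l.foldr (fun i κ => tauI (blk ps i).prod (1 + i)
        (mm + 3 + i) (sigG ps u i₀ d i) κ) d ∧
      l.foldr (stepI ps (gS f u i₀)) d (1 + i₀) = d (1 + i₀) := by
    intro l hl
    induction l with
    | nil => exact ⟨rfl, rfl⟩
    | cons i l ih =>
      obtain ⟨ih1, ih2⟩ := ih fun j hj => hl j (List.mem_cons_of_mem _ hj)
      have hi : i < mm := hl i List.mem_cons_self
      have hg : gS f u i₀ i (ps, hiD (1 + i) (l.foldr (stepI ps (gS f u i₀)) d)) =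
          sigG ps u i₀ d i := by
        generalize l.foldr (stepI ps (gS f u i₀)) d = κ at ih2
        unfold gS sigG
        rw [dif_pos hi]
        by_cases hc : (i₀ : ℕ) < i ∧ ∃ h : i < mm, u ⟨i, h⟩ = 1
        · rw [if_pos hc, if_pos ⟨by omega, hc.2.2⟩, getD_hiD (by omega), ih2,
            hf _ _ _ (hp.sublist (blk_sublist ps i))]
        · rw [if_neg hc, if_neg]
          rintro ⟨h1, h2⟩
          have h3 : (i₀ : ℕ) ≤ i := hmin ⟨i, hi⟩ h2
          exact hc ⟨by omega, hi, h2⟩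
      simp only [List.foldr_cons]
      refine ⟨by rw [← ih1, stepI, hg], ?_⟩
      rw [stepI, hg]
      have h0 := i₀.2
      by_cases hii : i = i₀
      · subst hii
        have : sigG ps u i₀ d i₀ = 1 := by simp [sigG]
        rw [this, tauI, update_of_ne (by omega), update_self, ih2, one_mul, Nat.mod_eq_of_lt hlt]
      · rw [tauI_other (by omega) (by omega), ih2]
  exact (key _ fun i hi => List.mem_range.1 hi).1

end chain

/-! ### the wires -/

/-- the digits in the big array of the digits in wire `r` -/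
def lift (H r : ℕ) (d : ℕ → ℕ) : ℕ → ℕ := update d 0 (r * H + d 0)

theorem vol_cons (c : ℕ) (s : List ℕ) (a b : ℕ) : vol (c :: s) (a + 1) (b + 1) = vol s a b := by
  simp [vol]

theorem ax_cons (c : ℕ) (s : List ℕ) (t : ℕ) : ax (c :: s) (t + 1) = ax s t := by simp [ax]

theorem dig_lift {W H r j : ℕ} {s : List ℕ} (hs : ∀ x ∈ s, 0 < x) (hr : r < W)
    (hj : j < (H :: s).prod) :
    dig ((W * H) :: s) (r * (H :: s).prod + j) = lift H r (dig (H :: s) j) := by
  have hP : 0 < s.prod := List.prod_pos hs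
  rw [List.prod_cons] at hj ⊢
  funext t
  cases t with
  | zero =>
    have h1 : j / s.prod < H := Nat.div_lt_of_lt_mul (by rwa [mul_comm])
    have h2 : r * H + j / s.prod < W * H := by nlinarith
    simp only [lift, update_self, dig, List.length_cons, vol_cons, vol_zero_length]
    have h3 : (r * (H * s.prod) + j) / s.prod = r * H + j / s.prod := by
      rw [← mul_assoc, add_comm, Nat.add_mul_div_right _ _ hP, add_comm]
    rw [h3]
    simp only [ax, List.getD_cons_zero]
    rw [Nat.mod_eq_of_lt h1, Nat.mod_eq_of_lt h2]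
  | succ t =>
    rw [lift, update_of_ne (Nat.succ_ne_zero t)]
    simp only [dig, List.length_cons, vol_cons, ax_cons]
    by_cases ht : t < s.length
    · have hV := vol_pos hs (t + 1) s.length
      rw [← vol_three ht]
      have h3 : r * (H * (vol s 0 t * ax s t * vol s (t + 1) s.length)) + j =
          j + (r * H * vol s 0 t * ax s t) * vol s (t + 1) s.length := by ring
      rw [h3, Nat.add_mul_div_right _ _ hV, Nat.add_mul_mod_self_right]
    · rw [ax_of_le (by omega), Nat.mod_one, Nat.mod_one]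

theorem valid_lift {W H r : ℕ} {s : List ℕ} (hr : r < W) {d : ℕ → ℕ} (hd : Valid (H :: s) d) :
    Valid ((W * H) :: s) (lift H r d) := by
  intro t
  cases t with
  | zero =>
    have := hd 0
    simp only [ax, List.getD_cons_zero] at this
    simp only [lift, update_self, ax, List.getD_cons_zero]
    nlinarith
  | succ t =>
    have := hd (t + 1)
    rw [ax_cons] at this ⊢
    rwa [lift, update_of_ne (Nat.succ_ne_zero t)]

theorem cten_lift {R : Type} [CommRing R] (I hf : R) (qs : List ℕ) {t t' : ℕ} (ht : t ≠ 0)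
    (ht' : t' ≠ 0) (H r : ℕ) {F G : (ℕ → ℕ) → R} (h : ∀ d, G (lift H r d) = F d) (d : ℕ → ℕ) :
    cten I hf qs t t' G (lift H r d) = cten I hf qs t t' F d := by
  refine foldr_cop_conj I hf (lift H r) qs (fun p => tauI qs.prod t t' (sgnc qs.prod p))
    (fun p => tauI qs.prod t t' (sgnc qs.prod p)) (fun p _ x => ?_) h d
  rw [lift, lift, tauI_update ht ht', tauI_other ht.symm ht'.symm]

theorem Phi_lift {R : Type} [CommRing R] (I hf : R) (ps : List ℕ) (H r : ℕ) (G : (ℕ → ℕ) → R)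
    (d : ℕ → ℕ) : Phi I hf ps G (lift H r d) = Phi I hf ps (fun κ => G (lift H r κ)) d := by
  unfold Phi
  generalize List.finRange mm = l
  induction l generalizing d with
  | nil => rfl
  | cons i l ih => exact cten_lift I hf _ (by omega) (by omega) H r ih d

theorem blocks_arr {B W H : ℕ} {s : List ℕ} (hs : ∀ x ∈ s, 0 < x) (G : (ℕ → ℕ) → RB B) :
    blocks W ((H :: s).prod * (2 * B)) (arr B ((W * H) :: s) G) =
      (List.range W).map fun r => arr B (H :: s) fun d => G (lift H r d) := by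
  have h : ((W * H) :: s).prod = W * (H :: s).prod := by simp [mul_assoc]
  rw [arr, h, blocks_emk]
  refine List.map_congr_left fun r hr => emk_congr fun j hj => ?_
  rw [dig_lift hs (List.mem_range.1 hr) hj]

theorem flatten_arr {B W H : ℕ} {s : List ℕ} (hs : ∀ x ∈ s, 0 < x) (G : (ℕ → ℕ) → RB B) :
    ((List.range W).map fun r => arr B (H :: s) fun d => G (lift H r d)).flatten =
      arr B ((W * H) :: s) G := by
  rw [← blocks_arr hs]
  refine flatten_blocks ?_
  rw [length_arr]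
  simp [mul_assoc]

theorem ofFn_eq_map {β : Type} (W : ℕ) (g : ℕ → β) :
    (List.ofFn fun w : Fin W => g w) = (List.range W).map g :=
  List.ext_getElem (by simp) (by simp)

/-! ### splitting and unsplitting -/

section top
variable {B H M L : ℕ} {ps : List ℕ}

/-- the input seen through the split shape -/
def inF (B : ℕ) (ps : List ℕ) (H M L : ℕ) (a : List Bool) : (ℕ → ℕ) → RB B :=
  fun d => eat B a (pos (s5 H ps.prod M [L]) (mrgI (blkN ps) d))

theorem rep_lift (hp : GoodP ps) {W r : ℕ} (hr : r < W) {a : List Bool}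
    (hz : GenZ B ps (s5 (W * H) ps.prod M [L]) 1 a) :
    Rep (fun x : XG ps H M L => inF B ps (W * H) M L a (lift H r x.1))
      (fun d => inF B ps (W * H) M L a (lift H r d)) := by
  refine ⟨fun _ => rfl, fun d hd hg => ?_⟩
  have hv : Valid (sD (W * H) (blkN ps) M [L]) (lift H r d) := valid_lift hr hd
  have hv' := mrgI_valid (blkN_coprime hp) (blkN_pos hp) hv
  rw [prod_blkN] at hv'
  refine hz _ hv' ?_
  simp only [GenI, not_and, not_forall, not_not] at hg
  obtain ⟨i, hi, p, hpm, hdv⟩ := hg hd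
  refine ⟨p, (blk_sublist ps i).subset hpm, (dvd_mrgI hp hi.le hpm).2 ?_⟩
  rwa [lift, update_of_ne (by omega)]

theorem split_arr (h2 : 2 ≤ B) (hp : GoodP ps) (hH : 0 < H) (hM : 0 < M) (hL : 0 < L)
    {a : List Bool} (ha : Canon B (s5 H ps.prod M [L]).prod a) :
    splitG H (blkN ps) M [L, 2 * B] a = arr B (sD H (blkN ps) M [L]) (inF B ps H M L a) := by
  have h := splitG_emk h2 hH hM hL (blkN_coprime hp) (blkN_pos hp) (eat B a)
  rw [prod_blkN, ← ha] at h
  exact h

theorem unsplit_arr (h2 : 2 ≤ B) (hp : GoodP ps) (hH : 0 < H) (hM : 0 < M) (hL : 0 < L)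
    (a : List Bool) :
    unsplitG H (blkN ps) M [L, 2 * B] (arr B (sD H (blkN ps) M [L])
      (cten (iB B) (hB B) (blk ps mm) (1 + mm) (2 * mm + 3)
        (Phi (iB B) (hB B) ps (inF B ps H M L a)))) = ctenA (B, ps, H, M, L, a) := by
  rw [arr, unsplitG_emk h2 hH hM hL (blkN_coprime hp) (blkN_pos hp), prod_blkN]
  refine emk_congr fun j _ => ?_
  have hs : ∀ x ∈ s5 H ps.prod M [L], 0 < x := by
    have := hp.prod_pos
    simp only [s5, List.mem_cons, List.not_mem_nil, or_false]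
    rintro x (rfl | rfl | rfl | rfl | rfl) <;> assumption
  have hv : Valid (s5 H (blkN ps).prod M [L]) (dig (s5 H ps.prod M [L]) j) := by
    rw [prod_blkN]; exact valid_dig hs j
  have hv' := splI_valid (blkN_coprime hp) (blkN_pos hp) hv
  rw [dig_pos hv']
  have h := cten_split (iB B) (hB B) hp (fun ι => eat B a (pos (s5 H ps.prod M [L]) ι)) hv'
  rw [mrgI_splI (blkN_coprime hp) (blkN_pos hp) hv] at h
  exact h.symm

end top

end Crest.Agent.R326.CT
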