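import Crest.Agent.R326.GadAux

/-! Row 326: the abstract gadget theorem. -/

set_option autoImplicit false

namespace Crest.Agent.R326

open Gad in
/-- the gadget on its natural type of wires -/
theorem Gad.core {𝕜 U G : Type} [CommRing 𝕜] [AddCommGroup U] [Module 𝕜 U] [Group G]
    (act : G →* Module.End 𝕜 U) (St Fr : Set G) (Sc : Set 𝕜) {T Z J : Type} [Fintype T] [Fintype Z]
    [Fintype J] [DecidableEq T] {za zb : Z → T} {h : ℕ} (hh : 2 ≤ h) (Γ : Geo G (Mv St Fr) T Z za zb h)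
    (C : Code 𝕜 Sc T Z J za zb) {I : Type} [Fintype I]
    (p : ((T × T) ⊕ (T × T)) ⊕ ((T × Z) ⊕ (T × Z)) ⊕ I → U) :
    ∃ n S', Up act St Fr Sc (Set.range p) n S' ∧ (∀ w, act Γ.full (p w) ∈ S') ∧
      n + Fintype.card T ^ 2 ≤ h * h * Fintype.card (((T × T) ⊕ (T × T)) ⊕ ((T × Z) ⊕ (T × Z)) ⊕ I) +
        2 * (Fintype.card T * Fintype.card J * h) := by
  have c1 : Co Sc (1 : 𝕜) := .inr (.inr rfl)
  have cm : Co Sc (-1 : 𝕜) := .inl C.neg_mem
  let S0 : Set U := insert 0 (Set.range p)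
  have e0 : Up act St Fr Sc (Set.range p) 0 S0 := ⟨0, le_rfl, (Ext.refl _).zero⟩
  have h0 : (0 : U) ∈ S0 := Set.mem_insert _ _
  have hp : ∀ w, Has act S0 1 (p w) := fun w => by
    simp only [Has, map_one, Module.End.one_apply]
    exact Set.mem_insert_of_mem _ ⟨_, rfl⟩
  let xt : T → T → U := fun a b => act (Γ.u a b)⁻¹ (p (.inl (.inl (a, b))))
  let yt : T → T → U := fun a b => p (.inl (.inr (a, b)))
  have hx : ∀ a b, act (Γ.u a b) (xt a b) = p (.inl (.inl (a, b))) := fun a b => by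
    simp only [xt]
    rw [← Module.End.mul_apply, ← map_mul, mul_inv_cancel, map_one, Module.End.one_apply]
  have hxt : ∀ a b, Has act S0 (Γ.u a b) (xt a b) := fun a b => by
    rw [Has, hx]
    exact Set.mem_insert_of_mem _ ⟨_, rfl⟩
  obtain ⟨S1, e1, kx1, ky1, kz1⟩ := fwd (act := act) (St := St) (Fr := Fr) (Γ := T) C
    (fun _ => 1) Γ.col (fun b a => Γ.u a b) (fun b a => Γ.cu a b)
    (h := h) (h1 := h - 1) (h2 := h - 2) (fun b a => by simpa using Γ.a1 a b)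
    (fun b a => Γ.a4 a b) (fun b => by simpa using Γ.a5 b) (fun b a => by simpa using Γ.a6 a b)
    (fun b ζ => Γ.a2 ζ b) (fun b a => Γ.a3 a b) h0
    (x := fun b a => xt a b) (y := fun b a => yt a b)
    (z := fun b ζ => p (.inr (.inl (.inl (b, ζ)))))
    (fun b a => hxt a b) (fun b a => hp _) (fun b ζ => hp _)
  obtain ⟨S2, e2, kx2⟩ := move (Sc := Sc) (ι := T × T) (fun i => Γ.ru i.1 i.2)
    (fun i => kx1 i.2 i.1) (fun i => Γ.m1 i.1 i.2)
  obtain ⟨S3, e3, ky2⟩ := move (Sc := Sc) (ι := T × T) (fun i => Γ.rw i.1)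
    (fun i => (ky1 i.2 i.1).up e2) (fun i => Γ.m2 i.1 i.2)
  obtain ⟨S4, e4, kz2⟩ := move (Sc := Sc) (ι := T × Z) (fun _ => Γ.full)
    (fun i => ((kz1 i.1 i.2).up e2).up e3) (fun i => Γ.m3 i.1)
  obtain ⟨S5, e5, kw2⟩ := move (Sc := Sc) (ι := T × Z) (fun i => Γ.rw i.1)
    (fun i => ((((hp (.inr (.inl (.inr i)))).up e1).up e2).up e3).up e4)
    (fun i => by simpa using Γ.m4 i.1)
  obtain ⟨S6, e6, ki⟩ := move (Sc := Sc) (ι := I) (fun _ => Γ.full)
    (fun i => (((((hp (.inr (.inr i))).up e1).up e2).up e3).up e4).up e5)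
    (fun i => by simpa using Γ.m5)
  obtain ⟨S7, e7, kx3, ky3, kw3⟩ := rev (act := act) (St := St) (Fr := Fr) (Γ := T) C
    Γ.rw (fun _ => Γ.full) Γ.ru Γ.fu (h := h) (h1 := h - 1) (h2 := h - 2) Γ.b1 Γ.b4 Γ.b5 Γ.b6 Γ.b2
    Γ.b3 (e6.sub (e5.sub (e4.sub (e3.sub (e2.sub (e1.sub h0))))))
    (x := xt) (y := fun a b => yt a b + xt a b) (z := fun a ζ => p (.inr (.inl (.inr (a, ζ)))))
    (fun a b => ((((kx2 (a, b)).up e3).up e4).up e5).up e6)
    (fun a b => (((ky2 (a, b)).up e4).up e5).up e6) (fun a ζ => (kw2 (a, ζ)).up e6)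
  obtain ⟨S8, e8, k8⟩ := move (Sc := Sc) (ι := T × T) (fun i => Γ.fu i.1 i.2) (r := 1)
    (fun i => kx3 i.1 i.2) (fun i => Γ.c1 i.1 i.2)
  obtain ⟨S9, e9, k9⟩ := lin1 (St := St) (Fr := Fr) (ι := T × T) 1 c1
    (fun i => (ky3 i.1 i.2).up e8) k8
  obtain ⟨S10, e10, k10⟩ := move (Sc := Sc) (fun i => Γ.full * Γ.u i.1 i.2) (r := 0) k9
    (fun i => Γ.c2 i.1 i.2)
  obtain ⟨S11, e11, k11⟩ := lin1 (St := St) (Fr := Fr) (ι := T × T) (-1) cm
    (fun i => has_zero (e10.sub (e9.sub (e8.sub (e7.sub (e6.sub (e5.sub (e4.sub (e3.sub (e2.sub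
      (e1.sub h0)))))))))) _) (fun i => (((kx3 i.1 i.2).up e8).up e9).up e10)
  refine ⟨_, S11, ((((((((((e0.trans e1).trans e2).trans e3).trans e4).trans e5).trans e6).trans
    e7).trans e8).trans e9).trans e10).trans e11, ?_, le_of_eq ?_⟩
  · rintro ((⟨a, b⟩ | ⟨a, b⟩) | (⟨b, ζ⟩ | ⟨a, ζ⟩) | i)
    · have := ((k10 (a, b)).up e11).congr (v' := xt a b) rfl (by simp)
      rwa [Has, map_mul, Module.End.mul_apply, hx] at this
    · exact (k11 (a, b)).congr rfl (by simp [yt])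
    · exact (((((((kz2 (b, ζ)).up e5).up e6).up e7).up e8).up e9).up e10).up e11
    · exact ((((kw3 a ζ).up e8).up e9).up e10).up e11
    · exact (((((ki i).up e7).up e8).up e9).up e10).up e11
  · obtain ⟨k, rfl⟩ := Nat.exists_eq_add_of_le' hh
    have a1 : k + 2 - 1 = k + 1 := rfl
    simp only [stageM, Fintype.card_prod, Fintype.card_sum, a1, Nat.add_sub_cancel]
    ring

theorem gadget_abs {𝕜 U G : Type} [CommRing 𝕜] [AddCommGroup U] [Module 𝕜 U] [Group G]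
    (act : G →* Module.End 𝕜 U) (St Fr : Set G) (Sc : Set 𝕜) {T Z J : Type} [Fintype T] [Fintype Z]
    [Fintype J] [DecidableEq T] {za zb : Z → T} {h : ℕ} (hh : 2 ≤ h) (Γ : Geo G (Mv St Fr) T Z za zb h)
    (C : Code 𝕜 Sc T Z J za zb) {W : ℕ}
    (hW : 2 * Fintype.card T ^ 2 + 2 * (Fintype.card T * Fintype.card Z) ≤ W) (p : Fin W → U) :
    ∃ n S', Ext act St Fr Sc (Set.range p) n S' ∧ (∀ w, act Γ.full (p w) ∈ S') ∧
      n + Fintype.card T ^ 2 ≤ h * h * W + 2 * (Fintype.card T * Fintype.card J * h) := by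
  obtain ⟨i, hi⟩ := Nat.exists_eq_add_of_le hW
  have hc : Fintype.card (((T × T) ⊕ (T × T)) ⊕ ((T × Z) ⊕ (T × Z)) ⊕ Fin i) = W := by
    simp only [Fintype.card_sum, Fintype.card_prod, Fintype.card_fin, hi]
    ring
  let e := Fintype.equivFinOfCardEq hc
  obtain ⟨n, S', ⟨m, hm, hE⟩, hS, hn⟩ := Gad.core act St Fr Sc hh Γ C (fun w => p (e w))
  rw [hc] at hn
  have hr : (Set.range fun w => p (e w)) = Set.range p := e.surjective.range_comp p
  rw [hr] at hE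
  exact ⟨m, S', hE, fun w => by simpa using hS (e.symm w), by omega⟩

theorem card_Tri : Fintype.card Tri = 161700 := by
  have h : Fintype.card Tri = Fintype.card {a : Finset (Fin 100) // a.card = 3} :=
    Fintype.card_congr (Equiv.refl _)
  rw [h, Fintype.card_finset_len, Fintype.card_fin]
  rw [Nat.choose_eq_descFactorial_div_factorial]
  rfl

theorem calls_num : calls = 90071992537409920000 := by
  have h : calls = mm * WW - 10 ^ 10 := rfl
  rw [h, mm_eq, WW_eq]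
  norm_num

theorem WW_num : WW = 9007199254740992 := by rw [WW_eq]; norm_num

/-- the gadget with the numbers of this row -/
theorem gadget {𝕜 U G : Type} [CommRing 𝕜] [AddCommGroup U] [Module 𝕜 U] [Group G]
    (act : G →* Module.End 𝕜 U) (St Fr : Set G) (Sc : Set 𝕜) {Z J : Type} [Fintype Z]
    [Fintype J] {za zb : Z → Tri} (Γ : Geo G (Mv St Fr) Tri Z za zb 100)
    (C : Code 𝕜 Sc Tri Z J za zb) (hZ : Fintype.card Z ≤ 161700 ^ 2) (hJ : Fintype.card J ≤ 101)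
    (p : Fin WW → U) :
    ∃ n S', Ext act St Fr Sc (Set.range p) n S' ∧ (∀ w, act Γ.full (p w) ∈ S') ∧ n ≤ calls := by
  obtain ⟨n, S', h1, h2, h3⟩ := gadget_abs act St Fr Sc (by norm_num) Γ C (W := WW)
    (by rw [card_Tri, WW_num]; norm_num at hZ ⊢; linarith) p
  refine ⟨n, S', h1, h2, ?_⟩
  have h4 : n + 161700 ^ 2 ≤ 100 * 100 * 9007199254740992 + 2 * (161700 * Fintype.card J * 100) := by
    rw [← WW_num, ← card_Tri]
    exact h3
  rw [calls_num]
  norm_num at h4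
  linarith

theorem θ_pos : 0 < θ := by unfold θ; norm_num
theorem θ_lt_one : θ < 1 := by unfold θ; norm_num

/-- the recursion contracts at exponent `θ` -/
theorem calls_contract : ∃ ε : ℝ, 0 < ε ∧ ∀ k : ℕ, mm ≤ k →
    ε * (k : ℝ) ^ θ + (calls : ℝ) / WW * ((k / mm : ℕ) : ℝ) ^ θ ≤ (k : ℝ) ^ θ := by
  have hm : (mm : ℝ) = 10000 := by rw [mm_eq]; norm_num
  have hc : (calls : ℝ) / WW = 10000 - 10 ^ 10 / 2 ^ 53 := by
    rw [calls_num, WW_num]
    norm_num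
  have hp : (0 : ℝ) < (10000 : ℝ) ^ θ := Real.rpow_pos_of_pos (by norm_num) _
  have hlt : (calls : ℝ) / WW < (10000 : ℝ) ^ θ := by
    have e : (10000 : ℝ) ^ θ = 10000 * Real.exp (-(Real.log 10000 / 2 ^ 60)) := by
      rw [θ, sub_eq_add_neg, Real.rpow_add (by norm_num), Real.rpow_one,
        Real.rpow_def_of_pos (by norm_num)]
      congr 2
      ring
    have l : Real.log 10000 ≤ 10000 := (Real.log_le_sub_one_of_pos (by norm_num)).trans (by norm_num)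
    have := Real.add_one_le_exp (-(Real.log 10000 / 2 ^ 60))
    rw [hc, e]
    have l' : Real.log 10000 / 2 ^ 60 ≤ 10000 / 2 ^ 60 := by gcongr
    have : (10000 : ℝ) - 10 ^ 10 / 2 ^ 53 < 10000 * (-(10000 / 2 ^ 60) + 1) := by norm_num
    linarith
  refine ⟨1 - (calls : ℝ) / WW / (10000 : ℝ) ^ θ, sub_pos.2 ((div_lt_one hp).2 hlt), fun k _ => ?_⟩
  have h1 : ((k / mm : ℕ) : ℝ) ^ θ ≤ (k : ℝ) ^ θ / (10000 : ℝ) ^ θ := by
    rw [← Real.div_rpow (Nat.cast_nonneg _) (by norm_num), ← hm]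
    exact Real.rpow_le_rpow (Nat.cast_nonneg _) Nat.cast_div_le θ_pos.le
  have h2 : (0 : ℝ) ≤ (calls : ℝ) / WW := div_nonneg (Nat.cast_nonneg _) (Nat.cast_nonneg _)
  have h3 := mul_le_mul_of_nonneg_left h1 h2
  have h4 : (calls : ℝ) / WW * ((k : ℝ) ^ θ / (10000 : ℝ) ^ θ) =
      (calls : ℝ) / WW / (10000 : ℝ) ^ θ * (k : ℝ) ^ θ := by ring
  linarith

end Crest.Agent.R326
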