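import Crest.Agent.R326.GadDefs
import Crest.Agent.R326.Prims

/-! Row 326: running a straight-line program of the gadget on the machine. -/

set_option autoImplicit false

namespace Crest.Agent.R326

/-- Values are families `u : U` indexed by the ghost `i`; `rep i u` is the array that holds `u` at
`i`, `ctx i` is a small parameter that every operation receives. -/
theorem slp_run {ι π 𝕜 U G : Type} [Enc π] [CommRing 𝕜] [AddCommGroup U] [Module 𝕜 U] [Group G]
    {act : G →* Module.End 𝕜 U} {St Fr : Set G} {Sc : Set 𝕜} {pre : World → ι → Prop}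
    {σ c : ι → ℝ} (ctx : ι → π) (rep : ι → U → List Bool) (len : ι → ℕ)
    (hlen : ∀ w i, pre w i → ∀ u, (rep i u).length ≤ len i)
    (hσ : Le pre (fun i => (sz (ctx i) : ℝ) + len i) σ) (hc : ∀ w i, pre w i → 0 ≤ c i)
    (hzero : Cf pre ctx (fun i => rep i 0) σ (fun _ => 0))
    (hadd : ∀ u v, Cf pre (fun i => (ctx i, rep i u, rep i v)) (fun i => rep i (u + v)) σ
      (fun _ => 0))
    (hsmul : ∀ a ∈ Sc, ∀ u, Cf pre (fun i => (ctx i, rep i u)) (fun i => rep i (a • u)) σ
      (fun _ => 0))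
    (hfree : ∀ g ∈ Fr, ∀ u, Cf pre (fun i => (ctx i, rep i u)) (fun i => rep i (act g u)) σ
      (fun _ => 0))
    (hstep : ∀ g ∈ St, ∀ u, Cf pre (fun i => (ctx i, rep i u)) (fun i => rep i (act g u)) σ c)
    {W W' n : ℕ} {p : Fin W → U} {o : Fin W' → U} {S' : Set U}
    (h : Ext act St Fr Sc (Set.range p) n S') (ho : ∀ w, o w ∈ S') :
    Cf pre (fun i => (ctx i, List.ofFn fun w => rep i (p w)))
      (fun i => List.ofFn fun w => rep i (o w)) σ (fun i => n * c i) := by
  have hrep : ∀ u, Le pre (fun i => (sz (rep i u) : ℝ)) σ := fun u => by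
    refine Le.trans (Le.of_le_mul 2 zero_le_two fun w i hi => ?_) hσ
    have h1 : ((rep i u).length : ℝ) ≤ len i := by exact_mod_cast hlen w i hi u
    have h2 : (1 : ℝ) ≤ sz (ctx i) := by exact_mod_cast sz_pos (ctx i)
    rw [sz_bits]
    push_cast
    linarith
  have hctx : Le pre (fun i => (sz (ctx i) : ℝ)) σ :=
    Le.trans (Le.of_le fun w i _ => le_add_of_nonneg_right (Nat.cast_nonneg _)) hσ
  have h1 : Le pre (fun _ => 1) σ := hctx.const_of_sz 1
  have hlist : ∀ vs : List U, Le pre (fun i => (sz (vs.map (rep i)) : ℝ)) σ := fun vs => by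
    induction vs with
    | nil => simpa using h1
    | cons u vs ih =>
      simp only [List.map_cons, sz_cons]
      push_cast
      exact ((hrep u).add ih).add h1
  have hs : ∀ vs : List U, Le pre (fun i => (sz (ctx i, vs.map (rep i)) : ℝ)) σ := fun vs => by
    simp only [sz_pair]
    push_cast
    exact (hctx.add (hlist vs)).add h1
  have fetch : ∀ (vs : List U) (u : U), u ∈ vs → ∃ g : π × List (List Bool) → List Bool,
      Lin g ∧ ∀ i, g (ctx i, vs.map (rep i)) = rep i u := fun vs u hu => by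
    obtain ⟨k, hk, rfl⟩ := List.mem_iff_getElem.1 hu
    refine ⟨fun x => x.2.getD k [], Lin.comp (Lin.getD_const k []) (Lin.snd Lin.id), fun i => ?_⟩
    simp [List.getD_eq_getElem?_getD, hk]
  have lin : ∀ (vs : List U) {β : Type} [Enc β] {g : π × List (List Bool) → β}, Lin g →
      Cf pre (fun i => (ctx i, vs.map (rep i))) (fun i => g (ctx i, vs.map (rep i))) σ
        (fun _ => 0) := fun vs _ _ _ hg => Cf.lin hg (Cf.id h1) (hs vs)
  have one : ∀ (vs : List U) (u : U), u ∈ vs →
      Cf pre (fun i => (ctx i, vs.map (rep i))) (fun i => (ctx i, rep i u)) σ (fun _ => 0) :=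
    fun vs u hu => by
      obtain ⟨g, hg, e⟩ := fetch vs u hu
      simpa only [e] using lin vs ((Lin.fst Lin.id).pair hg)
  have ext : ∀ (vs : List U) (u : U) (d : ι → ℝ),
      Cf pre (fun i => (ctx i, vs.map (rep i))) (fun i => rep i u) σ (fun i => 0 + d i) →
      Cf pre (fun i => (ctx i, vs.map (rep i))) (fun i => (ctx i, (u :: vs).map (rep i))) σ d :=
    fun vs u d hop => by
      have h2 := Cf.lin
        (g := fun x : List Bool × π × List (List Bool) => (x.2.1, x.1 :: x.2.2)) (by fun_prop)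
        (Cf.pair (hs vs) hop (Cf.id h1)) (by
          simp only [sz_pair]
          push_cast
          exact ((hrep u).add ((hctx.add (hlist vs)).add h1)).add h1)
      exact h2.mono (fun _ _ h => h) Le.refl fun _ _ _ => by simp
  have main : ∀ {S S' : Set U} {n : ℕ}, Ext act St Fr Sc S n S' → ∀ vs0 : List U,
      (∀ u ∈ S, u ∈ vs0) → ∃ vs : List U, (∀ u ∈ S', u ∈ vs) ∧
        Cf pre (fun i => (ctx i, vs0.map (rep i))) (fun i => (ctx i, vs.map (rep i))) σ
          (fun i => n * c i) := by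
    intro S S' n h vs0 h0
    have cov : ∀ {S' : Set U} {vs : List U} (u : U), (∀ v ∈ S', v ∈ vs) →
        ∀ v ∈ insert u S', v ∈ u :: vs := fun u hv v h => by
      rcases h with rfl | h
      · exact List.mem_cons_self
      · exact List.mem_cons_of_mem _ (hv v h)
    induction h with
    | refl => exact ⟨vs0, h0, (Cf.id h1).mono (fun _ _ h => h) Le.refl fun _ _ _ => by simp⟩
    | zero _ ih =>
      obtain ⟨vs, hv, hcf⟩ := ih
      exact ⟨_, cov _ hv, (hcf.comp (ext vs 0 _ ((lin vs (Lin.fst Lin.id)).comp hzero))).mono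
        (fun _ _ h => h) Le.refl fun _ _ _ => by simp⟩
    | @add _ _ u w _ hu hw ih =>
      obtain ⟨vs, hv, hcf⟩ := ih
      obtain ⟨g, hg, e⟩ := fetch vs u (hv u hu)
      obtain ⟨g', hg', e'⟩ := fetch vs w (hv w hw)
      have h2 := lin vs ((Lin.fst Lin.id).pair (hg.pair hg'))
      simp only [e, e'] at h2
      exact ⟨_, cov _ hv, (hcf.comp (ext vs _ _ (h2.comp (hadd u w)))).mono
        (fun _ _ h => h) Le.refl fun _ _ _ => by simp⟩
    | @smul _ _ u a _ ha hu ih =>
      obtain ⟨vs, hv, hcf⟩ := ih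
      exact ⟨_, cov _ hv, (hcf.comp (ext vs _ _ ((one vs u (hv u hu)).comp (hsmul a ha u)))).mono
        (fun _ _ h => h) Le.refl fun _ _ _ => by simp⟩
    | @step _ _ u g _ hg hu ih =>
      obtain ⟨vs, hv, hcf⟩ := ih
      exact ⟨_, cov _ hv, (hcf.comp (ext vs _ _ ((one vs u (hv u hu)).comp (hstep g hg u)))).mono
        (fun _ _ h => h) Le.refl fun _ _ _ => by push_cast; linarith⟩
    | @free _ _ u g _ hg hu ih =>
      obtain ⟨vs, hv, hcf⟩ := ih
      exact ⟨_, cov _ hv, (hcf.comp (ext vs _ _ ((one vs u (hv u hu)).comp (hfree g hg u)))).mono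
        (fun _ _ h => h) Le.refl fun _ _ _ => by simp⟩
  obtain ⟨vs, hv, hcf⟩ := main h (List.ofFn p) fun u hu => List.mem_ofFn' _ _ |>.2 hu
  choose g hg e using fun w => fetch vs (o w) (hv _ (ho w))
  have h2 := lin vs (Lin.ofFn hg)
  simp only [e] at h2
  simp only [List.map_ofFn, Function.comp_def] at hcf
  exact (hcf.comp h2).mono (fun _ _ h => h) Le.refl fun _ _ _ => by simp

end Crest.Agent.R326
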