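import Crest.Agent.R326.CtenBase
import Crest.Agent.R326.CtenAuxS
import Crest.Agent.R326.Gad
import Crest.Agent.R326.Slp

/-! Row 326: the fast tensor power of `cop`. -/

set_option autoImplicit false

namespace Crest.Agent.R326

/-- the logarithm of the largest modulus -/
def lam (ps : List ℕ) : ℕ := lg (ps.foldr max 0)

namespace CT

open Function Crest.Agent.R324

abbrev XT : Type := ℕ × List ℕ × ℕ × ℕ × ℕ × List Bool
abbrev PT : Type := ℕ × List ℕ × ℕ × ℕ × ℕ

/-- the domain of the recursion -/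
def DC (x : XT) : Prop := OkC x ∧ WW ^ Nat.log mm x.2.1.length ∣ x.2.2.1 ∧
  GenZ x.1 x.2.1 (s5 x.2.2.1 x.2.1.prod x.2.2.2.1 [x.2.2.2.2.1]) 1 x.2.2.2.2.2

/-- the time bound -/
noncomputable def tauC (x : XT) : ℝ :=
  (x.2.2.2.2.2.length : ℝ) * lam x.2.1 * ((max x.2.1.length 1 : ℕ) : ℝ) ^ θ

def muC (x : XT) : ℕ := x.2.1.length

/-! ### bounds -/

theorem one_le_lam (ps : List ℕ) : 1 ≤ lam ps := one_le_lg _

theorem le_foldr_max {ps : List ℕ} {p : ℕ} (h : p ∈ ps) : p ≤ ps.foldr max 0 := by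
  induction ps with
  | nil => simp at h
  | cons q ps ih =>
    rcases List.mem_cons.1 h with rfl | h
    · exact le_max_left _ _
    · exact (ih h).trans (le_max_right _ _)

theorem foldr_max_le {ps : List ℕ} {m : ℕ} (h : ∀ p ∈ ps, p ≤ m) : ps.foldr max 0 ≤ m := by
  induction ps with
  | nil => exact Nat.zero_le _
  | cons q ps ih =>
    exact max_le (h q List.mem_cons_self) (ih fun p hp => h p (List.mem_cons_of_mem _ hp))

theorem lam_mono {qs ps : List ℕ} (h : qs.Sublist ps) : lam qs ≤ lam ps :=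
  lg_mono (foldr_max_le fun _ hp => le_foldr_max (h.subset hp))

theorem lg_prod_le (ps : List ℕ) : lg ps.prod ≤ 3 * (lam ps * max ps.length 1) := by
  have h1 : ps.prod ≤ ps.foldr max 0 ^ ps.length :=
    List.prod_le_pow_card ps _ fun _ hp => le_foldr_max hp
  have h2 := (lg_mono h1).trans (lg_pow_le _ _)
  have h3 := one_le_lam ps
  have h4 : ps.length ≤ max ps.length 1 := le_max_left _ _
  have h5 : 1 ≤ max ps.length 1 := le_max_right _ _
  unfold lam at *
  nlinarith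

theorem one_le_rpow_max (k : ℕ) : (1 : ℝ) ≤ ((max k 1 : ℕ) : ℝ) ^ θ :=
  Real.one_le_rpow (by exact_mod_cast le_max_right _ _) θ_pos.le

theorem rpow_le_self' {x : ℝ} (h : 1 ≤ x) : x ^ θ ≤ x :=
  Real.rpow_le_self_of_one_le h θ_lt_one.le

theorem lg_rpow_le {N : ℕ} {ps : List ℕ} (h : N ≤ ps.prod) :
    (lg N : ℝ) ^ θ ≤ 3 * (lam ps * ((max ps.length 1 : ℕ) : ℝ) ^ θ) := by
  have h1 : (lg N : ℝ) ≤ 3 * (lam ps * ((max ps.length 1 : ℕ) : ℝ)) := by
    exact_mod_cast (lg_mono h).trans (lg_prod_le ps)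
  have h2 : (1 : ℝ) ≤ lam ps := by exact_mod_cast one_le_lam ps
  have h3 := one_le_rpow_max ps.length
  calc (lg N : ℝ) ^ θ ≤ (3 * (lam ps * ((max ps.length 1 : ℕ) : ℝ))) ^ θ :=
        Real.rpow_le_rpow (Nat.cast_nonneg _) h1 θ_pos.le
    _ = (3 : ℝ) ^ θ * ((lam ps : ℝ) ^ θ * ((max ps.length 1 : ℕ) : ℝ) ^ θ) := by
        rw [Real.mul_rpow (by norm_num) (by positivity),
          Real.mul_rpow (by positivity) (by positivity)]
    _ ≤ 3 * (lam ps * ((max ps.length 1 : ℕ) : ℝ) ^ θ) := by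
        gcongr
        · exact rpow_le_self' (by norm_num)
        · exact rpow_le_self' h2

theorem len_le_tauC (x : XT) : (x.2.2.2.2.2.length : ℝ) ≤ tauC x := by
  have h2 : (1 : ℝ) ≤ lam x.2.1 := by exact_mod_cast one_le_lam x.2.1
  have h3 := one_le_rpow_max x.2.1.length
  unfold tauC
  rw [mul_assoc]
  exact le_mul_of_one_le_right (Nat.cast_nonneg _) (one_le_mul_of_one_le_of_one_le h2 h3)

theorem mul_lg_le (x : XT) {m N : ℕ} (hm : m ≤ x.2.2.2.2.2.length) (hN : N ≤ x.2.1.prod) :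
    (m : ℝ) * (lg N : ℝ) ^ θ ≤ 3 * tauC x := by
  have h1 := lg_rpow_le hN
  have h2 : (m : ℝ) ≤ x.2.2.2.2.2.length := by exact_mod_cast hm
  calc (m : ℝ) * (lg N : ℝ) ^ θ
      ≤ x.2.2.2.2.2.length * (3 * (lam x.2.1 * ((max x.2.1.length 1 : ℕ) : ℝ) ^ θ)) := by gcongr
    _ = 3 * tauC x := by unfold tauC; ring

theorem prod_s5 (H N M L : ℕ) : (s5 H N M [L]).prod = H * N * M * N * L := by
  simp [s5, mul_assoc]

theorem canon_len {B n : ℕ} {a : List Bool} (h : Canon B n a) : a.length = n * (2 * B) := by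
  rw [h, length_emk]

theorem small_le {B H N M L m : ℕ} (hB : 0 < B) (hH : 0 < H) (hN : 0 < N) (hM : 0 < M)
    (hL : 0 < L) (hm : m = H * N * M * N * L * (2 * B)) :
    B ≤ m ∧ H ≤ m ∧ N ≤ m ∧ M ≤ m ∧ L ≤ m := by
  have h0 : 0 < m := by rw [hm]; positivity
  refine ⟨Nat.le_of_dvd h0 ⟨H * N * M * N * L * 2, ?_⟩,
    Nat.le_of_dvd h0 ⟨N * M * N * L * (2 * B), ?_⟩,
    Nat.le_of_dvd h0 ⟨H * M * N * L * (2 * B), ?_⟩,
    Nat.le_of_dvd h0 ⟨H * N * N * L * (2 * B), ?_⟩,
    Nat.le_of_dvd h0 ⟨H * N * M * N * (2 * B), ?_⟩⟩ <;> rw [hm] <;> ring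

theorem sz_par_le {B H M L m : ℕ} {ps : List ℕ} (hp : GoodP ps) (hB : B ≤ m) (hH : H ≤ m)
    (hN : ps.prod ≤ m) (hM : M ≤ m) (hL : L ≤ m) : sz ((B, ps, H, M, L) : PT) ≤ 18 * lg m ^ 1 := by
  have h1 := sz_nat_le_lg hB
  have h2 := sz_nat_le_lg hH
  have h3 := sz_nat_le_lg hM
  have h4 := sz_nat_le_lg hL
  have h5 := hp.sz_le
  have h6 := lg_mono hN
  have h7 := one_le_lg m
  simp only [sz_pair, pow_one]
  omega

/-- the small part of the input -/
def small (x : XT) : PT := (x.1, x.2.1, x.2.2.1, x.2.2.2.1, x.2.2.2.2.1)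

theorem okC_small {x : XT} (h : OkC x) :
    sz (small x) ≤ 18 * lg x.2.2.2.2.2.length ^ 1 ∧ Ex x.2.2.2.2.2.length ≤ x.2.2.2.2.2.length ∧
      1 ≤ x.2.2.2.2.2.length := by
  obtain ⟨hB, hp, hH, hM, hL, hc, he⟩ := h
  have hl := canon_len hc
  rw [prod_s5] at hl
  obtain ⟨h1, h2, h3, h4, h5⟩ := small_le (by omega) hH hp.prod_pos hM hL hl
  exact ⟨sz_par_le hp h1 h2 h3 h4 h5, ((Nat.le_self_pow two_ne_zero _).trans he).trans h1,
    by omega⟩

theorem le_sz_x {ι : Type} {pre : World → ι → Prop} (x : ι → XT) (h : ∀ w i, pre w i → OkC (x i)) :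
    Le pre (fun i => (sz (x i) : ℝ)) (fun i => tauC (x i)) := by
  have h1 : Le pre (fun i => (sz (small (x i)) : ℝ)) (fun i => tauC (x i)) :=
    Ax.le_sz 18 1 (fun w i hi => (okC_small (h w i hi)).1) fun w i hi =>
      le_trans (by exact_mod_cast (okC_small (h w i hi)).2.1) (len_le_tauC _)
  have h2 : Le pre (fun i => ((x i).2.2.2.2.2.length : ℝ)) (fun i => tauC (x i)) :=
    Le.of_le fun _ i _ => len_le_tauC _
  refine Le.trans (Le.of_le fun w i _ => ?_) (h1.add ((h2.const_mul 2 zero_le_two).add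
    (h1.const_of_sz 2)))
  have : sz (x i) = sz (small (x i)) + (2 * (x i).2.2.2.2.2.length + 2) := by
    obtain ⟨B, ps, H, M, L, a⟩ := x i
    simp only [small, sz_pair, sz_bits]
    omega
  rw [this]
  push_cast
  exact le_rfl

/-! ### the five-axis routine on two axes of a shape -/

def five (B : ℕ) (qs s : List ℕ) (t t' : ℕ) (a : List Bool) : XT :=
  (B, qs, vol s 0 t, vol s (t + 1) t', vol s (t' + 1) s.length, a)

section five
variable {B : ℕ} {qs s : List ℕ} {t t' : ℕ} (h2 : 2 ≤ B) (hq : GoodP qs) (hs : ∀ x ∈ s, 0 < x)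
  (htt : t < t') (ht : t' < s.length) (h1 : ax s t = qs.prod) (h1' : ax s t' = qs.prod)
  (F : (ℕ → ℕ) → RB B)
include h2 hq hs htt ht h1 h1'

theorem okC_five (he : Ex (s.prod * (2 * B)) ^ 2 ≤ B) : OkC (five B qs s t t' (arr B s F)) := by
  refine ⟨h2, hq, vol_pos hs _ _, vol_pos hs _ _, vol_pos hs _ _, ?_, ?_⟩
  · have h := vol_five htt ht
    rw [h1, h1'] at h
    change Canon B (s5 (vol s 0 t) qs.prod (vol s (t + 1) t') [vol s (t' + 1) s.length]).prod _
    rw [prod_s5, h]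
    exact canon_arr h2 F
  · change Ex (arr B s F).length ^ 2 ≤ B
    rwa [length_arr]

theorem ctenA_five :
    ctenA (five B qs s t t' (arr B s F)) = arr B s (cten (iB B) (hB B) qs t t' F) := by
  rw [← ctenS_arr h2 hs hq.prod_pos h1 h1', ctenS_five hs htt ht h1 h1']
  rfl

end five

/-! ### one recursion level -/

/-- the inputs of a recursion level -/
structure IC where
  B : ℕ
  ps : List ℕ
  H : ℕ
  M : ℕ
  L : ℕ
  a : List Bool
  hD : DC (B, ps, WW * H, M, L, a)
  hk : mm ≤ ps.length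

namespace IC
variable (i : IC)

def x : XT := (i.B, i.ps, WW * i.H, i.M, i.L, i.a)
def par : PT := (i.B, i.ps, i.H, i.M, i.L)
/-- the shape of a wire -/
def sh : List ℕ := sD i.H (blkN i.ps) i.M [i.L]
/-- the shape of the whole array -/
def big : List ℕ := sD (WW * i.H) (blkN i.ps) i.M [i.L]
def wl : ℕ := i.sh.prod * (2 * i.B)
noncomputable def sig : ℝ := tauC i.x
/-- the cost of a recursive call -/
noncomputable def cc : ℝ := (i.wl : ℝ) * lam i.ps * ((i.ps.length / mm : ℕ) : ℝ) ^ θ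

theorem h2 : 2 ≤ i.B := i.hD.1.1
theorem hp : GoodP i.ps := i.hD.1.2.1
theorem hWH : 0 < WW * i.H := i.hD.1.2.2.1
theorem hH : 0 < i.H := Nat.pos_of_mul_pos_left i.hWH
theorem hM : 0 < i.M := i.hD.1.2.2.2.1
theorem hL : 0 < i.L := i.hD.1.2.2.2.2.1
theorem hcan : Canon i.B (s5 (WW * i.H) i.ps.prod i.M [i.L]).prod i.a := i.hD.1.2.2.2.2.2.1
theorem hEx : Ex i.a.length ^ 2 ≤ i.B := i.hD.1.2.2.2.2.2.2
theorem hgz : GenZ i.B i.ps (s5 (WW * i.H) i.ps.prod i.M [i.L]) 1 i.a := i.hD.2.2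
theorem sh_pos : ∀ y ∈ i.sh, 0 < y := pos_sD i.hp i.hH i.hM (by simpa using i.hL)
theorem big_pos : ∀ y ∈ i.big, 0 < y := pos_sD i.hp i.hWH i.hM (by simpa using i.hL)
theorem sh_len : i.sh.length = 2 * mm + 5 := len_sD _
theorem big_len : i.big.length = 2 * mm + 5 := len_sD _
theorem wl_eq : i.wl = i.H * i.ps.prod * i.M * i.ps.prod * i.L * (2 * i.B) := by
  rw [wl, sh, prod_sD, prod_blkN, prod_s5]
theorem len_big : i.big.prod * (2 * i.B) = i.a.length := by
  rw [canon_len i.hcan, big, prod_sD, prod_blkN]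
theorem len_eq : i.a.length = WW * i.wl := by
  rw [canon_len i.hcan, wl_eq, prod_s5]; ring
theorem wl_le : i.wl ≤ i.a.length := by
  rw [len_eq]; exact Nat.le_mul_of_pos_left _ (Nat.pos_of_mul_pos_right i.hWH)
theorem small_wl : i.B ≤ i.wl ∧ i.H ≤ i.wl ∧ i.ps.prod ≤ i.wl ∧ i.M ≤ i.wl ∧ i.L ≤ i.wl :=
  small_le (by have := i.h2; omega) i.hH i.hp.prod_pos i.hM i.hL i.wl_eq
theorem sz_par : sz i.par ≤ 18 * lg i.wl ^ 1 := by
  obtain ⟨h1, h2, h3, h4, h5⟩ := i.small_wl
  exact sz_par_le i.hp h1 h2 h3 h4 h5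
theorem hEx' : Ex i.wl ^ 2 ≤ i.B := (Nat.pow_le_pow_left (Ex_mono i.wl_le) 2).trans i.hEx
theorem len_le : (i.a.length : ℝ) ≤ i.sig := len_le_tauC i.x
theorem wl_le' : (i.wl : ℝ) ≤ i.sig := le_trans (by exact_mod_cast i.wl_le) i.len_le
theorem one_le : (1 : ℝ) ≤ i.sig := by
  refine le_trans ?_ i.wl_le'
  have := i.small_wl.1
  have := i.h2
  exact_mod_cast (by omega : 1 ≤ i.wl)
theorem ex_le : (Ex i.wl : ℝ) ≤ i.sig :=
  le_trans (by exact_mod_cast ((Nat.le_self_pow two_ne_zero _).trans i.hEx').trans i.small_wl.1)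
    i.wl_le'
theorem hdiv : WW ^ Nat.log mm (i.ps.length / mm) ∣ i.H := by
  have h : WW ^ Nat.log mm i.ps.length ∣ WW * i.H := i.hD.2.1
  rw [Nat.log_of_one_lt_of_le (by rw [mm_eq]; norm_num) i.hk, pow_succ'] at h
  exact Nat.dvd_of_mul_dvd_mul_left (Nat.pos_of_mul_pos_right i.hWH) h
theorem blk_le (t : ℕ) : (blk i.ps t).prod ≤ i.ps.prod :=
  Nat.le_of_dvd i.hp.prod_pos (blk_sublist i.ps t).prod_dvd_prod
theorem hb (t : ℕ) : GoodP (blk i.ps t) := i.hp.sublist (blk_sublist i.ps t)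
theorem okE (F : (ℕ → ℕ) → RB i.B) : OkE i.B i.sh.prod (arr i.B i.sh F) :=
  ⟨i.h2, List.prod_pos i.sh_pos, length_arr F⟩
theorem cc_nonneg : 0 ≤ i.cc := by unfold cc; positivity

end IC

section machine
variable {α : Type} [Enc α] {pre : World → IC → Prop} {inp : IC → α}

theorem le_one : Le pre (fun _ => 1) IC.sig := Le.of_le fun _ i _ => i.one_le
theorem le_wl : Le pre (fun i => (i.wl : ℝ)) IC.sig := Le.of_le fun _ i _ => i.wl_le'
theorem le_len : Le pre (fun i => (i.a.length : ℝ)) IC.sig := Le.of_le fun _ i _ => i.len_le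
theorem le_par : Le pre (fun i => (sz i.par : ℝ)) IC.sig :=
  Ax.le_sz 18 1 (fun _ i _ => i.sz_par) fun _ i _ => i.ex_le

theorem le_bits {a : IC → List Bool} (h : ∀ i, (a i).length ≤ i.a.length) :
    Le pre (fun i => (sz (a i) : ℝ)) IC.sig := by
  refine Le.trans (Le.of_le fun w i _ => ?_) ((le_len.const_mul 2 zero_le_two).add le_one)
  have : ((a i).length : ℝ) ≤ i.a.length := by exact_mod_cast h i
  rw [sz_bits]
  push_cast
  linarith

theorem le_arr (F : (i : IC) → (ℕ → ℕ) → RB i.B) :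
    Le pre (fun i => (sz (arr i.B i.sh (F i)) : ℝ)) IC.sig :=
  le_bits fun i => by rw [length_arr]; exact i.wl_le

theorem le_arr_big (F : (i : IC) → (ℕ → ℕ) → RB i.B) :
    Le pre (fun i => (sz (arr i.B i.big (F i)) : ℝ)) IC.sig :=
  le_bits fun i => by rw [length_arr, i.len_big]

theorem l0_small {β : Type} [Enc β] {g : PT → β} (hg : Poly g) (h : L0 pre inp IC.sig IC.par) :
    L0 pre inp IC.sig (fun i => g i.par) :=
  L0.poly hg h (Ax.le_pow 18 1 (fun _ i _ => i.sz_par) fun _ i _ => i.ex_le)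

theorem poly_sD {β : Type} [Enc β] {H M : β → ℕ} {ps tl : β → List ℕ} (hH : Poly H)
    (hps : Poly ps) (hM : Poly M) (htl : Poly tl) :
    Poly fun b => sD (H b) (blkN (ps b)) (M b) (tl b) :=
  Poly.cons hH (Poly.append (poly_blkN.comp hps)
    (Poly.cons hM (Poly.append (poly_blkN.comp hps) htl)))

/-- the shapes as functions of the small parameters -/
def shP (p : PT) : List ℕ := sD p.2.2.1 (blkN p.2.1) p.2.2.2.1 [p.2.2.2.2]
def bigP (p : PT) : List ℕ := sD (WW * p.2.2.1) (blkN p.2.1) p.2.2.2.1 [p.2.2.2.2]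

theorem poly_shP : Poly shP := poly_sD (by fun_prop) (by fun_prop) (by fun_prop) (by fun_prop)
theorem poly_bigP : Poly bigP := poly_sD (by fun_prop) (by fun_prop) (by fun_prop) (by fun_prop)

theorem sD_append (H M : ℕ) (Ns tl tl' : List ℕ) : sD H Ns M tl ++ tl' = sD H Ns M (tl ++ tl') := by
  simp [sD]

theorem vol_last {s : List ℕ} (hs : ∀ x ∈ s, 0 < x) (c : ℕ) {t : ℕ} (ht : t ≤ s.length) :
    c ≤ vol (s ++ [c]) t (s.length + 1) := by
  rw [vol_succ_right _ ht]
  have h1 : ax (s ++ [c]) s.length = c := by simp [ax]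
  have h2 : vol (s ++ [c]) t s.length = vol s t s.length := by simp [vol]
  rw [h1, h2]
  exact Nat.le_mul_of_pos_left _ (vol_pos hs _ _)

theorem l0_mulc {g : List ℕ × List ℕ → ℕ} (hg : Poly g) {t : ℕ} (ht : t < mm)
    (hsq : ∀ ps ds, GoodP ps → g (ps, ds) * g (ps, ds) ≡ 1 [MOD (blk ps t).prod])
    (hc : L0 pre inp IC.sig IC.par) {F : (i : IC) → (ℕ → ℕ) → RB i.B}
    (ha : L0 pre inp IC.sig fun i => arr i.B i.sh (F i)) :
    L0 pre inp IC.sig fun i => arr i.B i.sh fun d =>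
      F i (tauI (blk i.ps t).prod (1 + t) (mm + 3 + t) (g (i.ps, hiD (1 + t) d)) d) := by
  have harg : L0 pre inp IC.sig fun i => (i.ps, i.sh ++ [2 * i.B], arr i.B i.sh (F i)) :=
    (l0_small (g := fun p => p.2.1) (by fun_prop) hc).pair
      ((l0_small (g := fun p => shP p ++ [2 * p.1])
        (Poly.append poly_shP (by fun_prop)) hc).pair ha)
  have hy : ∀ i : IC, ax (i.sh ++ [2 * i.B]) (1 + t) = (blk i.ps t).prod := fun i => by
    rw [IC.sh, sD_append, ax_y _ ht.le]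
  have hx : ∀ i : IC, ax (i.sh ++ [2 * i.B]) (mm + 3 + t) = (blk i.ps t).prod := fun i => by
    rw [IC.sh, sD_append, ax_x _ ht.le]
  refine (L0.sub (sub_mulcS hg (2 * mm + 6) (1 + t) (mm + 3 + t) 6 1 (by omega) (by omega)) harg
    (fun w i _ => ⟨⟨?_, ?_, ?_⟩, ?_, ?_, ?_, ?_⟩) ?_).congr fun w i _ => ?_
  · simp [i.sh_len]
  · intro y hy
    rcases List.mem_append.1 hy with hy | hy
    · exact i.sh_pos y hy
    · have := i.h2
      rw [List.mem_singleton.1 hy]; omega
  · simp [length_arr]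
  · exact (hy i).trans (hx i).symm
  · have h1 := vol_last i.sh_pos (2 * i.B) (t := mm + 3 + t + 1) (by rw [i.sh_len]; omega)
    rw [i.sh_len] at h1
    have h2 := i.hEx'
    change Ex (arr i.B i.sh (F i)).length ^ 2 ≤ vol (i.sh ++ [2 * i.B]) (mm + 3 + t + 1) (2 * mm + 6)
    rw [length_arr]
    exact h2.trans ((Nat.le_mul_of_pos_left _ two_pos).trans h1)
  · change sz i.ps ≤ 6 * lg (arr i.B i.sh (F i)).length ^ 1
    rw [length_arr, pow_one]
    exact i.hp.sz_le.trans (Nat.mul_le_mul_left _ (lg_mono i.small_wl.2.2.1))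
  · intro ι _
    change _ ≡ _ [MOD ax (i.sh ++ [2 * i.B]) (1 + t)]
    rw [hy]
    exact hsq _ _ i.hp
  · refine Le.of_le_mul 3 (by norm_num) fun w i _ => mul_lg_le i.x ?_ ?_
    · change (arr i.B i.sh (F i)).length ≤ i.a.length
      rw [length_arr]; exact i.wl_le
    · change ax (i.sh ++ [2 * i.B]) (1 + t) ≤ i.ps.prod
      rw [hy]; exact i.blk_le t
  · change _ = gathS (i.sh ++ [2 * i.B]) (fun ι => tauI (ax (i.sh ++ [2 * i.B]) (1 + t)) (1 + t)
      (mm + 3 + t) (g (i.ps, hiD (1 + t) ι)) ι) (arr i.B i.sh (F i))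
    rw [hy, gathS_arr i.h2 i.sh_pos]
    · exact fun ι hι => valid_tauI (i.hb t).prod_pos (ax_y _ ht.le) (ax_x _ ht.le) _ hι
    · intro ι y _
      rw [hiD_update (by rw [i.sh_len]; omega),
        tauI_update (by rw [i.sh_len]; omega) (by rw [i.sh_len]; omega)]

theorem l0_chain {g : ℕ → List ℕ × List ℕ → ℕ} (hg : ∀ t, Poly (g t))
    (hsq : ∀ t < mm, ∀ ps ds, GoodP ps → g t (ps, ds) * g t (ps, ds) ≡ 1 [MOD (blk ps t).prod])
    (hc : L0 pre inp IC.sig IC.par) (l : List ℕ) (hl : ∀ t ∈ l, t < mm)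
    {F : (i : IC) → (ℕ → ℕ) → RB i.B} (ha : L0 pre inp IC.sig fun i => arr i.B i.sh (F i)) :
    L0 pre inp IC.sig fun i => arr i.B i.sh fun d => F i (l.foldr (stepI i.ps g) d) := by
  induction l generalizing F with
  | nil => exact ha
  | cons t l ih =>
    have ht := hl t List.mem_cons_self
    exact ih (fun t' h => hl t' (List.mem_cons_of_mem _ h))
      (F := fun i d => F i (stepI i.ps g t d)) (l0_mulc (hg t) ht (hsq t ht) hc ha)

theorem l0_free (u : Fin mm → ZMod 2) (hc : L0 pre inp IC.sig IC.par)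
    {F : (i : IC) → (ℕ → ℕ) → RB i.B} (ha : L0 pre inp IC.sig fun i => arr i.B i.sh (F i)) :
    L0 pre inp IC.sig fun i => arr i.B i.sh fun d =>
      F i (mulI (blkN i.ps) (gam i.ps fun _ => u) d) := by
  refine (l0_chain (g := gF u) (fun t => ?_) (fun t ht ps ds hp => ?_) hc _
    (fun t h => List.mem_range.1 h) ha).congr fun w i _ =>
      arr_congr i.sh_pos fun d hd => by rw [chain_free i.hp u hd]
  · unfold gF
    split_ifs
    · exact Poly.sub (Poly.prod ((poly_blk t).comp (Poly.fst Poly.id))) (Poly.const 1)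
    · exact Poly.const 1
    · exact Poly.const 1
  · unfold gF
    rw [dif_pos ht]
    split_ifs
    · obtain ⟨n, hn⟩ : ∃ n, (blk ps t).prod = n + 1 :=
        ⟨_, (Nat.succ_pred_eq_of_pos (hp.sublist (blk_sublist ps t)).prod_pos).symm⟩
      simp only [hn, Nat.add_sub_cancel]
      refine (Nat.modEq_iff_dvd.2 ⟨1 - n, ?_⟩)
      push_cast; ring
    · rfl

theorem l0_sig {u : Fin mm → ZMod 2} {i₀ : Fin mm} (hmin : ∀ i : Fin mm, u i = 1 → i₀ ≤ i)
    (hc : L0 pre inp IC.sig IC.par) {F : (i : IC) → (ℕ → ℕ) → RB i.B}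
    (ha : L0 pre inp IC.sig fun i => arr i.B i.sh (F i)) :
    L0 pre inp IC.sig fun i => arr i.B i.sh fun d => F i (sigI i.ps u i₀ d) := by
  obtain ⟨f, hf, hf'⟩ := exists_poly_sgnMul
  refine (l0_chain (g := gS f u i₀) (fun t => ?_) (fun t ht ps ds hp => ?_) hc _
    (fun t h => List.mem_range.1 h) ha).congr fun w i _ =>
      arr_congr i.sh_pos fun d hd => by rw [chain_sig i.hp hf' hmin hd]
  · unfold gS
    split_ifs
    · exact hf.comp (((poly_blk i₀).comp (Poly.fst Poly.id)).pair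
        (((poly_blk t).comp (Poly.fst Poly.id)).pair
          (Poly.getD (Poly.const _) (Poly.snd Poly.id) (Poly.const 0))))
    · exact Poly.const 1
  · unfold gS
    split_ifs
    · rw [hf' _ _ _ (hp.sublist (blk_sublist ps t))]
      exact sgnMul_sq (hp.sublist (blk_sublist ps t)) _ _
    · rfl

theorem l0_five {qs s : PT → List ℕ} (hq : Poly qs) (hs : Poly s) (t t' : ℕ)
    (hc : L0 pre inp IC.sig IC.par) {a : IC → List Bool} (ha : L0 pre inp IC.sig a) :
    L0 pre inp IC.sig fun i => five i.B (qs i.par) (s i.par) t t' (a i) :=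
  (l0_small (g := fun p => p.1) (by fun_prop) hc).pair ((l0_small hq hc).pair
    ((l0_small (g := fun p => vol (s p) 0 t) (by fun_prop) hc).pair
      ((l0_small (g := fun p => vol (s p) (t + 1) t') (by fun_prop) hc).pair
        ((l0_small (g := fun p => vol (s p) (t' + 1) (s p).length) (by fun_prop) hc).pair ha))))

theorem l0_zero (hc : L0 pre inp IC.sig IC.par) :
    L0 pre inp IC.sig fun i => arr i.B i.sh fun _ => 0 := by
  have h1 : L0 pre inp IC.sig fun i => (i.wl, false) :=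
    (l0_small (g := fun p => (shP p).prod * (2 * p.1))
      (Poly.mul (Poly.prod poly_shP) (by fun_prop)) hc).pair (L0.const hc.1 false)
  refine (L0.sub sub_replicate h1 (fun _ _ _ => trivial) ?_).congr fun w i _ => emk_zero _ _
  refine Le.trans (Le.of_le fun w i _ => ?_) ((le_wl.add le_one).const_mul 2 zero_le_two)
  simp only [sz_bool]
  push_cast
  linarith

theorem l0_BN (hc : L0 pre inp IC.sig IC.par) {β : Type} [Enc β] {a : IC → β}
    (ha : L0 pre inp IC.sig a) : L0 pre inp IC.sig fun i => (i.B, i.sh.prod, a i) :=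
  (l0_small (g := fun p => p.1) (by fun_prop) hc).pair
    ((l0_small (g := fun p => (shP p).prod) (Poly.prod poly_shP) hc).pair ha)

theorem le_arr_len (F : (i : IC) → (ℕ → ℕ) → RB i.B) :
    Le pre (fun i => ((arr i.B i.sh (F i)).length : ℝ)) IC.sig :=
  Le.of_le fun _ i _ => by rw [length_arr]; exact i.wl_le'

theorem l0_add (hc : L0 pre inp IC.sig IC.par) {F G : (i : IC) → (ℕ → ℕ) → RB i.B}
    (ha : L0 pre inp IC.sig fun i => arr i.B i.sh (F i))
    (hb : L0 pre inp IC.sig fun i => arr i.B i.sh (G i)) :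
    L0 pre inp IC.sig fun i => arr i.B i.sh fun d => F i d + G i d :=
  (L0.sub sub_addE (l0_BN hc (ha.pair hb)) (fun _ i _ => ⟨i.okE _, i.okE _⟩)
    (le_arr_len F)).congr fun _ i _ => (emk_eat_arr₂ i.h2 _ _).symm

theorem l0_neg (hc : L0 pre inp IC.sig IC.par) {F : (i : IC) → (ℕ → ℕ) → RB i.B}
    (ha : L0 pre inp IC.sig fun i => arr i.B i.sh (F i)) :
    L0 pre inp IC.sig fun i => arr i.B i.sh fun d => -F i d :=
  (L0.sub sub_negE (l0_BN hc ha) (fun _ i _ => i.okE _) (le_arr_len F)).congr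
    fun _ i _ => (emk_eat_arr i.h2 _ fun z => -z).symm

theorem l0_half (hc : L0 pre inp IC.sig IC.par) {F : (i : IC) → (ℕ → ℕ) → RB i.B}
    (ha : L0 pre inp IC.sig fun i => arr i.B i.sh (F i)) :
    L0 pre inp IC.sig fun i => arr i.B i.sh fun d => hB i.B * F i d :=
  (L0.sub sub_halfE (l0_BN hc ha) (fun _ i _ => i.okE _) (le_arr_len F)).congr
    fun _ i _ => (emk_eat_arr i.h2 _ fun z => hB i.B * z).symm

/-- the recursive call on block `t` -/
theorem cf_rec (hpre : ∀ w i, pre w i → SelfOK DC muC ctenA tauC w i.ps.length) {t : ℕ}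
    (ht : t < mm) (hc : L0 pre inp IC.sig IC.par) {F : (i : IC) → (ℕ → ℕ) → RB i.B}
    (ha : L0 pre inp IC.sig fun i => arr i.B i.sh (F i))
    (hz : ∀ i, GenZ i.B (blk i.ps t) i.sh (1 + t) (arr i.B i.sh (F i))) :
    Cf pre inp (fun i => arr i.B i.sh (cten (iB i.B) (hB i.B) (blk i.ps t) (1 + t) (mm + 3 + t)
      (F i))) IC.sig IC.cc := by
  have h1 : L0 pre inp IC.sig fun i =>
      five i.B (blk i.ps t) i.sh (1 + t) (mm + 3 + t) (arr i.B i.sh (F i)) :=
    l0_five (qs := fun p => blk p.2.1 t) ((poly_blk t).comp (by fun_prop)) poly_shP _ _ hc ha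
  have htt : 1 + t < mm + 3 + t := by omega
  have hl : ∀ i : IC, mm + 3 + t < i.sh.length := fun i => by rw [i.sh_len]; omega
  have hmm : 1 < mm := by rw [mm_eq]; norm_num
  refine ((h1.thenCf (Cf.self (D := DC) (μ := muC) (F := ctenA) (τ := tauC)
    (fun i => i.ps.length) fun w i hi => ⟨hpre w i hi, ⟨?_, ?_, ?_⟩, ?_⟩)).mono
      (fun _ _ h => h) Le.refl fun w i _ => ?_).congr (fun _ _ _ => rfl) fun w i _ => ?_
  · exact okC_five i.h2 (i.hb t) i.sh_pos htt (hl i) (ax_y _ ht.le) (ax_x _ ht.le) _ i.hEx'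
  · change WW ^ Nat.log mm (blk i.ps t).length ∣ vol i.sh 0 (1 + t)
    rw [length_blk _ ht, vol_succ_left _ (by omega)]
    exact Dvd.dvd.mul_right i.hdiv _
  · exact genZ_five i.sh_pos htt (hl i) (ax_y _ ht.le) (ax_x _ ht.le) (hz i)
  · change (blk i.ps t).length < i.ps.length
    rw [length_blk _ ht]
    have := i.hk
    exact Nat.div_lt_self (by omega) hmm
  · change ((arr i.B i.sh (F i)).length : ℝ) * lam (blk i.ps t) *
      ((max (blk i.ps t).length 1 : ℕ) : ℝ) ^ θ ≤ i.cc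
    have h2 : 1 ≤ i.ps.length / mm := (Nat.one_le_div_iff (by omega)).2 i.hk
    rw [length_arr, length_blk _ ht, max_eq_left h2, IC.cc, IC.wl]
    have h3 : (lam (blk i.ps t) : ℝ) ≤ lam i.ps := by
      exact_mod_cast lam_mono (blk_sublist i.ps t)
    gcongr
  · rw [ctenA_five i.h2 (i.hb t) i.sh_pos htt (hl i) (ax_y _ ht.le) (ax_x _ ht.le)]

theorem l0_fst {ι β γ : Type} [Enc β] [Enc γ] {pre : World → ι → Prop} {inp : ι → α} {σ : ι → ℝ}
    {f : ι → β} {g : ι → γ} (h : L0 pre inp σ fun i => (f i, g i)) : L0 pre inp σ f :=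
  L0.lin (g := fun p : β × γ => p.1) (Lin.fst Lin.id) h

theorem l0_snd {ι β γ : Type} [Enc β] [Enc γ] {pre : World → ι → Prop} {inp : ι → α} {σ : ι → ℝ}
    {f : ι → β} {g : ι → γ} (h : L0 pre inp σ fun i => (f i, g i)) : L0 pre inp σ g :=
  L0.lin (g := fun p : β × γ => p.2) (Lin.snd Lin.id) h

theorem l0_in (F : (i : IC) → (ℕ → ℕ) → RB i.B) :
    L0 pre (fun i => (i.par, arr i.B i.sh (F i))) IC.sig IC.par ∧
      L0 pre (fun i => (i.par, arr i.B i.sh (F i))) IC.sig fun i => arr i.B i.sh (F i) :=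
  have h := L0.input (pre := pre) (Ax.le_sz_pair le_par (le_arr F))
  ⟨l0_fst h, l0_snd h⟩

/-- a step along a nonzero vector -/
theorem cf_step (hpre : ∀ w i, pre w i → SelfOK DC muC ctenA tauC w i.ps.length)
    {u : Fin mm → ZMod 2} {i₀ : Fin mm} (hmin : ∀ i : Fin mm, u i = 1 → i₀ ≤ i)
    {f : (i : IC) → XG i.ps i.H i.M i.L → RB i.B} {F : (i : IC) → (ℕ → ℕ) → RB i.B}
    (hF : ∀ i, Rep (f i) (F i)) :
    Cf pre (fun i => (i.par, arr i.B i.sh (F i)))
      (fun i => arr i.B i.sh fun d => cten (iB i.B) (hB i.B) (blk i.ps i₀) (1 + i₀) (mm + 3 + i₀)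
        (fun κ => F i (sigI i.ps u i₀ κ)) (sigI i.ps u i₀ d)) IC.sig IC.cc := by
  obtain ⟨h1, h2⟩ := l0_in (pre := pre) F
  have h3 := cf_rec hpre i₀.2 h1 (l0_sig hmin h1 h2)
    fun i => ((hF i).sig i.hp u i₀).genZ i.h2 i₀.2
  obtain ⟨h4, h5⟩ := l0_in (pre := pre) fun i => cten (iB i.B) (hB i.B) (blk i.ps i₀) (1 + i₀)
    (mm + 3 + i₀) fun κ => F i (sigI i.ps u i₀ κ)
  exact ((Cf.pair h1.1 h1.2 h3).comp (l0_sig hmin h4 h5).2).mono (fun _ _ h => h) Le.refl
    fun _ _ _ => by simp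

theorem exists_pivot {u : Fin mm → ZMod 2} (hu : u ≠ 0) :
    ∃ i₀, u i₀ = 1 ∧ ∀ i, u i = 1 → i₀ ≤ i := by
  have hne : (Finset.univ.filter fun i => u i = 1).Nonempty := by
    obtain ⟨i, hi⟩ := Function.ne_iff.1 hu
    have : ∀ z : ZMod 2, z ≠ 0 → z = 1 := by decide
    exact ⟨i, Finset.mem_filter.2 ⟨Finset.mem_univ _, this _ hi⟩⟩
  exact ⟨Finset.min' _ hne, (Finset.mem_filter.1 (Finset.min'_mem _ hne)).2,
    fun i hi => Finset.min'_le (Finset.univ.filter fun i => u i = 1) i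
      (Finset.mem_filter.2 ⟨Finset.mem_univ _, hi⟩)⟩

/-- the gadget on the wires -/
theorem cf_gadget (hpre : ∀ w i, pre w i → SelfOK DC muC ctenA tauC w i.ps.length)
    (G : (i : IC) → ℕ → (ℕ → ℕ) → RB i.B)
    (p : Fin WW → (i : IC) → XG i.ps i.H i.M i.L → RB i.B)
    (hG : ∀ (r : Fin WW) i, Rep (p r i) (G i r)) :
    Cf pre (fun i => (i.par, (List.range WW).map fun r => arr i.B i.sh (G i r)))
      (fun i => (List.range WW).map fun r => arr i.B i.sh (Phi (iB i.B) (hB i.B) i.ps (G i r)))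
      IC.sig (fun i => calls * i.cc) := by
  have hh : ∀ i : IC, 2 * hB i.B = 1 := fun i => two_mul_hB (by have := i.h2; omega)
  choose act hstep hfree hfull using fun i : IC =>
    psi_exists (X := XG i.ps i.H i.M i.L) (iB i.B) (hB i.B) (iB_mul_iB _) (hh i)
      (i.ps.length / mm) (TG i.hp) (TG_zero i.hp) (TG_add i.hp)
  obtain ⟨A, hA⟩ := pi_act (R := fun i : IC => RB i.B)
    (V := fun i : IC => XG i.ps i.H i.M i.L → RB i.B) act
  obtain ⟨Γ, hΓ⟩ := geoF
  obtain ⟨C⟩ := codeF (𝕜 := (i : IC) → RB i.B) (fun i => hB i.B) (funext hh)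
  obtain ⟨n, S', hext, hout, hn⟩ := gadget A StF FrF _ Γ C card_ZF (by simp) p
  have conv : ∀ {β : Type} [Enc β] {inp : IC → β} {c : IC → ℝ}
      {v : (i : IC) → XG i.ps i.H i.M i.L → RB i.B} {F : (i : IC) → (ℕ → ℕ) → RB i.B},
      (∀ i, Rep (v i) (F i)) → Cf pre inp (fun i => arr i.B i.sh (F i)) IC.sig c →
      Cf pre inp (fun i => arr i.B i.sh (ext0 (v i))) IC.sig c := fun h1 h2 =>
    h2.congr (fun _ _ _ => rfl) fun _ i _ => by
      rw [arr_congr i.sh_pos fun d hd => (h1 i).eq hd]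
  have main := slp_run (pre := pre) (σ := IC.sig) (c := IC.cc) IC.par
    (fun i (v : (i : IC) → XG i.ps i.H i.M i.L → RB i.B) => arr i.B i.sh (ext0 (v i))) IC.wl
    (fun _ i _ v => (length_arr _).le) (le_par.add le_wl) (fun _ i _ => i.cc_nonneg)
    (conv (fun _ => Rep.zero) (l0_zero (L0.input le_par)).2)
    (fun v v' => by
      have h := L0.input (pre := pre) (Ax.le_sz_pair le_par
        (Ax.le_sz_pair (le_arr fun i => ext0 (v i)) (le_arr fun i => ext0 (v' i))))
      exact conv (fun i => (rep_ext0 (v i)).add (rep_ext0 (v' i)))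
        (l0_add (l0_fst h) (l0_fst (l0_snd h)) (l0_snd (l0_snd h))).2)
    (fun a ha v => by
      obtain ⟨h1, h2⟩ := l0_in (pre := pre) fun i => ext0 (v i)
      refine conv (fun i => (rep_ext0 (v i)).smul (a i)) ?_
      rcases ha with rfl | rfl | rfl | rfl | rfl
      · exact ((l0_zero h1).congr fun _ i _ => arr_congr i.sh_pos fun d _ => by simp).2
      · exact (h2.congr fun _ i _ => arr_congr i.sh_pos fun d _ => by simp).2
      · exact ((l0_neg h1 h2).congr fun _ i _ => arr_congr i.sh_pos fun d _ => by simp).2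
      · exact (l0_half h1 h2).2
      · exact ((l0_neg h1 (l0_half h1 h2)).congr fun _ i _ =>
          arr_congr i.sh_pos fun d _ => by simp).2)
    (fun g hg v => by
      obtain ⟨u, rfl⟩ := hg
      obtain ⟨h1, h2⟩ := l0_in (pre := pre) fun i => ext0 (v i)
      refine conv (fun i => ?_) (l0_free u h1 h2).2
      rw [hA, hfree]
      exact (rep_ext0 (v i)).gam i.hp _)
    (fun g hg v => by
      obtain ⟨u, rfl⟩ := hg
      by_cases hu : u = 0
      · subst hu
        refine conv (fun i => ?_) ((l0_in (pre := pre) fun i => ext0 (v i)).2.2.mono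
          (fun _ _ h => h) Le.refl fun _ i _ => i.cc_nonneg)
        rw [hA, hstep, step_zero (hh i)]
        exact rep_ext0 _
      · obtain ⟨i₀, h1, h2⟩ := exists_pivot hu
        refine conv (fun i => ?_) (cf_step hpre h2 fun i => rep_ext0 (v i))
        rw [hA, hstep]
        exact (rep_ext0 (v i)).step i.hp h1)
    hext hout
  refine (main.mono (fun _ _ h => h) Le.refl fun _ i _ => ?_).congr (fun _ i _ => ?_)
    fun _ i _ => ?_
  · have : (n : ℝ) ≤ calls := by exact_mod_cast hn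
    exact mul_le_mul_of_nonneg_right this i.cc_nonneg
  · rw [← ofFn_eq_map]
    congr 3
    funext r
    exact (arr_congr i.sh_pos fun d hd => (hG r i).eq hd).symm
  · rw [← ofFn_eq_map]
    congr 2
    funext r
    refine (arr_congr i.sh_pos fun d hd => Rep.eq ?_ hd).symm
    rw [hA, hΓ, hfull]
    exact (hG r i).full i.hp

theorem okSplit (i : IC) {a : List Bool} (ha : a.length = i.a.length) :
    OkSplit (mm + 1) 2 (WW * i.H, blkN i.ps, i.M, [i.L, 2 * i.B], a) := by
  have h2 := i.h2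
  refine ⟨length_blkN _, blkN_coprime i.hp, ⟨?_, ?_, ?_⟩, ?_⟩
  · exact (len_sD _).trans (by simp; omega)
  · refine pos_sD i.hp i.hWH i.hM ?_
    have := i.hL
    simp only [List.mem_cons, List.not_mem_nil, or_false]
    rintro x (rfl | rfl) <;> omega
  · change a.length = (sD (WW * i.H) (blkN i.ps) i.M ([i.L] ++ [2 * i.B])).prod
    rw [← sD_append, List.prod_append, List.prod_singleton, ha]
    exact i.len_big.symm
  · change Ex a.length ^ 2 ≤ [i.L, 2 * i.B].prod
    rw [ha]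
    have h3 := i.hEx
    have h4 := i.hL
    simp only [List.prod_cons, List.prod_nil, mul_one]
    nlinarith

theorem l0_splitArg (hc : L0 pre inp IC.sig IC.par) {a : IC → List Bool}
    (ha : L0 pre inp IC.sig a) :
    L0 pre inp IC.sig fun i => (WW * i.H, blkN i.ps, i.M, [i.L, 2 * i.B], a i) :=
  (l0_small (g := fun p => WW * p.2.2.1) (by fun_prop) hc).pair
    ((l0_small (g := fun p => blkN p.2.1) (poly_blkN.comp (by fun_prop)) hc).pair
      ((l0_small (g := fun p => p.2.2.2.1) (by fun_prop) hc).pair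
        ((l0_small (g := fun p => [p.2.2.2.2, 2 * p.1]) (by fun_prop) hc).pair ha)))

theorem le_split {a : IC → List Bool} (ha : ∀ i, (a i).length = i.a.length) :
    Le pre (fun i => ((a i).length : ℝ) * (lg (blkN i.ps).prod : ℝ) ^ θ) IC.sig :=
  Le.of_le_mul 3 (by norm_num) fun _ i _ => mul_lg_le i.x (ha i).le (prod_blkN _).le

/-- one recursion level -/
theorem cf_level (hpre : ∀ w i, pre w i → SelfOK DC muC ctenA tauC w i.ps.length) :
    Cf pre IC.x (fun i => ctenA i.x) IC.sig (fun i => calls * i.cc) := by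
  have hx : L0 pre IC.x IC.sig IC.x := L0.input (le_sz_x IC.x fun _ i _ => i.hD.1)
  have hW : ∀ i : IC, 0 < WW := fun i => Nat.pos_of_mul_pos_right i.hWH
  have hpar : L0 pre IC.x IC.sig IC.par := by
    refine (L0.poly (g := fun p : PT => ((p.1, p.2.1, p.2.2.1 / WW, p.2.2.2.1, p.2.2.2.2) : PT))
      (by fun_prop) (L0.lin (g := small) (by unfold small; fun_prop) hx)
      (Ax.le_pow 18 1 (fun _ i _ => (okC_small i.hD.1).1) fun _ i _ =>
        le_trans (by exact_mod_cast (okC_small i.hD.1).2.1) i.len_le)).congr fun _ i _ => ?_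
    simp only [small, IC.x, IC.par, Nat.mul_div_cancel_left _ (hW i)]
  have ha : L0 pre IC.x IC.sig IC.a :=
    L0.lin (g := fun x : XT => x.2.2.2.2.2) (by fun_prop) hx
  let G : (i : IC) → (ℕ → ℕ) → RB i.B := fun i => inF i.B i.ps (WW * i.H) i.M i.L i.a
  have tlpos : ∀ i : IC, ∀ y ∈ blkN i.ps ++ i.M :: (blkN i.ps ++ [i.L]), 0 < y :=
    fun i y hy => i.sh_pos y (List.mem_cons_of_mem _ hy)
  have hsplit : L0 pre IC.x IC.sig fun i => arr i.B i.big (G i) :=
    (L0.sub (sub_splitG (mm + 1) 2) (l0_splitArg hpar ha) (fun _ i _ => okSplit i rfl)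
      (le_split fun _ => rfl)).congr fun _ i _ =>
        (split_arr i.h2 i.hp i.hWH i.hM i.hL i.hcan).symm
  have hblocks : L0 pre IC.x IC.sig fun i =>
      (List.range WW).map fun r => arr i.B i.sh fun d => G i (lift i.H r d) := by
    have h1 : L0 pre IC.x IC.sig fun i => (WW, i.wl, arr i.B i.big (G i)) :=
      (L0.const hx.1 WW).pair ((l0_small (g := fun p => (shP p).prod * (2 * p.1))
        (Poly.mul (Poly.prod poly_shP) (by fun_prop)) hpar).pair hsplit)
    refine (L0.sub sub_blocks h1 (fun _ _ _ => trivial) ?_).congr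
      fun _ i _ => (blocks_arr (tlpos i) (G i)).symm
    exact (le_arr_big G).add ((le_wl.add le_one).const_mul ((WW : ℝ) + 1) (by positivity))
  have hgad := cf_gadget hpre (fun i r d => G i (lift i.H r d))
    (fun r i x => G i (lift i.H r x.1)) fun r i => rep_lift i.hp r.2 i.hgz
  have hflat : ∀ i : IC, ((List.range WW).map fun r => arr i.B i.sh
      (Phi (iB i.B) (hB i.B) i.ps fun d => G i (lift i.H r d))).flatten =
      arr i.B i.big (Phi (iB i.B) (hB i.B) i.ps (G i)) := fun i => by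
    refine Eq.trans ?_ (flatten_arr (tlpos i) _)
    simp only [Phi_lift]
    rfl
  have hg2 : Cf pre IC.x (fun i => arr i.B i.big (Phi (iB i.B) (hB i.B) i.ps (G i))) IC.sig
      (fun i => calls * i.cc) := by
    refine (Cf.lin (g := fun l : List (List Bool) => l.flatten) (Lin.flatten Lin.id)
      ((hpar.pair hblocks).thenCf hgad) ?_).congr (fun _ _ _ => rfl) fun _ i _ => by rw [hflat]
    refine Le.trans (Le.of_le fun w i _ => ?_)
      ((le_arr_big fun i => Phi (iB i.B) (hB i.B) i.ps (G i)).add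
        (le_one.const_mul (2 * WW) (by positivity)))
    rw [Prims.sz_eq_flatten, hflat, List.length_map, List.length_range]
    push_cast
    linarith
  have hin := L0.input (pre := pre) (Ax.le_sz_pair le_par
    (le_arr_big fun i => Phi (iB i.B) (hB i.B) i.ps (G i)))
  have hc := l0_fst hin
  have htt : 1 + mm < 2 * mm + 3 := by omega
  have hl : ∀ i : IC, 2 * mm + 3 < i.big.length := fun i => by rw [i.big_len]; omega
  have hy : ∀ i : IC, ax i.big (1 + mm) = (blk i.ps mm).prod := fun i => ax_y _ le_rfl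
  have hx' : ∀ i : IC, ax i.big (2 * mm + 3) = (blk i.ps mm).prod := fun i => by
    rw [show 2 * mm + 3 = mm + 3 + mm by omega]; exact ax_x _ le_rfl
  have hlast := (L0.sub sub_ctenBase
    (l0_five (qs := fun p => blk p.2.1 mm) ((poly_blk mm).comp (by fun_prop)) poly_bigP
      (1 + mm) (2 * mm + 3) hc (l0_snd hin))
    (fun _ i _ => okC_five i.h2 (i.hb mm) i.big_pos htt (hl i) (hy i) (hx' i) _
      (by rw [i.len_big]; exact i.hEx))
    (Le.of_le_mul (mm * 3) (by positivity) fun _ i _ => by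
      have h1 := mul_lg_le i.x (m := (arr i.B i.big (Phi (iB i.B) (hB i.B) i.ps (G i))).length)
        (by rw [length_arr, i.len_big]; exact le_rfl) (i.blk_le mm)
      have h2 : (((blk i.ps mm).length : ℝ) + 1) ≤ mm := by
        exact_mod_cast length_blk_last i.ps
      change (((blk i.ps mm).length : ℝ) + 1) *
        (arr i.B i.big (Phi (iB i.B) (hB i.B) i.ps (G i))).length *
          (lg (blk i.ps mm).prod : ℝ) ^ θ ≤ mm * 3 * tauC i.x
      rw [mul_assoc, mul_assoc]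
      exact mul_le_mul h2 h1 (by positivity) (by positivity))).congr
    fun _ i _ => (ctenA_five i.h2 (i.hb mm) i.big_pos htt (hl i) (hy i) (hx' i) _).symm
  have hlen : ∀ (i : IC) (F : (ℕ → ℕ) → RB i.B), (arr i.B i.big F).length = i.a.length :=
    fun i F => by rw [length_arr, i.len_big]
  have hend := (L0.sub (sub_unsplitG (mm + 1) 2) (l0_splitArg hc hlast)
    (fun _ i _ => okSplit i (hlen i _)) (le_split fun i => hlen i _)).congr
      fun _ i _ => (unsplit_arr i.h2 i.hp i.hWH i.hM i.hL i.a).symm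
  exact ((Cf.pair hx.1 hpar.2 hg2).comp hend.2).mono (fun _ _ h => h) Le.refl
    fun _ _ _ => by rw [zero_add, add_zero]

end machine

/-- the exact cost of the recursive calls -/
noncomputable def costC (x : XT) : ℝ :=
  (x.2.2.2.2.2.length : ℝ) * lam x.2.1 * ((calls : ℝ) / WW * ((x.2.1.length / mm : ℕ) : ℝ) ^ θ)

theorem cf_big : Cf (fun w (x : XT) => (DC x ∧ SelfOK DC muC ctenA tauC w (muC x)) ∧
    decide (x.2.1.length < mm) = false) (fun x => x) ctenA tauC costC := by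
  obtain ⟨p, K, hK, h⟩ := cf_level
    (pre := fun w i => SelfOK DC muC ctenA tauC w i.ps.length) fun _ _ h => h
  refine ⟨p, K, hK, ?_⟩
  rintro w ⟨B, ps, H, M, L, a⟩ ⟨⟨hD, hS⟩, hk⟩
  have hk' : mm ≤ ps.length := by simpa using hk
  obtain ⟨H', rfl⟩ : WW ∣ H := by
    have h1 : WW ^ Nat.log mm ps.length ∣ H := hD.2.1
    rw [Nat.log_of_one_lt_of_le (by rw [mm_eq]; norm_num) hk', pow_succ'] at h1
    exact Dvd.dvd.trans (Dvd.intro _ rfl) h1
  let i : IC := ⟨B, ps, H', M, L, a, hD, hk'⟩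
  have h1 := h w i hS
  have hW : (WW : ℝ) ≠ 0 := by exact_mod_cast (Nat.pos_of_mul_pos_right i.hWH).ne'
  have h2 : (calls : ℝ) * i.cc = costC i.x := by
    change _ = (i.a.length : ℝ) * lam i.ps * ((calls : ℝ) / WW * ((i.ps.length / mm : ℕ) : ℝ) ^ θ)
    rw [i.len_eq, IC.cc, Nat.cast_mul]
    generalize (calls : ℝ) = c
    field_simp
  simp only [h2] at h1
  exact h1

theorem costC_nonneg (x : XT) : 0 ≤ costC x := by unfold costC; positivity

theorem cf_small : Cf (fun w (x : XT) => (DC x ∧ SelfOK DC muC ctenA tauC w (muC x)) ∧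
    decide (x.2.1.length < mm) = true) (fun x => x) ctenA tauC costC := by
  have hs : Le (fun w (x : XT) => (DC x ∧ SelfOK DC muC ctenA tauC w (muC x)) ∧
      decide (x.2.1.length < mm) = true) (fun x => (sz x : ℝ)) tauC :=
    le_sz_x (fun x => x) fun _ _ h => h.1.1.1
  refine (L0.sub sub_ctenBase (L0.input hs) (fun _ _ h => h.1.1.1)
    (Le.of_le_mul (mm * 3) (by positivity) fun _ x hx => ?_)).2.mono (fun _ _ h => h) Le.refl
      fun _ x _ => costC_nonneg x
  have h1 := mul_lg_le x le_rfl le_rfl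
  have h2 : ((x.2.1.length : ℝ) + 1) ≤ mm := by
    have : x.2.1.length < mm := by simpa using hx.2
    exact_mod_cast this
  rw [mul_assoc, mul_assoc]
  exact mul_le_mul h2 h1 (by positivity) (by positivity)

theorem main : Sub DC ctenA tauC := by
  obtain ⟨ε, hε, hc⟩ := calls_contract
  have hmm : 0 < mm := by rw [mm_eq]; norm_num
  have hε1 : ε ≤ 1 := by
    have h1 := hc mm le_rfl
    have h2 : (0 : ℝ) < (mm : ℝ) ^ θ := Real.rpow_pos_of_pos (by exact_mod_cast hmm) _
    have h3 : (0 : ℝ) ≤ (calls : ℝ) / WW * ((mm / mm : ℕ) : ℝ) ^ θ :=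
      mul_nonneg (div_nonneg (Nat.cast_nonneg _) (Nat.cast_nonneg _))
        (Real.rpow_nonneg (Nat.cast_nonneg _) _)
    nlinarith
  have hs : Le (fun w (x : XT) => DC x ∧ SelfOK DC muC ctenA tauC w (muC x))
      (fun x => (sz x : ℝ)) tauC := le_sz_x (fun x => x) fun _ _ h => h.1.1
  have hb := (L0.lin (g := fun x : XT => decide (x.2.1.length < mm))
    (Lin.lt (by fun_prop) (Lin.const mm)) (L0.input hs)).2
  refine Cf.fix (μ := muC) (σ := tauC) (c := costC) hε
    (((Cf.ite hs hb cf_small cf_big).congr (fun _ _ _ => rfl) fun _ x _ => by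
      rw [ite_self]).mono (fun _ _ h => h) Le.refl fun _ _ _ => by simp)
    (fun x hx => le_trans (by exact_mod_cast (okC_small hx.1).2.2) (len_le_tauC x))
    fun x _ => ?_
  have h0 : (0 : ℝ) ≤ (x.2.2.2.2.2.length : ℝ) * lam x.2.1 := by positivity
  by_cases hk : mm ≤ x.2.1.length
  · have h1 := mul_le_mul_of_nonneg_left (hc _ hk) h0
    unfold tauC costC
    rw [max_eq_left (by omega)]
    linarith
  · have h1 : 0 ≤ tauC x := le_trans (Nat.cast_nonneg _) (len_le_tauC x)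
    have h2 : costC x = 0 := by
      unfold costC
      rw [Nat.div_eq_of_lt (by omega), Nat.cast_zero, Real.zero_rpow θ_pos.ne', mul_zero, mul_zero]
    rw [h2]
    nlinarith

end CT

theorem sub_ctenA : Sub (fun x => OkC x ∧ WW ^ Nat.log mm x.2.1.length ∣ x.2.2.1 ∧
      GenZ x.1 x.2.1 (s5 x.2.2.1 x.2.1.prod x.2.2.2.1 [x.2.2.2.2.1]) 1 x.2.2.2.2.2) ctenA
    (fun x => (x.2.2.2.2.2.length : ℝ) * lam x.2.1 * ((max x.2.1.length 1 : ℕ) : ℝ) ^ θ) :=
  CT.main

end Crest.Agent.R326
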