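import Crest.Agent.R326.GadDefs
import Crest.Agent.R324.Frames
import Crest.Agent.R324.Gadget

/-! Row 326: the geometry and the code of the Fourier gadget (frames are `ℤ/4`-valued quadratic
forms on `𝔽₂^mm`, as in row 324). -/

set_option autoImplicit false

namespace Crest.Agent.R326

open Crest.Agent.R324

abbrev Qf : Type := Multiplicative ((Fin mm → ZMod 2) → ZMod 4)

/-- the linear form with coefficient vector `u` -/
def lform (u ξ : Fin mm → ZMod 2) : ZMod 2 := ∑ i, u i * ξ i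

def StF : Set Qf := {g | ∃ u : Fin mm → ZMod 2, g = Multiplicative.ofAdd fun ξ => lf (lform u ξ)}
def FrF : Set Qf := {g | ∃ u : Fin mm → ZMod 2, g = Multiplicative.ofAdd fun ξ => 2 * lf (lform u ξ)}

/-- pairs of triples meeting in an even number of points -/
def ZF : Type := {p : Tri × Tri // Even (p.1.1 ∩ p.2.1).card}

instance : Finite ZF := Subtype.finite
noncomputable instance : Fintype ZF := Fintype.ofFinite _

namespace GeoF

open Finset

theorem exists_vec (l : (Fin mm → ZMod 2) →+ ZMod 2) : ∃ u, ∀ ξ, l ξ = lform u ξ := by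
  refine ⟨fun i => l (Pi.single i 1), fun ξ => ?_⟩
  conv_lhs => rw [← univ_sum_single ξ, map_sum]
  refine sum_congr rfl fun i _ => ?_
  have h : ∀ x : ZMod 2, x = 0 ∨ x = 1 := by decide
  rcases h (ξ i) with h | h <;> simp [h]

theorem mv_of_D {r : ℕ} {q : (Fin mm → ZMod 2) → ZMod 4} (h : D r q) :
    Mv StF FrF r (Multiplicative.ofAdd q) := by
  induction h with
  | zero => exact Mv.one
  | step l _ ih =>
    obtain ⟨u, hu⟩ := exists_vec l
    rw [ofAdd_add]
    exact Mv.step ⟨u, by simp only [hu]⟩ ih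
  | tr l _ ih =>
    obtain ⟨u, hu⟩ := exists_vec l
    rw [ofAdd_add]
    exact Mv.free ⟨u, by simp only [hu]⟩ ih

abbrev I : Type := Fin 100

noncomputable def eqv : I × I ≃ Fin mm := Fintype.equivFinOfCardEq (by simp [mm_eq])

noncomputable def res : (Fin mm → ZMod 2) →+ (I × I → ZMod 2) where
  toFun ξ p := ξ (eqv p)
  map_zero' := rfl
  map_add' _ _ := rfl

/-- transport of a form -/
noncomputable def trp (q : (I × I → ZMod 2) → ZMod 4) : Qf :=
  Multiplicative.ofAdd fun ξ => q (res ξ)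

theorem trp_mul (q q' : (I × I → ZMod 2) → ZMod 4) : trp q * trp q' = trp (q + q') := rfl
theorem trp_inv (q : (I × I → ZMod 2) → ZMod 4) : (trp q)⁻¹ = trp (-q) := rfl

theorem mv_trp {r : ℕ} {q q' : (I × I → ZMod 2) → ZMod 4} (h : D r q) (e : ∀ ξ, q' ξ = q ξ) :
    Mv StF FrF r (trp q') := mv_of_D ((h.congr e).comp res)

theorem trp_wt : trp wt = Multiplicative.ofAdd (wt (I := Fin mm)) := by
  refine congrArg Multiplicative.ofAdd (funext fun ξ => ?_)
  exact eqv.sum_comp fun i => lf (ξ i)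

theorem d0 : D 100 (wt (I := I)) := by simpa using D_wt (I := I)

theorem d1 (a : Tri) : D 99 (fun η : I → ZMod 2 => wt η - lf (sm a.1 η)) := by
  simpa using D_one_triple (I := I) (by simp) a.2

theorem d2 (ζ : ZF) : D 98 (fun η : I → ZMod 2 =>
    wt η - lf (sm ζ.1.1.1 η) - lf (sm ζ.1.2.1 η)) := by
  simpa using D_two_triples (I := I) (by simp) ζ.1.1.2 ζ.1.2.2 ζ.2

theorem du (a b : Finset I) : D 1 (uu a b) := D.one ((sm b).comp (rw' a))

theorem dmid (a b : Tri) : D (99 * 99) (fun ξ : I × I → ZMod 2 =>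
    wt ξ - wt (rw' a.1 ξ) - wt (cl b.1 ξ) + uu a.1 b.1 ξ) :=
  ((D_tensor (d1 b) (d1 a)).comp R324.cu).congr fun ξ => by
    simp only [wt_eq ξ, sum_sub_distrib, uu]
    have : wt (cl b.1 ξ) = ∑ i, lf (sm b.1 (R324.cu ξ i)) := rfl
    rw [this]
    simp only [rw', AddMonoidHom.comp_apply]
    ring

theorem dcol (b : Tri) : D (100 * 99) (fun ξ : I × I → ZMod 2 => wt ξ - wt (cl b.1 ξ)) := by
  have := D.sum (univ : Finset I) (q := fun i ξ => wt (R324.cu ξ i) - lf (sm b.1 (R324.cu ξ i)))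
    fun i _ => (d1 b).comp ((Pi.evalAddMonoidHom (fun _ => I → ZMod 2) i).comp R324.cu)
  rw [card_univ, Fintype.card_fin] at this
  exact this.congr fun ξ => by rw [sum_sub_distrib, wt_eq ξ]; rfl

theorem drow (a : Tri) : D (100 * 99) (fun ξ : I × I → ZMod 2 => wt ξ - wt (rw' a.1 ξ)) :=
  ((D_tensor d0 (d1 a)).comp R324.cu).congr fun ξ => by rw [wt_eq ξ]; rfl

theorem dfull : D (100 * 100) (wt (I := I × I)) := by simpa using D_wt (I := I × I)

theorem card_Tri : Fintype.card Tri = 161700 := by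
  have h := Fintype.card_finset_len (α := Fin 100) 3
  rw [Fintype.card_fin, show Nat.choose 100 3 = 161700 by
    rw [Nat.choose_eq_descFactorial_div_factorial]; decide] at h
  rw [← h]
  exact Fintype.card_congr (Equiv.refl _)

theorem sum_ZF {𝕜 : Type} [CommRing 𝕜] (a b : Tri) (c : Tri → 𝕜) :
    (∑ ζ : ZF, if ζ.1.1 = a then (if ζ.1.2 = b then c ζ.1.1 else 0) else 0) =
      if Even (a.1 ∩ b.1).card then c a else 0 := by
  split_ifs with h
  · refine (Fintype.sum_eq_single (α := ZF) ⟨(a, b), h⟩ fun ζ hζ => ?_).trans ?_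
    · split_ifs with h1 h2
      · exact absurd (Subtype.ext (Prod.ext h1 h2)) hζ
      · rfl
      · rfl
    · rw [if_pos rfl, if_pos rfl]
  · refine sum_eq_zero fun ζ _ => ?_
    split_ifs with h1 h2
    · exact absurd (h1 ▸ h2 ▸ ζ.2) h
    · rfl
    · rfl

end GeoF

open GeoF Finset

namespace GeoF

noncomputable def gU (a b : Tri) : Qf := trp (uu a.1 b.1)
noncomputable def gCol (b : Tri) : Qf := trp fun ξ => wt (cl b.1 ξ)
noncomputable def gCu (a b : Tri) : Qf := trp fun ξ => wt (cl b.1 ξ) - uu a.1 b.1 ξ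
noncomputable def gRw (a : Tri) : Qf := trp fun ξ => wt ξ - wt (rw' a.1 ξ)
noncomputable def gRu (a b : Tri) : Qf := trp fun ξ => wt ξ - wt (rw' a.1 ξ) + uu a.1 b.1 ξ
noncomputable def gFu (a b : Tri) : Qf := trp fun ξ => wt ξ - uu a.1 b.1 ξ
noncomputable def gFull : Qf := trp wt

theorem uu_eq' (a b : Finset I) (ξ : I × I → ZMod 2) : uu a b ξ = lf (sm b (rw' a ξ)) := (rfl)

theorem alg2 {Ξ : Type} (W R U V U' V' : Ξ → ZMod 4) (hU : ∀ ξ, U ξ = U' ξ) (hV : ∀ ξ, V ξ = V' ξ)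
    (ξ : Ξ) : ((fun ξ => W ξ - U ξ) + -fun ξ => W ξ - R ξ + V ξ) ξ = R ξ - U' ξ - V' ξ := by
  simp only [Pi.add_apply, Pi.neg_apply, hU, hV]; ring

theorem alg4 {Ξ : Type} (W R V V' : Ξ → ZMod 4) (hV : ∀ ξ, V ξ = V' ξ)
    (ξ : Ξ) : (W + -fun ξ => W ξ - R ξ + V ξ) ξ = R ξ - V' ξ := by
  simp only [Pi.add_apply, Pi.neg_apply, hV]; ring

variable (a b : Tri) (ζ : ZF)

theorem a1 : Mv StF FrF 1 (gU a b) := mv_trp (du _ _) fun _ => rfl
theorem a2 : Mv StF FrF 98 (gCu ζ.1.2 b * (gU ζ.1.1 b)⁻¹) := by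
  rw [gCu, gU, trp_inv, trp_mul]
  exact mv_trp ((d2 ζ).comp (cl b.1)) fun ξ => by
    simp only [Pi.add_apply, Pi.neg_apply, uu_eq]; ring
theorem a3 : Mv StF FrF 1 (gCol b * (gCu a b)⁻¹) := by
  rw [gCu, gCol, trp_inv, trp_mul]
  exact mv_trp (du a.1 b.1) fun ξ => by simp only [Pi.add_apply, Pi.neg_apply]; ring
theorem a4 : Mv StF FrF 99 (gCol b * (gU a b)⁻¹) := by
  rw [gU, gCol, trp_inv, trp_mul]
  exact mv_trp ((d1 a).comp (cl b.1)) fun ξ => by
    simp only [Pi.add_apply, Pi.neg_apply, uu_eq]; ring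
theorem a5 : Mv StF FrF 100 (gCol b)⁻¹ := by
  rw [gCol, trp_inv]
  exact mv_trp (d0.comp (cl b.1)).neg fun ξ => by simp only [Pi.neg_apply]
theorem a6 : Mv StF FrF 99 (gCu a b) :=
  mv_trp ((d1 a).comp (cl b.1)) fun ξ => by simp only [uu_eq]
theorem m1 : Mv StF FrF (99 * 99) (gRu a b * (gCol b)⁻¹) := by
  rw [gRu, gCol, trp_inv, trp_mul]
  exact mv_trp (dmid a b) fun ξ => by simp only [Pi.add_apply, Pi.neg_apply]; ring
theorem m2 : Mv StF FrF (99 * 99) (gRw a * (gCu a b)⁻¹) := by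
  rw [gRw, gCu, trp_inv, trp_mul]
  exact mv_trp (dmid a b) fun ξ => by simp only [Pi.add_apply, Pi.neg_apply]; ring
theorem m3 : Mv StF FrF (100 * 99) (gFull * (gCol b)⁻¹) := by
  rw [gFull, gCol, trp_inv, trp_mul]
  exact mv_trp (dcol b) fun ξ => by simp only [Pi.add_apply, Pi.neg_apply]; ring
theorem m4 : Mv StF FrF (100 * 99) (gRw a) := mv_trp (drow a) fun _ => by simp only
theorem m5 : Mv StF FrF (100 * 100) gFull := mv_trp dfull fun _ => by simp only
theorem b1 : Mv StF FrF 1 (gRu a b * (gRw a)⁻¹) := by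
  rw [gRu, gRw, trp_inv, trp_mul]
  exact mv_trp (du a.1 b.1) fun ξ => by simp only [Pi.add_apply, Pi.neg_apply]; ring
theorem b2 : Mv StF FrF 98 (gFu a ζ.1.1 * (gRu a ζ.1.2)⁻¹) := by
  rw [gRu, gFu, trp_inv, trp_mul]
  exact mv_trp ((d2 ζ).comp (rw' a.1)) (alg2 _ _ _ _ _ _ (uu_eq' _ _) (uu_eq' _ _))
theorem b3 : Mv StF FrF 1 (gFull * (gFu a b)⁻¹) := by
  rw [gFull, gFu, trp_inv, trp_mul]
  exact mv_trp (du a.1 b.1) fun ξ => by simp only [Pi.add_apply, Pi.neg_apply]; ring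
theorem b4 : Mv StF FrF 99 (gFull * (gRu a b)⁻¹) := by
  rw [gFull, gRu, trp_inv, trp_mul]
  exact mv_trp ((d1 b).comp (rw' a.1)) (alg4 _ _ _ _ (uu_eq' _ _))
theorem b5 : Mv StF FrF 100 (gFull * (gRw a)⁻¹) := by
  rw [gFull, gRw, trp_inv, trp_mul]
  exact mv_trp (d0.comp (rw' a.1)) fun ξ => by simp only [Pi.add_apply, Pi.neg_apply]; ring
theorem b6 : Mv StF FrF 99 (gFu a b * (gRw a)⁻¹) := by
  rw [gFu, gRw, trp_inv, trp_mul]
  exact mv_trp ((d1 b).comp (rw' a.1)) fun ξ => by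
    simp only [Pi.add_apply, Pi.neg_apply, uu_eq']; ring
theorem c1 : Mv StF FrF 1 (gFu a b * gFull⁻¹) := by
  rw [gFu, gFull, trp_inv, trp_mul]
  exact mv_trp (du a.1 b.1).neg fun ξ => by simp only [Pi.add_apply, Pi.neg_apply]; ring
theorem c2 : Mv StF FrF 0 (gFull * gU a b * (gFu a b)⁻¹) := by
  rw [gFu, gFull, gU, trp_inv, trp_mul, trp_mul]
  exact mv_trp (du a.1 b.1).double fun ξ => by simp only [Pi.add_apply, Pi.neg_apply]; ring

end GeoF

theorem geoF : ∃ Γ : Geo Qf (Mv StF FrF) Tri ZF (fun ζ => ζ.1.1) (fun ζ => ζ.1.2) 100,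
    Γ.full = Multiplicative.ofAdd (wt (I := Fin mm)) :=
  ⟨⟨gU, gCol, gCu, gRw, gRu, gFu, gFull, a1, fun ζ b => a2 b ζ, a3, a4, a5, a6, m1, m2, m3, m4, m5,
    b1, b2, b3, b4, b5, b6, c1, c2⟩, trp_wt⟩

theorem codeF {𝕜 : Type} [CommRing 𝕜] (hf : 𝕜) (h2 : 2 * hf = 1) :
    Nonempty (Code 𝕜 {0, 1, -1, hf, -hf} Tri ZF (Option (Fin 100)) (fun ζ => ζ.1.1)
      (fun ζ => ζ.1.2)) := by
  refine ⟨{
    e := fun b ζ => if ζ.1.2 = b then (if (ζ.1.1.1 ∩ b.1).card = 0 then hf else -hf) else 0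
    Jc := fun b j => j.elim (-hf) fun j => if j ∈ b.1 then hf else 0
    Vc := fun j a => j.elim 1 fun j => if j ∈ a.1 then 1 else 0
    he := fun b ζ h => by
      by_contra hc
      exact h (if_neg hc)
    hid := fun a b => ?_
    e_mem := fun b ζ => by split_ifs <;> simp
    J_mem := fun b j => by
      cases j with
      | none => simp
      | some j => simp only [Option.elim]; split_ifs <;> simp
    V_mem := fun j a => by
      cases j with
      | none => simp
      | some j => simp only [Option.elim]; split_ifs <;> simp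
    neg_mem := by simp }⟩
  rw [sum_ZF a b fun a => if (a.1 ∩ b.1).card = 0 then hf else -hf, Fintype.sum_option]
  simp only [Option.elim, mul_one, mul_ite, mul_zero, sum_ite_mem, univ_inter, sum_const,
    nsmul_eq_mul]
  have h3 : (a.1 ∩ b.1).card ≤ 3 := (card_le_card inter_subset_left).trans a.2.le
  have h4 : a = b ↔ (a.1 ∩ b.1).card = 3 := by
    constructor
    · rintro rfl
      rw [inter_self, a.2]
    · intro h4
      have e1 := eq_of_subset_of_card_le (inter_subset_left (s₁ := a.1) (s₂ := b.1))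
        (by rw [h4, a.2])
      have e2 := eq_of_subset_of_card_le (inter_subset_right (s₁ := a.1) (s₂ := b.1))
        (by rw [h4, b.2])
      exact Subtype.ext (e1.symm.trans e2)
  simp only [h4]
  generalize (a.1 ∩ b.1).card = c at h3
  interval_cases c
  · simp
  · simp
  · rw [if_pos (by decide), if_neg (by decide), if_neg (by decide)]
    push_cast
    ring
  · rw [if_neg (by decide), if_pos rfl]
    push_cast
    linear_combination h2

theorem card_ZF : Fintype.card ZF ≤ 161700 ^ 2 := by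
  rw [← card_Tri, sq, ← Fintype.card_prod]
  exact Fintype.card_le_of_injective (fun ζ : ZF => ζ.1) Subtype.val_injective

end Crest.Agent.R326
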