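import Crest.Agent.R326.WordDefs
import Crest.Agent.R326.GeoF

/-! Row 326: the frames of the Fourier gadget act through any action of `(𝔽₂^mm)^k`. -/

set_option autoImplicit false

namespace Crest.Agent.R326

open Crest.Agent.R324

namespace Psi

open Finset

/-- Fourier multipliers for a self-dual group of exponent two -/
theorem mult_exists {R A W : Type} [CommRing R] [Ring A] [Algebra R A] [AddCommGroup W] [Fintype W]
    [DecidableEq W] (hW : ∀ w : W, w + w = 0) (χ : W → W → R) (c : R)
    (hs : ∀ w ξ, χ w ξ = χ ξ w) (ha : ∀ w w' ξ, χ (w + w') ξ = χ w ξ * χ w' ξ)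
    (ho : ∀ w, c * ∑ ξ, χ w ξ = if w = 0 then 1 else 0)
    (ρ : W → A) (ρ0 : ρ 0 = 1) (ρadd : ∀ w w', ρ (w + w') = ρ w * ρ w') :
    ∃ Ψ : (W → R) →ₐ[R] A, ∀ w, Ψ (χ w) = ρ w := by
  let L : (W → R) →ₗ[R] A :=
    { toFun := fun μ => ∑ w, (c * ∑ ξ, μ ξ * χ w ξ) • ρ w
      map_add' := fun μ ν => by
        simp only [Pi.add_apply, add_mul, sum_add_distrib, mul_add, add_smul]
      map_smul' := fun r μ => by
        simp only [Pi.smul_apply, smul_eq_mul, RingHom.id_apply, smul_sum, smul_smul, mul_assoc,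
          ← mul_sum, mul_left_comm c r] }
  have hL : ∀ μ, L μ = ∑ w, (c * ∑ ξ, μ ξ * χ w ξ) • ρ w := fun _ => rfl
  have h1 : L 1 = 1 := by
    simp [hL, ho, ρ0]
  have h2 : ∀ w μ, L (χ w * μ) = ρ w * L μ := fun w μ => by
    rw [hL, hL, mul_sum, ← Equiv.sum_comp (Equiv.addLeft w)]
    refine sum_congr rfl fun w' _ => ?_
    rw [Equiv.coe_addLeft, ρadd, mul_smul_comm]
    congr 2
    refine sum_congr rfl fun ξ _ => ?_
    rw [Pi.mul_apply, mul_comm (χ w ξ), mul_assoc, ← ha, ← add_assoc, hW, zero_add]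
  have h3 : ∀ ν : W → R, ν = ∑ w, (c * ∑ ξ, ν ξ * χ w ξ) • χ w := fun ν => by
    funext η
    have e : ∀ ξ, ξ + η = 0 ↔ ξ = η := fun ξ => by
      rw [add_eq_zero_iff_eq_neg, (eq_neg_of_add_eq_zero_left (hW η)).symm]
    simp only [Finset.sum_apply, Pi.smul_apply, smul_eq_mul, mul_sum, sum_mul]
    rw [sum_comm]
    have e' : ∀ ξ, ∑ w, c * (ν ξ * χ w ξ) * χ w η = ν ξ * if ξ = η then 1 else 0 := fun ξ => by
      rw [← if_congr (e ξ) rfl rfl, ← ho, mul_sum, mul_sum]
      refine sum_congr rfl fun w _ => ?_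
      rw [ha, hs ξ, hs η]
      ring
    simp [e']
  have h4 : ∀ ν μ, L (ν * μ) = L ν * L μ := fun ν μ => by
    conv_lhs => rw [h3 ν, sum_mul, map_sum]
    rw [hL ν, sum_mul]
    refine sum_congr rfl fun w _ => ?_
    rw [smul_mul_assoc, map_smul, h2, smul_mul_assoc]
  refine ⟨AlgHom.ofLinearMap L h1 h4, fun w => ?_⟩
  have := h2 w 1
  rw [mul_one, h1, mul_one] at this
  exact this

variable {R : Type} [CommRing R]

theorem z2 (x : ZMod 2) : x = 0 ∨ x = 1 := by revert x; decide

/-- the sign character -/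
def sg (R : Type) [CommRing R] (x : ZMod 2) : R := if x = 0 then 1 else -1

theorem sg_zero : sg R 0 = 1 := by simp [sg]
theorem sg_one : sg R 1 = -1 := by simp [sg]

theorem sg_add (x y : ZMod 2) : sg R (x + y) = sg R x * sg R y := by
  have h : (1 : ZMod 2) + 1 = 0 := by decide
  rcases z2 x with rfl | rfl <;> rcases z2 y with rfl | rfl <;> simp [h, sg_zero, sg_one]

theorem sg_sum {ι : Type} (s : Finset ι) (f : ι → ZMod 2) :
    sg R (∑ i ∈ s, f i) = ∏ i ∈ s, sg R (f i) := by
  classical
  induction s using Finset.induction_on with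
  | empty => simp [sg_zero]
  | insert a s ha ih => rw [sum_insert ha, prod_insert ha, sg_add, ih]

theorem pow_add4 {I : R} (hI : I * I = -1) (a b : ZMod 4) :
    I ^ (a + b).val = I ^ a.val * I ^ b.val := by
  have h4 : I ^ 4 = 1 := by
    rw [show I ^ 4 = (I * I) * (I * I) by ring, hI]
    ring
  rw [ZMod.val_add, ← pow_add, ← pow_eq_pow_mod _ h4]

theorem pow_lf {I hf : R} (h2 : 2 * hf = 1) (x : ZMod 2) :
    I ^ (lf x).val = hf * (1 + I) + hf * (1 - I) * sg R x := by
  rcases z2 x with rfl | rfl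
  · rw [lf_zero, sg_zero, ZMod.val_zero, pow_zero]
    linear_combination -h2
  · have : (lf 1).val = 1 := by decide
    rw [this, sg_one]
    linear_combination (-I) * h2

theorem pow_two_lf {I : R} (hI : I * I = -1) (x : ZMod 2) : I ^ (2 * lf x).val = sg R x := by
  rcases z2 x with rfl | rfl
  · rw [lf_zero, mul_zero, sg_zero, ZMod.val_zero, pow_zero]
  · have : (2 * lf 1).val = 2 := by decide
    rw [this, sg_one, sq, hI]

theorem orth {hf : R} (h2 : 2 * hf = 1) {k n : ℕ} (w : Fin k → Fin n → ZMod 2) :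
    (∏ _s : Fin k, ∏ _i : Fin n, hf) *
      ∑ ξ : Fin k → Fin n → ZMod 2, ∏ s, sg R (∑ i, w s i * ξ s i) = if w = 0 then 1 else 0 := by
  have h1 : ∀ y : ZMod 2, hf * ∑ x : ZMod 2, sg R (y * x) = if y = 0 then 1 else 0 := fun y => by
    have e : ∑ x : ZMod 2, sg R (y * x) = sg R (y * 0) + sg R (y * 1) :=
      Fin.sum_univ_two fun x : ZMod 2 => sg R (y * x)
    rw [e]
    rcases z2 y with rfl | rfl
    · simp only [mul_zero, mul_one, sg_zero, if_true]
      linear_combination h2
    · simp [sg_zero, sg_one]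
  simp only [sg_sum]
  rw [← Fintype.prod_sum fun s (η : Fin n → ZMod 2) => ∏ i, sg R (w s i * η i), ← prod_mul_distrib]
  have h3 : ∀ s, (∏ _i : Fin n, hf) * ∑ η : Fin n → ZMod 2, ∏ i, sg R (w s i * η i) =
      ∏ i, if w s i = 0 then 1 else 0 := fun s => by
    rw [← Fintype.prod_sum fun i (x : ZMod 2) => sg R (w s i * x), ← prod_mul_distrib]
    simp only [h1]
  simp only [h3]
  split_ifs with h
  · simp [h]
  · obtain ⟨s, hs⟩ := Function.ne_iff.1 h
    obtain ⟨i, hi⟩ := Function.ne_iff.1 hs
    exact prod_eq_zero (mem_univ s) (prod_eq_zero (mem_univ i) (if_neg hi))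

theorem prod_apply_foldr {ι V : Type} [AddCommGroup V] [Module R V] (l : List ι)
    (C : ι → Module.End R V) (f : V) : (l.map C).prod f = l.foldr (fun s f => C s f) f := by
  induction l with
  | nil => rfl
  | cons a l ih => rw [List.map_cons, List.prod_cons, Module.End.mul_apply, ih, List.foldr_cons]

theorem psi_gen {X : Type} (I hf : R) (hI : I * I = -1) (h2 : 2 * hf = 1) (k n : ℕ)
    (T : (Fin k → Fin n → ZMod 2) → X → X) (T0 : ∀ x, T 0 x = x)
    (Tadd : ∀ w w' x, T (w + w') x = T w (T w' x)) :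
    ∃ act : Multiplicative ((Fin n → ZMod 2) → ZMod 4) →* Module.End R (X → R),
      (∀ (u : Fin n → ZMod 2) f, act (Multiplicative.ofAdd fun ξ => lf (∑ i, u i * ξ i)) f =
        (List.finRange k).foldr (fun s f => cop I hf (T (Pi.single s u)) f) f) ∧
      (∀ (u : Fin n → ZMod 2) f, act (Multiplicative.ofAdd fun ξ => 2 * lf (∑ i, u i * ξ i)) f =
        fun x => f (T (fun _ => u) x)) ∧
      (∀ f, act (Multiplicative.ofAdd (wt (I := Fin n))) f =
        (List.finRange n).foldr (fun i f => (List.finRange k).foldr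
          (fun s f => cop I hf (T (Pi.single s (Pi.single i 1))) f) f) f) := by
  obtain ⟨Ψ, hΨ⟩ := mult_exists (R := R) (A := Module.End R (X → R))
    (W := Fin k → Fin n → ZMod 2)
    (fun w => funext fun s => funext fun i => CharTwo.add_self_eq_zero (w s i))
    (fun w ξ => ∏ s, sg R (∑ i, w s i * ξ s i)) _
    (fun w ξ => by simp only [mul_comm])
    (fun w w' ξ => by simp only [Pi.add_apply, add_mul, sum_add_distrib, sg_add, prod_mul_distrib])
    (orth h2) (fun w => LinearMap.funLeft R R (T w))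
    (LinearMap.ext fun f => funext fun x => congrArg f (T0 x))
    (fun w w' => LinearMap.ext fun f => funext fun x => congrArg f (by rw [add_comm, Tadd]))
  let act : Multiplicative ((Fin n → ZMod 2) → ZMod 4) →* Module.End R (X → R) :=
    { toFun := fun q => Ψ fun ξ => ∏ s, I ^ (q.toAdd (ξ s)).val
      map_one' := by
        rw [← map_one Ψ]
        congr 1
        funext ξ
        simp
      map_mul' := fun q q' => by
        rw [← map_mul]
        congr 1
        funext ξ
        simp only [toAdd_mul, Pi.add_apply, pow_add4 hI, prod_mul_distrib, Pi.mul_apply] }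
  have hact : ∀ q, act (Multiplicative.ofAdd q) = Ψ fun ξ => ∏ s, I ^ (q (ξ s)).val := fun _ => rfl
  have h1 : ∀ (u : Fin n → ZMod 2) f, act (Multiplicative.ofAdd fun ξ => lf (∑ i, u i * ξ i)) f =
      (List.finRange k).foldr (fun s f => cop I hf (T (Pi.single s u)) f) f := fun u f => by
    have e : (fun ξ : Fin k → Fin n → ZMod 2 => ∏ s, I ^ (lf (∑ i, u i * ξ s i)).val) =
        ∏ s : Fin k, ((hf * (1 + I)) • (1 : (Fin k → Fin n → ZMod 2) → R) + (hf * (1 - I)) •
          fun ξ => ∏ t, sg R (∑ i, (Pi.single s u : Fin k → Fin n → ZMod 2) t i * ξ t i)) := by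
      funext ξ
      rw [prod_apply]
      refine prod_congr rfl fun s _ => ?_
      rw [pow_lf h2, Pi.add_apply, Pi.smul_apply, Pi.smul_apply, Pi.one_apply, smul_eq_mul,
        smul_eq_mul, mul_one, prod_eq_single s (fun t _ ht => by
          simp [Pi.single_eq_of_ne ht, sg_zero]) (by simp), Pi.single_eq_same]
    rw [hact, e, Fin.prod_univ_def, map_list_prod, List.map_map, prod_apply_foldr]
    congr 1
    funext s g
    funext x
    simp only [Function.comp, map_add, map_smul, map_one, hΨ, cop, LinearMap.add_apply,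
      LinearMap.smul_apply, Module.End.one_apply, Pi.add_apply, Pi.smul_apply, smul_eq_mul,
      LinearMap.funLeft_apply]
    ring
  refine ⟨act, h1, fun u f => ?_, fun f => ?_⟩
  · rw [hact]
    simp only [pow_two_lf hI]
    rw [hΨ fun _ => u]
    rfl
  · have e : Multiplicative.ofAdd (wt (I := Fin n)) = ∏ j : Fin n, Multiplicative.ofAdd
        fun ξ : Fin n → ZMod 2 => lf (∑ i, (Pi.single j 1 : Fin n → ZMod 2) i * ξ i) := by
      rw [← ofAdd_sum]
      congr 1
      funext ξ
      simp [wt, Pi.single_apply]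
    rw [e, Fin.prod_univ_def, map_list_prod, List.map_map, prod_apply_foldr]
    simp only [Function.comp, h1]

end Psi

theorem cop_comm {R X : Type} [CommRing R] (I hf : R) {τ τ' : X → X}
    (h : ∀ x, τ (τ' x) = τ' (τ x)) (f : X → R) :
    cop I hf τ (cop I hf τ' f) = cop I hf τ' (cop I hf τ f) := by
  funext x
  simp only [cop, h]
  ring

theorem psi_exists {R X : Type} [CommRing R] (I hf : R) (hI : I * I = -1) (h2 : 2 * hf = 1) (k : ℕ)
    (T : (Fin k → Fin mm → ZMod 2) → X → X) (T0 : ∀ x, T 0 x = x)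
    (Tadd : ∀ w w' x, T (w + w') x = T w (T w' x)) :
    ∃ act : Qf →* Module.End R (X → R),
      (∀ u f, act (Multiplicative.ofAdd fun ξ => lf (lform u ξ)) f =
        (List.finRange k).foldr (fun s f => cop I hf (T (Pi.single s u)) f) f) ∧
      (∀ u f, act (Multiplicative.ofAdd fun ξ => 2 * lf (lform u ξ)) f =
        fun x => f (T (fun _ => u) x)) ∧
      (∀ f, act (Multiplicative.ofAdd (wt (I := Fin mm))) f =
        (List.finRange mm).foldr (fun i f => (List.finRange k).foldr
          (fun s f => cop I hf (T (Pi.single s (Pi.single i 1))) f) f) f) :=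
  Psi.psi_gen I hf hI h2 k mm T T0 Tadd

/-- componentwise actions -/
theorem pi_act {ι G : Type} [Group G] {R V : ι → Type} [∀ i, CommRing (R i)]
    [∀ i, AddCommGroup (V i)] [∀ i, Module (R i) (V i)] (act : ∀ i, G →* Module.End (R i) (V i)) :
    ∃ A : G →* Module.End (∀ i, R i) (∀ i, V i), ∀ g u i, A g u i = act i g (u i) :=
  ⟨{ toFun := fun g =>
      { toFun := fun u i => act i g (u i)
        map_add' := fun u v => funext fun i => map_add (act i g) (u i) (v i)
        map_smul' := fun r u => funext fun i => map_smul (act i g) (r i) (u i) }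
     map_one' := LinearMap.ext fun u => funext fun i => by simp
     map_mul' := fun g g' => LinearMap.ext fun u => funext fun i => by simp },
    fun _ _ _ => rfl⟩

end Crest.Agent.R326
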