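import Crest.Agent.R326.Crt
import Crest.Agent.R326.Psi

/-! Row 326: semantics of one recursion level of the tensor power of `cop`. -/

set_option autoImplicit false

namespace Crest.Agent.R326

open Function

namespace CS

/-- transport of a product of `cop`s along an intertwining map -/
theorem transfer {R X Y α : Type} [CommRing R] (I hf : R) (l : List α) {τ : α → X → X}
    {τ' : α → Y → Y} (φ : X → Y) (S : X → Prop) (hS : ∀ p ∈ l, ∀ x, S x → S (τ p x))
    (hφ : ∀ p ∈ l, ∀ x, S x → φ (τ p x) = τ' p (φ x)) {g : X → R} {f : Y → R}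
    (h : ∀ x, S x → g x = f (φ x)) (x : X) (hx : S x) :
    l.foldr (fun p f => cop I hf (τ p) f) g x = l.foldr (fun p f => cop I hf (τ' p) f) f (φ x) := by
  induction l generalizing x with
  | nil => exact h x hx
  | cons p l ih =>
    have ih' := ih (fun q hq => hS q (List.mem_cons_of_mem _ hq))
      fun q hq => hφ q (List.mem_cons_of_mem _ hq)
    simp only [List.foldr_cons, cop]
    rw [ih' x hx, ih' _ (hS p List.mem_cons_self x hx), hφ p List.mem_cons_self x hx]

theorem tauI_valid {s : List ℕ} {N t t' : ℕ} (hN : 0 < N) (ht : ax s t = N) (ht' : ax s t' = N)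
    (c : ℕ) {ι : ℕ → ℕ} (hι : Valid s ι) : Valid s (tauI N t t' c ι) := by
  intro u
  unfold tauI
  by_cases h' : u = t'
  · subst h'
    rw [update_self, ht']
    exact Nat.mod_lt _ hN
  · rw [update_of_ne h']
    by_cases h : u = t
    · subst h
      rw [update_self, ht]
      exact Nat.mod_lt _ hN
    · rw [update_of_ne h]
      exact hι u

theorem tauI_apply (N t t' c : ℕ) (ι : ℕ → ℕ) (u : ℕ) :
    tauI N t t' c ι u = if u = t ∨ u = t' then c * ι u % N else ι u := by
  unfold tauI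
  by_cases h' : u = t'
  · subst h'
    simp
  · by_cases h : u = t
    · subst h
      simp [update_of_ne h']
    · simp [h, h']

theorem tauI_comm (N t t' c c' : ℕ) (ι : ℕ → ℕ) :
    tauI N t t' c (tauI N t t' c' ι) = tauI N t t' c' (tauI N t t' c ι) := by
  funext u
  simp only [tauI_apply]
  split_ifs
  · rw [Nat.mul_mod_mod, Nat.mul_mod_mod, mul_left_comm]
  · rfl

theorem mrg_mul {Ns : List ℕ} (hc : Ns.Pairwise Nat.Coprime) (hp : ∀ x ∈ Ns, 0 < x) (c : ℕ)
    {y y' : ℕ → ℕ} (h : ∀ j < Ns.length, y' j ≡ c * y j [MOD Ns.getD j 1]) :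
    mrg Ns y' = c * mrg Ns y % Ns.prod := by
  rw [← Nat.mod_eq_of_lt (mrg_lt hc hp y')]
  refine modEq_prod hc fun x hx => ?_
  obtain ⟨j, hj, rfl⟩ := List.mem_iff_getElem.1 hx
  rw [← List.getD_eq_getElem Ns 1 hj]
  refine (mrg_modEq hc hp y' hj).trans (((h j hj).mul_left _).trans ?_)
  rw [mul_left_comm]
  exact ((mrg_modEq hc hp y hj).mul_left c).symm

variable {ps : List ℕ} {H M L : ℕ}

theorem good_blk (h : GoodP ps) (i : ℕ) : GoodP (blk ps i) := h.sublist (blk_sublist ps i)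

theorem mem_of_blk {i p : ℕ} (hp : p ∈ blk ps i) : p ∈ ps := (blk_sublist ps i).subset hp

theorem coprime_blk (h : GoodP ps) {i j : ℕ} (hi : i ≤ mm) (hj : j ≤ mm) (hij : i ≠ j) :
    Nat.Coprime (blk ps i).prod (blk ps j).prod := by
  have hc := List.pairwise_iff_getElem.1 (blkN_coprime h)
  have hi' : i < (blkN ps).length := by rw [length_blkN]; omega
  have hj' : j < (blkN ps).length := by rw [length_blkN]; omega
  rw [← getD_blkN ps hi, ← getD_blkN ps hj, List.getD_eq_getElem _ _ hi',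
    List.getD_eq_getElem _ _ hj']
  rcases lt_or_gt_of_ne hij with h1 | h1
  · exact hc i j hi' hj' h1
  · exact (hc j i hj' hi' h1).symm

theorem sgnc_blk (h : GoodP ps) {i j p : ℕ} (hi : i ≤ mm) (hj : j ≤ mm) (hp : p ∈ blk ps i) :
    sgnc ps.prod p ≡ (if j = i then sgnc (blk ps i).prod p else 1) [MOD (blk ps j).prod] := by
  refine modEq_prod (good_blk h j).1 fun q hq => ?_
  split_ifs with hji
  · subst hji
    by_cases hpq : p = q
    · subst hpq
      exact Nat.ModEq.add_right_cancel' 1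
        ((sgnc_self h (mem_of_blk hp)).trans (sgnc_self (good_blk h j) hp).symm)
    · exact (sgnc_other h (mem_of_blk hp) (mem_of_blk hq) hpq).trans
        (sgnc_other (good_blk h j) hp hq hpq).symm
  · refine sgnc_other h (mem_of_blk hp) (mem_of_blk hq) fun hpq => ?_
    subst hpq
    have h1 := (Nat.coprime_self p).1 (((coprime_blk h hj hi hji).coprime_dvd_left
      (List.dvd_prod hq)).coprime_dvd_right (List.dvd_prod hp))
    have h2 := (h.2 p (mem_of_blk hp)).2
    omega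

theorem mrgI_tauI (h : GoodP ps) {i p : ℕ} (hi : i ≤ mm) (hp : p ∈ blk ps i) (d : ℕ → ℕ) :
    mrgI (blkN ps) (tauI (blk ps i).prod (1 + i) (mm + 3 + i) (sgnc (blk ps i).prod p) d) =
      tauI ps.prod 1 3 (sgnc ps.prod p) (mrgI (blkN ps) d) := by
  have key : ∀ o, (o = 1 ∨ o = mm + 3) → mrg (blkN ps) (fun u =>
      tauI (blk ps i).prod (1 + i) (mm + 3 + i) (sgnc (blk ps i).prod p) d (u + o)) =
      sgnc ps.prod p * mrg (blkN ps) (fun u => d (u + o)) % ps.prod := by
    intro o ho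
    rw [← prod_blkN ps]
    refine mrg_mul (blkN_coprime h) (blkN_pos h) _ fun j hj => ?_
    rw [length_blkN] at hj
    have hj' : j ≤ mm := by omega
    have hs := (sgnc_blk h hi hj' hp).mul_right (d (j + o))
    rw [getD_blkN ps hj', prod_blkN, tauI_apply]
    by_cases hji : j = i
    · subst hji
      rw [if_pos rfl] at hs
      rw [if_pos (by omega)]
      exact (Nat.mod_modEq _ _).trans hs.symm
    · rw [if_neg hji, one_mul] at hs
      rw [if_neg (by omega)]
      exact hs.symm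
  funext t
  rw [tauI_apply]
  unfold mrgI
  rw [length_blkN]
  by_cases h0 : t = 0
  · subst h0
    simp only [if_true]
    rw [if_neg (by omega), tauI_apply, if_neg (by omega)]
  by_cases h1 : t = 1
  · subst h1
    simp only [if_neg h0, if_true, true_or]
    exact key 1 (Or.inl rfl)
  by_cases h2 : t = 2
  · subst h2
    simp only [if_neg h0, if_neg h1, if_true]
    rw [if_neg (by omega), tauI_apply, if_neg (by omega)]
  by_cases h3 : t = 3
  · subst h3
    simp only [if_neg h0, if_neg h1, if_neg h2, if_true, or_true]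
    exact key (mm + 3) (Or.inr rfl)
  simp only [if_neg h0, if_neg h1, if_neg h2, if_neg h3]
  rw [if_neg (by omega), tauI_apply, if_neg (by omega)]

theorem ax_y {i : ℕ} (hi : i ≤ mm) (tl : List ℕ) :
    ax (sD H (blkN ps) M tl) (1 + i) = (blk ps i).prod := by
  rw [ax_sD_y _ _ _ _ (by rw [length_blkN]; omega), getD_blkN ps hi]

theorem ax_x {i : ℕ} (hi : i ≤ mm) (tl : List ℕ) :
    ax (sD H (blkN ps) M tl) (mm + 3 + i) = (blk ps i).prod := by
  have := ax_sD_x H M (blkN ps) tl (i := i) (by rw [length_blkN]; omega)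
  rwa [length_blkN, getD_blkN ps hi] at this

theorem split_list {R : Type} [CommRing R] (I hf : R) (h : GoodP ps) (f : (ℕ → ℕ) → R)
    (l : List ℕ) (hl : ∀ i ∈ l, i ≤ mm) (ι : ℕ → ℕ) :
    l.foldr (fun i g => cten I hf (blk ps i) (1 + i) (mm + 3 + i) g)
      (fun κ => f (mrgI (blkN ps) κ)) ι =
    (l.flatMap (blk ps)).foldr (fun p f => cop I hf (tauI ps.prod 1 3 (sgnc ps.prod p)) f) f
      (mrgI (blkN ps) ι) := by
  induction l generalizing ι with
  | nil => rfl
  | cons i l ih =>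
    rw [List.foldr_cons, List.flatMap_cons, List.foldr_append]
    exact transfer I hf (blk ps i) (mrgI (blkN ps)) (fun _ => True) (fun _ _ _ _ => trivial)
      (fun p hp x _ => mrgI_tauI h (hl i List.mem_cons_self) hp x)
      (fun x _ => ih (fun j hj => hl j (List.mem_cons_of_mem _ hj)) x) ι trivial

/-! ### block multiplications -/

theorem mulI_y (γ ι : ℕ → ℕ) {i : ℕ} (hi : i < mm) :
    mulI (blkN ps) γ ι (1 + i) = γ i * ι (1 + i) % (blk ps i).prod := by
  unfold mulI
  rw [if_pos (by omega), Nat.add_sub_cancel_left, getD_blkN ps hi.le]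

theorem mulI_x (γ ι : ℕ → ℕ) {i : ℕ} (hi : i < mm) :
    mulI (blkN ps) γ ι (mm + 3 + i) = γ i * ι (mm + 3 + i) % (blk ps i).prod := by
  unfold mulI
  rw [if_neg (by omega), if_pos (by omega), Nat.add_sub_cancel_left, getD_blkN ps hi.le]

theorem mulI_o (γ ι : ℕ → ℕ) {t : ℕ} (h : ∀ i < mm, t ≠ 1 + i ∧ t ≠ mm + 3 + i) :
    mulI (blkN ps) γ ι t = ι t := by
  unfold mulI
  rw [if_neg fun h' => (h (t - 1) (by omega)).1 (by omega),
    if_neg fun h' => (h (t - (mm + 3)) (by omega)).2 (by omega)]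

theorem digit_cases (t : ℕ) : (∃ i < mm, t = 1 + i) ∨ (∃ i < mm, t = mm + 3 + i) ∨
    ∀ i < mm, t ≠ 1 + i ∧ t ≠ mm + 3 + i := by
  by_contra hn
  push Not at hn
  obtain ⟨h1, h2, i, hi, h3⟩ := hn
  exact h2 i hi (h3 (h1 i hi))

theorem mulI_valid (h : GoodP ps) (γ : ℕ → ℕ) {tl : List ℕ} {ι : ℕ → ℕ}
    (hι : Valid (sD H (blkN ps) M tl) ι) : Valid (sD H (blkN ps) M tl) (mulI (blkN ps) γ ι) := by
  intro t
  rcases digit_cases t with ⟨i, hi, rfl⟩ | ⟨i, hi, rfl⟩ | ho
  · rw [mulI_y _ _ hi, ax_y hi.le]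
    exact Nat.mod_lt _ (good_blk h i).prod_pos
  · rw [mulI_x _ _ hi, ax_x hi.le]
    exact Nat.mod_lt _ (good_blk h i).prod_pos
  · rw [mulI_o _ _ ho]
    exact hι t

theorem mulI_congr {γ γ' : ℕ → ℕ} (hγ : ∀ i < mm, γ i ≡ γ' i [MOD (blk ps i).prod]) (ι : ℕ → ℕ) :
    mulI (blkN ps) γ ι = mulI (blkN ps) γ' ι := by
  funext t
  rcases digit_cases t with ⟨i, hi, rfl⟩ | ⟨i, hi, rfl⟩ | ho
  · rw [mulI_y _ _ hi, mulI_y _ _ hi]
    exact (hγ i hi).mul_right _
  · rw [mulI_x _ _ hi, mulI_x _ _ hi]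
    exact (hγ i hi).mul_right _
  · rw [mulI_o _ _ ho, mulI_o _ _ ho]

theorem mulI_mulI (γ γ' ι : ℕ → ℕ) :
    mulI (blkN ps) γ (mulI (blkN ps) γ' ι) = mulI (blkN ps) (fun i => γ i * γ' i) ι := by
  funext t
  rcases digit_cases t with ⟨i, hi, rfl⟩ | ⟨i, hi, rfl⟩ | ho
  · rw [mulI_y _ _ hi, mulI_y _ _ hi, mulI_y _ _ hi, Nat.mul_mod_mod, mul_assoc]
  · rw [mulI_x _ _ hi, mulI_x _ _ hi, mulI_x _ _ hi, Nat.mul_mod_mod, mul_assoc]
  · rw [mulI_o _ _ ho, mulI_o _ _ ho, mulI_o _ _ ho]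

theorem mulI_one {γ : ℕ → ℕ} (hγ : ∀ i < mm, γ i ≡ 1 [MOD (blk ps i).prod]) {tl : List ℕ}
    {ι : ℕ → ℕ} (hι : Valid (sD H (blkN ps) M tl) ι) : mulI (blkN ps) γ ι = ι := by
  rw [mulI_congr hγ]
  funext t
  rcases digit_cases t with ⟨i, hi, rfl⟩ | ⟨i, hi, rfl⟩ | ho
  · rw [mulI_y _ _ hi, one_mul, ← ax_y (H := H) (M := M) hi.le tl, Nat.mod_eq_of_lt (hι _)]
  · rw [mulI_x _ _ hi, one_mul, ← ax_x (H := H) (M := M) hi.le tl, Nat.mod_eq_of_lt (hι _)]
  · rw [mulI_o _ _ ho]

theorem tauI_eq_mulI {i : ℕ} (hi : i < mm) (c : ℕ) {tl : List ℕ} {ι : ℕ → ℕ}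
    (hι : Valid (sD H (blkN ps) M tl) ι) :
    tauI (blk ps i).prod (1 + i) (mm + 3 + i) c ι =
      mulI (blkN ps) (fun j => if j = i then c else 1) ι := by
  funext t
  rw [tauI_apply]
  rcases digit_cases t with ⟨j, hj, rfl⟩ | ⟨j, hj, rfl⟩ | ho
  · rw [mulI_y _ _ hj]
    by_cases hji : j = i
    · subst hji
      rw [if_pos (Or.inl rfl), if_pos rfl]
    · rw [if_neg (by omega), if_neg hji, one_mul, ← ax_y (H := H) (M := M) hj.le tl,
        Nat.mod_eq_of_lt (hι _)]
  · rw [mulI_x _ _ hj]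
    by_cases hji : j = i
    · subst hji
      rw [if_pos (Or.inr rfl), if_pos rfl]
    · rw [if_neg (by omega), if_neg hji, one_mul, ← ax_x (H := H) (M := M) hj.le tl,
        Nat.mod_eq_of_lt (hι _)]
  · rw [mulI_o _ _ ho, if_neg (not_or.2 (ho i hi))]

theorem genI_mulI (h : GoodP ps) {γ : ℕ → ℕ}
    (hγ : ∀ i < mm, γ i * γ i ≡ 1 [MOD (blk ps i).prod]) {ι : ℕ → ℕ}
    (hι : Valid (sD H (blkN ps) M [L]) ι) :
    GenI ps H M L (mulI (blkN ps) γ ι) ↔ GenI ps H M L ι := by
  unfold GenI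
  rw [and_iff_right (mulI_valid h γ hι), and_iff_right hι]
  refine forall₂_congr fun i hi => forall₂_congr fun p hp => not_congr ?_
  have hd : p ∣ (blk ps i).prod := List.dvd_prod hp
  have hc : Nat.Coprime p (γ i) :=
    (Nat.coprime_of_mul_modEq_one (γ i) ((hγ i hi).of_dvd hd)).symm
  rw [mulI_y _ _ hi, Nat.dvd_mod_iff hd, hc.dvd_mul_left]

theorem blk_getD_mem {i : ℕ} (hi : i < mm) (s : Fin (ps.length / mm)) :
    (blk ps i).getD s 1 ∈ blk ps i := by
  have hs : (s : ℕ) < (blk ps i).length := by rw [length_blk ps hi]; exact s.2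
  rw [List.getD_eq_getElem _ _ hs]
  exact List.getElem_mem hs

theorem blk_getD_inj (h : GoodP ps) {i : ℕ} (hi : i < mm) {s s' : Fin (ps.length / mm)}
    (e : (blk ps i).getD s 1 = (blk ps i).getD s' 1) : s = s' := by
  have hs : (s : ℕ) < (blk ps i).length := by rw [length_blk ps hi]; exact s.2
  have hs' : (s' : ℕ) < (blk ps i).length := by rw [length_blk ps hi]; exact s'.2
  rw [List.getD_eq_getElem _ _ hs, List.getD_eq_getElem _ _ hs'] at e
  exact Fin.ext (((good_blk h i).nodup.getElem_inj_iff).1 e)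

theorem sq_cast (h : GoodP ps) {i : ℕ} (hi : i < mm) (s : Fin (ps.length / mm)) :
    ((sgnc (blk ps i).prod ((blk ps i).getD s 1) : ℕ) : ZMod (blk ps i).prod) *
      (sgnc (blk ps i).prod ((blk ps i).getD s 1) : ℕ) = 1 := by
  have := (ZMod.natCast_eq_natCast_iff _ _ _).2 (sgnc_sq (good_blk h i) (blk_getD_mem hi s))
  rwa [Nat.cast_mul, Nat.cast_one] at this

theorem z2 (x : ZMod 2) : x = 0 ∨ x = 1 := by revert x; decide

theorem gam_mul (h : GoodP ps) (w w' : Fin (ps.length / mm) → Fin mm → ZMod 2) {i : ℕ}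
    (hi : i < mm) : gam ps (w + w') i ≡ gam ps w i * gam ps w' i [MOD (blk ps i).prod] := by
  rw [← ZMod.natCast_eq_natCast_iff]
  unfold gam
  rw [dif_pos hi, dif_pos hi, dif_pos hi, ← Finset.prod_mul_distrib, Nat.cast_prod, Nat.cast_prod]
  refine Finset.prod_congr rfl fun s _ => ?_
  have hq := sq_cast h hi s
  have h01 : (0 : ZMod 2) ≠ 1 := by decide
  have h11 : (1 : ZMod 2) + 1 = 0 := by decide
  rw [Pi.add_apply, Pi.add_apply]
  rcases z2 (w s ⟨i, hi⟩) with e | e <;> rcases z2 (w' s ⟨i, hi⟩) with e' | e' <;> rw [e, e']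
  · rw [add_zero, if_neg h01, one_mul]
  · rw [zero_add, if_neg h01, one_mul]
  · rw [add_zero, if_neg h01, mul_one]
  · rw [h11, if_neg h01, if_pos rfl, Nat.cast_mul, hq, Nat.cast_one]

theorem gam_zero' (i : ℕ) : gam ps 0 i = 1 := by
  have h01 : (0 : ZMod 2) ≠ 1 := by decide
  unfold gam
  split_ifs
  · exact Finset.prod_eq_one fun s _ => if_neg h01
  · rfl

theorem gam_sq (h : GoodP ps) (w : Fin (ps.length / mm) → Fin mm → ZMod 2) {i : ℕ} (hi : i < mm) :
    gam ps w i * gam ps w i ≡ 1 [MOD (blk ps i).prod] := by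
  have h1 := gam_mul h w w hi
  have h2 : w + w = 0 := by
    funext s j
    exact CharTwo.add_self_eq_zero (w s j)
  rw [h2, gam_zero'] at h1
  exact h1.symm

theorem gam_single' (s : Fin (ps.length / mm)) (u : Fin mm → ZMod 2) {i : ℕ} (hi : i < mm) :
    gam ps (Pi.single s u) i =
      if u ⟨i, hi⟩ = 1 then sgnc (blk ps i).prod ((blk ps i).getD s 1) else 1 := by
  have h01 : (0 : ZMod 2) ≠ 1 := by decide
  unfold gam
  rw [dif_pos hi, Finset.prod_eq_single s (fun s' _ hs => ?_) (by simp), Pi.single_eq_same]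
  rw [Pi.single_eq_of_ne hs]
  exact if_neg h01

theorem gam_single'' (s : Fin (ps.length / mm)) (i₀ : Fin mm) {i : ℕ} (hi : i < mm) :
    gam ps (Pi.single s (Pi.single i₀ 1)) i =
      if i = i₀ then sgnc (blk ps i₀).prod ((blk ps i₀).getD s 1) else 1 := by
  have h01 : (0 : ZMod 2) ≠ 1 := by decide
  rw [gam_single' s _ hi]
  by_cases h : i = i₀
  · subst h
    rw [if_pos rfl, if_pos (Pi.single_eq_same _ _)]
  · rw [if_neg h, Pi.single_eq_of_ne fun e => h (congrArg Fin.val e), if_neg h01]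

theorem sigG_sq (h : GoodP ps) (u : Fin mm → ZMod 2) (i₀ : ℕ) (ι : ℕ → ℕ) (i : ℕ) :
    sigG ps u i₀ ι i * sigG ps u i₀ ι i ≡ 1 [MOD (blk ps i).prod] := by
  unfold sigG
  split_ifs
  · exact sgnMul_sq (good_blk h i) _ _
  · rfl
  · rfl

theorem sigG_self (u : Fin mm → ZMod 2) (i₀ : ℕ) (ι : ℕ → ℕ) : sigG ps u i₀ ι i₀ = 1 := by
  unfold sigG
  split_ifs with h1 h2
  · exact absurd rfl h2.1
  · rfl
  · rfl

theorem sgnMul_cast {k : ℕ} {b₀ b : List ℕ} (h₀ : b₀.length = k) (hb : b.length = k) (y : ℕ) :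
    ((sgnMul b₀ b y : ℕ) : ZMod b.prod) = ∏ s : Fin k,
      if b₀.getD s 1 < 2 * (y % b₀.getD s 1) then ((sgnc b.prod (b.getD s 1) : ℕ) : ZMod b.prod)
      else 1 := by
  have e : b₀.zip b = List.ofFn fun s : Fin k => (b₀.getD s 1, b.getD s 1) := by
    refine List.ext_getElem (by simp [h₀, hb]) fun n h1 h2 => ?_
    have hn : n < k := by simpa using h2
    rw [List.getElem_zip, List.getElem_ofFn, List.getD_eq_getElem _ _ (h₀ ▸ hn),
      List.getD_eq_getElem _ _ (hb ▸ hn)]
  rw [sgnMul, ZMod.natCast_mod, e, List.map_ofFn, List.prod_ofFn, Nat.cast_prod]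
  refine Finset.prod_congr rfl fun s _ => ?_
  simp only [Function.comp_apply]
  split_ifs
  · rfl
  · exact Nat.cast_one

theorem flip_lt {p y y' : ℕ} (hp : Odd p) (hy : ¬ p ∣ y) (h : y' + y ≡ 0 [MOD p]) :
    p < 2 * (y' % p) ↔ ¬ p < 2 * (y % p) := by
  have hp0 : 0 < p := hp.pos
  have h1 := Nat.mod_lt y hp0
  have h2 := Nat.mod_lt y' hp0
  have h3 : y % p ≠ 0 := fun e => hy (Nat.dvd_of_mod_eq_zero e)
  have h4 : p ∣ y' % p + y % p :=
    (Nat.modEq_zero_iff_dvd).1 (((Nat.mod_modEq _ _).add (Nat.mod_modEq _ _)).trans h)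
  obtain ⟨c, hc⟩ := h4
  have h5 : c = 1 := by
    rcases c with _ | _ | c
    · omega
    · rfl
    · nlinarith
  subst h5
  obtain ⟨k, hk⟩ := hp
  omega

theorem sgnMul_flip (h : GoodP ps) {i₀ i : ℕ} (hi₀ : i₀ < mm) (hi : i < mm)
    (s : Fin (ps.length / mm)) {y : ℕ} (hy : ¬ (blk ps i₀).getD s 1 ∣ y) :
    sgnMul (blk ps i₀) (blk ps i)
        (sgnc (blk ps i₀).prod ((blk ps i₀).getD s 1) * y % (blk ps i₀).prod) ≡
      sgnc (blk ps i).prod ((blk ps i).getD s 1) * sgnMul (blk ps i₀) (blk ps i) y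
        [MOD (blk ps i).prod] := by
  have g₀ := good_blk h i₀
  rw [← ZMod.natCast_eq_natCast_iff, Nat.cast_mul,
    sgnMul_cast (length_blk ps hi₀) (length_blk ps hi),
    sgnMul_cast (length_blk ps hi₀) (length_blk ps hi),
    ← Finset.mul_prod_erase _ _ (Finset.mem_univ s),
    ← Finset.mul_prod_erase _ _ (Finset.mem_univ s), ← mul_assoc]
  congr 1
  · have hm := blk_getD_mem hi₀ s
    have h1 : sgnc (blk ps i₀).prod ((blk ps i₀).getD s 1) * y % (blk ps i₀).prod + y ≡ 0
        [MOD (blk ps i₀).getD s 1] := by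
      have h2 := (sgnc_self g₀ hm).mul_right y
      rw [add_mul, one_mul, zero_mul] at h2
      exact (((Nat.mod_modEq _ _).of_dvd (List.dvd_prod hm)).add_right y).trans h2
    simp only [flip_lt (g₀.2 _ hm).1 hy h1]
    by_cases hc : (blk ps i₀).getD s 1 < 2 * (y % (blk ps i₀).getD s 1)
    · rw [if_neg (not_not.2 hc), if_pos hc, sq_cast h hi s]
    · rw [if_pos hc, if_neg hc, mul_one]
  · refine Finset.prod_congr rfl fun s' hs' => ?_
    have hne : (blk ps i₀).getD s 1 ≠ (blk ps i₀).getD s' 1 := fun e =>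
      (Finset.mem_erase.1 hs').1 (blk_getD_inj h hi₀ e).symm
    have hm := blk_getD_mem hi₀ s'
    have h1 : sgnc (blk ps i₀).prod ((blk ps i₀).getD s 1) * y % (blk ps i₀).prod ≡ y
        [MOD (blk ps i₀).getD s' 1] := by
      have h2 := (sgnc_other g₀ (blk_getD_mem hi₀ s) hm hne).mul_right y
      rw [one_mul] at h2
      exact ((Nat.mod_modEq _ _).of_dvd (List.dvd_prod hm)).trans h2
    rw [h1]

/-! ### five merged axes -/

/-- the five merged digits -/
def five (s : List ℕ) (t t' : ℕ) (ι : ℕ → ℕ) : ℕ → ℕ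
  | 0 => pos (s.take t) ι
  | 1 => ι t
  | 2 => pos ((s.take t').drop (t + 1)) fun u => ι (u + (t + 1))
  | 3 => ι t'
  | 4 => pos (s.drop (t' + 1)) fun u => ι (u + (t' + 1))
  | _ + 5 => 0

section five
variable {s : List ℕ} {t t' N : ℕ}

theorem pos_five' (htt : t < t') (ht : t' < s.length) (h1 : ax s t = N) (h2 : ax s t' = N)
    (ι : ℕ → ℕ) : pos (s5 (vol s 0 t) N (vol s (t + 1) t') [vol s (t' + 1) s.length])
      (five s t t' ι) = pos s ι := by
  rw [pos_five htt ht, h1, h2]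
  simp [pos, posN, s5, ax, five]

theorem prod_five (htt : t < t') (ht : t' < s.length) (h1 : ax s t = N) (h2 : ax s t' = N) :
    (s5 (vol s 0 t) N (vol s (t + 1) t') [vol s (t' + 1) s.length]).prod = s.prod := by
  rw [← vol_five htt ht, h1, h2]
  simp [s5, mul_assoc]

theorem five_valid (ht : t' < s.length) (htt : t < t') (h1 : ax s t = N) (h2 : ax s t' = N)
    {ι : ℕ → ℕ} (hι : Valid s ι) :
    Valid (s5 (vol s 0 t) N (vol s (t + 1) t') [vol s (t' + 1) s.length]) (five s t t' ι) := by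
  intro u
  match u with
  | 0 =>
    show pos (s.take t) ι < vol s 0 t
    rw [pos_take (by omega)]
    exact posN_lt fun u _ => hι u
  | 1 => exact h1 ▸ hι t
  | 2 =>
    show (pos ((s.take t').drop (t + 1)) fun u => ι (u + (t + 1))) < vol s (t + 1) t'
    have e : vol s (t + 1) t' = vol ((s.take t').drop (t + 1)) 0
        ((s.take t').drop (t + 1)).length := by rw [vol_zero_length, vol]
    rw [e]
    refine posN_lt fun u hu => ?_
    rw [List.length_drop, List.length_take, min_eq_left ht.le] at hu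
    rw [ax_drop, ax_take s (by omega)]
    exact hι _
  | 3 => exact h2 ▸ hι t'
  | 4 =>
    show (pos (s.drop (t' + 1)) fun u => ι (u + (t' + 1))) < vol s (t' + 1) s.length
    rw [← prod_drop]
    exact pos_lt (hι.drop _)
  | u + 5 => simp [five, ax, s5]

theorem five_dig (hs : ∀ x ∈ s, 0 < x) (htt : t < t') (ht : t' < s.length) (h1 : ax s t = N)
    (h2 : ax s t' = N) {j : ℕ} (hj : j < s.prod) : five s t t' (dig s j) =
      dig (s5 (vol s 0 t) N (vol s (t + 1) t') [vol s (t' + 1) s.length]) j := by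
  rw [← dig_pos (five_valid ht htt h1 h2 (valid_dig hs j)), pos_five' htt ht h1 h2, pos_dig hs hj]

theorem five_tauI (htt : t < t') (ht : t' < s.length) (c : ℕ) (ι : ℕ → ℕ) :
    five s t t' (tauI N t t' c ι) = tauI N 1 3 c (five s t t' ι) := by
  funext u
  rw [tauI_apply]
  match u with
  | 0 =>
    rw [if_neg (by omega)]
    refine pos_congr fun u hu => ?_
    rw [List.length_take] at hu
    rw [tauI_apply, if_neg (by omega)]
  | 1 =>
    rw [if_pos (by omega)]
    exact (tauI_apply _ _ _ _ _ _).trans (if_pos (Or.inl rfl))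
  | 2 =>
    rw [if_neg (by omega)]
    refine pos_congr fun u hu => ?_
    rw [List.length_drop, List.length_take, min_eq_left ht.le] at hu
    rw [tauI_apply, if_neg (by omega)]
  | 3 =>
    rw [if_pos (by omega)]
    exact (tauI_apply _ _ _ _ _ _).trans (if_pos (Or.inr rfl))
  | 4 =>
    rw [if_neg (by omega)]
    refine pos_congr fun u _ => ?_
    rw [tauI_apply, if_neg (by omega)]
  | u + 5 =>
    rw [if_neg (by omega)]
    rfl

theorem cten_five {R : Type} [CommRing R] (I hf : R) {ps : List ℕ} (htt : t < t')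
    (ht : t' < s.length) (h1 : ax s t = ps.prod) (h2 : ax s t' = ps.prod) (e : ℕ → R)
    (ι : ℕ → ℕ) : cten I hf ps t t' (fun ι => e (pos s ι)) ι =
      cten I hf ps 1 3 (fun ι => e (pos (s5 (vol s 0 t) ps.prod (vol s (t + 1) t')
        [vol s (t' + 1) s.length]) ι)) (five s t t' ι) :=
  transfer I hf ps (τ := fun p => tauI ps.prod t t' (sgnc ps.prod p))
    (τ' := fun p => tauI ps.prod 1 3 (sgnc ps.prod p)) (five s t t') (fun _ => True)
    (fun _ _ _ _ => trivial) (fun p _ x _ => five_tauI htt ht (sgnc ps.prod p) x)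
    (fun x _ => congrArg e (pos_five' htt ht h1 h2 x).symm) _ trivial

end five

theorem pos_cons (x : ℕ) (s : List ℕ) (ι : ℕ → ℕ) :
    pos (x :: s) ι = ι 0 * s.prod + pos s fun u => ι (u + 1) := by
  rw [pos_split (a := 1) (by simp), ← prod_drop]
  simp [posN]

end CS

open CS

section
variable {R : Type} [CommRing R] (I hf : R) {ps : List ℕ} {H M L : ℕ}

/-- `cten` only looks at valid indices -/
theorem cten_congr {s : List ℕ} {t t' : ℕ} (hN : 0 < ps.prod) (ht : ax s t = ps.prod)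
    (ht' : ax s t' = ps.prod) {f g : (ℕ → ℕ) → R} (h : ∀ ι, Valid s ι → f ι = g ι) {ι : ℕ → ℕ}
    (hι : Valid s ι) : cten I hf ps t t' f ι = cten I hf ps t t' g ι :=
  transfer I hf ps (fun x => x) (Valid s) (fun _ _ _ hx => tauI_valid hN ht ht' _ hx)
    (fun _ _ _ _ => rfl) h ι hι

/-- `cten` keeps a set of zeros that is invariant under the flips -/
theorem cten_zero {t t' : ℕ} {Z : (ℕ → ℕ) → Prop}
    (hZ : ∀ ι, Z ι → ∀ p ∈ ps, Z (tauI ps.prod t t' (sgnc ps.prod p) ι)) {f : (ℕ → ℕ) → R}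
    (h : ∀ ι, Z ι → f ι = 0) {ι : ℕ → ℕ} (hι : Z ι) : cten I hf ps t t' f ι = 0 := by
  have h1 := transfer I hf ps (τ' := fun _ (x : Unit) => x) (fun _ => ()) Z
    (fun p hp x hx => hZ x hx p hp) (fun _ _ _ _ => rfl) (g := f) (f := fun _ => 0) h ι hι
  refine h1.trans ?_
  generalize ps = l
  induction l with
  | nil => rfl
  | cons p l ih => simp only [List.foldr_cons, cop, ih, mul_zero, add_zero]

/-- after splitting, the product over all moduli is the product over the blocks -/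
theorem cten_split (h : GoodP ps) (f : (ℕ → ℕ) → R) {ι : ℕ → ℕ}
    (hι : Valid (sD H (blkN ps) M [L]) ι) :
    cten I hf ps 1 3 f (mrgI (blkN ps) ι) =
      cten I hf (blk ps mm) (1 + mm) (2 * mm + 3)
        ((List.finRange mm).foldr (fun i g => cten I hf (blk ps i) (1 + i) (mm + 3 + i) g)
          (fun κ => f (mrgI (blkN ps) κ))) ι := by
  have _ := hι
  have h1 := split_list I hf h f (mm :: List.range mm) (fun i hi => by
    rcases List.mem_cons.1 hi with rfl | hi
    · exact le_rfl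
    · exact (List.mem_range.1 hi).le) ι
  have h2 : ps.Perm ((mm :: List.range mm).flatMap (blk ps)) := by
    conv_lhs => rw [← flatten_blk ps, ← List.flatMap_def, List.range_succ]
    exact (List.perm_append_singleton _ _).flatMap_right _
  have h3 : (do let a ← List.finRange mm; pure (a : ℕ)) = List.range mm := by
    rw [← List.map_coe_finRange_eq_range]
    exact bind_pure_comp _ _
  have : LeftCommutative fun (p : ℕ) (f : (ℕ → ℕ) → R) =>
      cop I hf (tauI ps.prod 1 3 (sgnc ps.prod p)) f :=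
    ⟨fun p q g => cop_comm I hf (tauI_comm _ _ _ _ _) g⟩
  rw [cten, h2.foldr_eq, ← h1, List.foldr_cons, h3, show mm + 3 + mm = 2 * mm + 3 by omega]

theorem dvd_mrgI (h : GoodP ps) {ι : ℕ → ℕ} {i p : ℕ} (hi : i ≤ mm) (hp : p ∈ blk ps i) :
    p ∣ mrgI (blkN ps) ι 1 ↔ p ∣ ι (1 + i) := by
  have hi' : i < (blkN ps).length := by rw [length_blkN]; omega
  have hd : p ∣ (blkN ps).getD i 1 := by rw [getD_blkN ps hi]; exact List.dvd_prod hp
  have h1 := (mrg_modEq (blkN_coprime h) (blkN_pos h) (fun u => ι (u + 1)) hi').of_dvd hd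
  have h2 : Nat.Coprime ((blkN ps).getD i 1) ((blkN ps).drop (i + 1)).prod := by
    have h3 := (blkN_coprime h).sublist (List.drop_sublist i _)
    rw [List.drop_eq_getElem_cons hi', List.pairwise_cons] at h3
    rw [List.getD_eq_getElem _ _ hi', Nat.coprime_list_prod_right_iff]
    exact h3.1
  show p ∣ mrg (blkN ps) (fun u => ι (u + 1)) ↔ _
  rw [h1.dvd_iff dvd_rfl, (h2.coprime_dvd_left hd).dvd_mul_left, Nat.add_comm]

theorem genI_gam (h : GoodP ps) (w : Fin (ps.length / mm) → Fin mm → ZMod 2) {ι : ℕ → ℕ}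
    (hι : Valid (sD H (blkN ps) M [L]) ι) :
    Valid (sD H (blkN ps) M [L]) (mulI (blkN ps) (gam ps w) ι) ∧
      (GenI ps H M L (mulI (blkN ps) (gam ps w) ι) ↔ GenI ps H M L ι) :=
  ⟨mulI_valid h _ hι, genI_mulI h (fun _ hi => gam_sq h w hi) hι⟩
theorem gam_zero (h : GoodP ps) {ι : ℕ → ℕ} (hι : Valid (sD H (blkN ps) M [L]) ι) :
    mulI (blkN ps) (gam ps 0) ι = ι := by
  have _ := h
  exact mulI_one (fun i _ => by rw [gam_zero']) hι
theorem gam_add (h : GoodP ps) (w w' : Fin (ps.length / mm) → Fin mm → ZMod 2) {ι : ℕ → ℕ}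
    (hι : Valid (sD H (blkN ps) M [L]) ι) :
    mulI (blkN ps) (gam ps (w + w')) ι =
      mulI (blkN ps) (gam ps w) (mulI (blkN ps) (gam ps w') ι) := by
  have _ := hι
  rw [mulI_mulI]
  exact mulI_congr (fun _ hi => gam_mul h w w' hi) ι
theorem gam_single (h : GoodP ps) (s : Fin (ps.length / mm)) (i : Fin mm) {ι : ℕ → ℕ}
    (hι : Valid (sD H (blkN ps) M [L]) ι) :
    mulI (blkN ps) (gam ps (Pi.single s (Pi.single i 1))) ι =
      tauI (blk ps i).prod (1 + i) (mm + 3 + i)
        (sgnc (blk ps i).prod ((blk ps i).getD s 1)) ι := by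
  have _ := h
  rw [tauI_eq_mulI i.2 _ hι]
  exact mulI_congr (fun j hj => by rw [gam_single'' s i hj]) ι
/-- the same vector in every copy: negation of the blocks in its support -/
theorem gam_const (h : GoodP ps) (u : Fin mm → ZMod 2) {ι : ℕ → ℕ}
    (hι : Valid (sD H (blkN ps) M [L]) ι) :
    mulI (blkN ps) (gam ps fun _ => u) ι =
      mulI (blkN ps) (fun i => if h : i < mm then
        (if u ⟨i, h⟩ = 1 then (blk ps i).prod - 1 else 1) else 1) ι := by
  have _ := hι
  refine mulI_congr (fun i hi => ?_) ι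
  have g := good_blk h i
  unfold gam
  rw [dif_pos hi, dif_pos hi]
  by_cases hu : u ⟨i, hi⟩ = 1
  · simp only [if_pos hu]
    refine modEq_prod g.1 fun q hq => ?_
    obtain ⟨n, hn, rfl⟩ := List.mem_iff_getElem.1 hq
    rw [← List.getD_eq_getElem _ 1 hn] at hq ⊢
    have hn' : n < ps.length / mm := by rwa [length_blk ps hi] at hn
    refine Nat.ModEq.add_right_cancel' 1 ?_
    rw [Nat.sub_add_cancel g.prod_pos]
    refine Nat.ModEq.trans ?_ ((Nat.modEq_zero_iff_dvd).2 (List.dvd_prod hq)).symm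
    refine Nat.ModEq.trans (Nat.ModEq.add_right 1 ?_) (sgnc_self g hq)
    rw [← ZMod.natCast_eq_natCast_iff, Nat.cast_prod,
      Finset.prod_eq_single (⟨n, hn'⟩ : Fin (ps.length / mm)) (fun s _ hs => ?_) (by simp)]
    exact ((ZMod.natCast_eq_natCast_iff _ _ _).2 (sgnc_other g (blk_getD_mem hi s) hq fun e =>
      hs (blk_getD_inj h hi (s' := ⟨n, hn'⟩) e))).trans Nat.cast_one
  · simp only [if_neg hu, Finset.prod_const_one]
    rfl
/-- `mulI` is the composite of the multiplications of the single blocks -/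
theorem mulI_eq_foldr (h : GoodP ps) (γ : ℕ → ℕ) {ι : ℕ → ℕ}
    (hι : Valid (sD H (blkN ps) M [L]) ι) :
    mulI (blkN ps) γ ι = (List.range mm).foldr
      (fun i κ => tauI (blk ps i).prod (1 + i) (mm + 3 + i) (γ i) κ) ι := by
  have key : ∀ l : List ℕ, l.Nodup → (∀ i ∈ l, i < mm) →
      l.foldr (fun i κ => tauI (blk ps i).prod (1 + i) (mm + 3 + i) (γ i) κ) ι =
        mulI (blkN ps) (fun i => if i ∈ l then γ i else 1) ι := by
    intro l hl hm
    induction l with
    | nil => exact (mulI_one (fun i _ => by simp only [List.not_mem_nil, if_false]; rfl) hι).symm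
    | cons i l ih =>
      rw [List.nodup_cons] at hl
      rw [List.foldr_cons, ih hl.2 fun j hj => hm j (List.mem_cons_of_mem _ hj),
        tauI_eq_mulI (hm i List.mem_cons_self) _ (mulI_valid h _ hι), mulI_mulI]
      refine mulI_congr (fun j _ => ?_) ι
      by_cases hji : j = i
      · subst hji
        rw [if_pos rfl, if_neg hl.1, mul_one, if_pos List.mem_cons_self]
      · simp only [if_false, one_mul, List.mem_cons, hji, false_or]
        rfl
  rw [key _ List.nodup_range fun i hi => List.mem_range.1 hi]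
  exact mulI_congr (fun i hi => by rw [if_pos (List.mem_range.2 hi)]) ι

theorem sigI_valid (h : GoodP ps) (u : Fin mm → ZMod 2) (i₀ : Fin mm) {ι : ℕ → ℕ}
    (hι : Valid (sD H (blkN ps) M [L]) ι) :
    Valid (sD H (blkN ps) M [L]) (sigI ps u i₀ ι) ∧
      (GenI ps H M L (sigI ps u i₀ ι) ↔ GenI ps H M L ι) ∧ sigI ps u i₀ (sigI ps u i₀ ι) = ι ∧
      sigI ps u i₀ ι (1 + i₀) = ι (1 + i₀) := by
  have h4 : sigI ps u i₀ ι (1 + i₀) = ι (1 + i₀) := by
    rw [sigI, mulI_y _ _ i₀.2, sigG_self, one_mul, ← ax_y (H := H) (M := M) i₀.2.le [L],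
      Nat.mod_eq_of_lt (hι _)]
  refine ⟨mulI_valid h _ hι, genI_mulI h (fun i _ => sigG_sq h u i₀ ι i) hι, ?_, h4⟩
  have h5 : sigG ps u i₀ (sigI ps u i₀ ι) = sigG ps u i₀ ι := by
    funext i
    unfold sigG
    rw [h4]
  rw [sigI, h5, sigI, mulI_mulI]
  exact mulI_one (fun i _ => sigG_sq h u i₀ ι i) hι
/-- on generic indices `sigI` conjugates the flips of the pivot block to the flips along `u` -/
theorem sigI_conj (h : GoodP ps) {u : Fin mm → ZMod 2} {i₀ : Fin mm} (hu : u i₀ = 1)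
    (s : Fin (ps.length / mm)) {ι : ℕ → ℕ} (hι : GenI ps H M L ι) :
    sigI ps u i₀ (mulI (blkN ps) (gam ps (Pi.single s (Pi.single i₀ 1))) ι) =
      mulI (blkN ps) (gam ps (Pi.single s u)) (sigI ps u i₀ ι) := by
  rw [sigI, sigI, mulI_mulI, mulI_mulI]
  refine mulI_congr (fun i hi => ?_) ι
  rw [gam_single'' s i₀ hi, gam_single' s u hi]
  by_cases hii : i = i₀
  · subst hii
    rw [sigG_self, sigG_self, if_pos rfl, if_pos hu, mul_comm]
  · rw [if_neg hii, mul_one]
    unfold sigG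
    rw [dif_pos hi, dif_pos hi]
    by_cases hui : u ⟨i, hi⟩ = 1
    · rw [if_pos ⟨hii, hui⟩, if_pos hui, if_pos ⟨hii, hui⟩, mulI_y _ _ i₀.2,
        gam_single'' s i₀ i₀.2, if_pos rfl]
      exact sgnMul_flip h i₀.2 hi s (hι.2 i₀ i₀.2 _ (blk_getD_mem i₀.2 s))
    · rw [if_neg fun h => hui h.2, if_neg hui, if_neg fun h => hui h.2]

end

/-- `ctenS` on two axes of any shape is the five-axis routine -/
theorem ctenS_five {B : ℕ} {ps s : List ℕ} {t t' : ℕ} (hs : ∀ x ∈ s, 0 < x) (htt : t < t')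
    (ht : t' < s.length) (h1 : ax s t = ps.prod) (h2 : ax s t' = ps.prod) (a : List Bool) :
    ctenS B ps s t t' a =
      ctenS B ps (s5 (vol s 0 t) ps.prod (vol s (t + 1) t') [vol s (t' + 1) s.length]) 1 3 a := by
  unfold ctenS
  rw [prod_five htt ht h1 h2]
  refine emk_congr fun j hj => ?_
  rw [← five_dig hs htt ht h1 h2 hj]
  exact cten_five _ _ htt ht h1 h2 (eat B a) _

theorem genZ_five {B : ℕ} {ps s : List ℕ} {t t' : ℕ} (hs : ∀ x ∈ s, 0 < x) (htt : t < t')
    (ht : t' < s.length) (h1 : ax s t = ps.prod) (h2 : ax s t' = ps.prod) {a : List Bool}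
    (h : GenZ B ps s t a) :
    GenZ B ps (s5 (vol s 0 t) ps.prod (vol s (t + 1) t') [vol s (t' + 1) s.length]) 1 a := by
  intro ι hι hp
  have hj := pos_lt hι
  rw [prod_five htt ht h1 h2] at hj
  have e := five_dig hs htt ht h1 h2 hj
  rw [dig_pos hι] at e
  have := h _ (valid_dig hs _) (by rw [← e] at hp; exact hp)
  rwa [pos_dig hs hj] at this

/-- the highest axis is a spectator -/
theorem ctenS_blocks {B W H : ℕ} {ps : List ℕ} (hB : 2 ≤ B) (hN : 0 < ps.prod) (hH : 0 < H)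
    {s : List ℕ} {t t' : ℕ} (ht : 0 < t) (ht' : 0 < t')
    (hs : ∀ x ∈ s, 0 < x) (h1 : ax (H :: s) t = ps.prod) (h2 : ax (H :: s) t' = ps.prod)
    (f : ℕ → ℕ → RB B) :
    ctenS B ps ((W * H) :: s) t t'
        (((List.range W).map fun w => emk B (H :: s).prod (f w)).flatten) =
      ((List.range W).map fun w => ctenS B ps (H :: s) t t' (emk B (H :: s).prod (f w))).flatten := by
  have hs' : ∀ x ∈ H :: s, 0 < x := fun x hx => by
    rcases List.mem_cons.1 hx with rfl | hx
    · exact hH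
    · exact hs x hx
  have hn : 0 < (H :: s).prod := List.prod_pos hs'
  have hp : ((W * H) :: s).prod = W * (H :: s).prod := by simp [mul_assoc]
  unfold ctenS
  rw [flatten_emk, flatten_emk, hp]
  refine emk_congr fun j hj => ?_
  have hw : j / (H :: s).prod < W := Nat.div_lt_of_lt_mul (by rwa [mul_comm] at hj)
  set w := j / (H :: s).prod with hwdef
  let φ : (ℕ → ℕ) → ℕ → ℕ := fun ι => update ι 0 (w * H + ι 0)
  have hpos : ∀ ι, pos ((W * H) :: s) (φ ι) = w * (H :: s).prod + pos (H :: s) ι := fun ι => by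
    rw [pos_cons, pos_cons, List.prod_cons]
    simp only [φ, update_self, update_of_ne (Nat.succ_ne_zero _)]
    ring
  have hval : ∀ ι, Valid (H :: s) ι → Valid ((W * H) :: s) (φ ι) := fun ι hι u => by
    rcases u with _ | u
    · have h0 : ι 0 < H := hι 0
      show update ι 0 (w * H + ι 0) 0 < W * H
      rw [update_self]
      nlinarith
    · simp only [φ, update_of_ne (Nat.succ_ne_zero _)]
      exact hι (u + 1)
  have hd : dig ((W * H) :: s) j = φ (dig (H :: s) (j % (H :: s).prod)) := by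
    rw [← dig_pos (hval _ (valid_dig hs' _)), hpos, pos_dig hs' (Nat.mod_lt _ hn), hwdef,
      Nat.div_add_mod']
  rw [hd]
  refine (transfer _ _ ps φ (Valid (H :: s)) (fun _ _ _ hx => tauI_valid hN h1 h2 _ hx)
    (fun p _ x _ => ?_) (fun x hx => ?_) _ (valid_dig hs' _)).symm
  · funext u
    rcases u with _ | u
    · simp only [φ, update_self, tauI_apply]
      rw [if_neg (by omega), if_neg (by omega)]
    · simp only [φ, update_of_ne (Nat.succ_ne_zero _), tauI_apply]
  · have h3 := pos_lt hx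
    rw [eat_emk hB _ h3, hpos, eat_emk hB _ (by nlinarith), dm_div h3, dm_mod h3]

end Crest.Agent.R326
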