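import Crest.Agent.R326.Split
import Crest.Agent.R326.CtenSem

/-! Row 326: the tensor power of `cop`, one modulus after the other. -/

set_option autoImplicit false

namespace Crest.Agent.R326

/-- the precondition on `(B, ps, H, M, L, a)` -/
def OkC (x : ℕ × List ℕ × ℕ × ℕ × ℕ × List Bool) : Prop :=
  2 ≤ x.1 ∧ GoodP x.2.1 ∧ 0 < x.2.2.1 ∧ 0 < x.2.2.2.1 ∧ 0 < x.2.2.2.2.1 ∧
    Canon x.1 (s5 x.2.2.1 x.2.1.prod x.2.2.2.1 [x.2.2.2.2.1]).prod x.2.2.2.2.2 ∧
    Ex x.2.2.2.2.2.length ^ 2 ≤ x.1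

/-- the five-axis routine -/
def ctenA (x : ℕ × List ℕ × ℕ × ℕ × ℕ × List Bool) : List Bool :=
  ctenS x.1 x.2.1 (s5 x.2.2.1 x.2.1.prod x.2.2.2.1 [x.2.2.2.2.1]) 1 3 x.2.2.2.2.2

namespace CB

section arith
variable {ι γ : Type} [Enc γ] {pre : World → ι → Prop} {inp : ι → γ} {σ : ι → ℝ} {B n : ι → ℕ}
  (hB : L0 pre inp σ B) (hn : L0 pre inp σ n) (hp : ∀ w i, pre w i → 2 ≤ B i ∧ 0 < n i)
  (hσ : Le pre (fun i => ((n i * (2 * B i) : ℕ) : ℝ)) σ)
include hB hn hp hσ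

theorem l0_add {u v : ∀ i, ℕ → RB (B i)} (hu : L0 pre inp σ fun i => emk (B i) (n i) (u i))
    (hv : L0 pre inp σ fun i => emk (B i) (n i) (v i)) :
    L0 pre inp σ fun i => emk (B i) (n i) fun j => u i j + v i j := by
  refine (L0.sub sub_addE (hB.pair (hn.pair (hu.pair hv))) (fun w i hi => ?_) ?_).congr
    fun w i hi => ?_
  · exact ⟨⟨(hp w i hi).1, (hp w i hi).2, length_emk _ _ _⟩,
      ⟨(hp w i hi).1, (hp w i hi).2, length_emk _ _ _⟩⟩
  · simpa only [length_emk] using hσ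
  · exact emk_congr fun j hj => by
      simp only [eat_emk (hp w i hi).1 _ hj]

theorem l0_neg {u : ∀ i, ℕ → RB (B i)} (hu : L0 pre inp σ fun i => emk (B i) (n i) (u i)) :
    L0 pre inp σ fun i => emk (B i) (n i) fun j => -u i j := by
  refine (L0.sub sub_negE (hB.pair (hn.pair hu)) (fun w i hi => ?_) ?_).congr
    fun w i hi => ?_
  · exact ⟨(hp w i hi).1, (hp w i hi).2, length_emk _ _ _⟩
  · simpa only [length_emk] using hσ
  · exact emk_congr fun j hj => by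
      simp only [eat_emk (hp w i hi).1 _ hj]

theorem l0_half {u : ∀ i, ℕ → RB (B i)} (hu : L0 pre inp σ fun i => emk (B i) (n i) (u i)) :
    L0 pre inp σ fun i => emk (B i) (n i) fun j => R326.hB (B i) * u i j := by
  refine (L0.sub sub_halfE (hB.pair (hn.pair hu)) (fun w i hi => ?_) ?_).congr
    fun w i hi => ?_
  · exact ⟨(hp w i hi).1, (hp w i hi).2, length_emk _ _ _⟩
  · simpa only [length_emk] using hσ
  · exact emk_congr fun j hj => by
      simp only [eat_emk (hp w i hi).1 _ hj]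

theorem l0_mulI {u : ∀ i, ℕ → RB (B i)} (hu : L0 pre inp σ fun i => emk (B i) (n i) (u i)) :
    L0 pre inp σ fun i => emk (B i) (n i) fun j => iB (B i) * u i j := by
  refine (L0.sub sub_mulIE (hB.pair (hn.pair hu)) (fun w i hi => ?_) ?_).congr
    fun w i hi => ?_
  · exact ⟨(hp w i hi).1, (hp w i hi).2, length_emk _ _ _⟩
  · simpa only [length_emk] using hσ
  · exact emk_congr fun j hj => by
      simp only [eat_emk (hp w i hi).1 _ hj]

/-- the combination used by `cop` -/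
theorem l0_cop {u v : ∀ i, ℕ → RB (B i)} (hu : L0 pre inp σ fun i => emk (B i) (n i) (u i))
    (hv : L0 pre inp σ fun i => emk (B i) (n i) (v i)) :
    L0 pre inp σ fun i => emk (B i) (n i) fun j =>
      R326.hB (B i) * ((1 + iB (B i)) * u i j + (1 - iB (B i)) * v i j) := by
  refine (l0_half hB hn hp hσ (l0_add hB hn hp hσ (l0_add hB hn hp hσ hu hv)
    (l0_mulI hB hn hp hσ (l0_add hB hn hp hσ hu (l0_neg hB hn hp hσ hv))))).congr
    fun w i _ => ?_
  exact emk_congr fun j _ => by ring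

end arith

abbrev X : Type := ℕ × List ℕ × ℕ × ℕ × ℕ × List Bool

/-- the shape -/
abbrev sh (x : X) : List ℕ := s5 x.2.2.1 x.2.1.prod x.2.2.2.1 [x.2.2.2.2.1]

/-- the flip for the modulus `p` -/
abbrev fl (x : X) (p : ℕ) : (ℕ → ℕ) → ℕ → ℕ := tauI x.2.1.prod 1 3 (sgnc x.2.1.prod p)

/-- one step on the array -/
def stA (x : X) (p : ℕ) : List Bool :=
  emk x.1 (sh x).prod fun j => hB x.1 * ((1 + iB x.1) * eat x.1 x.2.2.2.2.2 j +
    (1 - iB x.1) * eat x.1 x.2.2.2.2.2 (pos (sh x) (fl x p (dig (sh x) j))))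

/-- replace the array -/
def wA (x : X) (a : List Bool) : X := (x.1, x.2.1, x.2.2.1, x.2.2.2.1, x.2.2.2.2.1, a)

def stp (x : X) (p : ℕ) : X := wA x (stA x p)

theorem sh_pos {x : X} (h : OkC x) : ∀ y ∈ sh x, 0 < y := by
  obtain ⟨-, h2, h3, h4, h5, -⟩ := h
  have := h2.prod_pos
  intro y hy
  simp only [s5, List.mem_cons, List.not_mem_nil, or_false] at hy
  rcases hy with rfl | rfl | rfl | rfl | rfl <;> assumption

theorem len_eq {x : X} (h : OkC x) : x.2.2.2.2.2.length = (sh x).prod * (2 * x.1) := by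
  have := h.2.2.2.2.2.1
  unfold Canon at this
  rw [this, length_emk]

theorem fl_valid {x : X} (h : OkC x) (p : ℕ) {ι : ℕ → ℕ} (hι : Valid (sh x) ι) :
    Valid (sh x) (fl x p ι) := by
  have hN := h.2.1.prod_pos
  intro t
  by_cases h3 : t = 3
  · subst h3
    simpa [tauI, ax, s5] using Nat.mod_lt _ hN
  by_cases h1 : t = 1
  · subst h1
    simpa [tauI, ax, s5] using Nat.mod_lt _ hN
  simpa [tauI, Function.update_of_ne h3, Function.update_of_ne h1] using hι t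

theorem okC_wA {x : X} (h : OkC x) (f : ℕ → RB x.1) : OkC (wA x (emk x.1 (sh x).prod f)) := by
  have hl := len_eq h
  obtain ⟨h1, h2, h3, h4, h5, h6, h7⟩ := h
  refine ⟨h1, h2, h3, h4, h5, canon_emk h1 _ _, ?_⟩
  change Ex (emk x.1 (sh x).prod f).length ^ 2 ≤ x.1
  rw [length_emk, ← hl]
  exact h7

theorem foldr_stp {x : X} (h : OkC x) (qs : List ℕ) :
    qs.foldr (fun p t => stp t p) x = wA x (emk x.1 (sh x).prod fun j =>
      qs.foldr (fun p f => cop (iB x.1) (hB x.1) (fl x p) f)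
        (fun ι => eat x.1 x.2.2.2.2.2 (pos (sh x) ι)) (dig (sh x) j)) := by
  induction qs with
  | nil =>
    have h6 := h.2.2.2.2.2.1
    unfold Canon at h6
    have : (emk x.1 (sh x).prod fun j => eat x.1 x.2.2.2.2.2 (pos (sh x) (dig (sh x) j))) =
        x.2.2.2.2.2 := by
      rw [h6]
      refine emk_congr fun j hj => ?_
      rw [pos_dig (sh_pos h) hj, ← h6]
    simp only [List.foldr_nil, this]
    rfl
  | cons p qs ih =>
    rw [List.foldr_cons, ih]
    refine congrArg (wA x) (emk_congr fun j hj => ?_)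
    replace hj : j < (sh x).prod := hj
    have hv := fl_valid h p (valid_dig (sh_pos h) j)
    change hB x.1 * ((1 + iB x.1) * eat x.1 (emk x.1 (sh x).prod _) j +
      (1 - iB x.1) * eat x.1 (emk x.1 (sh x).prod _) (pos (sh x) (fl x p (dig (sh x) j)))) = _
    rw [eat_emk h.1 _ hj, eat_emk h.1 _ (pos_lt hv), dig_pos hv]
    rfl

/-- the context -/
abbrev ctx (x : X) : ℕ × List ℕ × ℕ × ℕ × ℕ := (x.1, x.2.1, x.2.2.1, x.2.2.2.1, x.2.2.2.2.1)

theorem facts {x : X} (h : OkC x) : x.1 ≤ x.2.2.2.2.2.length ∧ x.2.1.prod ≤ x.2.2.2.2.2.length ∧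
    x.2.2.1 ≤ x.2.2.2.2.2.length ∧ x.2.2.2.1 ≤ x.2.2.2.2.2.length ∧
    x.2.2.2.2.1 ≤ x.2.2.2.2.2.length := by
  have hp : 0 < (sh x).prod := List.prod_pos (sh_pos h)
  have h1 := h.1
  have hm : ∀ y ∈ sh x, y ≤ x.2.2.2.2.2.length := fun y hy => by
    have := Nat.le_of_dvd hp (List.dvd_prod hy)
    rw [len_eq h]
    nlinarith
  refine ⟨?_, hm _ (by simp [s5]), hm _ (by simp [s5]), hm _ (by simp [s5]), hm _ (by simp [s5])⟩
  rw [len_eq h]
  nlinarith

theorem sz_ps {x : X} (h : OkC x) : sz x.2.1 ≤ 6 * lg x.2.2.2.2.2.length :=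
  h.2.1.sz_le.trans (Nat.mul_le_mul_left _ (lg_mono (facts h).2.1))

theorem sz_ctx {x : X} (h : OkC x) : sz (ctx x) ≤ 18 * lg x.2.2.2.2.2.length ^ 1 := by
  obtain ⟨f1, -, f3, f4, f5⟩ := facts h
  have g1 := sz_nat_le_lg f1
  have g3 := sz_nat_le_lg f3
  have g4 := sz_nat_le_lg f4
  have g5 := sz_nat_le_lg f5
  have g2 := sz_ps h
  have g6 := one_le_lg x.2.2.2.2.2.length
  simp only [sz_pair, pow_one]
  omega

theorem one_le_pow (N : ℕ) : (1 : ℝ) ≤ (lg N : ℝ) ^ θ :=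
  Real.one_le_rpow (by exact_mod_cast one_le_lg N) (by unfold θ; norm_num)

theorem ex_le_len {x : X} (h : OkC x) : Ex x.2.2.2.2.2.length ≤ x.2.2.2.2.2.length := by
  have h1 := h.2.2.2.2.2.2
  have h2 := (facts h).1
  nlinarith [two_le_Ex x.2.2.2.2.2.length]

/-- the cost of a step -/
noncomputable abbrev cst (x : X) : ℝ := (x.2.2.2.2.2.length : ℝ) * (lg x.2.1.prod : ℝ) ^ θ

theorem len_le_cst (x : X) : (x.2.2.2.2.2.length : ℝ) ≤ cst x :=
  le_mul_of_one_le_right (Nat.cast_nonneg _) (one_le_pow _)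

theorem ex_le_cst {x : X} (h : OkC x) : (Ex x.2.2.2.2.2.length : ℝ) ≤ cst x :=
  le_trans (by exact_mod_cast ex_le_len h) (len_le_cst x)

theorem le_sz_x {ι : Type} {pre : World → ι → Prop} {x : ι → X} (h : ∀ w i, pre w i → OkC (x i)) :
    Le pre (fun i => (sz (x i) : ℝ)) (fun i => cst (x i)) := by
  have h1 : Le pre (fun i => (sz (ctx (x i)) : ℝ)) (fun i => cst (x i)) :=
    Ax.le_sz (m := fun i => (x i).2.2.2.2.2.length) 18 1 (fun w i hi => sz_ctx (h w i hi))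
      fun w i hi => ex_le_cst (h w i hi)
  have h2 : Le pre (fun i => (((x i).2.2.2.2.2.length : ℕ) : ℝ)) (fun i => cst (x i)) :=
    Le.of_le fun _ i _ => len_le_cst (x i)
  refine Le.trans (Le.of_le fun w i _ => ?_) ((h1.add (h2.const_mul 2 zero_le_two)).add
    (h1.const_of_sz 2))
  have : sz (x i) = sz (ctx (x i)) + 2 * (x i).2.2.2.2.2.length + 2 := by
    have e : x i = ((x i).1, (x i).2.1, (x i).2.2.1, (x i).2.2.2.1, (x i).2.2.2.2.1,
      (x i).2.2.2.2.2) := rfl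
    conv_lhs => rw [e]
    simp only [sz_pair, sz_bits]
    omega
  rw [this]
  push_cast
  exact le_rfl

/-- the precondition of a step -/
def Pre (_ : World) (y : ℕ × X) : Prop := OkC y.2 ∧ y.1 ∈ y.2.2.1

/-- the cost of a step -/
noncomputable def cs (y : ℕ × X) : ℝ := cst y.2

theorem sz_par (w : World) (y : ℕ × X) (hy : Pre w y) :
    sz (y.2.2.1, y.1) ≤ 13 * lg y.2.2.2.2.2.2.length ^ 1 := by
  have h1 := sz_ps hy.1
  have h2 := sz_mem hy.2
  have h3 := one_le_lg y.2.2.2.2.2.2.length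
  simp only [sz_pair, pow_one]
  omega

theorem hin : Le Pre (fun y => (sz y : ℝ)) cs := by
  have h1 : Le Pre (fun y => (sz y.1 : ℝ)) cs :=
    Ax.le_sz (m := fun y => y.2.2.2.2.2.2.length) 13 1 (fun w y hy => by
      have := sz_par w y hy
      rw [sz_pair] at this
      omega) fun w y hy => ex_le_cst hy.1
  have h2 : Le Pre (fun y => (sz y.2 : ℝ)) cs := le_sz_x fun w y hy => hy.1
  exact Ax.le_sz_pair h1 h2

theorem h0 : L0 Pre (fun y => y) cs (fun y => y) := L0.input hin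

theorem hctx : L0 Pre (fun y => y) cs (fun y => ctx y.2) :=
  L0.lin (g := fun y : ℕ × X => ctx y.2) (by fun_prop) h0

theorem hpw (e : ℕ) : Le Pre (fun y => ((sz (ctx y.2) : ℝ) + 1) ^ e) cs :=
  Ax.le_pow (pre := Pre) (σ := cs) (f := fun y => ctx y.2) (m := fun y => y.2.2.2.2.2.2.length) 18 1
    (fun _ _ hy => sz_ctx hy.1) (fun _ _ hy => ex_le_cst hy.1) e

theorem hBB : L0 Pre (fun y => y) cs (fun y => y.2.1) :=
  L0.lin (g := fun y : ℕ × X => y.2.1) (by fun_prop) h0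

theorem ha : L0 Pre (fun y => y) cs (fun y => y.2.2.2.2.2.2) :=
  L0.lin (g := fun y : ℕ × X => y.2.2.2.2.2.2) (by fun_prop) h0

theorem hP : L0 Pre (fun y => y) cs (fun y => (y.2.2.1, y.1)) :=
  L0.lin (g := fun y : ℕ × X => (y.2.2.1, y.1)) (by fun_prop) h0

theorem poly_s5 : Poly (fun c : ℕ × List ℕ × ℕ × ℕ × ℕ =>
    s5 c.2.2.1 c.2.1.prod c.2.2.2.1 [c.2.2.2.2]) := by unfold s5; fun_prop

theorem hn : L0 Pre (fun y => y) cs (fun y => (sh y.2).prod) := by
  have h := L0.poly (Poly.prod poly_s5) hctx hpw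
  exact h.congr fun _ _ _ => rfl

/-- the shape with the bit axis -/
def sh6 (x : X) : List ℕ := sh x ++ [2 * x.1]

theorem hs : L0 Pre (fun y => y) cs (fun y => sh6 y.2) :=
  L0.poly (g := fun c : ℕ × List ℕ × ℕ × ℕ × ℕ =>
    s5 c.2.2.1 c.2.1.prod c.2.2.2.1 [c.2.2.2.2] ++ [2 * c.1]) (by unfold s5; fun_prop) hctx hpw

theorem ax1 (x : X) : ax (sh6 x) 1 = x.2.1.prod := by simp [ax, s5, sh6]
theorem ax3 (x : X) : ax (sh6 x) 3 = x.2.1.prod := by simp [ax, s5, sh6]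
theorem vol4 (x : X) : vol (sh6 x) (3 + 1) 6 = x.2.2.2.2.1 * (2 * x.1) := by simp [vol, s5, sh6]

theorem okS6 {x : X} (h : OkC x) : OkS 6 (sh6 x) x.2.2.2.2.2 := by
  have h1 := h.1
  refine ⟨by simp [s5, sh6], ?_, ?_⟩
  · intro z hz
    rcases List.mem_append.1 hz with hz | hz
    · exact sh_pos h z hz
    · rw [List.mem_singleton.1 hz]; omega
  · rw [sh6, List.prod_append, List.prod_singleton]; exact len_eq h

theorem ex_le_vol {x : X} (h : OkC x) : Ex x.2.2.2.2.2.length ^ 2 ≤ vol (sh6 x) (3 + 1) 6 := by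
  have h2 := h.2.2.2.2.2.2
  have h3 := h.2.2.2.2.1
  rw [vol4]
  nlinarith

theorem gath_eq {x : X} (h : OkC x) (p : ℕ) : gathS (sh6 x) (fl x p) x.2.2.2.2.2 =
    emk x.1 (sh x).prod fun j => eat x.1 x.2.2.2.2.2 (pos (sh x) (fl x p (dig (sh x) j))) := by
  have h6 := h.2.2.2.2.2.1
  unfold Canon at h6
  conv_lhs => rw [h6]
  refine gathS_emk h.1 (sh_pos h) (σ := fl x p) (fun ι hι => fl_valid h _ hι)
    (fun ι z _ => ?_) _
  have e5 : (sh x).length = 5 := by simp [s5]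
  rw [e5]
  funext t
  simp only [tauI, Function.update_apply]
  split_ifs <;> first | rfl | omega

theorem hv : L0 Pre (fun y => y) cs (fun y => gathS (sh6 y.2) (fl y.2 y.1) y.2.2.2.2.2.2) := by
  obtain ⟨g, hg, hg'⟩ := exists_poly_sgnc
  have hg2 : Poly (fun q : (List ℕ × ℕ) × List ℕ => g q.1) := hg.comp (Poly.fst Poly.id)
  have h1 := sub_mulcS hg2 6 1 3 13 1 (by norm_num) (by norm_num)
  have h2 := L0.sub h1 (hP.pair (hs.pair ha))
    (fun w y hy => ⟨okS6 hy.1, (ax1 _).trans (ax3 _).symm, ex_le_vol hy.1, sz_par w y hy,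
      fun ι _ => by
        dsimp only
        rw [ax1, hg' _ _ hy.1.2.1 hy.2]
        exact sgnc_sq hy.1.2.1 hy.2⟩)
    (Le.of_le fun w y _ => le_of_eq (by dsimp only; rw [ax1]; rfl))
  refine h2.congr fun w y hy => ?_
  dsimp only
  rw [ax1, hg' _ _ hy.1.2.1 hy.2]

theorem hst : L0 Pre (fun y => y) cs (fun y => stA y.2 y.1) := by
  have hp : ∀ w y, Pre w y → 2 ≤ y.2.1 ∧ 0 < (sh y.2).prod :=
    fun w y hy => ⟨hy.1.1, List.prod_pos (sh_pos hy.1)⟩
  have hσ : Le Pre (fun y => (((sh y.2).prod * (2 * y.2.1) : ℕ) : ℝ)) cs :=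
    Le.of_le fun w y hy => by rw [← len_eq hy.1]; exact len_le_cst _
  have hu : L0 Pre (fun y => y) cs
      (fun y => emk y.2.1 (sh y.2).prod (eat y.2.1 y.2.2.2.2.2.2)) :=
    ha.congr fun w y hy => hy.1.2.2.2.2.2.1.symm
  have hv' : L0 Pre (fun y => y) cs (fun y => emk y.2.1 (sh y.2).prod fun j =>
      eat y.2.1 y.2.2.2.2.2.2 (pos (sh y.2) (fl y.2 y.1 (dig (sh y.2) j)))) :=
    hv.congr fun w y hy => (gath_eq hy.1 _).symm
  exact l0_cop hBB hn hp hσ hu hv'

theorem sub_stp : Sub (fun y : ℕ × X => OkC y.2 ∧ y.1 ∈ y.2.2.1) (fun y => stp y.2 y.1)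
    (fun y => cst y.2) :=
  (L0.lin (g := fun q : (ℕ × X) × List Bool => wA q.1.2 q.2) (by unfold wA; fun_prop)
    (h0.pair hst)).2

end CB

open CB in
theorem sub_ctenBase : Sub OkC ctenA
    (fun x => ((x.2.1.length : ℝ) + 1) * x.2.2.2.2.2.length * (lg x.2.1.prod : ℝ) ^ θ) := by
  set σ : X → ℝ := fun x =>
    ((x.2.1.length : ℝ) + 1) * x.2.2.2.2.2.length * (lg x.2.1.prod : ℝ) ^ θ with hσ
  have hc0 : ∀ x : X, 0 ≤ cst x := fun x => (Nat.cast_nonneg _).trans (len_le_cst x)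
  have hσe : ∀ x : X, σ x = ((x.2.1.length : ℝ) + 1) * cst x := fun x => mul_assoc _ _ _
  have hcσ : Le (fun (_ : World) x => OkC x) (fun x => cst x) σ := Le.of_le fun _ x _ => by
    rw [hσe]
    exact le_mul_of_one_le_left (hc0 x) (by linarith [(Nat.cast_nonneg x.2.1.length : (0 : ℝ) ≤ _)])
  have hin : Le (fun (_ : World) x => OkC x) (fun x => (sz x : ℝ)) σ :=
    (le_sz_x fun _ _ h => h).trans hcσ
  have h0 : L0 (fun (_ : World) x => OkC x) (fun x => x) σ (fun x => x) := L0.input hin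
  have hr : L0 (fun (_ : World) x => OkC x) (fun x => x) σ (fun x => x.2.1.reverse) :=
    L0.lin (g := fun x : X => x.2.1.reverse) (by fun_prop) h0
  have hf := Cf.foldl (pre := fun (_ : World) x => OkC x) (σ := σ) (l := fun x : X => x.2.1.reverse)
    (s := fun x => x) (f := fun _ t p => stp t p) (σb := fun x => cst x) (cb := fun _ => 0)
    (fun x _ t => OkC t ∧ t.2.1 = x.2.1 ∧ t.2.2.2.2.2.length = x.2.2.2.2.2.length)
    (fun _ _ h => ⟨h, rfl, rfl⟩)
    (fun _ x _ n hn t ht => ⟨okC_wA ht.1 _, ht.2.1, by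
      rw [← ht.2.2, len_eq ht.1]; exact length_emk _ _ _⟩)
    (by
      refine (Cf.reindex sub_stp (fun j : X × (ℕ × X) => j.2) fun w j hj => ?_).mono
        (fun _ _ h => h) (Le.of_le fun w j hj => le_of_eq ?_) fun _ _ _ => le_rfl
      · obtain ⟨-, n, hn, e, h1, h2, -⟩ := hj
        refine ⟨h1, ?_⟩
        rw [h2, e]
        exact List.mem_reverse.1 (List.getElem_mem hn)
      · obtain ⟨-, n, hn, e, h1, h2, h3⟩ := hj
        simp only [cst, h2, h3])
    (Le.of_le fun _ x _ => by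
      rw [hσe, List.length_reverse]
      exact mul_le_mul_of_nonneg_right (by linarith) (hc0 x))
    hr.sz_le
  have hf0 : L0 (fun (_ : World) x => OkC x) (fun x => x) σ
      (fun x => x.2.1.reverse.foldl (fun t p => stp t p) x) :=
    ⟨hin, ((hr.pair h0).thenCf hf).mono (fun _ _ h => h) Le.refl fun _ _ _ => by simp⟩
  refine ((L0.lin (g := fun x : X => x.2.2.2.2.2) (by fun_prop) hf0).congr fun _ x hx => ?_).toSub
  rw [List.foldl_reverse, foldr_stp hx]
  rfl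

end Crest.Agent.R326
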