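import Crest.Agent.R326.Batch

/-! Row 326: the three-dimensional convolution on the machine. -/

set_option autoImplicit false

namespace Crest.Agent.R326

namespace D3

theorem emk3_eq {B N : ℕ} (hN : 0 < N) (f : ℕ → ℕ → ℕ → RB B) :
    emk3 B N f = emk B [N, N, N].prod fun j =>
      f (dig [N, N, N] j 0) (dig [N, N, N] j 1) (dig [N, N, N] j 2) := by
  have e : [N, N, N].prod = N ^ 3 := by simp; ring
  rw [e, emk3]
  refine emk_congr fun j hj => ?_
  have h0 : j / N ^ 2 < N := by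
    rw [Nat.div_lt_iff_lt_mul (by positivity)]
    calc j < N ^ 3 := hj
      _ = N * N ^ 2 := by ring
  have e0 : dig [N, N, N] j 0 = j / N ^ 2 := by
    simp only [dig, vol, ax]
    simp [← sq, Nat.mod_eq_of_lt h0]
  have e1 : dig [N, N, N] j 1 = j / N % N := by simp [dig, vol, ax]
  have e2 : dig [N, N, N] j 2 = j % N := by simp [dig, vol, ax]
  rw [e0, e1, e2]

theorem gath3 {B N : ℕ} (hB : 2 ≤ B) (hN : 0 < N) {σ : (ℕ → ℕ) → ℕ → ℕ}
    (hv : ∀ ι, Valid [N, N, N] ι → Valid [N, N, N] (σ ι))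
    (hl : ∀ ι y, σ (Function.update ι 3 y) = Function.update (σ ι) 3 y)
    {f g : ℕ → ℕ → ℕ → RB B} (h : ∀ ι, f (σ ι 0) (σ ι 1) (σ ι 2) = g (ι 0) (ι 1) (ι 2)) :
    gathS [N, N, N, 2 * B] σ (emk3 B N f) = emk3 B N g := by
  have hs : ∀ x ∈ [N, N, N], 0 < x := by simp [hN]
  rw [emk3_eq hN, emk3_eq hN]
  refine (gathS_emk hB hs hv (fun ι y _ => hl ι y) _).trans (emk_congr fun j _ => ?_)
  rw [dig_pos (hv _ (valid_dig hs j)), h]

theorem ax3 (N : ℕ) {t : ℕ} (ht : t < 3) : ax [N, N, N] t = N := by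
  interval_cases t <;> simp [ax]

theorem ax4 (N L : ℕ) {t : ℕ} (ht : t < 3) : ax [N, N, N, L] t = N := by
  interval_cases t <;> simp [ax]

theorem valid_sw {N t : ℕ} (ht : t < 2) {ι : ℕ → ℕ} (h : Valid [N, N, N] ι) :
    Valid [N, N, N] (swI t 2 ι) := by
  intro u
  unfold swI
  by_cases h1 : u = t
  · rw [h1, Equiv.swap_apply_left, ax3 N (by omega), ← ax3 N (t := 2) (by omega)]
    exact h 2
  by_cases h2 : u = 2
  · rw [h2, Equiv.swap_apply_right, ax3 N (by omega), ← ax3 N (t := t) (by omega)]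
    exact h t
  rw [Equiv.swap_apply_of_ne_of_ne h1 h2]
  exact h u

theorem sw_update {t : ℕ} (ht : t < 2) (ι : ℕ → ℕ) (y : ℕ) :
    swI t 2 (Function.update ι 3 y) = Function.update (swI t 2 ι) 3 y := by
  funext u
  unfold swI
  by_cases h3 : u = 3
  · rw [h3, Equiv.swap_apply_of_ne_of_ne (by omega) (by omega)]
    simp
  rw [Function.update_of_ne h3, Function.update_of_ne]
  intro h
  have := congrArg (Equiv.swap t 2) h
  rw [Equiv.swap_apply_self, Equiv.swap_apply_of_ne_of_ne (by omega) (by omega)] at this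
  exact h3 this

theorem valid_neg {N t : ℕ} (hN : 0 < N) (ht : t < 3) {ι : ℕ → ℕ} (h : Valid [N, N, N] ι) :
    Valid [N, N, N] (axI t (fun y => (N - y) % N) ι) := by
  intro u
  unfold axI
  by_cases h1 : u = t
  · rw [h1, Function.update_self, ax3 N ht]
    exact Nat.mod_lt _ hN
  rw [Function.update_of_ne h1]
  exact h u

theorem ax_update {t : ℕ} (ht : t < 3) (g : ℕ → ℕ) (ι : ℕ → ℕ) (y : ℕ) :
    axI t g (Function.update ι 3 y) = Function.update (axI t g ι) 3 y := by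
  unfold axI
  rw [Function.update_of_ne (by omega), Function.update_comm (by omega)]

theorem length_emk3 (P : Par) (f : ℕ → ℕ → ℕ → RB P.2.2.2) :
    (emk3 P.2.2.2 P.1.prod f).length = P.len := length_emk _ _ _

theorem emk_const (B n : ℕ) (c : RB B) :
    emk B n (fun _ => c) = (List.replicate n (ebits B c)).flatten := by
  simp [emk]

section facts
variable {P : Par} (h : OkPar P)
include h

theorem N_pos : 0 < P.1.prod := h.good.1.prod_pos

theorem cube_le : P.1.prod ^ 3 ≤ P.len :=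
  Nat.le_mul_of_pos_right _ (by have := h.two_le; omega)

theorem N_le : P.1.prod ≤ P.len :=
  (Nat.le_self_pow (by norm_num) _).trans (cube_le h)

theorem B_le : 2 * P.2.2.2 ≤ P.len :=
  Nat.le_mul_of_pos_left _ (pow_pos (N_pos h) 3)

theorem ex_sq : Ex P.len ^ 2 ≤ P.2.2.2 :=
  (Nat.pow_le_pow_left (Ex_mono (by omega)) 2).trans h.ex

theorem ex_le : Ex P.len ≤ P.len := by
  have h1 := ex_sq h
  have h2 := B_le h
  nlinarith [two_le_Ex P.len]

theorem len_le_cost : (P.len : ℝ) ≤ P.cost := by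
  have h1 : (1 : ℝ) ≤ P.2.1 := by exact_mod_cast h.pos
  have h2 : (1 : ℝ) ≤ lam P.1 := by exact_mod_cast CT.one_le_lam P.1
  have h3 := CT.one_le_rpow_max P.1.length
  have h4 : (0 : ℝ) ≤ P.len := Nat.cast_nonneg _
  calc (P.len : ℝ) = 1 * P.len * 1 * 1 := by ring
    _ ≤ _ := by unfold Par.cost; gcongr

theorem ex_le_cost : (Ex P.len : ℝ) ≤ P.cost :=
  le_trans (by exact_mod_cast ex_le h) (len_le_cost h)

theorem lg_le_cost : (P.len : ℝ) * (lg P.1.prod : ℝ) ^ θ ≤ 3 * P.cost := by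
  have h1 : (1 : ℝ) ≤ P.2.1 := by exact_mod_cast h.pos
  have h2 := CT.lg_rpow_le (ps := P.1) le_rfl
  have h3 : (0 : ℝ) ≤ lam P.1 * ((max P.1.length 1 : ℕ) : ℝ) ^ θ := by positivity
  have h4 : (0 : ℝ) ≤ P.len := Nat.cast_nonneg _
  calc (P.len : ℝ) * (lg P.1.prod : ℝ) ^ θ
      ≤ (P.2.1 * P.len) * (3 * (lam P.1 * ((max P.1.length 1 : ℕ) : ℝ) ^ θ)) := by
        gcongr
        exact le_mul_of_one_le_left h4 h1
    _ = 3 * P.cost := by unfold Par.cost; ring

theorem sz_P : sz P ≤ 15 * lg P.len ^ 1 := by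
  have h1 : lg (P.1.sum + P.2.1 + P.2.2.1 + P.2.2.2) ≤ lg P.1.prod := by
    refine (Nat.pow_le_pow_iff_left (n := 3) (by norm_num)).1 (h.tabs.trans ?_)
    exact Nat.pow_le_pow_right (one_le_lg _) (by norm_num)
  have h2 := lg_mono (N_le h)
  have h3 := h.good.1.sz_le
  have h4 := sz_nat_le_lg (show P.2.1 ≤ P.1.sum + P.2.1 + P.2.2.1 + P.2.2.2 by omega)
  have h5 := sz_nat_le_lg (show P.2.2.1 ≤ P.1.sum + P.2.1 + P.2.2.1 + P.2.2.2 by omega)
  have h6 := sz_nat_le_lg (show P.2.2.2 ≤ P.1.sum + P.2.1 + P.2.2.1 + P.2.2.2 by omega)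
  have h7 := one_le_lg P.len
  have e : sz P = sz P.1 + (sz P.2.1 + (sz P.2.2.1 + sz P.2.2.2 + 1) + 1) + 1 := rfl
  rw [e, pow_one]
  omega

end facts

theorem prod_le_two_pow (ps : List ℕ) : ps.prod ≤ 2 ^ ps.sum := by
  induction ps with
  | nil => simp
  | cons p ps ih =>
    rw [List.prod_cons, List.sum_cons, pow_add]
    exact Nat.mul_le_mul Nat.lt_two_pow_self.le ih

section machine
variable {ι : Type} {pre : World → ι → Prop} {P : ι → Par} (h : ∀ w i, pre w i → OkPar (P i))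
include h

theorem le_len : Le pre (fun i => ((P i).len : ℝ)) (fun i => (P i).cost) :=
  Le.of_le fun w i hi => len_le_cost (h w i hi)

theorem le_pow (e : ℕ) : Le pre (fun i => ((sz (P i) : ℝ) + 1) ^ e) (fun i => (P i).cost) :=
  Ax.le_pow (pre := pre) (σ := fun i => (P i).cost) (f := P) (m := fun i => (P i).len) 15 1
    (fun w i hi => sz_P (h w i hi)) (fun w i hi => ex_le_cost (h w i hi)) e

theorem le_P : Le pre (fun i => (sz (P i) : ℝ)) (fun i => (P i).cost) :=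
  Le.trans (Le.of_le fun _ _ _ => by simp) (le_pow h 1)

theorem le_arr (f : ∀ i, ℕ → ℕ → ℕ → RB (P i).2.2.2) :
    Le pre (fun i => (sz (emk3 (P i).2.2.2 (P i).1.prod (f i)) : ℝ)) (fun i => (P i).cost) := by
  refine Le.trans (Le.of_le fun w i _ => ?_)
    (((le_len h).const_mul 2 zero_le_two).add ((le_P h).const_of_sz 1))
  rw [sz_bits, length_emk3]
  push_cast
  exact le_rfl

theorem le_st (f : ∀ i, ℕ → ℕ → ℕ → RB (P i).2.2.2) :
    Le pre (fun i => (sz (P i, emk3 (P i).2.2.2 (P i).1.prod (f i)) : ℝ)) (fun i => (P i).cost) :=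
  Ax.le_sz_pair (le_P h) (le_arr h f)

variable {γ : Type} [Enc γ] {inp : ι → γ} (hP : L0 pre inp (fun i => (P i).cost) P)
include hP

theorem l0_B : L0 pre inp (fun i => (P i).cost) (fun i => (P i).2.2.2) :=
  L0.lin (g := fun p : Par => p.2.2.2) (by fun_prop) hP

theorem l0_n : L0 pre inp (fun i => (P i).cost) (fun i => (P i).1.prod ^ 3) :=
  L0.poly (g := fun p : Par => p.1.prod ^ 3) (by fun_prop) hP (le_pow h)

theorem l0_sh : L0 pre inp (fun i => (P i).cost)
    (fun i => [(P i).1.prod, (P i).1.prod, (P i).1.prod, 2 * (P i).2.2.2]) :=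
  L0.poly (g := fun p : Par => [p.1.prod, p.1.prod, p.1.prod, 2 * p.2.2.2]) (by fun_prop) hP
    (le_pow h)

omit hP in
theorem okS (f : ∀ i, ℕ → ℕ → ℕ → RB (P i).2.2.2) (w : World) (i : ι) (hi : pre w i) :
    OkS 4 [(P i).1.prod, (P i).1.prod, (P i).1.prod, 2 * (P i).2.2.2]
      (emk3 (P i).2.2.2 (P i).1.prod (f i)) := by
  have h1 := N_pos (h w i hi)
  have h2 := (h w i hi).two_le
  refine ⟨rfl, by simp [h1]; omega, ?_⟩
  rw [length_emk3]
  simp [Par.len]
  ring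

theorem l0_sw {t : ℕ} (ht : t < 2) {f g : ∀ i, ℕ → ℕ → ℕ → RB (P i).2.2.2}
    (e : ∀ i ι, f i (swI t 2 ι 0) (swI t 2 ι 1) (swI t 2 ι 2) = g i (ι 0) (ι 1) (ι 2))
    (hf : L0 pre inp (fun i => (P i).cost) fun i => emk3 (P i).2.2.2 (P i).1.prod (f i)) :
    L0 pre inp (fun i => (P i).cost) fun i => emk3 (P i).2.2.2 (P i).1.prod (g i) := by
  refine (L0.sub (sub_swS 4 t 2 ht (by norm_num)) ((l0_sh h hP).pair hf)
    (fun w i hi => ⟨okS h f w i hi, ?_, ?_⟩) (Le.of_le_mul 3 (by norm_num) fun w i hi => ?_)).congr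
    fun w i hi => ?_
  · dsimp only
    rw [ax4 _ _ (by omega), ax4 _ _ (by omega)]
  · have := ex_sq (h w i hi)
    dsimp only
    rw [length_emk3]
    simp [vol]
    omega
  · dsimp only
    rw [length_emk3, ax4 _ _ (by omega)]
    exact lg_le_cost (h w i hi)
  · exact (gath3 (h w i hi).two_le (N_pos (h w i hi)) (fun ι hι => valid_sw ht hι)
      (sw_update ht) (e i)).symm

theorem l0_neg {t : ℕ} (ht : t < 3) {f g : ∀ i, ℕ → ℕ → ℕ → RB (P i).2.2.2}
    (e : ∀ i ι, f i (axI t (fun y => ((P i).1.prod - y) % (P i).1.prod) ι 0)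
      (axI t (fun y => ((P i).1.prod - y) % (P i).1.prod) ι 1)
      (axI t (fun y => ((P i).1.prod - y) % (P i).1.prod) ι 2) = g i (ι 0) (ι 1) (ι 2))
    (hf : L0 pre inp (fun i => (P i).cost) fun i => emk3 (P i).2.2.2 (P i).1.prod (f i)) :
    L0 pre inp (fun i => (P i).cost) fun i => emk3 (P i).2.2.2 (P i).1.prod (g i) := by
  refine (L0.sub (sub_negS 4 t (by omega)) ((l0_sh h hP).pair hf)
    (fun w i hi => okS h f w i hi) (Le.of_le_mul 2 (by norm_num) fun w i hi => ?_)).congr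
    fun w i hi => ?_
  · dsimp only
    rw [length_emk3]
    linarith [len_le_cost (h w i hi), ex_le_cost (h w i hi)]
  · dsimp only
    rw [ax4 _ _ ht]
    exact (gath3 (h w i hi).two_le (N_pos (h w i hi)) (fun ι hι => valid_neg (N_pos (h w i hi)) ht hι)
      (ax_update ht _) (e i)).symm

/-- the constant array `N ^ k` -/
theorem l0_const (k : ℕ) : L0 pre inp (fun i => (P i).cost) fun i =>
    emk3 (P i).2.2.2 (P i).1.prod fun _ _ _ => ((P i).1.prod : RB (P i).2.2.2) ^ k := by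
  have hu : L0 pre inp (fun i => (P i).cost) fun i => un (P i).2.2.2 :=
    L0.un (l0_B h hP) (Le.of_le fun w i hi => by
      have h1 := B_le (h w i hi)
      have h2 := (h w i hi).two_le
      have h3 : (P i).2.2.2 + 1 ≤ (P i).len := by omega
      exact le_trans (by exact_mod_cast h3) (len_le_cost (h w i hi)))
  have hz : L0 pre inp (fun i => (P i).cost) fun i =>
      (⟨(((P i).1.prod ^ k : ℕ) : ℤ), 0⟩ : GaussianInt) :=
    L0.poly (g := fun p : Par => (⟨((p.1.prod ^ k : ℕ) : ℤ), 0⟩ : GaussianInt))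
      ((Lin.gmk (Lin.ofNat Lin.id) (Lin.const 0)).poly.comp
        (f := fun p : Par => p.1.prod ^ k) (by fun_prop)) hP (le_pow h)
  have he := L0.poly poly_ebits (hu.pair hz) fun e => by
    obtain ⟨K, hK⟩ := pow_le_of_lg e
    refine Le.of_le_mul ((4 * k + 14 : ℕ) ^ e * K) (by positivity) fun w i hi => ?_
    have h1 := hK _ _ (N_pos (h w i hi)) (h w i hi).tabs
    set s := (P i).1.sum + (P i).2.1 + (P i).2.2.1 + (P i).2.2.2 with hs
    have h2 : ((P i).1.prod ^ k).size ≤ k * (P i).1.sum + 1 := by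
      rw [Nat.size_le, pow_succ, mul_comm k, pow_mul]
      have := Nat.pow_le_pow_left (prod_le_two_pow (P i).1) k
      have : 0 < (2 ^ (P i).1.sum) ^ k := by positivity
      omega
    have h3 : sz (un (P i).2.2.2, (⟨(((P i).1.prod ^ k : ℕ) : ℤ), 0⟩ : GaussianInt)) + 1 ≤
        (4 * k + 14) * (s + 1) := by
      rw [sz_pair, sz_un, sz_gauss, sz_int, sz_int]
      simp only [Int.natAbs_natCast, Int.natAbs_zero, Nat.size_zero]
      have : k * (P i).1.sum ≤ k * s := Nat.mul_le_mul_left _ (by omega)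
      have : (P i).2.2.2 ≤ s := by omega
      nlinarith
    have h4 : (sz (un (P i).2.2.2, (⟨(((P i).1.prod ^ k : ℕ) : ℤ), 0⟩ : GaussianInt)) + 1) ^ e ≤
        (4 * k + 14) ^ e * K * (P i).len := by
      refine (Nat.pow_le_pow_left h3 e).trans ?_
      rw [mul_pow, mul_assoc]
      exact Nat.mul_le_mul_left _ (h1.trans (Nat.mul_le_mul_left _ (N_le (h w i hi))))
    refine le_trans (by exact_mod_cast h4) (mul_le_mul_of_nonneg_left (len_le_cost (h w i hi)) ?_)
    positivity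
  have hr := L0.sub sub_replicate ((l0_n h hP).pair he) (fun _ _ _ => trivial)
    (Le.of_le_mul 6 (by norm_num) fun w i hi => by
      have h1 := len_le_cost (h w i hi)
      have h2 : 1 ≤ (P i).1.prod ^ 3 := pow_pos (N_pos (h w i hi)) 3
      have h3 := (h w i hi).two_le
      have h4 : ((P i).1.prod ^ 3 + 1) * (2 * (2 * (P i).2.2.2) + 1 + 1) ≤ 6 * (P i).len := by
        unfold Par.len
        nlinarith
      dsimp only
      rw [sz_bits, length_ebits, List.length_replicate]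
      refine le_trans ?_ (mul_le_mul_of_nonneg_left h1 (by norm_num))
      exact_mod_cast h4)
  refine (L0.lin (g := fun l : List (List Bool) => l.flatten) (by fun_prop) hr).congr
    fun w i _ => ?_
  obtain ⟨φ, hφ⟩ := exists_toRB_hom (P i).2.2.2
  have e : (⟨(((P i).1.prod ^ k : ℕ) : ℤ), 0⟩ : GaussianInt) = ((P i).1.prod : GaussianInt) ^ k := by
    rw [← Nat.cast_pow]; rfl
  dsimp only
  rw [List.length_replicate, e, ← hφ, map_pow, map_natCast, emk3, emk_const]

omit h in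
theorem keep {β : Type} [Enc β] {out : ι → β} {c : ι → ℝ}
    (ho : Cf pre inp out (fun i => (P i).cost) c) :
    Cf pre inp (fun i => (P i, out i)) (fun i => (P i).cost) c :=
  (Cf.pair hP.1 hP.2 ho).mono (fun _ _ h => h) Le.refl fun _ _ _ => (zero_add _).le

theorem cf_mul (τ : ℕ → ℝ) (hm : ∀ w i, pre w i → CanMul τ w (P i).2.2.2)
    {f g : ∀ i, ℕ → ℕ → ℕ → RB (P i).2.2.2}
    (hf : L0 pre inp (fun i => (P i).cost) fun i => emk3 (P i).2.2.2 (P i).1.prod (f i))
    (hg : L0 pre inp (fun i => (P i).cost) fun i => emk3 (P i).2.2.2 (P i).1.prod (g i)) :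
    Cf pre inp (fun i => emk3 (P i).2.2.2 (P i).1.prod fun x y z => f i x y z * g i x y z)
      (fun i => (P i).cost) (fun i => 4 * ((P i).1.prod : ℝ) ^ 3 * τ (P i).2.2.2) := by
  have h1 := cf_mulE (pre := pre) τ (fun i => (P i).2.2.2) (fun i => (P i).1.prod ^ 3)
    (fun i => emk3 (P i).2.2.2 (P i).1.prod (f i)) (fun i => emk3 (P i).2.2.2 (P i).1.prod (g i))
    fun w i hi => ⟨⟨(h w i hi).two_le, pow_pos (N_pos (h w i hi)) 3, length_emk _ _ _⟩,
      ⟨(h w i hi).two_le, pow_pos (N_pos (h w i hi)) 3, length_emk _ _ _⟩, hm w i hi⟩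
  refine (((l0_B h hP).pair ((l0_n h hP).pair (hf.pair hg))).thenCf
    (h1.mono (fun _ _ h => h) (Le.of_le fun w i hi => ?_) fun w i _ => ?_)).congr
    (fun _ _ _ => rfl) fun w i hi => congrArg enc ?_
  · rw [length_emk3]; exact len_le_cost (h w i hi)
  · push_cast; exact le_rfl
  · refine emk_congr fun j hj => ?_
    rw [emk3, emk3, eat_emk (h w i hi).two_le _ hj, eat_emk (h w i hi).two_le _ hj]

omit hP in
theorem l0_fst (f : ∀ i, ℕ → ℕ → ℕ → RB (P i).2.2.2) :
    L0 pre (fun i => (P i, emk3 (P i).2.2.2 (P i).1.prod (f i))) (fun i => (P i).cost) P :=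
  L0.lin (g := fun q : Par × List Bool => q.1) (by fun_prop) (L0.input (le_st h f))

omit hP in
theorem l0_snd (f : ∀ i, ℕ → ℕ → ℕ → RB (P i).2.2.2) :
    L0 pre (fun i => (P i, emk3 (P i).2.2.2 (P i).1.prod (f i))) (fun i => (P i).cost)
      (fun i => emk3 (P i).2.2.2 (P i).1.prod (f i)) :=
  L0.lin (g := fun q : Par × List Bool => q.2) (by fun_prop) (L0.input (le_st h f))

end machine

end D3

open D3 in
theorem cf_d3 {T : TabIn → GaussianInt} (hT : Poly T) (hG : GoodT T) (τ : ℕ → ℝ)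
    (hτ : ∀ B, 0 ≤ τ B) {ι : Type} {pre : World → ι → Prop} (P : ι → Par)
    (f : ∀ i, ℕ → ℕ → ℕ → RB (P i).2.2.2)
    (h : ∀ w i, pre w i → OkPar (P i) ∧ CanMul τ w (P i).2.2.2) :
    Cf pre (fun i => (P i, emk3 (P i).2.2.2 (P i).1.prod (f i)))
      (fun i => emk3 (P i).2.2.2 (P i).1.prod (d3 (iB _) (P i).1 (rbMac T (P i)) (P i).2.1 (f i)))
      (fun i => (P i).cost)
      (fun i => 180 * ((P i).2.1 : ℝ) * ((P i).1.prod : ℝ) ^ 3 * τ (P i).2.2.2) := by
  have ho : ∀ w i, pre w i → OkPar (P i) := fun w i hi => (h w i hi).1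
  have b := fun g : ∀ i, ℕ → ℕ → ℕ → RB (P i).2.2.2 =>
    keep (l0_fst ho g) (cf_bat3 hT hG τ hτ P g h)
  have s12 := fun g : ∀ i, ℕ → ℕ → ℕ → RB (P i).2.2.2 =>
    l0_sw ho (l0_fst ho g) (t := 1) (by norm_num) (f := g) (g := fun i => sw12 (g i))
      (fun i ι => by simp [swI, sw12, Equiv.swap_apply_def]) (l0_snd ho g)
  have s02 := fun g : ∀ i, ℕ → ℕ → ℕ → RB (P i).2.2.2 =>
    l0_sw ho (l0_fst ho g) (t := 0) (by norm_num) (f := g) (g := fun i => sw02 (g i))
      (fun i ι => by simp [swI, sw02, Equiv.swap_apply_def]) (l0_snd ho g)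
  have k12 := fun g : ∀ i, ℕ → ℕ → ℕ → RB (P i).2.2.2 => ((l0_fst ho g).pair (s12 g)).2
  have k02 := fun g : ∀ i, ℕ → ℕ → ℕ → RB (P i).2.2.2 => ((l0_fst ho g).pair (s02 g)).2
  refine (((((((b f).comp (k12 _)).comp (b _)).comp (k12 _)).comp (k02 _)).comp (b _)).comp
    (s02 _).2).mono (fun _ _ h => h) Le.refl fun _ i _ => le_of_eq ?_
  ring

open D3 in
theorem cf_conv3 {T : TabIn → GaussianInt} (hT : Poly T) (hG : GoodT T) (τ : ℕ → ℝ)
    (hτ : ∀ B, 0 ≤ τ B) {ι : Type} {pre : World → ι → Prop} (P : ι → Par)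
    (f g : ∀ i, ℕ → ℕ → ℕ → RB (P i).2.2.2)
    (h : ∀ w i, pre w i → OkPar (P i) ∧ CanMul τ w (P i).2.2.2 ∧
      45 * (P i).2.2.1 * (P i).2.1 ≤ (P i).2.2.2) :
    Cf pre (fun i => (P i, emk3 (P i).2.2.2 (P i).1.prod (f i), emk3 (P i).2.2.2 (P i).1.prod (g i)))
      (fun i => emk3 (P i).2.2.2 (P i).1.prod (conv3 (iB _) (P i).1 (rbMac T (P i)) (P i).2.1
        (45 * (P i).2.2.1 * (P i).2.1) (f i) (g i)))
      (fun i => (P i).cost)
      (fun i => 600 * ((P i).2.1 : ℝ) * ((P i).1.prod : ℝ) ^ 3 * τ (P i).2.2.2) := by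
  have ho : ∀ w i, pre w i → OkPar (P i) := fun w i hi => (h w i hi).1
  have hm : ∀ w i, pre w i → CanMul τ w (P i).2.2.2 := fun w i hi => (h w i hi).2.1
  have d := fun u : ∀ i, ℕ → ℕ → ℕ → RB (P i).2.2.2 =>
    cf_d3 hT hG τ hτ P u fun w i hi => ⟨ho w i hi, hm w i hi⟩
  have tr := fun u v : ∀ i, ℕ → ℕ → ℕ → RB (P i).2.2.2 =>
    L0.input (Ax.le_sz_pair (le_P ho) (Ax.le_sz_pair (le_arr ho u) (le_arr ho v)))
  have t1 := fun u v : ∀ i, ℕ → ℕ → ℕ → RB (P i).2.2.2 =>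
    L0.lin (g := fun q : Par × List Bool × List Bool => q.1) (by fun_prop) (tr u v)
  have t2 := fun u v : ∀ i, ℕ → ℕ → ℕ → RB (P i).2.2.2 =>
    L0.lin (g := fun q : Par × List Bool × List Bool => q.2.1) (by fun_prop) (tr u v)
  have t3 := fun u v : ∀ i, ℕ → ℕ → ℕ → RB (P i).2.2.2 =>
    L0.lin (g := fun q : Par × List Bool × List Bool => q.2.2) (by fun_prop) (tr u v)
  have c1 := keep (t1 f g) (Cf.pair (tr f g).1 (((t1 f g).pair (t2 f g)).thenCf (d f))
    (((t1 f g).pair (t3 f g)).thenCf (d g)))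
  have c2 := fun u v : ∀ i, ℕ → ℕ → ℕ → RB (P i).2.2.2 =>
    keep (t1 u v) (cf_mul ho (t1 u v) τ hm (t2 u v) (t3 u v))
  have c3 := fun u : ∀ i, ℕ → ℕ → ℕ → RB (P i).2.2.2 => keep (l0_fst ho u) (d u)
  have c4 := fun u : ∀ i, ℕ → ℕ → ℕ → RB (P i).2.2.2 =>
    keep (l0_fst ho u) (cf_mul ho (l0_fst ho u) τ hm (l0_const ho (l0_fst ho u) 6)
      (l0_neg ho (l0_fst ho u) (t := 2) (by norm_num)
        (g := fun i x y z => u i (((P i).1.prod - x) % (P i).1.prod)
          (((P i).1.prod - y) % (P i).1.prod) (((P i).1.prod - z) % (P i).1.prod))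
        (fun i ι => by simp [axI])
        (l0_neg ho (l0_fst ho u) (t := 1) (by norm_num)
          (g := fun i x y z => u i (((P i).1.prod - x) % (P i).1.prod)
            (((P i).1.prod - y) % (P i).1.prod) z)
          (fun i ι => by simp [axI])
          (l0_neg ho (l0_fst ho u) (t := 0) (by norm_num)
            (g := fun i x y z => u i (((P i).1.prod - x) % (P i).1.prod) y z)
            (fun i ι => by simp [axI]) (l0_snd ho u)))))
  have c5 : ∀ u : ∀ i, ℕ → ℕ → ℕ → RB (P i).2.2.2,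
      L0 pre (fun i => (P i, emk3 (P i).2.2.2 (P i).1.prod (u i))) (fun i => (P i).cost)
        fun i => emk3 (P i).2.2.2 (P i).1.prod fun x y z =>
          u i x y z + 2 ^ (45 * (P i).2.2.1 * (P i).2.1 - 1) := fun u => by
    have hP := l0_fst ho u
    have hK := L0.poly (g := fun p : Par => 45 * p.2.2.1 * p.2.1 - 1) (by fun_prop) hP (le_pow ho)
    have hp : ∀ w i, pre w i → 2 ≤ (P i).2.2.2 ∧ 0 < (P i).1.prod ^ 3 :=
      fun w i hi => ⟨(ho w i hi).two_le, pow_pos (N_pos (ho w i hi)) 3⟩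
    have h1 : L0 pre (fun i => (P i, emk3 (P i).2.2.2 (P i).1.prod (u i))) (fun i => (P i).cost)
        fun i => emk (P i).2.2.2 ((P i).1.prod ^ 3) fun _ =>
          2 ^ (45 * (P i).2.2.1 * (P i).2.1 - 1) := by
      refine (L0.sub sub_shlE (hK.pair ((l0_B ho hP).pair ((l0_n ho hP).pair (l0_const ho hP 0))))
        (fun w i hi => ⟨?_, (hp w i hi).1, (hp w i hi).2, length_emk _ _ _⟩)
        (Le.of_le fun w i hi => ?_)).congr fun w i hi => ?_
      · have := (h w i hi).2.2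
        dsimp only
        omega
      · dsimp only
        rw [length_emk3]
        exact len_le_cost (ho w i hi)
      · refine emk_congr fun j hj => ?_
        dsimp only
        rw [emk3, eat_emk (hp w i hi).1 _ hj, pow_zero, mul_one]
    exact CB.l0_add (l0_B ho hP) (l0_n ho hP) hp (le_len ho) (l0_snd ho u) h1
  refine ((((c1.comp (c2 _ _)).comp (c3 _)).comp (c4 _)).comp (c5 _).2).mono (fun _ _ h => h)
    Le.refl fun w i hi => ?_
  have h1 : (1 : ℝ) ≤ (P i).2.1 := by exact_mod_cast (ho w i hi).pos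
  have h2 : (0 : ℝ) ≤ ((P i).1.prod : ℝ) ^ 3 * τ (P i).2.2.2 :=
    mul_nonneg (by positivity) (hτ _)
  nlinarith

end Crest.Agent.R326
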