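import Crest.Agent.R326.DigDefs

/-! Row 326: a physical macro realises an elementary shear between roles. -/

set_option autoImplicit false

namespace Crest.Agent.R326

namespace DA

open Complex

/-- the action of a macro on a pair of cells -/
noncomputable def tc (t t' : ℕ → ℂ) (a b : ℂ) : ℂ :=
  let a1 := (1 + I) * (t 0 * a) + (1 - I) * (t' 0 * b)
  let b1 := (1 + I) * (t' 0 * b) + (1 - I) * (t 0 * a)
  let a2 := (1 + I) * (t 1 * a1) + (1 - I) * (t' 1 * b1)
  let b2 := (1 + I) * (t' 1 * b1) + (1 - I) * (t 1 * a1)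
  let a3 := (1 + I) * (t 2 * a2) + (1 - I) * (t' 2 * b2)
  let b3 := (1 + I) * (t' 2 * b2) + (1 - I) * (t 2 * a2)
  t 4 * ((1 + I) * (t 3 * a3) + (1 - I) * (t' 3 * b3))

theorem mac_eq {p : ℕ} (hp : 1 ≤ p) (M : MacD p ℂ) (f : ZMod p × ZMod p → ℂ) (Y X : ZMod p) :
    mac I [p - 1] M f (Y, X) =
      tc (fun ν => M.tab ν (Y - M.d, X - M.F Y)) (fun ν => M.tab ν (-(Y - M.d), -(X - M.F Y)))
        (f (Y, X)) (f (2 * M.d - Y, -(X - M.F Y) + M.F (2 * M.d - Y))) := by
  have e : ((p - 1 : ℕ) : ZMod p) = -1 := by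
    rw [Nat.cast_sub hp]
    simp
  have e2 : -(Y - M.d) + M.d = 2 * M.d - Y := by ring
  have e3 : ∀ g : ZMod p × ZMod p → ℂ, c2s I [p - 1] g =
      c2 I (fun v => (((p - 1 : ℕ) : ZMod p) * v.1, ((p - 1 : ℕ) : ZMod p) * v.2)) g := fun g => rfl
  simp only [mac, e3, c2, tc, e, neg_one_mul, neg_neg, sub_add_cancel, e2]

theorem tc_idle (t t' : ℕ → ℂ) (a b : ℂ) (h : ∀ ν < 4, t ν = 1 / 2) (h' : ∀ ν < 4, t' ν = 1 / 2) :
    tc t t' a b = t 4 * a := by
  simp only [tc, h 0 (by omega), h 1 (by omega), h 2 (by omega), h 3 (by omega), h' 0 (by omega),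
    h' 1 (by omega), h' 2 (by omega), h' 3 (by omega)]
  congr 1
  ring_nf
  simp only [I_pow_four]
  ring

theorem tc_src (p : ℕ) (s τ a b : ℂ) (hτ : τ ≠ 0) :
    tc (fun ν => kVal p 3 ν s) (fun ν => kVal p 4 ν τ) a b = a := by
  simp [tc, kVal]
  field_simp
  ring_nf
  simp only [I_pow_four, I_pow_three, I_sq, show I ^ 5 = I by simp [pow_succ]]
  ring

theorem tc_tgt (p : ℕ) (s τ a b : ℂ) (hτ : τ ≠ 0) :
    tc (fun ν => kVal p 4 ν τ) (fun ν => kVal p 3 ν s) a b = a + τ * b := by
  simp [tc, kVal]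
  field_simp
  ring_nf
  simp only [I_pow_four, I_pow_three, I_sq, show I ^ 5 = I by simp [pow_succ],
    show I ^ 6 = -1 by simp [pow_succ]]
  ring

theorem role_iff {p : ℕ} (h9 : 9 ≤ p) (y : ℕ) {r : ℕ} (hr : r < 4) :
    role p y = r ↔ r * Gp p < y ∧ y < r * Gp p + Gp p := by
  have hG : 0 < Gp p := by unfold Gp; omega
  have h1 := Nat.div_add_mod y (Gp p)
  have h2 := Nat.mod_lt y hG
  unfold role
  constructor
  · intro h
    split_ifs at h with h0
    · omega
    · rw [h, mul_comm] at h1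
      omega
  · rintro ⟨h3, h4⟩
    have h5 : y / Gp p = r := by
      apply Nat.div_eq_of_lt_le <;> [omega; (rw [add_mul]; omega)]
    rw [h5, mul_comm] at h1
    rw [if_neg, h5]
    have : r * Gp p ≤ 3 * Gp p := Nat.mul_le_mul_right _ (by omega)
    omega

theorem role_lt {p : ℕ} (h9 : 9 ≤ p) {y : ℕ} (h : role p y ≠ 4) : role p y < 4 := by
  have hG : 0 < Gp p := by unfold Gp; omega
  unfold role at h ⊢
  split_ifs at h ⊢ with h0
  · omega
  · exact (Nat.div_lt_iff_lt_mul hG).2 (by omega)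

theorem role_rowOf {p : ℕ} (h9 : 9 ≤ p) {r γ : ℕ} (hr : r < 4) (hγ : γ < Gp p - 1) :
    role p (rowOf p r γ) = r := by
  rw [role_iff h9 _ hr, rowOf]
  split_ifs <;> omega

theorem rowOf_lt {p : ℕ} {r γ : ℕ} (hr : r < 4) (hγ : γ < Gp p - 1) : rowOf p r γ < p := by
  have : r * Gp p ≤ 3 * Gp p := Nat.mul_le_mul_right _ (by omega)
  have : 4 * Gp p ≤ p - 1 := by unfold Gp; omega
  rw [rowOf]
  split_ifs <;> omega

theorem two_dOf (p : ℕ) {m : DMac} (h : (m.1 + m.2.1) % 2 = 1) :
    2 * dOf p m = m.1 * Gp p + m.2.1 * Gp p + Gp p := by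
  rw [dOf, ← mul_assoc, show 2 * ((m.1 + m.2.1 + 1) / 2) = m.1 + m.2.1 + 1 by omega]
  ring

theorem role_dOf (p : ℕ) (m : DMac) : role p (dOf p m) = 4 := by
  simp [role, dOf]

theorem dOf_lt {p : ℕ} (h9 : 9 ≤ p) {m : DMac} (hm : OkM p m) : dOf p m < p := by
  have : dOf p m ≤ 3 * Gp p := Nat.mul_le_mul_right _ (by have := hm.1; have := hm.2.1; have := hm.2.2.1; omega)
  have : 4 * Gp p ≤ p - 1 := by unfold Gp; omega
  omega

/-- the reflection exchanges the two roles -/
theorem role_refl {p : ℕ} [NeZero p] (h9 : 9 ≤ p) {d i j : ℕ} (hi : i < 4) (hj : j < 4)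
    (hd : 2 * d = i * Gp p + j * Gp p + Gp p) {Y : ZMod p} (h : role p Y.val = i) :
    role p (2 * (d : ZMod p) - Y).val = j := by
  rw [role_iff h9 _ hi] at h
  have e : 2 * (d : ZMod p) - Y = ((2 * d - Y.val : ℕ) : ZMod p) := by
    rw [Nat.cast_sub (by omega)]
    simp
  have : j * Gp p ≤ 3 * Gp p := Nat.mul_le_mul_right _ (by omega)
  have : 4 * Gp p ≤ p - 1 := by unfold Gp; omega
  rw [e, ZMod.val_natCast_of_lt (by omega), role_iff h9 _ hj]
  omega

theorem lx_val {p : ℕ} [NeZero p] (r : ℕ) (x : ZMod p) :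
    lx p r x.val = (if r % 2 = 0 then x else -x).val := by
  unfold lx
  split_ifs
  · rfl
  · rw [ZMod.neg_val']

/-- the entry of the monomial seen by a cell -/
def ent (p : ℕ) (m : DMac) (ρ x : ℕ) : Option Cd :=
  if ρ = m.1 ∨ ρ = m.2.1 then m.2.2.1.2.getD (lx p ρ x) none else none

theorem cellK_eq {p : ℕ} [NeZero p] (m : DMac) {Y : ZMod p} (hY : Y ≠ (dOf p m : ℕ)) (x : ℕ) :
    cellK p m (Y - (dOf p m : ℕ)).val x =
      match ent p m (role p Y.val) x with
      | some c => if role p Y.val = m.1 then (3, (1, [])) else (4, c)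
      | none => if m.2.2.2 = true ∧ role p Y.val % 2 = 1 then (2, (1, [])) else (1, (1, [])) := by
  have e : ((Y - (dOf p m : ℕ)).val + dOf p m) % p = Y.val := by
    rw [← ZMod.val_natCast]
    simp
  unfold cellK
  rw [if_neg (by rw [ZMod.val_eq_zero]; exact sub_ne_zero.2 hY)]
  simp only [e]
  rfl

theorem ent_refl {p : ℕ} [NeZero p] (h9 : 9 ≤ p) {m : DMac} (hm : OkM p m) (Y x : ZMod p) :
    ent p m (role p (2 * ((dOf p m : ℕ) : ZMod p) - Y).val) (-x).val = ent p m (role p Y.val) x.val := by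
  obtain ⟨hi, hj, hij, -⟩ := hm
  have hd := two_dOf p hij
  have hd' : 2 * dOf p m = m.2.1 * Gp p + m.1 * Gp p + Gp p := by omega
  unfold ent
  by_cases h1 : role p Y.val = m.1
  · rw [role_refl h9 hi hj hd h1, h1, if_pos (Or.inr rfl), if_pos (Or.inl rfl), lx_val, lx_val]
    congr 2
    split_ifs <;> first | omega | simp
  by_cases h2 : role p Y.val = m.2.1
  · rw [role_refl h9 hj hi hd' h2, h2, if_pos (Or.inl rfl), if_pos (Or.inr rfl), lx_val, lx_val]
    congr 2
    split_ifs <;> first | omega | simp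
  rw [if_neg (not_or.2 ⟨h1, h2⟩), if_neg]
  rintro (h | h)
  · exact h2 (by simpa using role_refl h9 hi hj hd h)
  · exact h1 (by simpa using role_refl h9 hj hi hd' h)

theorem good_ent {p : ℕ} {m : DMac} (hm : OkM p m) {ρ x : ℕ} {c : Cd} (h : ent p m ρ x = some c) :
    GoodCd p c ∧ m.2.2.2 = false ∧ (ρ = m.1 ∨ ρ = m.2.1) := by
  unfold ent at h
  split_ifs at h with h0
  have hc : some c ∈ m.2.2.1.2 := by
    rw [List.getD_eq_getElem?_getD] at h
    cases h1 : m.2.2.1.2[lx p ρ x]? with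
    | none => simp [h1] at h
    | some o =>
      rw [h1, Option.getD_some] at h
      exact h ▸ List.mem_of_getElem? h1
  refine ⟨hm.2.2.2.2 c hc, ?_, h0⟩
  by_contra h1
  rw [hm.2.2.2.1 (by simpa using h1)] at hc
  simp at hc

theorem cval_ne {p : ℕ} (h9 : 9 ≤ p) {c : Cd} (h : GoodCd p c) : cval p c ≠ 0 := by
  intro h0
  have := h.2.2.1
  rw [h0, norm_zero] at this
  have : (0 : ℝ) < 1 / p := by
    have : (0 : ℝ) < p := by exact_mod_cast (by omega : 0 < p)
    positivity
  linarith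

/-- the macro on one physical cell -/
theorem mac_cell {p : ℕ} [NeZero p] (h9 : 9 ≤ p) {m : DMac} (hm : OkM p m)
    (f : ZMod p × ZMod p → ℂ) {Y : ZMod p} (hY : Y ≠ (dOf p m : ℕ)) (X : ZMod p) :
    mac I [p - 1] (digMac p m) f (Y, X) =
      (if m.2.2.2 = true ∧ role p Y.val % 2 = 1 then (1 / p : ℂ) else 1) *
        (f (Y, X) + if role p Y.val = m.2.1 then
          (match ent p m m.2.1 X.val with
          | some c => cval p c * f (2 * ((dOf p m : ℕ) : ZMod p) - Y,
              -X + (FOf p m (2 * ((dOf p m : ℕ) : ZMod p) - Y).val : ℕ))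
          | none => 0) else 0) := by
  have hij : m.1 ≠ m.2.1 := by have := hm.2.2.1; omega
  have hY' : 2 * ((dOf p m : ℕ) : ZMod p) - Y ≠ (dOf p m : ℕ) := fun h =>
    hY (by linear_combination -h)
  have e : -(Y - (dOf p m : ℕ)) = 2 * ((dOf p m : ℕ) : ZMod p) - Y - (dOf p m : ℕ) := by ring
  rw [mac_eq (by omega)]
  simp only [digMac, dVal, e, cellK_eq m hY, cellK_eq m hY', ent_refl h9 hm]
  cases h : ent p m (role p Y.val) (X - (FOf p m Y.val : ℕ)).val with
  | none =>
    have h0 : (if role p Y.val = m.2.1 then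
          (match ent p m m.2.1 X.val with
          | some c => cval p c * f (2 * ((dOf p m : ℕ) : ZMod p) - Y,
              -X + (FOf p m (2 * ((dOf p m : ℕ) : ZMod p) - Y).val : ℕ))
          | none => 0) else 0) = 0 := by
      split_ifs with h1
      · rw [h1, FOf, if_neg (by omega), Nat.cast_zero, sub_zero] at h
        rw [h]
      · rfl
    rw [h0, add_zero, tc_idle]
    · split_ifs <;> simp [kVal]
    · intro ν hν
      split_ifs <;> simp [kVal, hν]
    · intro ν hν
      split_ifs <;> simp [kVal, hν]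
  | some c =>
    obtain ⟨hc, hfl, hρ⟩ := good_ent hm h
    have hd := two_dOf p hm.2.2.1
    rcases hρ with h1 | h1
    · have h2 := role_refl h9 hm.1 hm.2.1 hd h1
      simp only [h1, h2, hij, hij.symm, if_true, if_false, hfl, tc_src _ _ _ _ _ (cval_ne h9 hc)]
      simp
    · have h2 := role_refl (d := dOf p m) h9 hm.2.1 hm.1 (by omega) h1
      have h3 : FOf p m Y.val = 0 := by rw [FOf, if_neg (by omega)]
      rw [h1, h3, Nat.cast_zero, sub_zero] at h
      simp only [h1, h2, h3, h, hij.symm, if_true, if_false, hfl, tc_tgt _ _ _ _ _ (cval_ne h9 hc)]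
      simp

end DA

theorem mac_digMac {p : ℕ} (hodd : Odd p) (h9 : 9 ≤ p) {m : DMac} (hm : OkM p m)
    {f : ZMod p × ZMod p → ℂ} (hf : Clean p f) :
    Clean p (mac Complex.I [p - 1] (digMac p m) f) ∧ ∀ γ < Gp p - 1, ∀ r < 4,
      logi p (mac Complex.I [p - 1] (digMac p m) f) γ r = stepE p m (logi p f γ) r := by
  have : NeZero p := ⟨by omega⟩
  refine ⟨fun ⟨Y, X⟩ hv => ?_, fun γ hγ r hr => ?_⟩
  · by_cases hY : Y = (dOf p m : ℕ)
    · rw [DA.mac_eq (by omega)]
      simp [DA.tc, digMac, dVal, hY, cellK, kVal]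
    · have := hm.2.1
      rw [DA.mac_cell h9 hm f hY, hf _ hv, if_neg (show ¬ role p Y.val = m.2.1 by
        simp only at hv; omega), add_zero, mul_zero]
  · have hv : ∀ r < 4, ((rowOf p r γ : ℕ) : ZMod p).val = rowOf p r γ := fun r hr =>
      ZMod.val_natCast_of_lt (DA.rowOf_lt hr hγ)
    have hY : ((rowOf p r γ : ℕ) : ZMod p) ≠ (dOf p m : ℕ) := fun h => by
      have h1 := congrArg (fun y : ZMod p => role p y.val) h
      simp only [hv r hr, ZMod.val_natCast_of_lt (DA.dOf_lt h9 hm), DA.role_dOf,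
        DA.role_rowOf h9 hr hγ] at h1
      omega
    funext x
    simp only [logi, stepE, Pi.smul_apply, smul_eq_mul]
    rw [DA.mac_cell h9 hm f hY, hv r hr, DA.role_rowOf h9 hr hγ]
    congr 1
    by_cases hrj : r = m.2.1
    · have hij := hm.2.2.1
      have hd := DA.two_dOf p hij
      have e : 2 * ((dOf p m : ℕ) : ZMod p) - (rowOf p m.2.1 γ : ℕ) = (rowOf p m.1 γ : ℕ) := by
        rw [sub_eq_iff_eq_add, ← Nat.cast_add, ← Nat.cast_ofNat, ← Nat.cast_mul]
        congr 1
        unfold rowOf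
        split_ifs <;> omega
      subst hrj
      rw [if_pos rfl, if_pos rfl, e, hv _ hm.1, DA.ent, if_pos (Or.inr rfl), DA.lx_val, FOf,
        if_pos (DA.role_rowOf h9 hm.1 hγ)]
      simp only [Pi.add_apply, logi, mapp]
      have e1 : (if m.2.1 % 2 = 0 then (if m.2.1 % 2 = 0 then x else -x)
          else -(if m.2.1 % 2 = 0 then x else -x)) = x := by split_ifs <;> simp
      have e2 : -(if m.2.1 % 2 = 0 then x else -x) + ((if m.1 % 2 = 0 then m.2.2.1.1 % p
          else (p - m.2.2.1.1 % p) % p : ℕ) : ZMod p) =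
          if m.1 % 2 = 0 then x + (m.2.2.1.1 : ZMod p) else -(x + (m.2.2.1.1 : ZMod p)) := by
        have := Nat.mod_lt m.2.2.1.1 (show 0 < p by omega)
        split_ifs
        · omega
        · rw [ZMod.natCast_mod, Nat.cast_sub this.le]
          simp
          ring
        · simp
        · omega
      rw [e1, e2]
      rfl
    · rw [if_neg hrj, if_neg hrj, add_zero]
      rfl

/-- every data row is the row of a role and a group -/
theorem exists_rowOf {p y : ℕ} (h9 : 9 ≤ p) (hy : y < p) (h : role p y ≠ 4) :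
    ∃ r < 4, ∃ γ < Gp p - 1, y = rowOf p r γ := by
  have hr := DA.role_lt h9 h
  obtain ⟨h1, h2⟩ := (DA.role_iff h9 y hr).1 rfl
  refine ⟨role p y, hr, if role p y % 2 = 0 then y - role p y * Gp p - 1
    else role p y * Gp p + Gp p - 1 - y, ?_, ?_⟩
  · split_ifs <;> omega
  · rw [rowOf]
    split_ifs <;> omega

/-- the coefficient of a target cell is good -/
theorem goodCd_cellK {p : ℕ} {m : DMac} (hm : OkM p m) {y x : ℕ} (h : (cellK p m y x).1 = 4) :
    GoodCd p (cellK p m y x).2 := by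
  have e : cellK p m y x = if y = 0 then (0, (1, [])) else
      match DA.ent p m (role p ((y + dOf p m) % p)) x with
      | some c => if role p ((y + dOf p m) % p) = m.1 then (3, (1, [])) else (4, c)
      | none => if m.2.2.2 = true ∧ role p ((y + dOf p m) % p) % 2 = 1 then (2, (1, []))
        else (1, (1, [])) := rfl
  rw [e] at h ⊢
  cases h1 : DA.ent p m (role p ((y + dOf p m) % p)) x with
  | none =>
    rw [h1] at h
    split_ifs at h <;> simp at h
  | some c =>
    rw [h1] at h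
    dsimp only at h ⊢
    split_ifs at h ⊢
    · simp at h
    · exact (DA.good_ent hm h1).1

theorem cellK_le (p : ℕ) (m : DMac) (y x : ℕ) : (cellK p m y x).1 ≤ 4 := by
  unfold cellK
  split_ifs
  · simp
  · dsimp only
    split <;> split_ifs <;> simp

theorem norm_dVal_le {p : ℕ} (h9 : 9 ≤ p) {m : DMac} (hm : OkM p m) (ν y x : ℕ) :
    ‖dVal p m ν y x‖ ≤ p := by
  have hp : (9 : ℝ) ≤ p := by exact_mod_cast h9
  have h4 := cellK_le p m y x
  have hg := goodCd_cellK hm (y := y) (x := x)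
  unfold dVal kVal
  split_ifs with h0 h1 h1' h2 h2' h3
  · simp
  · norm_num
    linarith
  · norm_num
    omega
  · norm_num
    linarith
  · simp only [one_div, norm_inv, Complex.norm_natCast]
    exact (inv_le_one_of_one_le₀ (by linarith)).trans (by linarith)
  · rcases ν with _ | _ | _ | _ | ν <;> simp <;> linarith
  · obtain ⟨-, -, g1, g2⟩ := hg (by omega)
    have g0 : 0 < ‖cval p (cellK p m y x).2‖ := lt_of_lt_of_le (by positivity) g1
    rw [div_le_iff₀ (by linarith)] at g1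
    rcases ν with _ | _ | _ | _ | ν <;> simp
    · rw [div_le_iff₀ (by positivity)]
      nlinarith
    all_goals linarith

theorem card_role {p : ℕ} (h9 : 9 ≤ p) :
    p ≤ ((Finset.range p).filter fun y => role p y ≠ 4).card + 8 := by
  have h1 := Finset.card_filter_add_card_filter_not (s := Finset.range p) fun y => role p y ≠ 4
  have h2 : ((Finset.range p).filter fun y => ¬ role p y ≠ 4) ⊆
      [0, Gp p, 2 * Gp p, 3 * Gp p, 4 * Gp p, 4 * Gp p + 1, 4 * Gp p + 2, 4 * Gp p + 3].toFinset := by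
    intro y hy
    simp only [Finset.mem_filter, Finset.mem_range, ne_eq, not_not] at hy
    have h0 := (DA.role_iff h9 y (r := 0) (by omega)).2
    have h1 := (DA.role_iff h9 y (r := 1) (by omega)).2
    have h2 := (DA.role_iff h9 y (r := 2) (by omega)).2
    have h3 := (DA.role_iff h9 y (r := 3) (by omega)).2
    have : p - 1 < 4 * Gp p + 4 := by unfold Gp; omega
    simp only [List.mem_toFinset, List.mem_cons, List.not_mem_nil]
    omega
  have h3 := (Finset.card_le_card h2).trans (List.toFinset_card_le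
    [0, Gp p, 2 * Gp p, 3 * Gp p, 4 * Gp p, 4 * Gp p + 1, 4 * Gp p + 2, 4 * Gp p + 3])
  simp only [List.length_cons, List.length_nil] at h3
  rw [Finset.card_range] at h1
  omega

end Crest.Agent.R326
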