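import Crest.Agent.R326.DigDefs

/-! Row 326: shear programs. -/

set_option autoImplicit false

namespace Crest.Agent.R326

variable {p : ℕ}

theorem cval_cneg (h2 : 2 ≤ p) (c : Cd) : cval p (cneg p c) = -cval p c := by
  obtain ⟨k, hk⟩ : ∃ k, Nat.log 2 p = k + 1 :=
    ⟨_, (Nat.succ_pred_eq_of_pos (Nat.log_pos (by norm_num) h2)).symm⟩
  have hM : Mo p = 2 * (2 ^ k * p) := by rw [Mo, hp, hk]; ring
  have h0 : ((2 ^ k * p : ℕ) : ℂ) ≠ 0 := by
    have : 0 < 2 ^ k * p := by positivity
    exact_mod_cast this.ne'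
  have e : ∀ e : ℕ, Complex.exp (2 * Real.pi * Complex.I * ((e + Mo p / 2 : ℕ) : ℂ) / Mo p) =
      -Complex.exp (2 * Real.pi * Complex.I * e / Mo p) := by
    intro e
    rw [← mul_neg_one, ← Complex.exp_pi_mul_I, ← Complex.exp_add, hM,
      Nat.mul_div_cancel_left _ two_pos]
    congr 1
    generalize 2 ^ k * p = n at h0
    push_cast
    field_simp
  unfold cval cneg
  rw [List.map_map, ← neg_div, List.sum_neg, List.map_map]
  simp only [Function.comp_def, e]
theorem mapp_mone [NeZero p] (u : ZMod p → ℂ) : mapp p (mone p) u = u := by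
  funext x
  simp [mapp, mone, List.getD_eq_getElem?_getD, ZMod.val_lt x, cval]
theorem mapp_minv [NeZero p] (u : ZMod p → ℂ) : mapp p (minv p) u = (1 / p : ℂ) • u := by
  funext x
  simp [mapp, minv, List.getD_eq_getElem?_getD, ZMod.val_lt x, cval]
theorem papp_append (P P' : List (List Mono)) (u : ZMod p → ℂ) :
    papp p (P ++ P') u = papp p P' (papp p P u) := List.foldl_append

theorem mapp_add (m : Mono) (u v : ZMod p → ℂ) : mapp p m (u + v) = mapp p m u + mapp p m v := by
  funext x
  simp only [mapp, Pi.add_apply]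
  split <;> ring
theorem mapp_smul (m : Mono) (c : ℂ) (u : ZMod p → ℂ) : mapp p m (c • u) = c • mapp p m u := by
  funext x
  simp only [mapp, Pi.smul_apply, smul_eq_mul]
  split <;> ring
theorem mapp_mneg (h2 : 2 ≤ p) (m : Mono) (u : ZMod p → ℂ) :
    mapp p (mneg p m) u = -mapp p m u := by
  funext x
  have : (m.2.map (Option.map (cneg p))).getD x.val none = (m.2.getD x.val none).map (cneg p) :=
    List.getD_map _ none (Option.map (cneg p))
  simp only [mapp, mneg, Pi.neg_apply, this]
  cases m.2.getD x.val none <;> simp [cval_cneg h2]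
theorem fapp_cons (m : Mono) (fac : List Mono) (u : ZMod p → ℂ) :
    fapp p (m :: fac) u = mapp p m u + fapp p fac u := by simp [fapp]
theorem fapp_add (fac : List Mono) (u v : ZMod p → ℂ) :
    fapp p fac (u + v) = fapp p fac u + fapp p fac v := by
  simp [fapp, mapp_add, List.sum_map_add]
theorem fapp_smul (fac : List Mono) (c : ℂ) (u : ZMod p → ℂ) :
    fapp p fac (c • u) = c • fapp p fac u := by
  simp [fapp, mapp_smul, List.smul_sum, Function.comp_def]

theorem papp_add (P : List (List Mono)) (u v : ZMod p → ℂ) :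
    papp p P (u + v) = papp p P u + papp p P v := by
  induction P generalizing u v with
  | nil => rfl
  | cons f P ih => simpa only [papp, List.foldl_cons, fapp_add] using ih _ _
theorem papp_smul (P : List (List Mono)) (c : ℂ) (u : ZMod p → ℂ) :
    papp p P (c • u) = c • papp p P u := by
  induction P generalizing u with
  | nil => rfl
  | cons f P ih => simpa only [papp, List.foldl_cons, fapp_smul] using ih _

theorem eapp_cons (P : List (List Mono)) (A : List (List (List Mono))) (u : ZMod p → ℂ) :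
    eapp p (P :: A) u = papp p P u + eapp p A u := by simp [eapp]
theorem eapp_add (A : List (List (List Mono))) (u v : ZMod p → ℂ) :
    eapp p A (u + v) = eapp p A u + eapp p A v := by
  simp [eapp, papp_add, List.sum_map_add]
theorem eapp_smul (A : List (List (List Mono))) (c : ℂ) (u : ZMod p → ℂ) :
    eapp p A (c • u) = c • eapp p A u := by
  simp [eapp, papp_smul, List.smul_sum, Function.comp_def]

theorem runE_append (l l' : List DMac) (a : ℕ → ZMod p → ℂ) :
    runE p (l ++ l') a = runE p l' (runE p l a) := List.foldl_append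

namespace DigB

/-- role `j += L (role i)` -/
def Sh {M : Type} [Add M] (i j : ℕ) (L : M → M) (a : ℕ → M) : ℕ → M :=
  Function.update a j (a j + L (a i))

theorem Sh_Sh {M : Type} [AddCommGroup M] {i j : ℕ} (hij : i ≠ j) (L L' : M → M) (a : ℕ → M) :
    Sh i j L' (Sh i j L a) = Sh i j (fun u => L u + L' u) a := by
  simp [Sh, hij, add_assoc]

/-- the dirty-ancilla identity -/
theorem dirty {M : Type} [AddCommGroup M] {i j k : ℕ} (hij : i ≠ j) (hik : i ≠ k) (hkj : k ≠ j)
    {A A' B B' : M → M} (hA : ∀ u v, A (u + v) = A u + A v) (hA' : ∀ u, A' u = -A u)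
    (hB' : ∀ u, B' u = -B u) (a : ℕ → M) :
    Sh i k B' (Sh k j A (Sh i k B (Sh k j A' a))) = Sh i j (fun u => A (B u)) a := by
  funext r
  by_cases h1 : r = k
  · subst h1
    simp [Sh, hij, hik, hkj, hB']
  · by_cases h2 : r = j
    · subst h2
      simp [Sh, hij, hkj, h1, hA, hA']
    · simp [Sh, h1, h2]

theorem stepE_false (i j : ℕ) (m : Mono) (a : ℕ → ZMod p → ℂ) :
    stepE p (i, j, m, false) a = Sh i j (mapp p m) a := by
  funext r
  by_cases h : r = j <;> simp [stepE, Sh, h]

theorem runE_shM (h2 : 2 ≤ p) {i j : ℕ} (hij : i ≠ j) (m : Mono) (a : ℕ → ZMod p → ℂ) :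
    runE p (shM p i j m) a = Sh i j (mapp p m) a := by
  have : NeZero p := ⟨by omega⟩
  unfold shM
  split_ifs with h
  · exact stepE_false i j m a
  · simp only [runE, List.foldl_cons, List.foldl_nil, stepE_false]
    by_cases hi : i = (i + 1) % 4
    · omega
    rw [dirty hij hi (by omega) (mapp_add m) (mapp_mneg h2 m) (mapp_mneg h2 _)]
    simp only [mapp_mone]

theorem runE_shF (h2 : 2 ≤ p) (sg : Bool) {i j : ℕ} (hij : i ≠ j) (fac : List Mono)
    (a : ℕ → ZMod p → ℂ) : runE p (shF p sg i j fac) a =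
      Sh i j (fun u => (if sg then (-1 : ℂ) else 1) • fapp p fac u) a := by
  induction fac generalizing a with
  | nil => simp [shF, runE, Sh, fapp]
  | cons m fac ih =>
    rw [shF, List.flatMap_cons, runE_append, runE_shM h2 hij, ← shF, ih, Sh_Sh hij]
    congr 1
    funext u
    cases sg <;> simp [fapp_cons, mapp_mneg h2, add_comm]

theorem third_spec {i j : ℕ} (hij : i ≠ j) : third i j < 4 ∧ i ≠ third i j ∧ third i j ≠ j := by
  unfold third
  split_ifs <;> omega

theorem runE_shP' (h2 : 2 ≤ p) (r : ℕ) : ∀ (sg : Bool) {i j : ℕ}, i ≠ j →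
    ∀ {fs : List (List Mono)}, fs.length ≤ 2 ^ r → ∀ a : ℕ → ZMod p → ℂ,
    runE p (shP p r sg i j fs) a =
      Sh i j (fun u => (if sg then (-1 : ℂ) else 1) • papp p fs u) a := by
  have : NeZero p := ⟨by omega⟩
  induction r with
  | zero =>
    intro sg i j hij fs hfs a
    rw [shP, runE_shF h2 sg hij]
    match fs, hfs with
    | [], _ => simp [fapp, papp, mapp_mone]
    | [f], _ => rfl
  | succ r ih =>
    intro sg i j hij fs hfs a
    obtain ⟨-, h3, h4⟩ := third_spec hij
    have l1 : (fs.take (2 ^ r)).length ≤ 2 ^ r := by simp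
    have l2 : (fs.drop (2 ^ r)).length ≤ 2 ^ r := by rw [List.length_drop, pow_succ] at *; omega
    rw [shP, runE_append, runE_append, runE_append, ih _ h4 l2, ih _ h3 l1, ih _ h4 l2, ih _ h3 l1,
      dirty hij h3 h4 (fun u v => by rw [papp_add, smul_add]) (fun u => by cases sg <;> simp)
        (fun u => by simp)]
    congr 1
    funext u
    conv_rhs => rw [← List.take_append_drop (2 ^ r) fs, papp_append]
    simp

theorem runE_shA (h2 : 2 ≤ p) (r : ℕ) (sg : Bool) {i j : ℕ} (hij : i ≠ j)
    {A : List (List (List Mono))} (hA : ∀ P ∈ A, P.length ≤ 2 ^ r) (a : ℕ → ZMod p → ℂ) :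
    runE p (shA p r sg i j A) a =
      Sh i j (fun u => (if sg then (-1 : ℂ) else 1) • eapp p A u) a := by
  induction A generalizing a with
  | nil => simp [shA, runE, Sh, eapp]
  | cons P A ih =>
    rw [shA, List.flatMap_cons, runE_append, runE_shP' h2 r sg hij (hA P List.mem_cons_self), ← shA,
      ih fun P' h => hA P' (List.mem_cons_of_mem _ h), Sh_Sh hij]
    simp only [eapp_cons, smul_add]

theorem good_mone (h2 : 2 ≤ p) : GoodMono p (mone p) := by
  intro c hc
  obtain rfl : c = (1, [0]) := by simpa [mone] using (List.eq_of_mem_replicate hc)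
  have : (1 : ℝ) ≤ p := by exact_mod_cast (show 1 ≤ p by omega)
  refine ⟨by simp, by simp, ?_, ?_⟩
  · simpa [cval] using inv_le_one_of_one_le₀ this
  · simp [cval]

theorem good_mneg (h2 : 2 ≤ p) {m : Mono} (hm : GoodMono p m) : GoodMono p (mneg p m) := by
  intro c hc
  simp only [mneg, List.mem_map, Option.map_eq_some_iff] at hc
  obtain ⟨_, ho, c', rfl, rfl⟩ := hc
  obtain ⟨h1, h3, h4, h5⟩ := hm c' ho
  refine ⟨h1, by simpa [cneg] using h3, ?_, ?_⟩ <;> rwa [cval_cneg h2, norm_neg]

theorem ok_shM (h2 : 2 ≤ p) {i j : ℕ} (hi : i < 4) (hj : j < 4) {m : Mono} (hm : GoodMono p m) :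
    ∀ x ∈ shM p i j m, OkM p x := by
  unfold shM
  split_ifs with h
  · simp only [List.mem_singleton, forall_eq]
    exact ⟨hi, hj, h, by simp, hm⟩
  · simp only [List.mem_cons, List.not_mem_nil, or_false, forall_eq_or_imp, forall_eq]
    refine ⟨⟨?_, hj, ?_, by simp, good_mneg h2 hm⟩, ⟨hi, ?_, ?_, by simp, good_mone h2⟩,
      ⟨?_, hj, ?_, by simp, hm⟩, ⟨hi, ?_, ?_, by simp, good_mneg h2 (good_mone h2)⟩⟩ <;>
      dsimp only <;> omega

theorem ok_shF (h2 : 2 ≤ p) (sg : Bool) {i j : ℕ} (hi : i < 4) (hj : j < 4) {fac : List Mono}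
    (hm : ∀ m ∈ fac, GoodMono p m) : ∀ x ∈ shF p sg i j fac, OkM p x := by
  intro x hx
  obtain ⟨m, h1, h3⟩ := List.mem_flatMap.1 hx
  refine ok_shM h2 hi hj ?_ x h3
  split_ifs
  · exact good_mneg h2 (hm m h1)
  · exact hm m h1

theorem ok_shP (h2 : 2 ≤ p) (r : ℕ) : ∀ (sg : Bool) {i j : ℕ}, i < 4 → j < 4 →
    ∀ {fs : List (List Mono)}, (∀ fac ∈ fs, ∀ m ∈ fac, GoodMono p m) →
      ∀ x ∈ shP p r sg i j fs, OkM p x := by
  induction r with
  | zero =>
    intro sg i j hi hj fs hfs
    refine ok_shF h2 sg hi hj ?_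
    cases fs with
    | nil => simpa using good_mone h2
    | cons f fs => exact hfs f List.mem_cons_self
  | succ r ih =>
    intro sg i j hi hj fs hfs x hx
    have h3 : third i j < 4 := by unfold third; split_ifs <;> omega
    have l1 := fun fac h => hfs fac (List.mem_of_mem_take (i := 2 ^ r) h)
    have l2 := fun fac h => hfs fac (List.mem_of_mem_drop (i := 2 ^ r) h)
    simp only [shP, List.mem_append] at hx
    rcases hx with ((hx | hx) | hx) | hx
    exacts [ih _ h3 hj l2 x hx, ih _ hi h3 l1 x hx, ih _ h3 hj l2 x hx, ih _ hi h3 l1 x hx]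

theorem ok_shA (h2 : 2 ≤ p) (r : ℕ) (sg : Bool) {i j : ℕ} (hi : i < 4) (hj : j < 4)
    {A : List (List (List Mono))} (hA : ∀ P ∈ A, ∀ fac ∈ P, ∀ m ∈ fac, GoodMono p m) :
    ∀ x ∈ shA p r sg i j A, OkM p x := by
  intro x hx
  obtain ⟨P, h1, h3⟩ := List.mem_flatMap.1 hx
  exact ok_shP h2 r sg hi hj (hA P h1) x h3

theorem length_flatMap_le {α β : Type} {f : α → List β} {K : ℕ} {l : List α}
    (h : ∀ a ∈ l, (f a).length ≤ K) : (l.flatMap f).length ≤ l.length * K := by
  induction l with
  | nil => simp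
  | cons a l ih =>
    have h1 := h a List.mem_cons_self
    have h2 := ih fun b hb => h b (List.mem_cons_of_mem _ hb)
    rw [List.flatMap_cons, List.length_append, List.length_cons, add_mul]
    omega

theorem length_shF (sg : Bool) (i j : ℕ) (fac : List Mono) :
    (shF p sg i j fac).length ≤ fac.length * 4 :=
  length_flatMap_le fun m _ => by unfold shM; split_ifs <;> simp

theorem length_shP (r : ℕ) : ∀ (sg : Bool) (i j : ℕ) {fs : List (List Mono)},
    (∀ fac ∈ fs, fac.length ≤ 3) → (shP p r sg i j fs).length ≤ 12 * 4 ^ r := by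
  induction r with
  | zero =>
    intro sg i j fs hfs
    refine (length_shF sg i j _).trans ?_
    cases fs with
    | nil => simp
    | cons f fs =>
      have := hfs f List.mem_cons_self
      simp only [List.headD_cons]
      omega
  | succ r ih =>
    intro sg i j fs hfs
    have l1 := fun fac h => hfs fac (List.mem_of_mem_take (i := 2 ^ r) h)
    have l2 := fun fac h => hfs fac (List.mem_of_mem_drop (i := 2 ^ r) h)
    have a1 := ih (!sg) (third i j) j l2
    have a2 := ih false i (third i j) l1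
    have a3 := ih sg (third i j) j l2
    have a4 := ih true i (third i j) l1
    simp only [shP, List.length_append, pow_succ]
    omega

theorem length_shA (r : ℕ) (sg : Bool) (i j : ℕ) {A : List (List (List Mono))}
    (hA : ∀ P ∈ A, ∀ fac ∈ P, fac.length ≤ 3) :
    (shA p r sg i j A).length ≤ A.length * (12 * 4 ^ r) :=
  length_flatMap_le fun P h => length_shP r sg i j (hA P h)

end DigB

open DigB

theorem runE_shP (h2 : 2 ≤ p) (r : ℕ) (sg : Bool) {i j : ℕ} (hij : i ≠ j) (hi : i < 4) (hj : j < 4)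
    {fs : List (List Mono)} (hfs : fs.length ≤ 2 ^ r) (a : ℕ → ZMod p → ℂ) :
    runE p (shP p r sg i j fs) a =
      Function.update a j (a j + (if sg then (-1 : ℂ) else 1) • papp p fs (a i)) :=
  runE_shP' h2 r sg hij hfs a

theorem runE_diagInv (h2 : 2 ≤ p) (r : ℕ) {i j : ℕ} (hij : i ≠ j) (hi : i < 4) (hj : j < 4)
    {A Ainv : List (List (List Mono))} (hA : ∀ P ∈ A, P.length ≤ 2 ^ r)
    (hA' : ∀ P ∈ Ainv, P.length ≤ 2 ^ r) (h1 : ∀ u, eapp p A (eapp p Ainv u) = u)
    (h2' : ∀ u, eapp p Ainv (eapp p A u) = u) (a : ℕ → ZMod p → ℂ) :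
    runE p (diagInv p r i j A Ainv) a =
      Function.update (Function.update a i (eapp p Ainv (a i))) j (eapp p A (a j)) := by
  have : NeZero p := ⟨by omega⟩
  have hn : ∀ u, eapp p A (-u) = -eapp p A u := fun u => by simpa using eapp_smul A (-1) u
  simp only [diagInv, runE_append, runE_shA h2 r _ hij hA', runE_shA h2 r _ hij.symm hA,
    runE_shF h2 _ hij, runE_shF h2 _ hij.symm]
  funext s
  by_cases e1 : s = i
  · subst e1
    simp [Sh, hij, hij.symm, fapp, mapp_mone, eapp_add, h1, h2', hn]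
  · by_cases e2 : s = j
    · subst e2
      simp [Sh, hij, hij.symm, fapp, mapp_mone, eapp_add, h1, h2', hn]
    · simp [Sh, e1, e2]

theorem okM_diagInv (h2 : 2 ≤ p) (r : ℕ) {i j : ℕ} (hij : i ≠ j) (hi : i < 4) (hj : j < 4)
    {A Ainv : List (List (List Mono))} (hA : ∀ P ∈ A, ∀ fac ∈ P, ∀ m ∈ fac, GoodMono p m)
    (hA' : ∀ P ∈ Ainv, ∀ fac ∈ P, ∀ m ∈ fac, GoodMono p m) :
    ∀ m ∈ diagInv p r i j A Ainv, OkM p m := by
  intro x hx
  have h1 : ∀ m ∈ [mone p], GoodMono p m := by simpa using good_mone h2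
  simp only [diagInv, List.mem_append] at hx
  rcases hx with ((((hx | hx) | hx) | hx) | hx) | hx
  exacts [ok_shA h2 r _ hj hi hA x hx, ok_shA h2 r _ hi hj hA' x hx, ok_shA h2 r _ hj hi hA x hx,
    ok_shF h2 _ hj hi h1 x hx, ok_shF h2 _ hi hj h1 x hx, ok_shF h2 _ hj hi h1 x hx]

theorem length_diagInv (r i j : ℕ) {A Ainv : List (List (List Mono))}
    (hA : ∀ P ∈ A, ∀ fac ∈ P, fac.length ≤ 3) (hA' : ∀ P ∈ Ainv, ∀ fac ∈ P, fac.length ≤ 3) :
    (diagInv p r i j A Ainv).length ≤ (2 * A.length + Ainv.length) * (12 * 4 ^ r) + 12 := by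
  have a1 := length_shA (p := p) r false j i hA
  have a2 := length_shA (p := p) r true i j hA'
  have a3 := length_shF (p := p) true j i [mone p]
  have a4 := length_shF (p := p) false i j [mone p]
  simp only [diagInv, List.length_append, List.length_singleton, add_mul, mul_assoc] at *
  omega

end Crest.Agent.R326
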