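import Crest.Agent.R326.DigB

/-! Row 326: Bluestein's identity and the radix-2 FFT in monomial form. -/

set_option autoImplicit false

namespace Crest.Agent.R326

variable {p : ℕ}

namespace DigC

theorem rev_lt (j β : ℕ) : rev j β < 2 ^ j := by
  induction j generalizing β with
  | zero => simp [rev]
  | succ j ih =>
    have h1 := ih (β / 2)
    rcases Nat.mod_two_eq_zero_or_one β with h | h <;> simp only [rev, h, pow_succ] <;> omega

theorem rev_inj (j : ℕ) : ∀ β β', β < 2 ^ j → β' < 2 ^ j → rev j β = rev j β' → β = β' := by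
  induction j with
  | zero => intro β β' h h' _; simp at h h'; omega
  | succ j ih =>
    intro β β' h h' e
    have h1 := rev_lt j (β / 2)
    have h2 := rev_lt j (β' / 2)
    rw [pow_succ] at h h'
    have h3 := ih (β / 2) (β' / 2) (by omega) (by omega)
    rcases Nat.mod_two_eq_zero_or_one β with a | a <;>
      rcases Nat.mod_two_eq_zero_or_one β' with a' | a' <;>
      simp only [rev, a, a', zero_mul, one_mul, add_zero] at e
    · have := h3 e; omega
    · omega
    · omega
    · have := h3 (by omega); omega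

theorem rev_add (i k y : ℕ) : ∃ c, rev (i + k) y = rev i (y / 2 ^ k) + 2 ^ i * c := by
  induction k generalizing y with
  | zero => exact ⟨0, by simp⟩
  | succ k ih =>
    obtain ⟨c, hc⟩ := ih (y / 2)
    refine ⟨c + y % 2 * 2 ^ k, ?_⟩
    rw [← add_assoc, rev, hc, Nat.div_div_eq_div_mul, pow_succ', pow_add]
    ring

theorem rev_two_mul (j β : ℕ) : rev (j + 1) (2 * β) = rev j β := by
  simp [rev]

theorem rev_two_mul_add (j β : ℕ) : rev (j + 1) (2 * β + 1) = rev j β + 2 ^ j := by
  have h1 : (2 * β + 1) / 2 = β := by omega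
  have h2 : (2 * β + 1) % 2 = 1 := by omega
  simp [rev, h1, h2]

theorem sum_even_odd (f : ℕ → ℂ) (m : ℕ) :
    ∑ s ∈ Finset.range (2 * m), f s = ∑ s ∈ Finset.range m, (f (2 * s) + f (2 * s + 1)) := by
  induction m with
  | zero => simp
  | succ m ih =>
    rw [show 2 * (m + 1) = 2 * m + 1 + 1 by ring, Finset.sum_range_succ, Finset.sum_range_succ, ih,
      Finset.sum_range_succ, add_assoc]

/-- the root of unity of order `Mo p` -/
noncomputable def W (p : ℕ) : ℂ := Complex.exp (2 * Real.pi * Complex.I / Mo p)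
/-- the root of unity of order `hp p` -/
noncomputable def Z (p : ℕ) : ℂ := Complex.exp (2 * Real.pi * Complex.I / hp p)

theorem cval_one (k : ℕ) : cval p (1, [k]) = W p ^ k := by
  simp only [cval, W, List.map_cons, List.map_nil, List.sum_cons, List.sum_nil, add_zero,
    Nat.cast_one, div_one]
  rw [← Complex.exp_nat_mul]
  congr 1
  ring

theorem hp_pos : 0 < hp p := by unfold hp; positivity

theorem hp_le (h2 : 2 ≤ p) : hp p ≤ p := Nat.pow_log_le_self 2 (by omega)

theorem log_pos (h2 : 2 ≤ p) : 0 < Nat.log 2 p := Nat.log_pos one_lt_two h2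

theorem W_pow_p (h2 : 2 ≤ p) : W p ^ p = Z p := by
  have h0 : (p : ℂ) ≠ 0 := by exact_mod_cast (by omega : p ≠ 0)
  have h1 : (hp p : ℂ) ≠ 0 := by exact_mod_cast hp_pos.ne'
  rw [W, Z, ← Complex.exp_nat_mul]
  congr 1
  simp only [Mo, Nat.cast_mul]
  field_simp

theorem Z_half {m : ℕ} (hm : hp p = 2 * m) : Z p ^ m = -1 := by
  have h1 : (m : ℂ) ≠ 0 := by
    have := hp_pos (p := p)
    exact_mod_cast (by omega : m ≠ 0)
  rw [Z, ← Complex.exp_nat_mul, ← Complex.exp_pi_mul_I, hm]
  congr 1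
  push_cast
  field_simp

theorem W_half (h2 : 2 ≤ p) : W p ^ (Mo p / 2) = -1 := by
  obtain ⟨a, ha⟩ : ∃ a, Nat.log 2 p = a + 1 := ⟨_, (Nat.succ_pred_eq_of_pos (log_pos h2)).symm⟩
  have h1 : hp p = 2 * 2 ^ a := by rw [hp, ha, pow_succ']
  have h3 : Mo p / 2 = p * 2 ^ a := by
    rw [Mo, h1, mul_assoc, Nat.mul_div_cancel_left _ two_pos, mul_comm]
  rw [h3, pow_mul, W_pow_p h2, Z_half h1]

theorem W_full (h2 : 2 ≤ p) : W p ^ Mo p = 1 := by
  have h0 : (Mo p : ℂ) ≠ 0 := by
    have := Nat.mul_pos (hp_pos (p := p)) (by omega : 0 < p)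
    exact_mod_cast this.ne'
  rw [W, ← Complex.exp_nat_mul, ← Complex.exp_two_pi_mul_I]
  congr 1
  field_simp

theorem W_inv (h2 : 2 ≤ p) (c : ℕ) : W p ^ (Mo p - c % Mo p) = (W p ^ c)⁻¹ := by
  have h0 : 0 < Mo p := Nat.mul_pos hp_pos (by omega)
  refine eq_inv_of_mul_eq_one_left ?_
  have h1 : W p ^ c = W p ^ (c % Mo p) := by
    conv_lhs => rw [← Nat.mod_add_div c (Mo p), pow_add, pow_mul, W_full h2, one_pow, mul_one]
  rw [h1, ← pow_add, Nat.sub_add_cancel (Nat.mod_lt _ h0).le, W_full h2]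

theorem exp_Z (k : ℕ) : Complex.exp (2 * Real.pi * Complex.I * k / hp p) = Z p ^ k := by
  rw [Z, ← Complex.exp_nat_mul]
  congr 1
  ring

theorem exp_Z' (k : ℕ) : Complex.exp (-(2 * Real.pi * Complex.I) * k / hp p) = (Z p)⁻¹ ^ k := by
  rw [inv_pow, ← exp_Z, ← Complex.exp_neg]
  congr 1
  ring

theorem getD_map_range {α : Type} (h x : ℕ) (f : ℕ → Option α) :
    ((List.range h).map f).getD x none = if x < h then f x else none := by
  split_ifs with hx
  · simp [List.getD_eq_getElem?_getD, hx]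
  · simp [List.getD_eq_getElem?_getD, hx]

theorem fapp_bfly_ge (adj : Bool) (j : ℕ) (v : ZMod p → ℂ) {x : ZMod p} (hx : ¬ x.val < hp p) :
    fapp p (bfly p adj j) v x = 0 := by
  simp only [fapp, bfly, List.map_cons, List.map_nil, List.sum_cons, List.sum_nil, Pi.add_apply,
    mapp, getD_map_range, if_neg hx, add_zero]

/-- the twiddle factor -/
noncomputable def tw (p : ℕ) (adj : Bool) (k : ℕ) : ℂ := (if adj then (Z p)⁻¹ else Z p) ^ k

theorem W_c (h2 : 2 ≤ p) (adj : Bool) (n ρ : ℕ) :
    W p ^ (if adj then Mo p - p * n * ρ % Mo p else p * n * ρ) = tw p adj (n * ρ) := by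
  cases adj
  · simp [tw, mul_assoc, pow_mul, W_pow_p h2]
  · simp only [tw, if_true]
    rw [W_inv h2, mul_assoc, pow_mul, W_pow_p h2, inv_pow]

section layer
variable (h2 : 2 ≤ p) {j n : ℕ} (hn : hp p = 2 ^ j * (2 * n)) {β r : ℕ} (hβ : β < 2 ^ j)
  (hr : r < n) (adj : Bool) (v : ZMod p → ℂ)

include h2 hn hβ hr

theorem layer_lo : fapp p (bfly p adj j) v ((β * (2 * n) + r : ℕ) : ZMod p) =
    v ((β * (2 * n) + r : ℕ) : ZMod p) + (if adj then 1 else tw p adj (n * rev j β)) *
      v ((β * (2 * n) + (n + r) : ℕ) : ZMod p) := by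
  have hn0 : 0 < n := by omega
  have e0 : hp p / 2 ^ (j + 1) = n := by
    rw [hn, pow_succ, ← mul_assoc, Nat.mul_div_cancel_left _ (by positivity)]
  have hx : β * (2 * n) + r < hp p := by
    rw [hn]; have := Nat.mul_le_mul_right (2 * n) (Nat.succ_le_of_lt hβ)
    rw [Nat.succ_mul] at this; omega
  have hv : ((β * (2 * n) + r : ℕ) : ZMod p).val = β * (2 * n) + r :=
    ZMod.val_cast_of_lt (hx.trans_le (hp_le h2))
  have e1 : (β * (2 * n) + r) / n % 2 = 0 := by
    rw [show β * (2 * n) + r = r + n * (2 * β) by ring, Nat.add_mul_div_left _ _ hn0,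
      Nat.div_eq_of_lt hr]; omega
  have e2 : (β * (2 * n) + r) / (2 * n) = β := by
    rw [add_comm, Nat.add_mul_div_right _ _ (by omega), Nat.div_eq_of_lt (by omega), zero_add]
  have e3 : ((β * (2 * n) + r : ℕ) : ZMod p) + (n : ZMod p) =
      ((β * (2 * n) + (n + r) : ℕ) : ZMod p) := by push_cast; ring
  simp only [fapp, bfly, List.map_cons, List.map_nil, List.sum_cons, List.sum_nil, Pi.add_apply,
    mapp, getD_map_range, hv, if_pos hx, e0, e1, e2, e3, if_true, cval_one,
    pow_zero, one_mul, Nat.cast_zero, add_zero]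
  congr 2
  cases adj
  · simpa using W_c h2 false n (rev j β)
  · simp

theorem layer_hi : fapp p (bfly p adj j) v ((β * (2 * n) + (n + r) : ℕ) : ZMod p) =
    (if adj then tw p adj (n * rev j β) else 1) * v ((β * (2 * n) + r : ℕ) : ZMod p) -
      tw p adj (n * rev j β) * v ((β * (2 * n) + (n + r) : ℕ) : ZMod p) := by
  have hn0 : 0 < n := by omega
  have e0 : hp p / 2 ^ (j + 1) = n := by
    rw [hn, pow_succ, ← mul_assoc, Nat.mul_div_cancel_left _ (by positivity)]
  have hx : β * (2 * n) + (n + r) < hp p := by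
    rw [hn]; have := Nat.mul_le_mul_right (2 * n) (Nat.succ_le_of_lt hβ)
    rw [Nat.succ_mul] at this; omega
  have hxp := hx.trans_le (hp_le h2)
  have hv : ((β * (2 * n) + (n + r) : ℕ) : ZMod p).val = β * (2 * n) + (n + r) :=
    ZMod.val_cast_of_lt hxp
  have e1 : ¬ (β * (2 * n) + (n + r)) / n % 2 = 0 := by
    rw [show β * (2 * n) + (n + r) = r + n * (2 * β + 1) by ring, Nat.add_mul_div_left _ _ hn0,
      Nat.div_eq_of_lt hr]; omega
  have e2 : (β * (2 * n) + (n + r)) / (2 * n) = β := by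
    rw [add_comm, Nat.add_mul_div_right _ _ (by omega), Nat.div_eq_of_lt (by omega), zero_add]
  have e3 : ((β * (2 * n) + (n + r) : ℕ) : ZMod p) + ((p - n : ℕ) : ZMod p) =
      ((β * (2 * n) + r : ℕ) : ZMod p) := by
    rw [Nat.cast_sub (by omega)]; push_cast; simp only [ZMod.natCast_self]; ring
  simp only [fapp, bfly, List.map_cons, List.map_nil, List.sum_cons, List.sum_nil, Pi.add_apply,
    mapp, getD_map_range, hv, if_pos hx, e0, if_neg e1, e2, e3, cval_one,
    Nat.cast_zero, add_zero, zero_add]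
  rw [pow_add, W_half h2, W_c h2]
  cases adj
  · simp only [Bool.false_eq_true, if_false, pow_zero]; ring
  · have := W_c h2 true n (rev j β)
    simp only [if_true] at this ⊢
    rw [this]; ring

end layer

theorem papp_snoc (P : List (List Mono)) (fac : List Mono) (u : ZMod p → ℂ) :
    papp p (P ++ [fac]) u = fapp p fac (papp p P u) := by
  simp [papp, List.foldl_append]

theorem fwd (h2 : 2 ≤ p) (u : ZMod p → ℂ) (j : ℕ) : ∀ w : ℕ, hp p = 2 ^ j * w →
    ∀ β r : ℕ, β < 2 ^ j → r < w →
      papp p ((List.range j).map (bfly p false)) u ((β * w + r : ℕ) : ZMod p) =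
        ∑ s ∈ Finset.range (2 ^ j), Z p ^ (w * rev j β * s) * u ((s * w + r : ℕ) : ZMod p) := by
  induction j with
  | zero =>
    intro w _ β r hβ _
    obtain rfl : β = 0 := by simpa using hβ
    simp [papp]
  | succ j ih =>
    intro n hn β' r hβ' hr
    have hn' : hp p = 2 ^ j * (2 * n) := by rw [hn]; ring
    have hz : Z p ^ (n * 2 ^ j) = -1 := Z_half (by rw [hn]; ring)
    have hβ : β' / 2 < 2 ^ j := by rw [pow_succ] at hβ'; omega
    rw [List.range_succ, List.map_append, List.map_singleton, papp_snoc, pow_succ',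
      sum_even_odd]
    have i1 := ih (2 * n) hn' (β' / 2) r hβ (by omega)
    have i2 := ih (2 * n) hn' (β' / 2) (n + r) hβ (by omega)
    have c1 : ∀ s : ℕ, 2 * s * n + r = s * (2 * n) + r := fun s => by ring
    have c2 : ∀ s : ℕ, (2 * s + 1) * n + r = s * (2 * n) + (n + r) := fun s => by ring
    obtain ⟨β, rfl | rfl⟩ := Nat.even_or_odd' β'
    · rw [Nat.mul_div_cancel_left _ two_pos] at i1 i2 hβ
      rw [c1, layer_lo h2 hn' hβ hr, i1, i2, rev_two_mul, Finset.mul_sum, ← Finset.sum_add_distrib]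
      refine Finset.sum_congr rfl fun s _ => ?_
      simp only [c1, c2, tw, Bool.false_eq_true, if_false]
      ring
    · rw [show (2 * β + 1) / 2 = β by omega] at i1 i2 hβ
      rw [c2, layer_hi h2 hn' hβ hr, i1, i2, rev_two_mul_add, Finset.mul_sum, Finset.mul_sum,
        ← Finset.sum_sub_distrib]
      refine Finset.sum_congr rfl fun s _ => ?_
      simp only [c1, c2, tw, Bool.false_eq_true, if_false]
      have a1 : Z p ^ (n * (rev j β + 2 ^ j) * (2 * s)) = Z p ^ (2 * n * rev j β * s) := by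
        rw [show n * (rev j β + 2 ^ j) * (2 * s) = 2 * n * rev j β * s + n * 2 ^ j * (2 * s) by ring,
          pow_add, pow_mul (Z p) (n * 2 ^ j), hz, pow_mul]
        simp
      have a2 : Z p ^ (n * (rev j β + 2 ^ j) * (2 * s + 1)) =
          -(Z p ^ (n * rev j β) * Z p ^ (2 * n * rev j β * s)) := by
        rw [mul_add _ (2 * s), pow_add, a1, mul_one, mul_add n, pow_add, hz]
        ring
      rw [a1, a2]
      ring

theorem bwd (h2 : 2 ≤ p) (u : ZMod p → ℂ) (m : ℕ) : ∀ j : ℕ, j + m = Nat.log 2 p →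
    ∀ β r : ℕ, β < 2 ^ j → r < 2 ^ m →
      papp p ((List.range' j m).reverse.map (bfly p true)) u ((β * 2 ^ m + r : ℕ) : ZMod p) =
        ∑ t ∈ Finset.range (2 ^ m), (Z p)⁻¹ ^ (rev (Nat.log 2 p) (β * 2 ^ m + t) * r) *
          u ((β * 2 ^ m + t : ℕ) : ZMod p) := by
  induction m with
  | zero =>
    intro j _ β r _ hr
    obtain rfl : r = 0 := by simpa using hr
    simp [papp]
  | succ m ih =>
    intro j hj β r' hβ hr'
    set n := 2 ^ m with hnm
    have hn0 : 0 < n := by positivity
    have hn' : hp p = 2 ^ j * (2 * n) := by rw [hp, ← hj, hnm]; ring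
    have hz : (Z p)⁻¹ ^ (n * 2 ^ j) = -1 := by
      rw [inv_pow, Z_half (by rw [hn']; ring)]; norm_num
    have e2 : 2 ^ (m + 1) = 2 * n := by rw [hnm]; ring
    have c1 : ∀ s : ℕ, 2 * β * n + s = β * (2 * n) + s := fun s => by ring
    have c2 : ∀ s : ℕ, (2 * β + 1) * n + s = β * (2 * n) + (n + s) := fun s => by ring
    rw [List.range'_succ, List.reverse_cons, List.map_append, List.map_singleton, papp_snoc, e2,
      two_mul n, Finset.sum_range_add, ← two_mul n]
    rw [e2] at hr'
    have i1 := fun r hr => ih (j + 1) (by omega) (2 * β) r (by rw [pow_succ]; omega) hr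
    have i2 := fun r hr => ih (j + 1) (by omega) (2 * β + 1) r (by rw [pow_succ]; omega) hr
    simp only [c1] at i1
    simp only [c2] at i2
    by_cases hr : r' < n
    · rw [layer_lo h2 hn' hβ hr, i1 r' hr, i2 r' hr]
      simp
    · obtain ⟨r, rfl⟩ : ∃ r, r' = n + r := ⟨r' - n, by omega⟩
      have hr : r < n := by omega
      rw [layer_hi h2 hn' hβ hr, i1 r hr, i2 r hr, Finset.mul_sum, Finset.mul_sum, sub_eq_add_neg,
        ← Finset.sum_neg_distrib]
      have key : ∀ b t : ℕ, t < n → (Z p)⁻¹ ^ (rev (Nat.log 2 p) (b * n + t) * n) =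
          (Z p)⁻¹ ^ (n * rev (j + 1) b) := by
        intro b t ht
        obtain ⟨c, hc⟩ := rev_add (j + 1) m (b * n + t)
        have hd : (b * n + t) / 2 ^ m = b := by
          rw [← hnm, add_comm, Nat.add_mul_div_right _ _ hn0, Nat.div_eq_of_lt ht, zero_add]
        rw [← hj, show j + (m + 1) = j + 1 + m by ring, hc, hd,
          show (rev (j + 1) b + 2 ^ (j + 1) * c) * n = n * rev (j + 1) b + n * 2 ^ j * (2 * c) by ring,
          pow_add, pow_mul _ (n * 2 ^ j), hz, pow_mul]
        simp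
      congr 1
      · refine Finset.sum_congr rfl fun t ht => ?_
        have := key (2 * β) t (Finset.mem_range.1 ht)
        rw [c1, rev_two_mul] at this
        rw [mul_add _ n r, pow_add, this]
        simp only [tw, if_true]
        ring
      · refine Finset.sum_congr rfl fun t ht => ?_
        have := key (2 * β + 1) t (Finset.mem_range.1 ht)
        rw [c2, rev_two_mul_add, mul_add n, pow_add, hz] at this
        rw [mul_add _ n r, pow_add, this]
        simp only [tw, if_true]
        ring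

end DigC

open DigC

/-- the butterflies evaluate at the powers of `ζ = exp (2πi / hp p)` in bit-reversed order -/
theorem papp_fft [NeZero p] (h2 : 2 ≤ p) (u : ZMod p → ℂ) (x : ZMod p) :
    papp p ((List.range (Nat.log 2 p)).map (bfly p false)) u x =
      if x.val < hp p then ∑ x' ∈ Finset.range (hp p), Complex.exp (2 * Real.pi * Complex.I *
        (rev (Nat.log 2 p) x.val * x' : ℕ) / hp p) * u (x' : ZMod p) else 0 := by
  split_ifs with hx
  · have := fwd h2 u (Nat.log 2 p) 1 (by simp [hp]) x.val 0 hx one_pos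
    simp only [mul_one, add_zero, one_mul, ZMod.natCast_zmod_val] at this
    rw [this]
    simp only [exp_Z]
    rfl
  · obtain ⟨a, ha⟩ : ∃ a, Nat.log 2 p = a + 1 := ⟨_, (Nat.succ_pred_eq_of_pos (log_pos h2)).symm⟩
    rw [ha, List.range_succ, List.map_append, List.map_singleton, papp_snoc, fapp_bfly_ge _ _ _ hx]

theorem papp_ifft [NeZero p] (h2 : 2 ≤ p) (u : ZMod p → ℂ) (x : ZMod p) :
    papp p ((List.range (Nat.log 2 p)).reverse.map (bfly p true)) u x =
      if x.val < hp p then ∑ x' ∈ Finset.range (hp p), Complex.exp (-(2 * Real.pi * Complex.I) *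
        (rev (Nat.log 2 p) x' * x.val : ℕ) / hp p) * u (x' : ZMod p) else 0 := by
  rw [List.range_eq_range']
  split_ifs with hx
  · have := bwd h2 u (Nat.log 2 p) 0 (by simp) 0 x.val one_pos hx
    simp only [zero_mul, zero_add, ZMod.natCast_zmod_val] at this
    rw [this]
    simp only [exp_Z']
    rfl
  · obtain ⟨a, ha⟩ : ∃ a, Nat.log 2 p = a + 1 := ⟨_, (Nat.succ_pred_eq_of_pos (log_pos h2)).symm⟩
    rw [ha, List.range'_succ, List.reverse_cons, List.map_append, List.map_singleton, papp_snoc,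
      fapp_bfly_ge _ _ _ hx]

theorem rev_bij (j : ℕ) : Set.BijOn (rev j) (Set.Iio (2 ^ j)) (Set.Iio (2 ^ j)) :=
  ((Set.finite_Iio _).injOn_iff_bijOn_of_mapsTo fun β _ => rev_lt j β).1
    fun β hβ β' hβ' e => rev_inj j β β' hβ hβ' e

end Crest.Agent.R326
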