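import Crest.Agent.R326.CrtDefs

/-! Row 326: macros on `ℤ/N × ℤ/N` (row, column), the circuit for a batched DFT of odd length `p`,
and the batched and three-dimensional transforms (definitions). -/

set_option autoImplicit false

namespace Crest.Agent.R326

/-! ### macros over any ring -/

/-- `(1+i) + (1-i) τ`, twice `cop` -/
def c2 {S X : Type} [CommRing S] (I : S) (τ : X → X) (f : X → S) : X → S :=
  fun x => (1 + I) * f x + (1 - I) * f (τ x)

def c2s {S : Type} [CommRing S] (I : S) {N : ℕ} (cs : List ℕ) (f : ZMod N × ZMod N → S) :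
    ZMod N × ZMod N → S :=
  cs.foldr (fun c f => c2 I (fun v : ZMod N × ZMod N => ((c : ZMod N) * v.1, (c : ZMod N) * v.2)) f) f

/-- translation of the rows, rotation of each row, five diagonal tables -/
structure MacD (N : ℕ) (S : Type) where
  d : ZMod N
  F : ZMod N → ZMod N
  tab : ℕ → ZMod N × ZMod N → S

def MacD.map {N : ℕ} {S S' : Type} (φ : S → S') (m : MacD N S) : MacD N S' :=
  ⟨m.d, m.F, fun ν v => φ (m.tab ν v)⟩

def mac {S : Type} [CommRing S] (I : S) {N : ℕ} (cs : List ℕ) (m : MacD N S)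
    (f : ZMod N × ZMod N → S) : ZMod N × ZMod N → S :=
  let g0 : ZMod N × ZMod N → S := fun v => f (v.1 + m.d, v.2 + m.F (v.1 + m.d))
  let g1 := c2s I cs fun v => m.tab 0 v * g0 v
  let g2 := c2s I cs fun v => m.tab 1 v * g1 v
  let g3 := c2s I cs fun v => m.tab 2 v * g2 v
  let g4 := c2s I cs fun v => m.tab 3 v * g3 v
  fun v => m.tab 4 (v.1 - m.d, v.2 - m.F v.1) * g4 (v.1 - m.d, v.2 - m.F v.1)

def pipe {S : Type} [CommRing S] (I : S) {N : ℕ} (cs : List ℕ) (ms : ℕ → MacD N S) (n : ℕ)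
    (f : ZMod N × ZMod N → S) : ZMod N × ZMod N → S :=
  (List.range n).foldl (fun f μ => mac I cs (ms μ) f) f

/-! ### the circuit for one odd modulus `p` -/

/-- a coefficient `(den, exps)` stands for `(∑ w ^ e) / den`, `w = exp (2πi / Mo p)` -/
abbrev Cd : Type := ℕ × List ℕ
/-- a monomial map `(s, D)`: `u ↦ (x ↦ D x * u (x + s))` -/
abbrev Mono : Type := ℕ × List (Option Cd)
/-- `(i, j, m, flag)`: role `j += m (role i)`; with the flag the odd roles are divided by `p` -/
abbrev DMac : Type := ℕ × ℕ × Mono × Bool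

def hp (p : ℕ) : ℕ := 2 ^ Nat.log 2 p
def Mo (p : ℕ) : ℕ := hp p * p
def cneg (p : ℕ) (c : Cd) : Cd := (c.1, c.2.map fun e => e + Mo p / 2)
def mneg (p : ℕ) (m : Mono) : Mono := (m.1, m.2.map (Option.map (cneg p)))
def mone (p : ℕ) : Mono := (0, List.replicate p (some (1, [0])))
def minv (p : ℕ) : Mono := (0, List.replicate p (some (p, [0])))

def shM (p i j : ℕ) (m : Mono) : List DMac :=
  if (i + j) % 2 = 1 then [(i, j, m, false)]
  else [((i + 1) % 4, j, mneg p m, false), (i, (i + 1) % 4, mone p, false),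
    ((i + 1) % 4, j, m, false), (i, (i + 1) % 4, mneg p (mone p), false)]

def shF (p : ℕ) (sg : Bool) (i j : ℕ) (fac : List Mono) : List DMac :=
  fac.flatMap fun m => shM p i j (if sg then mneg p m else m)

def third (i j : ℕ) : ℕ := if i ≠ 0 ∧ j ≠ 0 then 0 else if i ≠ 1 ∧ j ≠ 1 then 1 else 2

/-- shear by a product of at most `2 ^ r` factors (the first factor acts first) -/
def shP (p : ℕ) : ℕ → Bool → ℕ → ℕ → List (List Mono) → List DMac
  | 0, sg, i, j, fs => shF p sg i j (fs.headD [mone p])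
  | r + 1, sg, i, j, fs =>
      shP p r (!sg) (third i j) j (fs.drop (2 ^ r)) ++ shP p r false i (third i j) (fs.take (2 ^ r))
        ++ shP p r sg (third i j) j (fs.drop (2 ^ r)) ++ shP p r true i (third i j) (fs.take (2 ^ r))

def shA (p r : ℕ) (sg : Bool) (i j : ℕ) (A : List (List (List Mono))) : List DMac :=
  A.flatMap (shP p r sg i j)

/-- role `i ↦ A⁻¹`, role `j ↦ A` -/
def diagInv (p r i j : ℕ) (A Ainv : List (List (List Mono))) : List DMac :=
  shA p r false j i A ++ shA p r true i j Ainv ++ shA p r false j i A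
    ++ shF p true j i [mone p] ++ shF p false i j [mone p] ++ shF p true j i [mone p]

/-- bit reversal on `j` bits -/
def rev : ℕ → ℕ → ℕ
  | 0, _ => 0
  | j + 1, β => rev j (β / 2) + β % 2 * 2 ^ j

/-- layer `j` of the radix-2 FFT of length `hp p`, or its adjoint -/
def bfly (p : ℕ) (adj : Bool) (j : ℕ) : List Mono :=
  let h := hp p
  let n := h / 2 ^ (j + 1)
  let c : ℕ → ℕ := fun x =>
    if adj then Mo p - p * n * rev j (x / (2 * n)) % Mo p else p * n * rev j (x / (2 * n))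
  [(0, (List.range h).map fun x => if x / n % 2 = 0 then some (1, [0]) else some (1, [c x + Mo p / 2])),
   (n, (List.range h).map fun x =>
      if x / n % 2 = 0 then some (1, [if adj then 0 else c x]) else none),
   (p - n, (List.range h).map fun x =>
      if x / n % 2 = 0 then none else some (1, [if adj then c x else 0]))]

/-- exponent of the chirp `ω ^ (± s² / 2)`, `ω = exp (2πi / p)` -/
def chiE (p : ℕ) (sg : Bool) (s : ℕ) : ℕ :=
  hp p * ((if sg then p - 1 else 1) * ((p + 1) / 2) * s ^ 2 % p)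

def eIn (p : ℕ) (sg : Bool) (v : ℕ) : Mono :=
  (v * (hp p / 2), (List.range (hp p / 2)).map fun x =>
    if v * (hp p / 2) + x < p then some (1, [chiE p sg (v * (hp p / 2) + x)]) else none)

def eOut (p : ℕ) (sg : Bool) (u : ℕ) : Mono :=
  (4 * p - u * (hp p / 2), (List.range p).map fun x =>
    if u * (hp p / 2) ≤ x ∧ x < (u + 1) * (hp p / 2) then some (1, [chiE p sg x]) else none)

/-- the transformed kernel `t`, written as `(t + 2) - 2` -/
def kern (p : ℕ) (sg : Bool) (u v : ℕ) : List Mono :=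
  [(0, (List.range (hp p)).map fun x => some (hp p, List.replicate (2 * hp p) 0 ++
      (List.range (hp p)).map fun r => chiE p (!sg) (4 * p + u * (hp p / 2) + r - v * (hp p / 2)
        - (if r < hp p / 2 then 0 else hp p)) + p * rev (Nat.log 2 p) x * r)),
   (0, (List.range (hp p)).map fun _ => some (1, [Mo p / 2, Mo p / 2]))]

def prodF (p : ℕ) (sg : Bool) (u v : ℕ) : List (List Mono) :=
  [eIn p sg v] :: ((List.range (Nat.log 2 p)).map (bfly p false) ++
    kern p sg u v :: ((List.range (Nat.log 2 p)).reverse.map (bfly p true) ++ [[eOut p sg u]]))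

def exF (p : ℕ) (sg : Bool) : List (List (List Mono)) :=
  (List.range 4).flatMap fun u => (List.range 4).map fun v => prodF p sg u v
def exFinv (p : ℕ) : List (List (List Mono)) := (exF p true).map fun P => P ++ [[minv p]]
def exR (p : ℕ) : List (List (List Mono)) :=
  (exF p false).flatMap fun P => (exF p false).map fun P' => P ++ P' ++ [[minv p]]
def rr (p : ℕ) : ℕ := Nat.clog 2 (4 * Nat.log 2 p + 8)

def digProg (p : ℕ) : List DMac :=
  diagInv p (rr p) 0 1 (exF p false) (exFinv p) ++ diagInv p (rr p) 2 3 (exF p false) (exFinv p)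
    ++ diagInv p (rr p) 0 2 (exR p) (exR p) ++ [(0, 1, (0, []), true)]

/-- macro number `μ` (the identity beyond the end of the program) -/
def dm (p μ : ℕ) : DMac := (digProg p).getD μ (0, 1, (0, []), false)

/-! physical layout: four intervals of rows (the roles) separated by clean rows -/

def Gp (p : ℕ) : ℕ := (p - 1) / 4
/-- role of a row `y < p`; `4` for clean rows -/
def role (p y : ℕ) : ℕ := if y % Gp p = 0 ∨ 4 * Gp p ≤ y then 4 else y / Gp p
def dOf (p : ℕ) (m : DMac) : ℕ := (m.1 + m.2.1 + 1) / 2 * Gp p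
def FOf (p : ℕ) (m : DMac) (y : ℕ) : ℕ :=
  if role p y = m.1 then (if m.1 % 2 = 0 then m.2.2.1.1 % p else (p - m.2.2.1.1 % p) % p) else 0
def lx (p r x : ℕ) : ℕ := if r % 2 = 0 then x else (p - x) % p

/-- kind of a cell in the moved coordinates: `0` centre row, `1` idle, `2` idle and scaled,
`3` source, `4` target (with its coefficient) -/
def cellK (p : ℕ) (m : DMac) (y x : ℕ) : ℕ × Cd :=
  if y = 0 then (0, (1, [])) else
  let ρ := role p ((y + dOf p m) % p)
  let o : Option Cd := if ρ = m.1 ∨ ρ = m.2.1 then m.2.2.1.2.getD (lx p ρ x) none else none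
  match o with
  | some c => if ρ = m.1 then (3, (1, [])) else (4, c)
  | none => if m.2.2.2 = true ∧ ρ % 2 = 1 then (2, (1, [])) else (1, (1, []))

noncomputable def cval (p : ℕ) (c : Cd) : ℂ :=
  (c.2.map fun e : ℕ => Complex.exp (2 * Real.pi * Complex.I * e / Mo p)).sum / c.1

/-- entry of table `ν ≤ 4` for a cell of kind `k` with coefficient `t` -/
noncomputable def kVal (p k ν : ℕ) (t : ℂ) : ℂ :=
  if k = 0 then 0
  else if k = 1 then (if ν < 4 then 1 / 2 else 1)
  else if k = 2 then (if ν < 4 then 1 / 2 else 1 / p)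
  else if k = 3 then ([1 / 2, 1, 1, 3 / 2] : List ℂ).getD ν (1 / 8)
  else ([-5 * Complex.I / (18 * t), 1 / 2, 3 / 2, 1 / 2] : List ℂ).getD ν (2 * Complex.I * t / 5)

noncomputable def dVal (p : ℕ) (m : DMac) (ν y x : ℕ) : ℂ :=
  kVal p (cellK p m y x).1 ν (cval p (cellK p m y x).2)

noncomputable def digMac (p : ℕ) (m : DMac) : MacD p ℂ :=
  ⟨(dOf p m : ℕ), fun y => (FOf p m y.val : ℕ), fun ν v => dVal p m ν v.1.val v.2.val⟩

/-! logical semantics -/

noncomputable def mapp (p : ℕ) (m : Mono) (u : ZMod p → ℂ) : ZMod p → ℂ := fun x =>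
  match m.2.getD x.val none with
  | some c => cval p c * u (x + (m.1 : ZMod p))
  | none => 0
noncomputable def fapp (p : ℕ) (fac : List Mono) (u : ZMod p → ℂ) : ZMod p → ℂ :=
  (fac.map fun m => mapp p m u).sum
noncomputable def papp (p : ℕ) (P : List (List Mono)) (u : ZMod p → ℂ) : ZMod p → ℂ :=
  P.foldl (fun u fac => fapp p fac u) u
noncomputable def eapp (p : ℕ) (A : List (List (List Mono))) (u : ZMod p → ℂ) : ZMod p → ℂ :=
  (A.map fun P => papp p P u).sum
noncomputable def stepE (p : ℕ) (m : DMac) (a : ℕ → ZMod p → ℂ) : ℕ → ZMod p → ℂ := fun r =>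
  (if m.2.2.2 = true ∧ r % 2 = 1 then (1 / p : ℂ) else 1) •
    (if r = m.2.1 then a r + mapp p m.2.2.1 (a m.1) else a r)
noncomputable def runE (p : ℕ) (ms : List DMac) (a : ℕ → ZMod p → ℂ) : ℕ → ZMod p → ℂ :=
  ms.foldl (fun a m => stepE p m a) a

def GoodCd (p : ℕ) (c : Cd) : Prop :=
  0 < c.1 ∧ c.2.length ≤ 3 * c.1 ∧ (1 / p : ℝ) ≤ ‖cval p c‖ ∧ ‖cval p c‖ ≤ 3
def GoodMono (p : ℕ) (m : Mono) : Prop := ∀ c, some c ∈ m.2 → GoodCd p c
def OkM (p : ℕ) (m : DMac) : Prop :=
  m.1 < 4 ∧ m.2.1 < 4 ∧ (m.1 + m.2.1) % 2 = 1 ∧ (m.2.2.2 = true → m.2.2.1.2 = []) ∧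
    GoodMono p m.2.2.1

def rowOf (p r γ : ℕ) : ℕ := r * Gp p + 1 + (if r % 2 = 0 then γ else Gp p - 2 - γ)
def logi (p : ℕ) (f : ZMod p × ZMod p → ℂ) (γ r : ℕ) : ZMod p → ℂ := fun x =>
  f ((rowOf p r γ : ℕ), if r % 2 = 0 then x else -x)
def Clean (p : ℕ) (f : ZMod p × ZMod p → ℂ) : Prop := ∀ v, role p v.1.val = 4 → f v = 0

noncomputable def dft (p : ℕ) [NeZero p] (sg : Bool) (u : ZMod p → ℂ) : ZMod p → ℂ := fun x =>
  ∑ x', Complex.exp ((if sg then -1 else 1) * (2 * Real.pi * Complex.I) *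
    (x.val * x'.val : ℕ) / p) * u x'

/-! ### tensor product over the moduli -/

/-- lists of moduli fit for the circuits -/
def GoodD (ps : List ℕ) : Prop := GoodP ps ∧ ∀ p ∈ ps, 9 ≤ p ∧ 16 * ps.length ≤ p

def tenD (ps : List ℕ) (μ : ℕ) : ℕ := crtL ps (ps.map fun p => dOf p (dm p μ))
def tenF (ps : List ℕ) (μ y : ℕ) : ℕ := crtL ps (ps.map fun p => FOf p (dm p μ) (y % p))
noncomputable def tenV (ps : List ℕ) (μ ν y x : ℕ) : ℂ :=
  (ps.map fun p => dVal p (dm p μ) ν (y % p) (x % p)).prod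
noncomputable def tenMac (ps : List ℕ) (μ : ℕ) : MacD ps.prod ℂ :=
  ⟨(tenD ps μ : ℕ), fun y => (tenF ps μ y.val : ℕ), fun ν v => tenV ps μ ν v.1.val v.2.val⟩

/-- the argument of the table function: moduli and precision in unary, `μ, ν, y, x` -/
abbrev TabIn : Type := List (List Unit) × List Unit × ℕ × ℕ × ℕ × ℕ

/-- `T` approximates `2 ^ b` times the tables and vanishes on the centre rows -/
def GoodT (T : TabIn → GaussianInt) : Prop :=
  ∀ ps b μ ν y x, GoodD ps →
    ‖(T (ps.map un, un b, μ, ν, y, x) : ℂ) - 2 ^ b * tenV ps μ ν y x‖ ≤ 3 ∧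
      ((∃ p ∈ ps, p ∣ y) → T (ps.map un, un b, μ, ν, y, x) = 0)

def intMac (T : TabIn → GaussianInt) (ps : List ℕ) (b μ : ℕ) : MacD ps.prod GaussianInt :=
  ⟨(tenD ps μ : ℕ), fun y => (tenF ps μ y.val : ℕ),
    fun ν v => T (ps.map un, un b, μ, ν, v.1.val, v.2.val)⟩

/-- the additive character of `ℤ/N` -/
noncomputable def psi (ps : List ℕ) (z : ℕ) : ℂ :=
  (ps.map fun p : ℕ => Complex.exp (2 * Real.pi * Complex.I * z / p)).prod

/-- the data rows -/
def dataY (ps : List ℕ) : List ℕ :=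
  (List.range ps.prod).filter fun y => ps.all fun p => decide (role p (y % p) ≠ 4)

/-- slab `z` of the rows `r < R` placed on the data rows -/
def embedZ {S : Type} [Zero S] (ps : List ℕ) (R : ℕ) (f : ℕ → ℕ → S) (z : ℕ) :
    ZMod ps.prod × ZMod ps.prod → S := fun v =>
  if (dataY ps).idxOf v.1.val < (dataY ps).length ∧
      z * (dataY ps).length + (dataY ps).idxOf v.1.val < R then
    f (z * (dataY ps).length + (dataY ps).idxOf v.1.val) v.2.val else 0

/-- the pipeline applied to the `N²` rows `f r` -/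
def batchS {S : Type} [CommRing S] (I : S) (ps : List ℕ) (ms : ℕ → MacD ps.prod S) (n : ℕ)
    (f : ℕ → ℕ → S) : ℕ → ℕ → S := fun r x =>
  pipe I (ps.map (sgnc ps.prod)) ms n (embedZ ps (ps.prod ^ 2) f (r / (dataY ps).length))
    (((dataY ps).getD (r % (dataY ps).length) 0 : ℕ), (x : ZMod ps.prod))

def bat3 {S : Type} [CommRing S] (I : S) (ps : List ℕ) (ms : ℕ → MacD ps.prod S) (n : ℕ)
    (f : ℕ → ℕ → ℕ → S) : ℕ → ℕ → ℕ → S := fun i j k =>
  batchS I ps ms n (fun r x => f (r / ps.prod) (r % ps.prod) x) (i * ps.prod + j) k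

def sw12 {S : Type} (f : ℕ → ℕ → ℕ → S) : ℕ → ℕ → ℕ → S := fun i j k => f i k j
def sw02 {S : Type} (f : ℕ → ℕ → ℕ → S) : ℕ → ℕ → ℕ → S := fun i j k => f k j i

def d3 {S : Type} [CommRing S] (I : S) (ps : List ℕ) (ms : ℕ → MacD ps.prod S) (n : ℕ)
    (f : ℕ → ℕ → ℕ → S) : ℕ → ℕ → ℕ → S :=
  sw02 (bat3 I ps ms n (sw02 (sw12 (bat3 I ps ms n (sw12 (bat3 I ps ms n f))))))

/-- transform, multiply, transform, negate the indices, rescale, add the rounding offset -/
def conv3 {S : Type} [CommRing S] (I : S) (ps : List ℕ) (ms : ℕ → MacD ps.prod S) (n Sh : ℕ)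
    (f g : ℕ → ℕ → ℕ → S) : ℕ → ℕ → ℕ → S := fun i j k =>
  (ps.prod : S) ^ 6 * d3 I ps ms n (fun i j k => d3 I ps ms n f i j k * d3 I ps ms n g i j k)
    ((ps.prod - i) % ps.prod) ((ps.prod - j) % ps.prod) ((ps.prod - k) % ps.prod) + 2 ^ (Sh - 1)

/-- cyclic convolution on `(ℤ/N)³` -/
def cyc3 (N : ℕ) (f g : ℕ → ℕ → ℕ → ℕ) (i j k : ℕ) : ℕ :=
  ∑ i' ∈ Finset.range N, ∑ j' ∈ Finset.range N, ∑ k' ∈ Finset.range N,
    f i' j' k' * g ((i + N - i') % N) ((j + N - j') % N) ((k + N - k') % N)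

/-- the chunks of a little-endian bit list placed in the cube `[0,M)³` -/
def chunkF (B₀ M : ℕ) (x : List Bool) (i j k : ℕ) : ℕ :=
  if i < M ∧ j < M ∧ k < M then valLE ((x.drop (B₀ * (k + M * j + M ^ 2 * i))).take B₀) else 0

/-- an array of shape `[N][N][N]` -/
def emk3 (B N : ℕ) (f : ℕ → ℕ → ℕ → RB B) : List Bool :=
  emk B (N ^ 3) fun j => f (j / N ^ 2) (j / N % N) (j % N)
def eat3 (B N : ℕ) (a : List Bool) : ℕ → ℕ → ℕ → RB B := fun i j k => eat B a ((i * N + j) * N + k)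

end Crest.Agent.R326
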