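import Crest.Agent.R326.GadDefs

/-! Row 326: calculus of straight-line extensions and the two stages of the gadget. -/

set_option autoImplicit false

namespace Crest.Agent.R326.Gad

open Finset

variable {𝕜 U G : Type} [CommRing 𝕜] [AddCommGroup U] [Module 𝕜 U] [Group G]
  {act : G →* Module.End 𝕜 U} {St Fr : Set G} {Sc : Set 𝕜}

theorem ext_subset {S S' : Set U} {n : ℕ} (h : Ext act St Fr Sc S n S') : S ⊆ S' := by
  induction h with
  | refl => exact subset_rfl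
  | zero _ ih => exact ih.trans (Set.subset_insert _ _)
  | add _ _ _ ih => exact ih.trans (Set.subset_insert _ _)
  | smul _ _ _ ih => exact ih.trans (Set.subset_insert _ _)
  | step _ _ _ ih => exact ih.trans (Set.subset_insert _ _)
  | free _ _ _ ih => exact ih.trans (Set.subset_insert _ _)

theorem ext_trans {S S' S'' : Set U} {n m : ℕ} (h : Ext act St Fr Sc S n S')
    (h' : Ext act St Fr Sc S' m S'') : Ext act St Fr Sc S (n + m) S'' := by
  induction h' with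
  | refl => exact h
  | zero _ ih => exact ih.zero
  | add _ a b ih => exact ih.add a b
  | smul _ a b ih => exact ih.smul a b
  | step _ a b ih => exact ih.step a b
  | free _ a b ih => exact ih.free a b

variable (act St Fr Sc) in
/-- extension with at most `n` steps -/
def Up (S : Set U) (n : ℕ) (S' : Set U) : Prop := ∃ m ≤ n, Ext act St Fr Sc S m S'

theorem Up.refl (S : Set U) : Up act St Fr Sc S 0 S := ⟨0, le_rfl, .refl S⟩

theorem Up.sub {S S' : Set U} {n : ℕ} (h : Up act St Fr Sc S n S') : S ⊆ S' := by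
  obtain ⟨_, _, h⟩ := h
  exact ext_subset h

theorem Up.trans {S S' S'' : Set U} {n m : ℕ} (h : Up act St Fr Sc S n S')
    (h' : Up act St Fr Sc S' m S'') : Up act St Fr Sc S (n + m) S'' := by
  obtain ⟨a, ha, h⟩ := h
  obtain ⟨b, hb, h'⟩ := h'
  exact ⟨a + b, Nat.add_le_add ha hb, ext_trans h h'⟩

theorem Up.mono {S S' : Set U} {n m : ℕ} (h : Up act St Fr Sc S n S') (e : n ≤ m) :
    Up act St Fr Sc S m S' := by
  obtain ⟨a, ha, h⟩ := h
  exact ⟨a, ha.trans e, h⟩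

theorem up_family {ι : Type} [Fintype ι] {S : Set U} {r : ℕ} (v : ι → U)
    (h : ∀ i S₁, S ⊆ S₁ → ∃ S₂, Up act St Fr Sc S₁ r S₂ ∧ v i ∈ S₂) :
    ∃ S', Up act St Fr Sc S (Fintype.card ι * r) S' ∧ ∀ i, v i ∈ S' := by
  classical
  have key : ∀ s : Finset ι, ∃ S', Up act St Fr Sc S (s.card * r) S' ∧ ∀ i ∈ s, v i ∈ S' := by
    intro s
    induction s using Finset.induction_on with
    | empty => exact ⟨S, by simpa using Up.refl S, by simp⟩
    | insert a s ha ih =>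
      obtain ⟨S₁, e₁, k₁⟩ := ih
      obtain ⟨S₂, e₂, k₂⟩ := h a S₁ e₁.sub
      refine ⟨S₂, (e₁.trans e₂).mono (by rw [card_insert_of_notMem ha, Nat.add_mul, one_mul]),
        fun i hi => ?_⟩
      rcases mem_insert.1 hi with rfl | hi
      · exact k₂
      · exact e₂.sub (k₁ i hi)
  obtain ⟨S', e, k⟩ := key univ
  exact ⟨S', e, fun i => k i (mem_univ i)⟩

theorem up_mv {r : ℕ} {g : G} (hg : Mv St Fr r g) {S : Set U} {u : U} (hu : u ∈ S) :
    ∃ S', Up act St Fr Sc S r S' ∧ act g u ∈ S' := by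
  induction hg with
  | one => exact ⟨S, Up.refl S, by simpa using hu⟩
  | step a _ ih =>
    obtain ⟨S', ⟨m, hm, e⟩, k⟩ := ih
    exact ⟨_, ⟨m + 1, Nat.succ_le_succ hm, e.step a k⟩, by simp⟩
  | free a _ ih =>
    obtain ⟨S', ⟨m, hm, e⟩, k⟩ := ih
    exact ⟨_, ⟨m, hm, e.free a k⟩, by simp⟩
  | succ _ ih =>
    obtain ⟨S', e, k⟩ := ih
    exact ⟨S', e.mono (Nat.le_succ _), k⟩

variable (Sc) in
/-- usable coefficients -/
def Co (c : 𝕜) : Prop := c ∈ Sc ∨ (-c ∈ Sc ∧ (-1 : 𝕜) ∈ Sc) ∨ c = 1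

theorem up_smul {c : 𝕜} (hc : Co Sc c) {S : Set U} {u : U} (hu : u ∈ S) :
    ∃ S', Up act St Fr Sc S 0 S' ∧ c • u ∈ S' := by
  rcases hc with hc | ⟨hc, h1⟩ | rfl
  · exact ⟨_, ⟨0, le_rfl, (Ext.refl S).smul hc hu⟩, Set.mem_insert _ _⟩
  · refine ⟨_, ⟨0, le_rfl, ((Ext.refl S).smul hc hu).smul h1 (Set.mem_insert _ _)⟩, ?_⟩
    simp
  · exact ⟨S, Up.refl S, by simpa using hu⟩

theorem up_lin {κ : Type} [Fintype κ] {S : Set U} {v : U} {w : κ → U} {cf : κ → 𝕜}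
    (hc : ∀ j, Co Sc (cf j)) (hv : v ∈ S) (hw : ∀ j, cf j ≠ 0 → w j ∈ S) :
    ∃ S', Up act St Fr Sc S 0 S' ∧ v + ∑ j, cf j • w j ∈ S' := by
  classical
  have key : ∀ s : Finset κ, ∃ S', Up act St Fr Sc S 0 S' ∧ v + ∑ j ∈ s, cf j • w j ∈ S' := by
    intro s
    induction s using Finset.induction_on with
    | empty => exact ⟨S, Up.refl S, by simpa using hv⟩
    | insert a s ha ih =>
      obtain ⟨S₁, e₁, k₁⟩ := ih
      rw [sum_insert ha]
      by_cases h0 : cf a = 0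
      · exact ⟨S₁, e₁, by simpa [h0] using k₁⟩
      · obtain ⟨S₂, e₂, k₂⟩ := up_smul (act := act) (St := St) (Fr := Fr) (hc a) (e₁.sub (hw a h0))
        obtain ⟨m, hm, e⟩ := e₁.trans e₂
        refine ⟨_, ⟨m, hm, e.add (e₂.sub k₁) k₂⟩, ?_⟩
        rw [add_comm (cf a • w a), ← add_assoc]
        exact Set.mem_insert _ _
  exact key univ

variable (act) in
/-- the value `v` is available in the frame `f` -/
def Has (S : Set U) (f : G) (v : U) : Prop := act f v ∈ S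

theorem Has.up {S S' : Set U} {n : ℕ} {f : G} {v : U} (h : Has act S f v)
    (e : Up act St Fr Sc S n S') : Has act S' f v := e.sub h

theorem Has.congr {S : Set U} {f f' : G} {v v' : U} (h : Has act S f v) (e : f' = f)
    (e' : v' = v) : Has act S f' v' := by rw [e, e']; exact h

theorem has_zero {S : Set U} (h : 0 ∈ S) (f : G) : Has act S f 0 := by simpa [Has] using h

theorem move {ι : Type} [Fintype ι] {S : Set U} {f : ι → G} (g : ι → G) {v : ι → U} {r : ℕ}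
    (h : ∀ i, Has act S (f i) (v i)) (hd : ∀ i, Mv St Fr r (g i * (f i)⁻¹)) :
    ∃ S', Up act St Fr Sc S (Fintype.card ι * r) S' ∧ ∀ i, Has act S' (g i) (v i) := by
  refine up_family (fun i => act (g i) (v i)) fun i S₁ hS => ?_
  have e : act (g i) (v i) = act (g i * (f i)⁻¹) (act (f i) (v i)) := by
    rw [← Module.End.mul_apply, ← map_mul, inv_mul_cancel_right]
  rw [e]
  exact up_mv (hd i) (hS (h i))

theorem lin {ι κ : Type} [Fintype ι] [Fintype κ] {S : Set U} {f : ι → G} {v : ι → U}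
    (w : ι → κ → U) (cf : ι → κ → 𝕜) (hc : ∀ i j, Co Sc (cf i j)) (h : ∀ i, Has act S (f i) (v i))
    (hw : ∀ i j, cf i j ≠ 0 → Has act S (f i) (w i j)) :
    ∃ S', Up act St Fr Sc S 0 S' ∧ ∀ i, Has act S' (f i) (v i + ∑ j, cf i j • w i j) := by
  have := up_family (act := act) (St := St) (Fr := Fr) (Sc := Sc) (S := S) (r := 0)
    (fun i => act (f i) (v i + ∑ j, cf i j • w i j)) fun i S₁ hS => by
      simp only [map_add, map_sum, map_smul]
      exact up_lin (hc i) (hS (h i)) fun j hj => hS (hw i j hj)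
  rwa [Nat.mul_zero] at this

theorem lin1 {ι : Type} [Fintype ι] {S : Set U} {f : ι → G} {v w : ι → U} (a : 𝕜) (ha : Co Sc a)
    (h : ∀ i, Has act S (f i) (v i)) (hw : ∀ i, Has act S (f i) (w i)) :
    ∃ S', Up act St Fr Sc S 0 S' ∧ ∀ i, Has act S' (f i) (v i + a • w i) := by
  obtain ⟨S', e, h'⟩ := lin (St := St) (Fr := Fr) (κ := Unit) (fun i _ => w i) (fun _ _ => a)
    (fun _ _ => ha) h (fun i _ _ => hw i)
  exact ⟨S', e, fun i => by simpa using h' i⟩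

section stage
variable {Γ T Z J : Type} [Fintype Γ] [Fintype T] [Fintype Z] [Fintype J] [DecidableEq T]
  {za zb : Z → T}

theorem code_id (C : Code 𝕜 Sc T Z J za zb) (x : T → U) (b : T) :
    ∑ ζ, C.e b ζ • x (za ζ) + ∑ j, C.Jc b j • ∑ a, C.Vc j a • x a = x b := by
  have h1 : ∑ ζ, C.e b ζ • x (za ζ) = ∑ a, (∑ ζ, if za ζ = a then C.e b ζ else 0) • x a := by
    simp only [sum_smul, ite_smul, zero_smul]
    rw [sum_comm]
    refine sum_congr rfl fun ζ _ => ?_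
    simp
  have h2 : ∑ j, C.Jc b j • ∑ a, C.Vc j a • x a = ∑ a, (∑ j, C.Jc b j * C.Vc j a) • x a := by
    simp only [smul_sum, smul_smul, sum_smul]
    rw [sum_comm]
  rw [h1, h2, ← sum_add_distrib]
  simp only [← add_smul, C.hid, ite_smul, one_smul, zero_smul, sum_ite_eq', mem_univ, if_true]

variable (Γ T Z J) in
/-- number of steps in one stage -/
def stageM (h h1 h2 : ℕ) : ℕ := Fintype.card Γ *
  (Fintype.card Z * (2 + h2) + Fintype.card T * (2 * h1) + Fintype.card J * h)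

theorem fwd (C : Code 𝕜 Sc T Z J za zb) (f0 fI : Γ → G) (fs fd : Γ → T → G) {h h1 h2 : ℕ}
    (d1 : ∀ γ a, Mv St Fr 1 (fs γ a * (f0 γ)⁻¹)) (d2 : ∀ γ a, Mv St Fr h1 (fI γ * (fs γ a)⁻¹))
    (d3 : ∀ γ, Mv St Fr h (f0 γ * (fI γ)⁻¹)) (d4 : ∀ γ a, Mv St Fr h1 (fd γ a * (f0 γ)⁻¹))
    (d5 : ∀ γ ζ, Mv St Fr h2 (fd γ (zb ζ) * (fs γ (za ζ))⁻¹))
    (d6 : ∀ γ a, Mv St Fr 1 (fI γ * (fd γ a)⁻¹))
    {S : Set U} (h0 : 0 ∈ S) {x y : Γ → T → U} {z : Γ → Z → U}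
    (hx : ∀ γ a, Has act S (fs γ a) (x γ a)) (hy : ∀ γ a, Has act S (f0 γ) (y γ a))
    (hz : ∀ γ ζ, Has act S (f0 γ) (z γ ζ)) :
    ∃ S', Up act St Fr Sc S (stageM Γ T Z J h h1 h2) S' ∧
      (∀ γ a, Has act S' (fI γ) (x γ a)) ∧ (∀ γ a, Has act S' (fd γ a) (y γ a + x γ a)) ∧
      (∀ γ ζ, Has act S' (fI γ) (z γ ζ)) := by
  have c1 : Co Sc (1 : 𝕜) := .inr (.inr rfl)
  have cm : Co Sc (-1 : 𝕜) := .inl C.neg_mem
  obtain ⟨S1, e1, k1⟩ := lin (St := St) (Fr := Fr) (ι := Γ × T) (f := fun i => f0 i.1)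
    (fun i ζ => z i.1 ζ) (fun i ζ => - C.e i.2 ζ)
    (fun i ζ => .inr (.inl ⟨by simpa using C.e_mem _ _, C.neg_mem⟩))
    (fun i => hy i.1 i.2) (fun i ζ _ => hz i.1 ζ)
  obtain ⟨S2, e2, k2⟩ := move (Sc := Sc) (ι := Γ × Z) (fun i => fs i.1 (za i.2)) (r := 1)
    (fun i => (hz i.1 i.2).up e1) (fun i => d1 _ _)
  obtain ⟨S3, e3, k3⟩ := lin1 (St := St) (Fr := Fr) 1 c1 k2
    (fun i => ((hx i.1 (za i.2)).up e1).up e2)
  obtain ⟨S4, e4, k4⟩ := move (Sc := Sc) (ι := Γ × T) (fun i => fI i.1) (r := h1)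
    (fun i => (((hx i.1 i.2).up e1).up e2).up e3) (fun i => d2 _ _)
  obtain ⟨S5, e5, k5⟩ := lin (St := St) (Fr := Fr) (ι := Γ × J) (f := fun i => fI i.1)
    (fun i a => x i.1 a) (fun i a => C.Vc i.2 a) (fun i a => .inl (C.V_mem _ _))
    (fun i => has_zero (e4.sub (e3.sub (e2.sub (e1.sub h0)))) _) (fun i a _ => k4 (i.1, a))
  obtain ⟨S6, e6, k6⟩ := move (Sc := Sc) (fun i => f0 i.1) (r := h) k5 (fun i => d3 _)
  obtain ⟨S7, e7, k7⟩ := lin (St := St) (Fr := Fr) (ι := Γ × T)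
    (fun i j => 0 + ∑ a, C.Vc j a • x i.1 a) (fun i j => C.Jc i.2 j)
    (fun i j => .inl (C.J_mem _ _)) (fun i => (((((k1 i).up e2).up e3).up e4).up e5).up e6)
    (fun i j _ => k6 (i.1, j))
  obtain ⟨S8, e8, k8⟩ := move (Sc := Sc) (fun i => fd i.1 i.2) (r := h1) k7 (fun i => d4 _ _)
  obtain ⟨S9, e9, k9⟩ := move (Sc := Sc) (fun i => fd i.1 (zb i.2)) (r := h2)
    (fun i => (((((k3 i).up e4).up e5).up e6).up e7).up e8) (fun i => d5 _ _)
  obtain ⟨S10, e10, k10⟩ := lin (St := St) (Fr := Fr) (ι := Γ × T)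
    (fun i ζ => z i.1 ζ + (1 : 𝕜) • x i.1 (za ζ)) (fun i ζ => C.e i.2 ζ)
    (fun i ζ => .inl (C.e_mem _ _)) (fun i => (k8 i).up e9)
    (fun i ζ hζ => (k9 (i.1, ζ)).congr (by simp only [C.he _ _ hζ]) rfl)
  obtain ⟨S11, e11, k11⟩ := move (Sc := Sc) (fun i => fI i.1) (r := 1)
    (fun i => (k9 i).up e10) (fun i => d6 _ _)
  obtain ⟨S12, e12, k12⟩ := lin1 (St := St) (Fr := Fr) (-1) cm k11
    (fun i => (((((((k4 (i.1, za i.2)).up e5).up e6).up e7).up e8).up e9).up e10).up e11)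
  refine ⟨S12, (((((((((((e1.trans e2).trans e3).trans e4).trans e5).trans e6).trans e7).trans
    e8).trans e9).trans e10).trans e11).trans e12).mono (le_of_eq ?_), fun γ a => ?_,
    fun γ a => ?_, fun γ ζ => ?_⟩
  · simp only [stageM, Fintype.card_prod]; ring
  · exact ((((((((k4 (γ, a)).up e5).up e6).up e7).up e8).up e9).up e10).up e11).up e12
  · refine (((k10 (γ, a)).up e11).up e12).congr rfl ?_
    conv_lhs => rw [← code_id C (x γ) a]
    simp only [neg_smul, sum_neg_distrib, zero_add, one_smul, smul_add, sum_add_distrib]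
    abel
  · exact (k12 (γ, ζ)).congr rfl (by simp)

theorem rev (C : Code 𝕜 Sc T Z J za zb) (f0 fI : Γ → G) (fs fd : Γ → T → G) {h h1 h2 : ℕ}
    (d1 : ∀ γ a, Mv St Fr 1 (fs γ a * (f0 γ)⁻¹)) (d2 : ∀ γ a, Mv St Fr h1 (fI γ * (fs γ a)⁻¹))
    (d3 : ∀ γ, Mv St Fr h (fI γ * (f0 γ)⁻¹)) (d4 : ∀ γ a, Mv St Fr h1 (fd γ a * (f0 γ)⁻¹))
    (d5 : ∀ γ ζ, Mv St Fr h2 (fd γ (za ζ) * (fs γ (zb ζ))⁻¹))
    (d6 : ∀ γ a, Mv St Fr 1 (fI γ * (fd γ a)⁻¹))
    {S : Set U} (h0 : 0 ∈ S) {x y : Γ → T → U} {z : Γ → Z → U}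
    (hx : ∀ γ a, Has act S (fs γ a) (x γ a)) (hy : ∀ γ a, Has act S (f0 γ) (y γ a))
    (hz : ∀ γ ζ, Has act S (f0 γ) (z γ ζ)) :
    ∃ S', Up act St Fr Sc S (stageM Γ T Z J h h1 h2) S' ∧
      (∀ γ a, Has act S' (fI γ) (x γ a - y γ a)) ∧ (∀ γ a, Has act S' (fd γ a) (y γ a)) ∧
      (∀ γ ζ, Has act S' (fI γ) (z γ ζ)) := by
  have c1 : Co Sc (1 : 𝕜) := .inr (.inr rfl)
  have cm : Co Sc (-1 : 𝕜) := .inl C.neg_mem
  obtain ⟨S1, e1, k1⟩ := lin1 (St := St) (Fr := Fr) (ι := Γ × Z) (f := fun i => f0 i.1) 1 c1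
    (fun i => hz i.1 i.2) (fun i => hy i.1 (za i.2))
  obtain ⟨S2, e2, k2⟩ := lin (St := St) (Fr := Fr) (ι := Γ × J) (f := fun i => f0 i.1)
    (fun i a => y i.1 a) (fun i a => C.Vc i.2 a) (fun i a => .inl (C.V_mem _ _))
    (fun i => has_zero (e1.sub h0) _) (fun i a _ => (hy i.1 a).up e1)
  obtain ⟨S3, e3, k3⟩ := move (Sc := Sc) (fun i => fs i.1 (zb i.2)) (r := 1)
    (fun i => (k1 i).up e2) (fun i => d1 _ _)
  obtain ⟨S4, e4, k4⟩ := move (Sc := Sc) (fun i => fI i.1) (r := h)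
    (fun i => (k2 i).up e3) (fun i => d3 _)
  obtain ⟨S5, e5, k5⟩ := lin (St := St) (Fr := Fr) (ι := Γ × T)
    (fun i ζ => z i.1 ζ + (1 : 𝕜) • y i.1 (za ζ)) (fun i ζ => - C.e i.2 ζ)
    (fun i ζ => .inr (.inl ⟨by simpa using C.e_mem _ _, C.neg_mem⟩))
    (fun i => ((((hx i.1 i.2).up e1).up e2).up e3).up e4)
    (fun i ζ hζ => ((k3 (i.1, ζ)).up e4).congr
      (by simp only [C.he _ _ (neg_ne_zero.mp hζ)]) rfl)
  obtain ⟨S6, e6, k6⟩ := move (Sc := Sc) (fun i => fI i.1) (r := h1) k5 (fun i => d2 _ _)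
  obtain ⟨S7, e7, k7⟩ := move (Sc := Sc) (fun i => fd i.1 (za i.2)) (r := h2)
    (fun i => (((k3 i).up e4).up e5).up e6) (fun i => d5 _ _)
  obtain ⟨S8, e8, k8⟩ := move (Sc := Sc) (ι := Γ × T) (fun i => fd i.1 i.2) (r := h1)
    (fun i => (((((((hy i.1 i.2).up e1).up e2).up e3).up e4).up e5).up e6).up e7)
    (fun i => d4 _ _)
  obtain ⟨S9, e9, k9⟩ := lin1 (St := St) (Fr := Fr) (-1) cm (fun i => (k7 i).up e8)
    (fun i => k8 (i.1, za i.2))
  obtain ⟨S10, e10, k10⟩ := move (Sc := Sc) (fun i => fI i.1) (r := 1) k9 (fun i => d6 _ _)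
  obtain ⟨S11, e11, k11⟩ := lin (St := St) (Fr := Fr) (ι := Γ × T)
    (fun i j => 0 + ∑ a, C.Vc j a • y i.1 a) (fun i j => - C.Jc i.2 j)
    (fun i j => .inr (.inl ⟨by simpa using C.J_mem _ _, C.neg_mem⟩))
    (fun i => ((((k6 i).up e7).up e8).up e9).up e10)
    (fun i j _ => ((((((k4 (i.1, j)).up e5).up e6).up e7).up e8).up e9).up e10)
  obtain ⟨S12, e12, k12⟩ := lin (St := St) (Fr := Fr) (ι := Γ × T)
    (fun i ζ => z i.1 ζ + (1 : 𝕜) • y i.1 (za ζ) + (-1 : 𝕜) • y i.1 (za ζ))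
    (fun i ζ => C.e i.2 ζ) (fun i ζ => .inl (C.e_mem _ _)) k11
    (fun i ζ _ => (k10 (i.1, ζ)).up e11)
  refine ⟨S12, (((((((((((e1.trans e2).trans e3).trans e4).trans e5).trans e6).trans e7).trans
    e8).trans e9).trans e10).trans e11).trans e12).mono (le_of_eq ?_), fun γ a => ?_,
    fun γ a => ?_, fun γ ζ => ?_⟩
  · simp only [stageM, Fintype.card_prod]; ring
  · refine (k12 (γ, a)).congr rfl ?_
    conv_lhs => rw [← code_id C (y γ) a]
    simp only [neg_smul, sum_neg_distrib, zero_add, one_smul, smul_add, sum_add_distrib,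
      add_neg_cancel_right]
    abel
  · exact ((((k8 (γ, a)).up e9).up e10).up e11).up e12
  · exact (((k10 (γ, ζ)).up e11).up e12).congr rfl (by simp)

end stage

end Crest.Agent.R326.Gad
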