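import Crest.Agent.R326.GeoQ1

/-! Row 326: the frames of the transposition gadget over `ℚ`. -/

set_option autoImplicit false

namespace Crest.Agent.R326.GQ

open Matrix Kronecker

abbrev M0 : Type := Matrix (Fin 100) (Fin 100) ℚ
abbrev M1 : Type := Matrix (Fin mm) (Fin mm) ℚ

/-- indicator vector of a triple -/
noncomputable def ind (a : Tri) : Fin 100 → ℚ := fun i => if i ∈ a.1 then 1 else 0

/-- the dual form -/
noncomputable def lam (a : Tri) : Fin 100 → ℚ := fun i => (ind a i - 1 / 3) / 2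

theorem sum_ind (b : Tri) : ∑ i, ind b i = 3 := by
  have := b.2
  simp only [ind, Finset.sum_ite_mem, Finset.univ_inter, Finset.sum_const, this]
  norm_num

theorem ind_dot (a b : Tri) : ind a ⬝ᵥ ind b = ((a.1 ∩ b.1).card : ℚ) := by
  have : ∀ i, ind a i * ind b i = if i ∈ a.1 ∩ b.1 then 1 else 0 := by
    intro i
    by_cases ha : i ∈ a.1 <;> by_cases hb : i ∈ b.1 <;> simp [ind, ha, hb]
  simp only [dotProduct, this, Finset.sum_ite_mem, Finset.univ_inter, Finset.sum_const]
  simp

theorem lam_dot (a b : Tri) : lam a ⬝ᵥ ind b = (((a.1 ∩ b.1).card : ℚ) - 1) / 2 := by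
  have h1 : ∀ i, lam a i * ind b i = (ind a i * ind b i) / 2 - ind b i / 6 := by
    intro i; unfold lam; ring
  have h2 := ind_dot a b
  simp only [dotProduct] at h2 ⊢
  simp only [h1, Finset.sum_sub_distrib, ← Finset.sum_div, h2, sum_ind]
  ring

/-- the rank-one idempotent of a triple -/
noncomputable def pr (a : Tri) : M0 := vecMulVec (ind a) (lam a)

theorem lam_self (a : Tri) : lam a ⬝ᵥ ind a = 1 := by
  rw [lam_dot, Finset.inter_self, a.2]; norm_num

theorem pr_idem (a : Tri) : pr a * pr a = pr a := by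
  rw [pr, vecMulVec_mul_vecMulVec, lam_self, one_smul]

theorem pr_orth {a b : Tri} (h : (a.1 ∩ b.1).card = 1) : pr a * pr b = 0 := by
  rw [pr, pr, vecMulVec_mul_vecMulVec, lam_dot, h]; simp

theorem pr_trace (a : Tri) : (pr a).trace = 1 := by
  rw [pr, trace_vecMulVec, dotProduct_comm, lam_self]

/-- `Fin 100 × Fin 100 ≃ Fin mm` -/
def eqv : Fin 100 × Fin 100 ≃ Fin mm := finProdFinEquiv.trans (finCongr (by rw [mm_eq]))

/-- reindexed Kronecker product -/
def K (A B : M0) : M1 := reindex eqv eqv (A ⊗ₖ B)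

theorem K_mul (A B C D : M0) : K A B * K C D = K (A * C) (B * D) := by
  simp only [K, reindex_apply, submatrix_mul_equiv, mul_kronecker_mul]

theorem K_one : K 1 1 = 1 := by
  simp only [K, one_kronecker_one, reindex_apply, submatrix_one_equiv]

theorem K_zero_left (B : M0) : K 0 B = 0 := by simp [K]

theorem K_zero_right (A : M0) : K A 0 = 0 := by simp [K]

theorem K_trace (A B : M0) : (K A B).trace = A.trace * B.trace := by
  rw [← trace_kronecker]
  simp only [K, reindex_apply, trace, diag_apply, submatrix_apply]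
  exact Equiv.sum_comp eqv.symm (fun x => (A ⊗ₖ B) x x)

noncomputable def X (a : Tri) : M1 := K (pr a) 1
noncomputable def Y (b : Tri) : M1 := K 1 (pr b)

theorem XX (a : Tri) : X a * X a = X a := by simp [X, K_mul, pr_idem]
theorem YY (b : Tri) : Y b * Y b = Y b := by simp [Y, K_mul, pr_idem]
theorem YX (a b : Tri) : Y b * X a = X a * Y b := by simp [X, Y, K_mul]
theorem XX0 {a b : Tri} (h : (a.1 ∩ b.1).card = 1) : X a * X b = 0 := by
  simp [X, K_mul, pr_orth h, K_zero_left]
theorem YY0 {a b : Tri} (h : (a.1 ∩ b.1).card = 1) : Y a * Y b = 0 := by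
  simp [Y, K_mul, pr_orth h, K_zero_right]
theorem XX' (a : Tri) (Z : M1) : X a * (X a * Z) = X a * Z := by rw [← mul_assoc, XX]
theorem YY' (b : Tri) (Z : M1) : Y b * (Y b * Z) = Y b * Z := by rw [← mul_assoc, YY]
theorem YX' (a b : Tri) (Z : M1) : Y b * (X a * Z) = X a * (Y b * Z) := by
  rw [← mul_assoc, YX, mul_assoc]
theorem XX0' {a b : Tri} (h : (a.1 ∩ b.1).card = 1) (Z : M1) : X a * (X b * Z) = 0 := by
  rw [← mul_assoc, XX0 h, zero_mul]

theorem tr1 : (1 : M1).trace = 10000 := by simp [mm_eq]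
theorem trX (a : Tri) : (X a).trace = 100 := by simp [X, K_trace, pr_trace]
theorem trY (b : Tri) : (Y b).trace = 100 := by simp [Y, K_trace, pr_trace]
theorem trXY (a b : Tri) : (X a * Y b).trace = 1 := by simp [X, Y, K_mul, K_trace, pr_trace]

theorem swP_zero : swP (0 : M1) = 1 := by simp [swP, fromBlocks_one]

theorem swP_sq {P : M1} (hP : P * P = P) : swP P * swP P = 1 := by
  rw [swP_mul, hP, two_smul, sub_self, swP_zero]

/-- the frame of an idempotent -/
def frm (P : M1) (hP : P * P = P) : GL Co ℚ := ⟨swP P, swP P, swP_sq hP, swP_sq hP⟩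

theorem mv_frm {P : M1} (hP : P * P = P) {r : ℕ} (hr : P.trace = r) : Mv StE FrE r (frm P hP) :=
  mv_idem _ hP hr rfl

theorem mv_frm_inv {P : M1} (hP : P * P = P) {r : ℕ} (hr : P.trace = r) :
    Mv StE FrE r (frm P hP)⁻¹ :=
  mv_idem _ hP hr rfl

theorem mv_quot {P Q : M1} (hP : P * P = P) (hQ : Q * Q = Q) (h1 : P * Q = Q) (h2 : Q * P = Q)
    {r : ℕ} (hr : P.trace - Q.trace = r) : Mv StE FrE r (frm P hP * (frm Q hQ)⁻¹) := by
  refine mv_idem _ (P := P - Q) ?_ (by rw [trace_sub, hr]) ?_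
  · simp only [mul_sub, sub_mul, hP, hQ, h1, h2, sub_self, sub_zero]
  · change swP P * swP Q = _
    rw [swP_mul, h1, two_smul]
    congr 1
    abel

theorem mv_quot' {P Q : M1} (hP : P * P = P) (hQ : Q * Q = Q) (h1 : P * Q = P) (h2 : Q * P = P)
    {r : ℕ} (hr : Q.trace - P.trace = r) : Mv StE FrE r (frm P hP * (frm Q hQ)⁻¹) := by
  refine mv_idem _ (P := Q - P) ?_ (by rw [trace_sub, hr]) ?_
  · simp only [mul_sub, sub_mul, hP, hQ, h1, h2, sub_self, sub_zero]
  · change swP P * swP Q = _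
    rw [swP_mul, h1, two_smul]
    congr 1
    abel

theorem iu (a b : Tri) : (X a * Y b) * (X a * Y b) = X a * Y b := by
  simp only [mul_assoc, YX', XX', YY]
theorem icu (a b : Tri) : (Y b - X a * Y b) * (Y b - X a * Y b) = Y b - X a * Y b := by
  simp only [mul_sub, sub_mul, mul_assoc, YX', XX', YY, sub_self, sub_zero]
theorem irw (a : Tri) : (1 - X a) * (1 - X a) = 1 - X a := by
  simp only [mul_sub, sub_mul, XX, mul_one, one_mul, sub_self, sub_zero]
theorem iru (a b : Tri) : (1 - X a + X a * Y b) * (1 - X a + X a * Y b) = 1 - X a + X a * Y b := by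
  simp only [mul_sub, sub_mul, mul_add, add_mul, mul_assoc, YX', YX, XX', XX, YY, mul_one, one_mul]
  abel
theorem ifu (a b : Tri) : (1 - X a * Y b) * (1 - X a * Y b) = 1 - X a * Y b := by
  simp only [mul_sub, sub_mul, mul_assoc, YX', XX', YY, mul_one, one_mul, sub_self, sub_zero]

theorem zq_symm (ζ : ZQ) : (ζ.1.2.1 ∩ ζ.1.1.1).card = 1 := by rw [Finset.inter_comm]; exact ζ.2

/-- the frames over `ℚ` -/
noncomputable def geo :
    Geo (GL Co ℚ) (Mv StE FrE) Tri ZQ (fun ζ => ζ.1.1) (fun ζ => ζ.1.2) 100 where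
  u a b := frm (X a * Y b) (iu a b)
  col b := frm (Y b) (YY b)
  cu a b := frm (Y b - X a * Y b) (icu a b)
  rw a := frm (1 - X a) (irw a)
  ru a b := frm (1 - X a + X a * Y b) (iru a b)
  fu a b := frm (1 - X a * Y b) (ifu a b)
  full := frm 1 (one_mul 1)
  a1 a b := mv_frm _ (by rw [trXY]; norm_num)
  a2 ζ b := mv_quot _ _
    (by simp only [sub_mul, mul_assoc, YX', YY, XX0' (zq_symm ζ), sub_zero])
    (by simp only [mul_sub, mul_assoc, YX', YY, XX0' ζ.2, sub_zero])
    (by rw [trace_sub, trY, trXY, trXY]; norm_num)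
  a3 a b := mv_quot _ _
    (by simp only [mul_sub, YX', YY])
    (by simp only [sub_mul, mul_assoc, YY])
    (by rw [trace_sub, trY, trXY]; norm_num)
  a4 a b := mv_quot _ _
    (by simp only [YX', YY])
    (by simp only [mul_assoc, YY])
    (by rw [trY, trXY]; norm_num)
  a5 b := mv_frm_inv _ (by rw [trY]; norm_num)
  a6 a b := mv_frm _ (by rw [trace_sub, trY, trXY]; norm_num)
  m1 a b := mv_quot _ _
    (by simp only [sub_mul, add_mul, mul_assoc, YY, one_mul]; abel)
    (by simp only [mul_sub, mul_add, YX', YX, YY, mul_one]; abel)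
    (by rw [trace_add, trace_sub, tr1, trX, trY, trXY]; norm_num)
  m2 a b := mv_quot _ _
    (by simp only [mul_sub, sub_mul, XX', one_mul, sub_self, sub_zero])
    (by simp only [mul_sub, sub_mul, mul_assoc, YX, XX', mul_one, sub_self, sub_zero])
    (by rw [trace_sub, trace_sub, tr1, trX, trY, trXY]; norm_num)
  m3 b := mv_quot _ _ (one_mul _) (mul_one _) (by rw [tr1, trY]; norm_num)
  m4 a := mv_frm _ (by rw [trace_sub, tr1, trX]; norm_num)
  m5 := mv_frm _ (by rw [tr1]; norm_num)
  b1 a b := mv_quot _ _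
    (by simp only [mul_sub, sub_mul, add_mul, mul_assoc, YX, XX', XX, mul_one, one_mul]; abel)
    (by simp only [mul_sub, sub_mul, mul_add, XX', XX, mul_one, one_mul]; abel)
    (by rw [trace_add, trace_sub, tr1, trX, trXY]; norm_num)
  b2 a ζ := mv_quot _ _
    (by simp only [mul_sub, sub_mul, mul_add, mul_assoc, YX', YX, XX', YY0 ζ.2, mul_one, one_mul,
          mul_zero]; abel)
    (by simp only [mul_sub, sub_mul, add_mul, mul_assoc, YX', XX', YY0 (zq_symm ζ), mul_one,
          one_mul, mul_zero]; abel)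
    (by rw [trace_add, trace_sub, trace_sub, tr1, trX, trXY, trXY]; norm_num)
  b3 a b := mv_quot _ _ (one_mul _) (mul_one _) (by rw [trace_sub, tr1, trXY]; norm_num)
  b4 a b := mv_quot _ _ (one_mul _) (mul_one _)
    (by rw [trace_add, trace_sub, tr1, trX, trXY]; norm_num)
  b5 a := mv_quot _ _ (one_mul _) (mul_one _) (by rw [trace_sub, tr1, trX]; norm_num)
  b6 a b := mv_quot _ _
    (by simp only [mul_sub, sub_mul, mul_assoc, YX, XX', mul_one, one_mul]; abel)
    (by simp only [mul_sub, sub_mul, XX', mul_one, one_mul]; abel)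
    (by rw [trace_sub, trace_sub, tr1, trX, trXY]; norm_num)
  c1 a b := mv_quot' _ _ (mul_one _) (one_mul _) (by rw [trace_sub, tr1, trXY]; norm_num)
  c2 a b := by
    have : frm 1 (one_mul 1) * frm (X a * Y b) (iu a b) = frm (1 - X a * Y b) (ifu a b) := by
      apply Units.ext
      change swP 1 * swP (X a * Y b) = swP _
      rw [swP_mul, one_mul, two_smul]
      congr 1
      abel
    rw [this, mul_inv_cancel]
    exact Mv.one

theorem geo_full : geo.full.val = Matrix.fromBlocks 0 1 1 0 := by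
  change swP 1 = _
  simp [swP]

end Crest.Agent.R326.GQ
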