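import Crest.Agent.R326.GeoQ1

/-! Row 326: lifting words of elementary matrices from `ℚ` to `Sq q` for large primes `q`. -/

set_option autoImplicit false

namespace Crest.Agent.R326.GQ

open Matrix Filter

/-- transfer of a geometry along an injective homomorphism -/
theorem geo_transfer {G G' : Type} [Group G] [Group G'] (φ : G' →* G) (hφ : Function.Injective φ)
    {D' : ℕ → G' → Prop} {T Z : Type} {za zb : Z → T} {h : ℕ}
    (Γ : Geo G (fun r g => ∃ g', φ g' = g ∧ D' r g') T Z za zb h) :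
    ∃ Γ' : Geo G' D' T Z za zb h, φ Γ'.full = Γ.full := by
  choose u hu hu' using Γ.a1
  choose ci hci hci' using Γ.a5
  choose cu hcu hcu' using Γ.a6
  choose rw hrw hrw' using Γ.m4
  obtain ⟨full, hfull, hfull'⟩ := Γ.m5
  choose r1 hr1 hr1' using Γ.b1
  choose f1 hf1 hf1' using Γ.c1
  have key : ∀ {r : ℕ} {g : G} (x : G'), (∃ g', φ g' = g ∧ D' r g') → φ x = g → D' r x := by
    rintro r g x ⟨g', h1, h2⟩ hx
    rwa [hφ (hx.trans h1.symm)]
  have hcol : ∀ b, φ (ci b)⁻¹ = Γ.col b := fun b => by rw [map_inv, hci, inv_inv]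
  have hru : ∀ a b, φ (r1 a b * rw a) = Γ.ru a b := fun a b => by
    rw [map_mul, hr1, hrw, inv_mul_cancel_right]
  have hfu : ∀ a b, φ (f1 a b * full) = Γ.fu a b := fun a b => by
    rw [map_mul, hf1, hfull, inv_mul_cancel_right]
  refine ⟨⟨u, fun b => (ci b)⁻¹, cu, rw, fun a b => r1 a b * rw a, fun a b => f1 a b * full, full,
    hu', fun ζ b => key _ (Γ.a2 ζ b) ?_, fun a b => key _ (Γ.a3 a b) ?_,
    fun a b => key _ (Γ.a4 a b) ?_, fun b => key _ (Γ.a5 b) ?_, hcu',
    fun a b => key _ (Γ.m1 a b) ?_, fun a b => key _ (Γ.m2 a b) ?_, fun b => key _ (Γ.m3 b) ?_,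
    hrw', hfull', fun a b => key _ (Γ.b1 a b) ?_, fun a ζ => key _ (Γ.b2 a ζ) ?_,
    fun a b => key _ (Γ.b3 a b) ?_, fun a b => key _ (Γ.b4 a b) ?_, fun a => key _ (Γ.b5 a) ?_,
    fun a b => key _ (Γ.b6 a b) ?_, fun a b => key _ (Γ.c1 a b) ?_,
    fun a b => key _ (Γ.c2 a b) ?_⟩, hfull⟩
  · rw [map_mul, map_inv, hcu, hu]
  · rw [map_mul, hcol, map_inv, hcu]
  · rw [map_mul, hcol, map_inv, hu]
  · rw [map_inv, hcol]
  · rw [map_mul, map_inv, hru, hcol]
  · rw [map_mul, map_inv, hrw, hcu]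
  · rw [map_mul, map_inv, hfull, hcol]
  · rw [map_mul, map_inv, hru, hrw]
  · rw [map_mul, map_inv, hfu, hru]
  · rw [map_mul, map_inv, hfull, hfu]
  · rw [map_mul, map_inv, hfull, hru]
  · rw [map_mul, map_inv, hfull, hrw]
  · rw [map_mul, map_inv, hfu, hrw]
  · rw [map_mul, map_inv, hfu, hfull]
  · rw [map_mul, map_mul, map_inv, hfu, hfull, hu]

/-- finitely many eventual properties hold together -/
theorem geo_eventually {G ι : Type} [Group G] {D : ℕ → G → Prop} {P : ι → ℕ → G → Prop}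
    {l : Filter ι} (hD : ∀ r g, D r g → ∀ᶠ q in l, P q r g) {T Z : Type} [Finite T] [Finite Z]
    {za zb : Z → T} {h : ℕ} (Γ : Geo G D T Z za zb h) :
    ∀ᶠ q in l, ∃ Γ' : Geo G (P q) T Z za zb h, Γ'.full = Γ.full := by
  filter_upwards [
    eventually_all.2 fun a => eventually_all.2 fun b => hD _ _ (Γ.a1 a b),
    eventually_all.2 fun a => eventually_all.2 fun b => hD _ _ (Γ.a2 a b),
    eventually_all.2 fun a => eventually_all.2 fun b => hD _ _ (Γ.a3 a b),
    eventually_all.2 fun a => eventually_all.2 fun b => hD _ _ (Γ.a4 a b),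
    eventually_all.2 fun a => hD _ _ (Γ.a5 a),
    eventually_all.2 fun a => eventually_all.2 fun b => hD _ _ (Γ.a6 a b),
    eventually_all.2 fun a => eventually_all.2 fun b => hD _ _ (Γ.m1 a b),
    eventually_all.2 fun a => eventually_all.2 fun b => hD _ _ (Γ.m2 a b),
    eventually_all.2 fun a => hD _ _ (Γ.m3 a),
    eventually_all.2 fun a => hD _ _ (Γ.m4 a),
    hD _ _ Γ.m5,
    eventually_all.2 fun a => eventually_all.2 fun b => hD _ _ (Γ.b1 a b),
    eventually_all.2 fun a => eventually_all.2 fun b => hD _ _ (Γ.b2 a b),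
    eventually_all.2 fun a => eventually_all.2 fun b => hD _ _ (Γ.b3 a b),
    eventually_all.2 fun a => eventually_all.2 fun b => hD _ _ (Γ.b4 a b),
    eventually_all.2 fun a => hD _ _ (Γ.b5 a),
    eventually_all.2 fun a => eventually_all.2 fun b => hD _ _ (Γ.b6 a b),
    eventually_all.2 fun a => eventually_all.2 fun b => hD _ _ (Γ.c1 a b),
    eventually_all.2 fun a => eventually_all.2 fun b => hD _ _ (Γ.c2 a b)]
    with q a1 a2 a3 a4 a5 a6 m1 m2 m3 m4 m5 b1 b2 b3 b4 b5 b6 c1 c2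
  exact ⟨⟨Γ.u, Γ.col, Γ.cu, Γ.rw, Γ.ru, Γ.fu, Γ.full, a1, a2, a3, a4, a5, a6, m1, m2, m3, m4, m5,
    b1, b2, b3, b4, b5, b6, c1, c2⟩, rfl⟩

/-- the inclusion of matrix groups -/
def incl (q : ℕ) : GL Co (Sq q) →* GL Co ℚ := GeneralLinearGroup.map (Sq q).subtype

theorem incl_apply (q : ℕ) (g : GL Co (Sq q)) (i j : Co) :
    (incl q g).val i j = (g.val i j : ℚ) := rfl

theorem incl_inj (q : ℕ) : Function.Injective (incl q) := by
  intro g g' h
  apply Units.ext
  ext i j
  rw [← incl_apply, ← incl_apply, h]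

/-- scale one coordinate by a unit -/
def dg {R : Type} [CommRing R] (t : Co) (c : Rˣ) : GL Co R :=
  ⟨diagonal (Function.update (fun _ => 1) t (c : R)),
    diagonal (Function.update (fun _ => 1) t ((c⁻¹ : Rˣ) : R)),
    by
      rw [diagonal_mul_diagonal, ← diagonal_one]
      congr 1; funext i
      by_cases h : i = t
      · subst h; simp
      · simp [h],
    by
      rw [diagonal_mul_diagonal, ← diagonal_one]
      congr 1; funext i
      by_cases h : i = t
      · subst h; simp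
      · simp [h]⟩

theorem dg_mul {R : Type} [CommRing R] (t : Co) (c d : Rˣ) : dg t (c * d) = dg t c * dg t d := by
  apply Units.ext
  change diagonal _ = diagonal _ * diagonal _
  rw [diagonal_mul_diagonal]
  congr 1; funext i
  by_cases h : i = t
  · subst h; simp
  · simp [h]

/-- a natural number prime to `q` is a unit of `Sq q` -/
def un (q a : ℕ) (ha : 0 < a) (h : Nat.Coprime a q) : (Sq q)ˣ :=
  ⟨(a : Sq q), ⟨(a : ℚ)⁻¹, by
      change Nat.Coprime _ q
      rwa [Rat.inv_natCast_den_of_pos ha]⟩,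
    by
      apply Subtype.ext
      have : (a : ℚ) ≠ 0 := by positivity
      simp [this],
    by
      apply Subtype.ext
      have : (a : ℚ) ≠ 0 := by positivity
      simp [this]⟩

theorem incl_dg (q : ℕ) (t : Co) (c : (Sq q)ˣ) :
    (incl q (dg t c)).val = diagonal (Function.update (fun _ => 1) t ((c : Sq q) : ℚ)) := by
  ext i j
  rw [incl_apply]
  change ((diagonal (Function.update (fun _ => (1 : Sq q)) t (c : Sq q)) i j : Sq q) : ℚ) = _
  by_cases h : i = j
  · subst h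
    by_cases h' : i = t
    · subst h'; simp
    · simp [h']
  · simp [h]

theorem lift_step (q : ℕ) {g : GL Co ℚ} (hg : g ∈ StE) : ∃ g' ∈ StQ q, incl q g' = g := by
  obtain ⟨i, j, hg⟩ := hg
  have hsq : (Equiv.swap (Sum.inl i : Co) (Sum.inr j)).permMatrix (Sq q) *
      (Equiv.swap (Sum.inl i : Co) (Sum.inr j)).permMatrix (Sq q) = 1 := by
    rw [← permMatrix_mul, Equiv.swap_mul_self, permMatrix_one]
  refine ⟨⟨_, _, hsq, hsq⟩, ⟨i, j, rfl⟩, ?_⟩
  apply Units.ext
  rw [hg]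
  ext a b
  rw [incl_apply]
  simp only [Equiv.Perm.permMatrix, PEquiv.toMatrix_apply]
  split_ifs <;> simp

theorem lift_add (q : ℕ) {g : GL Co ℚ} {i t : Co} (hit : i.ord < t.ord)
    (hg : g.val = 1 + single i t 1) : ∃ g' ∈ FrQ q, incl q g' = g := by
  have hne : t ≠ i := by rintro rfl; exact lt_irrefl _ hit
  have h0 : single i t (1 : Sq q) * single i t (1 : Sq q) = 0 := single_mul_single_of_ne _ _ _ _ hne _
  refine ⟨⟨1 + single i t 1, 1 - single i t 1, ?_, ?_⟩, Or.inl ⟨i, t, hit, rfl⟩, ?_⟩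
  · simp only [mul_sub, add_mul, h0, mul_one, one_mul]; abel
  · simp only [sub_mul, mul_add, h0, mul_one, one_mul]; abel
  · apply Units.ext
    rw [hg]
    ext a b
    rw [incl_apply]
    simp only [Matrix.add_apply, one_apply, single_apply]
    split_ifs <;> simp

theorem lift_scale {g : GL Co ℚ} {t : Co} {c : ℚ}
    (hg : g.val = diagonal (Function.update (fun _ => 1) t c)) :
    ∀ᶠ q in atTop, q.Prime → ∃ g' : GL Co (Sq q), incl q g' = g ∧
      ∀ r x, Mv (StQ q) (FrQ q) r x → Mv (StQ q) (FrQ q) r (g' * x) := by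
  have hc : c ≠ 0 := by
    intro h0
    have h1 : (g.val * g.inv) t t = 1 := by rw [g.val_inv, one_apply_eq]
    rw [hg, diagonal_mul, h0] at h1
    simp at h1
  have hn : 0 < c.num.natAbs := Int.natAbs_pos.2 (Rat.num_ne_zero.2 hc)
  filter_upwards [eventually_gt_atTop c.num.natAbs, eventually_gt_atTop c.den] with q h1 h2 hq
  have ca : Nat.Coprime c.num.natAbs q := (Nat.coprime_of_lt_prime hn.ne' h1 hq).symm
  have cb : Nat.Coprime c.den q := (Nat.coprime_of_lt_prime c.den_nz h2 hq).symm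
  have fa : dg t (un q _ hn ca) ∈ FrQ q := Or.inr (Or.inl ⟨t, _, ca, rfl⟩)
  have fb : dg t (un q _ c.den_pos cb)⁻¹ ∈ FrQ q := Or.inr (Or.inr (Or.inl ⟨t, _, cb, rfl⟩))
  have fn : dg t (-1 : (Sq q)ˣ) ∈ FrQ q := Or.inr (Or.inr (Or.inr ⟨t, rfl⟩))
  have hv : (((un q _ hn ca * (un q _ c.den_pos cb)⁻¹ : (Sq q)ˣ) : Sq q) : ℚ) =
      (c.num.natAbs : ℚ) * (c.den : ℚ)⁻¹ := by
    rw [Units.val_mul, Subring.coe_mul]
    congr 1
  rcases Int.natAbs_eq c.num with h | h
  · refine ⟨dg t (un q _ hn ca * (un q _ c.den_pos cb)⁻¹), ?_, fun r x hx => ?_⟩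
    · apply Units.ext
      rw [incl_dg, hg, hv]
      congr 2
      rw [← Int.cast_natCast, ← h, ← div_eq_mul_inv, Rat.num_div_den]
    · rw [dg_mul, mul_assoc]
      exact Mv.free fa (Mv.free fb hx)
  · refine ⟨dg t (-1 * (un q _ hn ca * (un q _ c.den_pos cb)⁻¹)), ?_, fun r x hx => ?_⟩
    · apply Units.ext
      rw [incl_dg, hg, Units.val_mul, Subring.coe_mul, hv]
      congr 2
      have h3 : (c.num : ℚ) = -(c.num.natAbs : ℚ) := by
        rw [← Int.cast_natCast, ← Int.cast_neg, ← h]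
      have h4 : c = (c.num : ℚ) * (c.den : ℚ)⁻¹ := by rw [← div_eq_mul_inv, Rat.num_div_den]
      rw [Units.val_neg, Units.val_one, Subring.coe_neg, Subring.coe_one]
      conv_rhs => rw [h4, h3]
      ring
    · rw [dg_mul, dg_mul, mul_assoc, mul_assoc]
      exact Mv.free fn (Mv.free fa (Mv.free fb hx))

theorem lift_mv {r : ℕ} {g : GL Co ℚ} (h : Mv StE FrE r g) :
    ∀ᶠ q in atTop, q.Prime → ∃ g' : GL Co (Sq q), incl q g' = g ∧ Mv (StQ q) (FrQ q) r g' := by
  induction h with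
  | one => exact Eventually.of_forall fun q _ => ⟨1, map_one _, Mv.one⟩
  | step hg _ ih =>
    filter_upwards [ih] with q ih hq
    obtain ⟨x', hx, hx'⟩ := ih hq
    obtain ⟨g', hg', hg''⟩ := lift_step q hg
    exact ⟨g' * x', by rw [map_mul, hx, hg''], Mv.step hg' hx'⟩
  | free hg _ ih =>
    rcases hg with ⟨i, t, hit, hg⟩ | ⟨t, c, hg⟩
    · filter_upwards [ih] with q ih hq
      obtain ⟨x', hx, hx'⟩ := ih hq
      obtain ⟨g', hg', hg''⟩ := lift_add q hit hg
      exact ⟨g' * x', by rw [map_mul, hx, hg''], Mv.free hg' hx'⟩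
    · filter_upwards [ih, lift_scale hg] with q ih hs hq
      obtain ⟨x', hx, hx'⟩ := ih hq
      obtain ⟨g', hg', hg''⟩ := hs hq
      exact ⟨g' * x', by rw [map_mul, hx, hg'], hg'' _ _ hx'⟩
  | succ _ ih =>
    filter_upwards [ih] with q ih hq
    obtain ⟨x', hx, hx'⟩ := ih hq
    exact ⟨x', hx, Mv.succ hx'⟩

end Crest.Agent.R326.GQ
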