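import Crest.Agent.R326.GeoQ1
import Crest.Agent.R326.GeoQAuxE
import Crest.Agent.R326.GeoQAuxL

/-! Row 326: the geometry and the code of the transposition gadget. -/

set_option autoImplicit false

namespace Crest.Agent.R326

theorem geoE : ∃ Γ : Geo (GL Co ℚ) (Mv StE FrE) Tri ZQ (fun ζ => ζ.1.1) (fun ζ => ζ.1.2) 100,
    Γ.full.val = Matrix.fromBlocks 0 1 1 0 := ⟨GQ.geo, GQ.geo_full⟩

theorem geoQ : ∃ q : ℕ, q.Prime ∧
    ∃ Γ : Geo (GL Co (Sq q)) (Mv (StQ q) (FrQ q)) Tri ZQ (fun ζ => ζ.1.1) (fun ζ => ζ.1.2) 100,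
      Γ.full.val = Matrix.fromBlocks 0 1 1 0 := by
  obtain ⟨Γ, hΓ⟩ := geoE
  have h := GQ.geo_eventually (P := fun q r g => q.Prime → ∃ g' : GL Co (Sq q),
    GQ.incl q g' = g ∧ Mv (StQ q) (FrQ q) r g') (fun _ _ h => GQ.lift_mv h) Γ
  obtain ⟨N, hN⟩ := Filter.eventually_atTop.1 h
  obtain ⟨q, hq, hp⟩ := Nat.exists_infinite_primes N
  obtain ⟨Γ₁, h₁⟩ := hN q hq
  obtain ⟨_, Γ₂, h₂⟩ := (GQ.geo_eventually (l := pure ()) (P := fun _ r g => ∃ g' : GL Co (Sq q),
    GQ.incl q g' = g ∧ Mv (StQ q) (FrQ q) r g') (fun _ _ h => h hp) Γ₁).exists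
  obtain ⟨Γ₃, h₃⟩ := GQ.geo_transfer (GQ.incl q) (GQ.incl_inj q) Γ₂
  refine ⟨q, hp, Γ₃, ?_⟩
  have h₄ : (GQ.incl q Γ₃.full).val = Matrix.fromBlocks 0 1 1 0 := by rw [h₃, h₂, h₁, hΓ]
  ext i j
  rw [← GQ.incl_apply, h₄]
  rcases i with i | i <;> rcases j with j | j <;>
    simp only [Matrix.fromBlocks_apply₁₁, Matrix.fromBlocks_apply₁₂, Matrix.fromBlocks_apply₂₁,
      Matrix.fromBlocks_apply₂₂, Matrix.zero_apply, Matrix.one_apply] <;>
    first | rfl | (split_ifs <;> rfl)

namespace GQ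

theorem den_unit {q : ℕ} (k : ℕ) (x : Sq q) : IsUnit ((x.1.den : ℕ) : ZMod (q ^ k)) :=
  (ZMod.unitOfCoprime x.1.den (Nat.Coprime.pow_right k x.2)).isUnit

/-- the residue of a rational number with denominator prime to `q` -/
noncomputable def red {q : ℕ} (k : ℕ) (x : Sq q) : ZMod (q ^ k) :=
  (x.1.num : ZMod (q ^ k)) * ((den_unit k x).unit⁻¹ : (ZMod (q ^ k))ˣ)

theorem red_den {q : ℕ} (k : ℕ) (x : Sq q) :
    red k x * (x.1.den : ZMod (q ^ k)) = (x.1.num : ZMod (q ^ k)) := by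
  rw [red, mul_assoc, IsUnit.val_inv_mul, mul_one]

theorem red_spec {q : ℕ} (k : ℕ) (x : Sq q) (d n : ℤ) (h : x.1 * d = n) :
    red k x * (d : ZMod (q ^ k)) = n := by
  have h1 : x.1.num * d = n * x.1.den := by
    have : (x.1.num : ℚ) * d = n * x.1.den := by
      rw [← h, ← Rat.mul_den_eq_num]; ring
    exact_mod_cast this
  have h2 : (x.1.num : ZMod (q ^ k)) * d = n * x.1.den := by
    have := congrArg (Int.cast : ℤ → ZMod (q ^ k)) h1
    simpa using this
  apply (den_unit k x).mul_right_cancel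
  rw [← h2, ← red_den]; ring

end GQ

/-- reduction modulo a power of `q` -/
theorem exists_red (q k : ℕ) : Nonempty (Sq q →+* ZMod (q ^ k)) := by
  refine ⟨{ toFun := GQ.red k, map_one' := ?_, map_mul' := ?_, map_zero' := ?_, map_add' := ?_ }⟩
  · simpa using GQ.red_spec k (1 : Sq q) 1 1 (by simp)
  · intro x y
    have h := GQ.red_spec k (x * y) (x.1.den * y.1.den) (x.1.num * y.1.num) (by
      push_cast
      rw [← Rat.mul_den_eq_num, ← Rat.mul_den_eq_num]; ring)
    apply ((GQ.den_unit k x).mul (GQ.den_unit k y)).mul_right_cancel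
    push_cast at h
    rw [h, ← GQ.red_den, ← GQ.red_den]; ring
  · simpa using GQ.red_spec k (0 : Sq q) 1 0 (by simp)
  · intro x y
    have h := GQ.red_spec k (x + y) (x.1.den * y.1.den) (x.1.num * y.1.den + y.1.num * x.1.den) (by
      push_cast
      rw [← Rat.mul_den_eq_num, ← Rat.mul_den_eq_num]; ring)
    apply ((GQ.den_unit k x).mul (GQ.den_unit k y)).mul_right_cancel
    push_cast at h
    rw [h, ← GQ.red_den, ← GQ.red_den]; ring

theorem GQ.code_id (a b : Tri) :
    (∑ ζ : ZQ, if ζ.1.1 = a then (if ζ.1.2 = b then (1 : ZMod 2) else 0) else 0) +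
      ∑ j : Fin 100, (if j ∈ b.1 then (1 : ZMod 2) else 0) * (if j ∈ a.1 then 1 else 0) =
      if a = b then 1 else 0 := by
  have h1 : (∑ ζ : ZQ, if ζ.1.1 = a then (if ζ.1.2 = b then (1 : ZMod 2) else 0) else 0) =
      if (a.1 ∩ b.1).card = 1 then 1 else 0 := by
    split_ifs with h
    · let z : ZQ := ⟨(a, b), h⟩
      refine (Finset.sum_eq_single z ?_ ?_).trans ?_
      · intro ζ _ hζ
        split_ifs with h1 h2
        · exact absurd (Subtype.ext (Prod.ext h1 h2)) hζ
        · rfl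
        · rfl
      · intro h; exact absurd (Finset.mem_univ _) h
      · exact (if_pos rfl).trans (if_pos rfl)
    · refine Finset.sum_eq_zero fun ζ _ => ?_
      split_ifs with h1 h2
      · exact absurd (by rw [← h1, ← h2]; exact ζ.2) h
      · rfl
      · rfl
  have h2 : ∑ j : Fin 100, (if j ∈ b.1 then (1 : ZMod 2) else 0) * (if j ∈ a.1 then 1 else 0) =
      ((a.1 ∩ b.1).card : ZMod 2) := by
    have : ∀ j, (if j ∈ b.1 then (1 : ZMod 2) else 0) * (if j ∈ a.1 then 1 else 0) =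
        if j ∈ a.1 ∩ b.1 then 1 else 0 := by
      intro j
      by_cases ha : j ∈ a.1 <;> by_cases hb : j ∈ b.1 <;> simp [ha, hb]
    simp only [this, Finset.sum_ite_mem, Finset.univ_inter, Finset.sum_const]
    simp
  rw [h1, h2]
  by_cases hab : a = b
  · subst hab
    rw [Finset.inter_self, a.2, if_pos rfl]; decide
  · have hle : (a.1 ∩ b.1).card ≤ 3 := (Finset.card_le_card Finset.inter_subset_left).trans a.2.le
    have hne : (a.1 ∩ b.1).card ≠ 3 := by
      intro h3
      have e1 : a.1 ∩ b.1 = a.1 :=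
        Finset.eq_of_subset_of_card_le Finset.inter_subset_left (by rw [h3, a.2])
      have e2 : a.1 ∩ b.1 = b.1 :=
        Finset.eq_of_subset_of_card_le Finset.inter_subset_right (by rw [h3, b.2])
      exact hab (Subtype.ext (e1.symm.trans e2))
    rw [if_neg hab]
    generalize (a.1 ∩ b.1).card = n at hle hne
    interval_cases n
    · decide
    · decide
    · decide
    · exact absurd rfl hne

theorem codeQ : Nonempty (Code (ZMod 2) Set.univ Tri ZQ (Fin 100) (fun ζ => ζ.1.1)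
    (fun ζ => ζ.1.2)) :=
  ⟨{ e := fun b ζ => if ζ.1.2 = b then 1 else 0
     Jc := fun b j => if j ∈ b.1 then 1 else 0
     Vc := fun j a => if j ∈ a.1 then 1 else 0
     he := fun b ζ h => by
       by_contra h'
       exact h (if_neg h')
     hid := GQ.code_id
     e_mem := fun _ _ => Set.mem_univ _
     J_mem := fun _ _ => Set.mem_univ _
     V_mem := fun _ _ => Set.mem_univ _
     neg_mem := Set.mem_univ _ }⟩

theorem GQ.card_Tri : Fintype.card Tri = 161700 := by
  have h := Fintype.card_finset_len (α := Fin 100) 3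
  rw [Fintype.card_fin, Nat.choose_eq_descFactorial_div_factorial] at h
  rw [← Nat.card_eq_fintype_card] at h ⊢
  exact h

theorem card_ZQ : Fintype.card ZQ ≤ 161700 ^ 2 := by
  have h : Fintype.card ZQ ≤ Fintype.card (Tri × Tri) :=
    Fintype.card_le_of_injective (fun ζ : ZQ => ζ.1) Subtype.val_injective
  rwa [Fintype.card_prod, GQ.card_Tri, ← sq] at h

end Crest.Agent.R326
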