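import Crest.Agent.R326.GeoQDefs

/-! Row 326: linear algebra over `ℚ` for the transposition gadget. -/

set_option autoImplicit false

namespace Crest.Agent.R326

open Matrix

/-- exchange the components along the idempotent `P` -/
def swP {n : Type} [Fintype n] [DecidableEq n] (P : Matrix n n ℚ) : Matrix (n ⊕ n) (n ⊕ n) ℚ :=
  fromBlocks (1 - P) P P (1 - P)

theorem swP_mul {n : Type} [Fintype n] [DecidableEq n] (P Q : Matrix n n ℚ) :
    swP P * swP Q = swP (P + Q - 2 • (P * Q)) := by
  unfold swP
  rw [fromBlocks_multiply]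
  congr 1 <;> noncomm_ring

theorem swP_zero {n : Type} [Fintype n] [DecidableEq n] : swP (0 : Matrix n n ℚ) = 1 := by
  unfold swP
  rw [sub_zero, fromBlocks_one]

theorem swP_mul_self {n : Type} [Fintype n] [DecidableEq n] {P : Matrix n n ℚ} (hP : P * P = P) :
    swP P * swP P = 1 := by
  rw [swP_mul, hP, two_smul, sub_self, swP_zero]

/-- an idempotent of trace `r` is a sum of `r` orthogonal rank-one idempotents -/
theorem idem_decomp {n : Type} [Fintype n] [DecidableEq n] {P : Matrix n n ℚ} (hP : P * P = P)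
    {r : ℕ} (hr : P.trace = r) : ∃ v l : Fin r → n → ℚ,
      P = ∑ i, vecMulVec (v i) (l i) ∧ ∀ i j, l i ⬝ᵥ v j = if i = j then 1 else 0 := by
  let f : (n → ℚ) →ₗ[ℚ] (n → ℚ) := Matrix.toLin' P
  have hff : ∀ x, f (f x) = f x := fun x => by
    simp only [f, Matrix.toLin'_apply, Matrix.mulVec_mulVec, hP]
  have hproj : LinearMap.IsProj (LinearMap.range f) f :=
    ⟨fun x => LinearMap.mem_range_self f x, by
      rintro _ ⟨x, rfl⟩
      exact hff x⟩
  have htr : LinearMap.trace ℚ (n → ℚ) f = P.trace := by
    simp only [f, Matrix.trace_toLin'_eq]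
  have hfin : Module.finrank ℚ (LinearMap.range f) = r := by
    have := hproj.trace
    rw [htr, hr] at this
    exact_mod_cast this.symm
  let b : Module.Basis (Fin r) ℚ (LinearMap.range f) := Module.finBasisOfFinrankEq ℚ _ hfin
  let c : Fin r → (n → ℚ) →ₗ[ℚ] ℚ := fun i => (b.coord i).comp f.rangeRestrict
  have hc : ∀ i x, (fun k => c i (Pi.single k 1)) ⬝ᵥ x = c i x := by
    intro i x
    conv_rhs => rw [pi_eq_sum_univ' x]
    rw [map_sum]
    simp [dotProduct, mul_comm]
  refine ⟨fun i => (b i : n → ℚ), fun i k => c i (Pi.single k 1), ?_, fun i j => ?_⟩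
  · ext x k
    have h1 := congrArg (fun y : LinearMap.range f => (y : n → ℚ) x)
      (b.sum_repr (f.rangeRestrict (Pi.single k 1)))
    simp only [Submodule.coe_sum, Finset.sum_apply, Submodule.coe_smul, Pi.smul_apply, smul_eq_mul,
      LinearMap.codRestrict_apply] at h1
    have h2 : f (Pi.single k 1) x = P x k := by simp [f]
    rw [Matrix.sum_apply, ← h2, ← h1]
    refine Finset.sum_congr rfl fun i _ => ?_
    simp [vecMulVec_apply, c, mul_comm]
  · rw [hc]
    have h1 : f.rangeRestrict (b j : n → ℚ) = b j := Subtype.ext (hproj.map_id _ (b j).2)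
    simp only [c, LinearMap.comp_apply, h1, Module.Basis.coord_apply, Module.Basis.repr_self]
    rw [Finsupp.single_apply]
    simp only [eq_comm]

/-- elementary free matrices over `ℚ`: add a higher coordinate to a lower one, scale one -/
def FrE : Set (GL Co ℚ) :=
  {g | (∃ i t : Co, i.ord < t.ord ∧ g.val = 1 + Matrix.single i t 1) ∨
    (∃ (t : Co) (c : ℚ), g.val = Matrix.diagonal (Function.update (fun _ => 1) t c))}

def StE : Set (GL Co ℚ) :=
  {g | ∃ i j : Fin mm, g.val = (Equiv.swap (Sum.inl i : Co) (Sum.inr j)).permMatrix ℚ}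

theorem Mv.mul {G : Type} [Group G] {St Fr : Set G} {r s : ℕ} {x y : G} (hx : Mv St Fr r x)
    (hy : Mv St Fr s y) : Mv St Fr (r + s) (x * y) := by
  induction hx with
  | one => simpa using hy
  | step hg _ ih =>
    rw [mul_assoc, Nat.add_right_comm]
    exact Mv.step hg ih
  | free hg _ ih =>
    rw [mul_assoc]
    exact Mv.free hg ih
  | succ _ ih =>
    rw [Nat.add_right_comm]
    exact Mv.succ ih

theorem Mv.mono {G : Type} [Group G] {St Fr : Set G} {r s : ℕ} {x : G} (hx : Mv St Fr r x)
    (h : r ≤ s) : Mv St Fr s x := by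
  induction h with
  | refl => exact hx
  | step _ ih => exact Mv.succ ih

theorem Mv.of_free {G : Type} [Group G] {St Fr : Set G} {g : G} (hg : g ∈ Fr) : Mv St Fr 0 g := by
  simpa using Mv.free hg (Mv.one (St := St) (Fr := Fr))

theorem Mv.of_step {G : Type} [Group G] {St Fr : Set G} {g : G} (hg : g ∈ St) : Mv St Fr 1 g := by
  simpa using Mv.step hg (Mv.one (St := St) (Fr := Fr))

namespace GeoQ1

theorem ord_inj : Function.Injective Co.ord := by
  rintro (a | a) (b | b) h <;> simp only [Co.ord] at h
  · exact congrArg _ (Fin.ext h)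
  · have := a.2
    omega
  · have := b.2
    omega
  · exact congrArg _ (Fin.ext (by omega))

/-- moves, on matrices -/
def MvM (r : ℕ) (M : Matrix Co Co ℚ) : Prop := ∃ g : GL Co ℚ, g.val = M ∧ Mv StE FrE r g

theorem MvM.mul {r s : ℕ} {M N : Matrix Co Co ℚ} (hM : MvM r M) (hN : MvM s N) :
    MvM (r + s) (M * N) := by
  obtain ⟨g, rfl, hg⟩ := hM
  obtain ⟨g', rfl, hg'⟩ := hN
  exact ⟨g * g', rfl, hg.mul hg'⟩

theorem MvM.one : MvM 0 1 := ⟨1, rfl, Mv.one⟩

theorem MvM.mv {r : ℕ} {g : GL Co ℚ} (h : MvM r g.val) : Mv StE FrE r g := by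
  obtain ⟨g', e, hg'⟩ := h
  rwa [← Units.ext e]

theorem mvM_scale (t : Co) {c : ℚ} (hc : c ≠ 0) :
    MvM 0 (Matrix.diagonal (Function.update (fun _ => 1) t c)) := by
  have key : ∀ a b : ℚ, a * b = 1 → Matrix.diagonal (Function.update (fun _ : Co => (1 : ℚ)) t a) *
      Matrix.diagonal (Function.update (fun _ => 1) t b) = 1 := by
    intro a b hab
    rw [diagonal_mul_diagonal, ← diagonal_one]
    congr 1
    funext x
    by_cases hx : x = t
    · subst hx
      simp [hab]
    · simp [Function.update_of_ne hx]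
  exact ⟨⟨_, _, key c c⁻¹ (mul_inv_cancel₀ hc), key c⁻¹ c (inv_mul_cancel₀ hc)⟩, rfl,
    Mv.of_free (Or.inr ⟨t, c, rfl⟩)⟩

theorem mvM_diag (d : Co → ℚ) (hd : ∀ x, d x ≠ 0) : MvM 0 (Matrix.diagonal d) := by
  have key : ∀ s : Finset Co, MvM 0 (Matrix.diagonal fun x => if x ∈ s then d x else 1) := by
    intro s
    induction s using Finset.induction_on with
    | empty => simpa using MvM.one
    | insert t s ht ih =>
      have := (mvM_scale t (hd t)).mul ih
      rw [diagonal_mul_diagonal] at this
      convert this using 2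
      funext x
      by_cases hx : x = t
      · subst hx
        simp [ht]
      · simp [hx]
  simpa using key Finset.univ

theorem mvM_add {i t : Co} (h : i.ord < t.ord) (c : ℚ) : MvM 0 (1 + Matrix.single i t c) := by
  have hit : i ≠ t := fun e => by
    rw [e] at h
    exact lt_irrefl _ h
  have h1 : MvM 0 (1 + Matrix.single i t (1 : ℚ)) := by
    have e : Matrix.single i t (1 : ℚ) * Matrix.single i t (1 : ℚ) = 0 :=
      Matrix.single_mul_single_of_ne _ _ _ _ hit.symm _
    refine ⟨⟨1 + Matrix.single i t 1, 1 - Matrix.single i t 1, ?_, ?_⟩, rfl,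
      Mv.of_free (Or.inl ⟨i, t, h, rfl⟩)⟩
    · rw [add_mul, mul_sub, mul_sub, e]
      simp
    · rw [sub_mul, mul_add, mul_add, e]
      simp
  by_cases hc : c = 0
  · subst hc
    simpa using MvM.one
  have := ((mvM_scale i hc).mul h1).mul (mvM_scale i (inv_ne_zero hc))
  convert this using 1
  ext x y
  rw [mul_diagonal, diagonal_mul]
  simp only [Matrix.add_apply, Matrix.one_apply, Matrix.single_apply]
  by_cases hx : x = i
  · subst hx
    by_cases hy : y = x
    · subst hy
      simp [hit.symm, hc]
    · have hy' : ¬ x = y := fun e => hy e.symm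
      by_cases hty : t = y <;> simp [Function.update_of_ne hy, hy', hty]
  · have hx' : ¬ i = x := fun e => hx e.symm
    by_cases hy : y = i
    · subst hy
      simp [hx, hx']
    · simp [Function.update_of_ne hx, Function.update_of_ne hy, hx']

theorem mvM_tri (M : Matrix Co Co ℚ) (h : ∀ i t : Co, t.ord < i.ord → M i t = 0)
    (hd : ∀ x, M x x ≠ 0) : MvM 0 M := by
  classical
  generalize hn : (Finset.univ.filter fun p : Co × Co => p.1 ≠ p.2 ∧ M p.1 p.2 ≠ 0).card = n
  induction n generalizing M with
  | zero =>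
    have : M = Matrix.diagonal fun x => M x x := by
      ext x y
      by_cases hxy : x = y
      · subst hxy
        simp
      · rw [diagonal_apply_ne _ hxy]
        by_contra hne
        have hm : (x, y) ∈ Finset.univ.filter fun p : Co × Co => p.1 ≠ p.2 ∧ M p.1 p.2 ≠ 0 := by
          simp [hxy, hne]
        rw [Finset.card_eq_zero.1 hn] at hm
        simp at hm
    rw [this]
    exact mvM_diag _ hd
  | succ n ih =>
    obtain ⟨p, hp, hmax⟩ := Finset.exists_max_image
      (Finset.univ.filter fun p : Co × Co => p.1 ≠ p.2 ∧ M p.1 p.2 ≠ 0) (fun p => p.2.ord)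
      (Finset.card_pos.1 (by omega))
    obtain ⟨i, t⟩ := p
    simp only [Finset.mem_filter, Finset.mem_univ, true_and] at hp hmax
    obtain ⟨hit, hne⟩ := hp
    have hlt : i.ord < t.ord := by
      rcases lt_trichotomy i.ord t.ord with h1 | h1 | h1
      · exact h1
      · exact absurd (ord_inj h1) hit
      · exact absurd (h i t h1) hne
    have hrow : ∀ y, y ≠ t → M t y = 0 := by
      intro y hy
      by_contra h0
      have h1 := hmax (t, y) ⟨hy.symm, h0⟩
      rcases lt_or_eq_of_le h1 with h2 | h2
      · exact h0 (h t y h2)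
      · exact hy (ord_inj h2)
    let M' : Matrix Co Co ℚ := Matrix.of fun x y => if x = i ∧ y = t then 0 else M x y
    have hM' : MvM 0 M' := by
      refine ih M' (fun x y hxy => ?_) (fun x => ?_) ?_
      · simp only [M', of_apply, h x y hxy, ite_self]
      · have : ¬ (x = i ∧ x = t) := fun e => hit (e.1.symm.trans e.2)
        simp only [M', of_apply, this, if_false]
        exact hd x
      · have : (Finset.univ.filter fun p : Co × Co => p.1 ≠ p.2 ∧ M' p.1 p.2 ≠ 0) =
            (Finset.univ.filter fun p : Co × Co => p.1 ≠ p.2 ∧ M p.1 p.2 ≠ 0).erase (i, t) := by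
          ext ⟨x, y⟩
          simp only [M', of_apply, Finset.mem_filter, Finset.mem_univ, true_and, Finset.mem_erase,
            Ne, Prod.mk.injEq]
          by_cases hxy : x = i ∧ y = t <;> simp [hxy]
        rw [this, Finset.card_erase_of_mem (by simp [hit, hne]), hn]
        rfl
    have := (mvM_add hlt (M i t / M t t)).mul hM'
    convert this using 1
    ext x y
    rw [add_mul, one_mul, Matrix.add_apply]
    by_cases hx : x = i
    · subst hx
      rw [Matrix.single_mul_apply_same]
      have hti : ¬ t = x := fun e => hit e.symm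
      by_cases hy : y = t
      · subst hy
        simp [M', hti, hd y]
      · simp [M', hti, hy, hrow y hy]
    · rw [Matrix.single_mul_apply_of_ne _ _ _ _ _ hx]
      simp [M', hx]

theorem inv_tri (g : GL Co ℚ) (h : ∀ i t : Co, t.ord < i.ord → g.val i t = 0) :
    ∀ i t : Co, t.ord < i.ord → g⁻¹.val i t = 0 := by
  have hb : BlockTriangular g.val Co.ord := fun i t hit => h i t hit
  let _ : Invertible g.val := g.invertible
  have := blockTriangular_inv_of_blockTriangular hb
  intro i t hit
  rw [Matrix.coe_units_inv]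
  exact this hit

end GeoQ1

open GeoQ1

/-- invertible triangular matrices are free -/
theorem mv_triangular (g : GL Co ℚ) (h : ∀ i t : Co, t.ord < i.ord → g.val i t = 0) :
    Mv StE FrE 0 g := by
  refine MvM.mv (mvM_tri _ h fun x hx => ?_)
  have h1 : (g.val * g⁻¹.val) x x = 1 := by
    rw [Units.mul_inv]
    simp
  rw [Matrix.mul_apply, Finset.sum_eq_zero] at h1
  · exact zero_ne_one h1
  · intro y _
    rcases lt_trichotomy y.ord x.ord with h2 | h2 | h2
    · rw [h x y h2, zero_mul]
    · rw [ord_inj h2, hx, zero_mul]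
    · rw [inv_tri g h y x h2, mul_zero]

/-- the exchange along a rank-one idempotent costs one step -/
theorem mv_rank_one (g : GL Co ℚ) (v l : Fin mm → ℚ) (h : l ⬝ᵥ v = 1)
    (hg : g.val = swP (vecMulVec v l)) : Mv StE FrE 1 g := by
  classical
  have hl : (Finset.univ.filter fun i => l i ≠ 0).Nonempty := by
    by_contra h0
    have : l = 0 := funext fun i => by
      by_contra hi
      exact h0 ⟨i, by simpa using hi⟩
    simp [this] at h
  have hv : (Finset.univ.filter fun i => v i ≠ 0).Nonempty := by
    by_contra h0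
    have : v = 0 := funext fun i => by
      by_contra hi
      exact h0 ⟨i, by simpa using hi⟩
    simp [this] at h
  obtain ⟨i, hi, himin⟩ := Finset.exists_min_image _ id hl
  obtain ⟨j, hj, hjmax⟩ := Finset.exists_max_image _ id hv
  simp only [Finset.mem_filter, Finset.mem_univ, true_and, id] at hi himin hj hjmax
  let a : Co := Sum.inl i
  let b : Co := Sum.inr j
  let w : Co → ℚ := Sum.elim v (-v)
  let μ : Co → ℚ := Sum.elim l (-l)
  have hab : a ≠ b := by simp [a, b]
  have hμa : μ a ≠ 0 := hi
  have hwb : w b ≠ 0 := by simpa [w, b] using hj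
  have hμ0 : ∀ k : Co, k.ord < a.ord → μ k = 0 := by
    rintro (k | k) hk
    · by_contra h0
      have := himin k h0
      simp only [a, Co.ord] at hk
      exact absurd hk (not_lt.2 this)
    · simp only [a, Co.ord] at hk
      have := i.2
      omega
  have hw0 : ∀ k : Co, b.ord < k.ord → w k = 0 := by
    rintro (k | k) hk
    · simp only [b, Co.ord] at hk
      have := k.2
      omega
    · by_contra h0
      have := hjmax k (by simpa [w] using h0)
      simp only [b, Co.ord] at hk
      exact absurd (show j < k from by omega) (not_lt.2 this)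
  have hablt : a.ord < b.ord := by
    simp only [a, b, Co.ord]
    have := i.2
    omega
  have hμw : μ ⬝ᵥ w = 2 := by
    simp only [μ, w, sumElim_dotProduct_sumElim, neg_dotProduct, dotProduct_neg, h]
    norm_num
  have hgw : g.val = 1 - vecMulVec w μ := by
    rw [hg]
    ext (x | x) (y | y) <;> simp [swP, w, μ, vecMulVec_apply, Matrix.one_apply]
  have hgu : ∀ u : Co → ℚ, g.val *ᵥ u = u - (μ ⬝ᵥ u) • w := by
    intro u
    rw [hgw, sub_mulVec, one_mulVec, vecMulVec_mulVec, op_smul_eq_smul]
  let col : Co → Co → ℚ := fun k =>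
    if k = a then Pi.single a 1 else if k = b then Pi.single a 1 - μ a • w
    else Pi.single k 1 - (μ k / μ a) • Pi.single a 1
  have cola : col a = Pi.single a 1 := by simp [col]
  have colb : col b = Pi.single a 1 - μ a • w := by simp [col, hab.symm]
  have colk : ∀ k, k ≠ a → k ≠ b → col k = Pi.single k 1 - (μ k / μ a) • Pi.single a 1 := by
    intro k h1 h2
    simp [col, h1, h2]
  have hcol : ∀ k, g.val *ᵥ col k = col (Equiv.swap a b k) := by
    intro k
    rw [hgu]
    by_cases h1 : k = a
    · rw [h1, Equiv.swap_apply_left, cola, colb, dotProduct_single, mul_one]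
    · by_cases h2 : k = b
      · rw [h2, Equiv.swap_apply_right, cola, colb, dotProduct_sub, dotProduct_single,
          dotProduct_smul, hμw]
        module
      · rw [Equiv.swap_apply_of_ne_of_ne h1 h2, colk k h1 h2, dotProduct_sub, dotProduct_single,
          dotProduct_smul, dotProduct_single]
        have : μ k * 1 - (μ k / μ a) • (μ a * 1) = 0 := by
          simp [hμa]
        rw [this, zero_smul, sub_zero]
  let A : Matrix Co Co ℚ := Matrix.of fun x k => col k x
  have htri : ∀ x k : Co, k.ord < x.ord → A x k = 0 := by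
    intro x k hk
    have hxk : x ≠ k := fun e => by
      rw [e] at hk
      exact lt_irrefl _ hk
    simp only [A, of_apply]
    by_cases h1 : k = a
    · rw [h1] at hxk ⊢
      rw [cola, Pi.single_eq_of_ne hxk]
    · by_cases h2 : k = b
      · rw [h2] at hk ⊢
        have hxa : x ≠ a := fun e => by
          rw [e] at hk
          omega
        simp [colb, Pi.single_eq_of_ne hxa, hw0 x hk]
      · rw [colk k h1 h2]
        by_cases hxa : x = a
        · rw [hxa] at hk hxk ⊢
          simp [Pi.single_eq_of_ne hxk, hμ0 k hk]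
        · simp [Pi.single_eq_of_ne hxk, Pi.single_eq_of_ne hxa]
  have hdiag : ∀ x, A x x ≠ 0 := by
    intro k
    simp only [A, of_apply]
    by_cases h1 : k = a
    · simp [h1, cola]
    · by_cases h2 : k = b
      · simp [h2, colb, hμa, hwb]
      · simp [colk k h1 h2, Pi.single_eq_of_ne h1]
  obtain ⟨gA, hgA, hA⟩ := mvM_tri A htri hdiag
  have hAi : Mv StE FrE 0 gA⁻¹ := mv_triangular _ (inv_tri gA (hgA ▸ htri))
  have hSS : (Equiv.swap a b).permMatrix ℚ * (Equiv.swap a b).permMatrix ℚ = 1 := by
    rw [← Matrix.permMatrix_mul, Equiv.swap_mul_self, Matrix.permMatrix_one]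
  let S : GL Co ℚ := ⟨_, _, hSS, hSS⟩
  have hS : Mv StE FrE 1 S := Mv.of_step ⟨i, j, rfl⟩
  have e : g * gA = gA * S := by
    refine Units.ext ?_
    rw [Units.val_mul, Units.val_mul, hgA]
    change _ = A * (Equiv.swap a b).toPEquiv.toMatrix
    rw [PEquiv.mul_toMatrix_toPEquiv]
    ext x k
    exact congrFun (hcol k) x
  have e' : g = gA * S * gA⁻¹ := by rw [← e, mul_inv_cancel_right]
  rw [e']
  exact (hA.mul hS).mul hAi

theorem mv_idem (g : GL Co ℚ) {P : Matrix (Fin mm) (Fin mm) ℚ} (hP : P * P = P) {r : ℕ}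
    (hr : P.trace = r) (hg : g.val = swP P) : Mv StE FrE r g := by
  obtain ⟨v, l, hPe, hvl⟩ := idem_decomp hP hr
  have key : ∀ s : Finset (Fin r), MvM s.card (swP (∑ i ∈ s, vecMulVec (v i) (l i))) := by
    intro s
    induction s using Finset.induction_on with
    | empty => simpa [swP_zero] using MvM.one
    | insert i s hi ih =>
      have hii : l i ⬝ᵥ v i = 1 := by rw [hvl, if_pos rfl]
      have hid : vecMulVec (v i) (l i) * vecMulVec (v i) (l i) = vecMulVec (v i) (l i) := by
        rw [vecMulVec_mul_vecMulVec, hii, one_smul]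
      have h1 : MvM 1 (swP (vecMulVec (v i) (l i))) :=
        ⟨⟨_, _, swP_mul_self hid, swP_mul_self hid⟩, rfl, mv_rank_one _ _ _ hii rfl⟩
      have h2 := h1.mul ih
      have h3 : vecMulVec (v i) (l i) * ∑ j ∈ s, vecMulVec (v j) (l j) = 0 := by
        rw [Finset.mul_sum]
        refine Finset.sum_eq_zero fun j hj => ?_
        rw [vecMulVec_mul_vecMulVec, hvl, if_neg (fun e : i = j => hi (e ▸ hj)), zero_smul, vecMulVec_zero]
      rw [swP_mul, h3, smul_zero, sub_zero] at h2
      rw [Finset.card_insert_of_notMem hi, Finset.sum_insert hi, add_comm s.card]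
      exact h2
  have := key Finset.univ
  rw [← hPe, ← hg, Finset.card_univ, Fintype.card_fin] at this
  exact this.mv

end Crest.Agent.R326
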