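import Crest.Agent.R326.GadDefs

/-! Row 326: the geometry of the transposition gadget (definitions). Index vectors are rows, a
matrix `g` acts by `x ↦ x ᵥ* g`. The coordinates `inl i` are the digits of the high register, the
coordinates `inr j` those of the low register. -/

set_option autoImplicit false

namespace Crest.Agent.R326

/-- rationals whose denominator is prime to `q` -/
def Sq (q : ℕ) : Subring ℚ where
  carrier := {x | Nat.Coprime x.den q}
  mul_mem' := fun {a b} ha hb =>
    Nat.Coprime.coprime_dvd_left (Rat.mul_den_dvd a b) (Nat.Coprime.mul_left ha hb)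
  one_mem' := by simp
  add_mem' := fun {a b} ha hb =>
    Nat.Coprime.coprime_dvd_left (Rat.add_den_dvd a b) (Nat.Coprime.mul_left ha hb)
  zero_mem' := by simp
  neg_mem' := fun {a} ha => by simpa using ha

/-- coordinates -/
abbrev Co : Type := Fin mm ⊕ Fin mm

/-- height of a coordinate: smaller is more significant -/
def Co.ord : Co → ℕ
  | .inl i => i
  | .inr j => mm + j

/-- steps: exchange one high and one low coordinate -/
def StQ (q : ℕ) : Set (GL Co (Sq q)) :=
  {g | ∃ i j : Fin mm, g.val = (Equiv.swap (Sum.inl i : Co) (Sum.inr j)).permMatrix (Sq q)}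

/-- free elements: add a higher coordinate to a lower one; multiply a coordinate by a natural
number prime to `q`, by its inverse, or by `-1` -/
def FrQ (q : ℕ) : Set (GL Co (Sq q)) :=
  {g | (∃ i t : Co, i.ord < t.ord ∧ g.val = 1 + Matrix.single i t 1) ∨
    (∃ (t : Co) (c : ℕ), Nat.Coprime c q ∧
      g.val = Matrix.diagonal (Function.update (fun _ => 1) t (c : Sq q))) ∨
    (∃ (t : Co) (c : ℕ), Nat.Coprime c q ∧
      g⁻¹.val = Matrix.diagonal (Function.update (fun _ => 1) t (c : Sq q))) ∨
    (∃ t : Co, g.val = Matrix.diagonal (Function.update (fun _ => 1) t (-1)))}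

/-- pairs of triples meeting in exactly one point -/
def ZQ : Type := {p : Tri × Tri // (p.1.1 ∩ p.2.1).card = 1}

instance : Finite ZQ := Subtype.finite
noncomputable instance : Fintype ZQ := Fintype.ofFinite _

end Crest.Agent.R326
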