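import Crest.Agent.R326.DigDefs
import Crest.Agent.R326.Words

/-! Row 326: Kronecker substitution; loading and unloading the cube. -/

set_option autoImplicit false

namespace Crest.Agent.R326

/-- the number encoded by coefficients on the cube `[0,N)³` -/
def cubeVal (B₀ N : ℕ) (c : ℕ → ℕ → ℕ → ℕ) : ℕ :=
  ∑ i ∈ Finset.range N, ∑ j ∈ Finset.range N, ∑ k ∈ Finset.range N,
    c i j k * 2 ^ (B₀ * (k + (N + 1) / 2 * j + ((N + 1) / 2) ^ 2 * i))

theorem chunkF_lt (B₀ M : ℕ) (x : List Bool) (i j k : ℕ) : chunkF B₀ M x i j k < 2 ^ B₀ := by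
  unfold chunkF
  split_ifs
  · exact (valLE_lt _).trans_le (Nat.pow_le_pow_right two_pos (List.length_take_le _ _))
  · exact Nat.two_pow_pos _

theorem cyc3_le {N B₀ : ℕ} {f g : ℕ → ℕ → ℕ → ℕ} (hf : ∀ i j k, f i j k < 2 ^ B₀)
    (hg : ∀ i j k, g i j k < 2 ^ B₀) (i j k : ℕ) : cyc3 N f g i j k ≤ N ^ 3 * 4 ^ B₀ := by
  unfold cyc3
  calc _ ≤ ∑ _i ∈ Finset.range N, ∑ _j ∈ Finset.range N, ∑ _k ∈ Finset.range N, 4 ^ B₀ := by
        refine Finset.sum_le_sum fun a _ => Finset.sum_le_sum fun b _ =>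
          Finset.sum_le_sum fun c _ => ?_
        rw [show 4 ^ B₀ = 2 ^ B₀ * 2 ^ B₀ by rw [← mul_pow]; norm_num]
        exact Nat.mul_le_mul (hf _ _ _).le (hg _ _ _).le
    _ = N ^ 3 * 4 ^ B₀ := by
        simp only [Finset.sum_const, Finset.card_range, smul_eq_mul]
        ring

namespace Kron

open Finset

theorem valLE_take_drop (k : ℕ) (x : List Bool) :
    valLE x = valLE (x.take k) + 2 ^ k * valLE (x.drop k) := by
  by_cases h : k ≤ x.length
  · conv_lhs => rw [← List.take_append_drop k x, valLE_append, List.length_take_of_le h]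
  · rw [List.take_of_length_le (by omega), List.drop_of_length_le (by omega)]
    simp

theorem valLE_chunks (B₀ n : ℕ) (x : List Bool) (hx : x.length ≤ n * B₀) :
    valLE x = ∑ p ∈ range n, valLE ((x.drop (B₀ * p)).take B₀) * 2 ^ (B₀ * p) := by
  induction n generalizing x with
  | zero =>
    obtain rfl : x = [] := List.eq_nil_of_length_eq_zero (by omega)
    simp
  | succ n ih =>
    rw [sum_range_succ', valLE_take_drop B₀ x,
      ih (x.drop B₀) (by rw [List.length_drop, Nat.succ_mul] at *; omega), mul_sum, add_comm]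
    simp only [mul_zero, List.drop_zero, pow_zero, mul_one, List.drop_drop]
    congr 1
    refine sum_congr rfl fun p _ => ?_
    rw [show B₀ + B₀ * p = B₀ * (p + 1) by ring]
    ring

theorem sum_range_mul (a b : ℕ) (F : ℕ → ℕ) :
    ∑ p ∈ range (a * b), F p = ∑ i ∈ range a, ∑ j ∈ range b, F (i * b + j) := by
  induction a with
  | zero => simp
  | succ a ih => rw [Nat.succ_mul, sum_range_add, ih, sum_range_succ]

theorem valLE_cube (B₀ M : ℕ) (x : List Bool) (hx : x.length ≤ M ^ 3 * B₀) :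
    valLE x = ∑ i ∈ range M, ∑ j ∈ range M, ∑ k ∈ range M,
      chunkF B₀ M x i j k * 2 ^ (B₀ * (k + M * j + M ^ 2 * i)) := by
  rw [valLE_chunks B₀ _ x hx, show M ^ 3 = M * M * M by ring, sum_range_mul, sum_range_mul]
  refine sum_congr rfl fun i hi => sum_congr rfl fun j hj => sum_congr rfl fun k hk => ?_
  rw [chunkF, if_pos ⟨mem_range.1 hi, mem_range.1 hj, mem_range.1 hk⟩,
    show (i * M + j) * M + k = k + M * j + M ^ 2 * i by ring]

theorem cyc_sum {N M : ℕ} (hM : 2 * M ≤ N + 1) (H : ℕ → ℕ → ℕ → ℕ)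
    (hH : ∀ a b c, ¬ (a < M ∧ b < M) → H a b c = 0) :
    ∑ i ∈ range N, ∑ a ∈ range N, H a ((i + N - a) % N) i =
      ∑ a ∈ range M, ∑ b ∈ range M, H a b (a + b) := by
  have hsub : range M ⊆ range N := range_subset_range.2 (by omega)
  rw [sum_comm, ← sum_subset hsub fun a _ ha =>
    sum_eq_zero fun i _ => hH _ _ _ fun h => ha (mem_range.2 h.1)]
  refine sum_congr rfl fun a ha => ?_
  have ha' := mem_range.1 ha
  have h1 : ∑ i ∈ range N, H a ((i + N - a) % N) i = ∑ b ∈ range N, H a b ((a + b) % N) := by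
    refine sum_nbij' (fun i => (i + N - a) % N) (fun b => (a + b) % N)
      (fun i _ => mem_range.2 (Nat.mod_lt _ (by omega)))
      (fun i _ => mem_range.2 (Nat.mod_lt _ (by omega))) (fun i hi => ?_) (fun b hb => ?_)
      (fun i hi => ?_)
    · rw [Nat.add_mod_mod, show a + (i + N - a) = i + N by omega, Nat.add_mod_right,
        Nat.mod_eq_of_lt (mem_range.1 hi)]
    · rw [show (a + b) % N + N - a = (a + b) % N + (N - a) by omega, Nat.mod_add_mod,
        show a + b + (N - a) = b + N by omega, Nat.add_mod_right, Nat.mod_eq_of_lt (mem_range.1 hb)]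
    · rw [Nat.add_mod_mod, show a + (i + N - a) = i + N by omega, Nat.add_mod_right,
        Nat.mod_eq_of_lt (mem_range.1 hi)]
  rw [h1, ← sum_subset hsub fun b _ hb => hH _ _ _ fun h => hb (mem_range.2 h.2)]
  refine sum_congr rfl fun b hb => ?_
  have hb' := mem_range.1 hb
  rw [Nat.mod_eq_of_lt (by omega)]

theorem reorder (s : Finset ℕ) (T : ℕ → ℕ → ℕ → ℕ → ℕ → ℕ → ℕ) :
    ∑ i ∈ s, ∑ j ∈ s, ∑ k ∈ s, ∑ a ∈ s, ∑ b ∈ s, ∑ c ∈ s, T i j k a b c =
      ∑ i ∈ s, ∑ a ∈ s, ∑ j ∈ s, ∑ b ∈ s, ∑ k ∈ s, ∑ c ∈ s, T i j k a b c := by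
  refine sum_congr rfl fun i _ => ?_
  rw [sum_congr rfl fun j _ => sum_comm, sum_comm]
  exact sum_congr rfl fun a _ => sum_congr rfl fun j _ => sum_comm

theorem bitsVal_eq (x : List Bool) : Crest.LogicCS.IntMul.bitsVal x = valLE x.reverse := by
  unfold Crest.LogicCS.IntMul.bitsVal valLE
  rw [List.foldr_reverse]
  congr 1

end Kron

open Kron Finset in
theorem cubeVal_cyc3 {N B₀ : ℕ} (hN : Odd N) {x y : List Bool}
    (hx : x.length ≤ ((N + 1) / 2) ^ 3 * B₀) (hy : y.length ≤ ((N + 1) / 2) ^ 3 * B₀) :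
    cubeVal B₀ N (cyc3 N (chunkF B₀ ((N + 1) / 2) x) (chunkF B₀ ((N + 1) / 2) y)) =
      valLE x * valLE y := by
  have hM : 2 * ((N + 1) / 2) ≤ N + 1 := by omega
  rw [valLE_cube B₀ _ x hx, valLE_cube B₀ _ y hy]
  unfold cubeVal cyc3
  generalize (N + 1) / 2 = M at *
  have hz : ∀ (z : List Bool) (i j k : ℕ), ¬ (i < M ∧ j < M ∧ k < M) → chunkF B₀ M z i j k = 0 :=
    fun z i j k h => if_neg h
  have hz2 : ∀ a b c d e f : ℕ, (¬ (a < M ∧ b < M) ∨ ¬ (c < M ∧ d < M) ∨ ¬ (e < M ∧ f < M)) →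
      chunkF B₀ M x a c e * chunkF B₀ M y b d f = 0 := by
    intro a b c d e f h
    by_cases h1 : a < M ∧ c < M ∧ e < M
    · rw [hz y b d f (by omega), mul_zero]
    · rw [hz x a c e h1, zero_mul]
  simp only [sum_mul_sum]
  simp only [sum_mul]
  rw [reorder, cyc_sum hM (fun a b i => ∑ j ∈ range N, ∑ c ∈ range N, ∑ k ∈ range N,
    ∑ e ∈ range N, chunkF B₀ M x a c e * chunkF B₀ M y b ((j + N - c) % N) ((k + N - e) % N) *
      2 ^ (B₀ * (k + M * j + M ^ 2 * i))) fun a b i h => by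
        simp only [hz2 a b _ _ _ _ (Or.inl h), zero_mul, sum_const_zero]]
  refine sum_congr rfl fun a _ => sum_congr rfl fun b _ => ?_
  rw [cyc_sum hM (fun c d j => ∑ k ∈ range N,
    ∑ e ∈ range N, chunkF B₀ M x a c e * chunkF B₀ M y b d ((k + N - e) % N) *
      2 ^ (B₀ * (k + M * j + M ^ 2 * (a + b)))) fun c d j h => by
        simp only [hz2 a b c d _ _ (Or.inr (Or.inl h)), zero_mul, sum_const_zero]]
  refine sum_congr rfl fun c _ => sum_congr rfl fun d _ => ?_
  rw [cyc_sum hM (fun e f k => chunkF B₀ M x a c e * chunkF B₀ M y b d f *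
      2 ^ (B₀ * (k + M * (c + d) + M ^ 2 * (a + b)))) fun e f k h => by
        simp only [hz2 a b c d e f (Or.inr (Or.inr h)), zero_mul]]
  refine sum_congr rfl fun e _ => sum_congr rfl fun f _ => ?_
  rw [show B₀ * (e + f + M * (c + d) + M ^ 2 * (a + b)) =
    B₀ * (e + M * c + M ^ 2 * a) + B₀ * (f + M * d + M ^ 2 * b) by ring, pow_add]
  ring

theorem mulF_eq (x y : List Bool) :
    mulF (x, y) = (wordLE (2 * x.length) (valLE x.reverse * valLE y.reverse)).reverse := by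
  rw [← Kron.bitsVal_eq, ← Kron.bitsVal_eq]
  rfl

theorem poly_mulF : Poly mulF := by
  have h1 : Poly fun p : List Bool × List Bool => valLE p.1.reverse := Poly.val_LE (by fun_prop)
  have h2 : Poly fun p : List Bool × List Bool => valLE p.2.reverse := Poly.val_LE (by fun_prop)
  have h3 : Poly fun p : List Bool × List Bool => p.1 ++ p.1 := by fun_prop
  refine (Poly.reverse (Poly.word_LE h3 (h1.mul h2))).congr fun p => ?_
  rw [List.length_append, ← two_mul, ← mulF_eq]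

namespace Kron

theorem bat_padA' {R N N' L r x l : ℕ} (a : List Bool) (hr : r < R) (hx : x < N') (hl : l < L) :
    bat (padA R N N' L a) ((r * N' + x) * L + l) =
      if x < N then bat a ((r * N + x) * L + l) else false := by
  unfold padA
  rw [bat_bmk _ (Arr2.lt_mul (Arr2.lt_mul hr hx) hl), Arr2.div_eq hl, Arr2.mod_eq hx,
    Arr2.mod_eq hl, Arr2.div_div3 hx hl]

theorem length_padA (R N N' L : ℕ) (a : List Bool) : (padA R N N' L a).length = R * N' * L :=
  length_bmk _ _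

theorem bat_pad0 (x : List Bool) (n j : ℕ) : bat (x ++ List.replicate n false) j = bat x j := by
  unfold bat
  by_cases h : j < x.length
  · rw [List.getD_append _ _ _ _ h]
  · rw [List.getD_append_right _ _ _ _ (by omega), List.getD_eq_default x _ (by omega),
      List.getD_eq_getElem?_getD, List.getElem?_replicate]
    split_ifs <;> rfl

/-- the loaded array, by four paddings -/
def loadF (B B₀ N M : ℕ) (x : List Bool) : List Bool :=
  padA 1 M N (N * N * (2 * B)) (padA M M N (N * (2 * B)) (padA (M * M) M N (2 * B)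
    (padA (M * M * M) B₀ (2 * B) 1 (x ++ List.replicate (M * M * M * B₀ - x.length) false))))

theorem bat_loadF {B B₀ N M i j k l : ℕ} (x : List Bool) (hi : i < N) (hj : j < N) (hk : k < N)
    (hl : l < 2 * B) : bat (loadF B B₀ N M x) (((i * N + j) * N + k) * (2 * B) + l) =
      if i < M ∧ j < M ∧ k < M ∧ l < B₀ then bat x (((i * M + j) * M + k) * B₀ + l) else false := by
  unfold loadF
  have h1 : k * (2 * B) + l < N * (2 * B) := Arr2.lt_mul hk hl
  have h2 : j * (N * (2 * B)) + (k * (2 * B) + l) < N * N * (2 * B) := by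
    rw [mul_assoc]; exact Arr2.lt_mul hj h1
  rw [show ((i * N + j) * N + k) * (2 * B) + l =
    (0 * N + i) * (N * N * (2 * B)) + (j * (N * (2 * B)) + (k * (2 * B) + l)) by ring,
    bat_padA' _ one_pos hi h2]
  by_cases hi' : i < M
  swap
  · rw [if_neg hi', if_neg (by omega)]
  rw [if_pos hi', show (0 * M + i) * (N * N * (2 * B)) + (j * (N * (2 * B)) + (k * (2 * B) + l)) =
    (i * N + j) * (N * (2 * B)) + (k * (2 * B) + l) by ring, bat_padA' _ hi' hj h1]
  by_cases hj' : j < M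
  swap
  · rw [if_neg hj', if_neg (by omega)]
  rw [if_pos hj', show (i * M + j) * (N * (2 * B)) + (k * (2 * B) + l) =
    ((i * M + j) * N + k) * (2 * B) + l by ring, bat_padA' _ (Arr2.lt_mul hi' hj') hk hl]
  by_cases hk' : k < M
  swap
  · rw [if_neg hk', if_neg (by omega)]
  rw [if_pos hk', show ((i * M + j) * M + k) * (2 * B) + l =
    (((i * M + j) * M + k) * (2 * B) + l) * 1 + 0 by ring,
    bat_padA' _ (Arr2.lt_mul (Arr2.lt_mul hi' hj') hk') hl one_pos, mul_one, add_zero, bat_pad0]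
  simp only [hi', hj', hk', true_and]

theorem bat_ebits_nat {B B₀ c l : ℕ} (h0 : 0 < B₀) (hB : B₀ < B) (hc : c < 2 ^ B₀) :
    bat (ebits B (c : RB B)) l = c.testBit l := by
  have h1 : 2 ^ B₀ * 2 ≤ 2 ^ B := by rw [← pow_succ]; exact Nat.pow_le_pow_right two_pos hB
  have h2 : 2 ≤ 2 ^ B₀ := Nat.le_self_pow h0.ne' 2
  have hre : ((c : RB B).re).val = c := by
    rw [QuadraticAlgebra.re_natCast, ZMod.val_natCast, Nat.mod_eq_of_lt (by omega)]
  have him : ((c : RB B).im).val = 0 := by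
    rw [QuadraticAlgebra.im_natCast, ZMod.val_zero]
  unfold ebits bat
  rw [hre, him]
  by_cases h : l < B
  · rw [List.getD_append _ _ _ _ (by rwa [length_wordLE]), Wd.getD_wordLE]
    simp [h]
  · rw [List.getD_append_right _ _ _ _ (by rw [length_wordLE]; omega), Wd.getD_wordLE,
      Nat.zero_testBit, Bool.and_false]
    exact (Nat.testBit_lt_two_pow (hc.trans_le (Nat.pow_le_pow_right two_pos (by omega)))).symm

theorem testBit_chunkF (B₀ M : ℕ) (x : List Bool) (i j k l : ℕ) :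
    (chunkF B₀ M x i j k).testBit l =
      if i < M ∧ j < M ∧ k < M ∧ l < B₀ then bat x (((i * M + j) * M + k) * B₀ + l) else false := by
  unfold chunkF
  by_cases h : i < M ∧ j < M ∧ k < M
  · rw [if_pos h, Wd.testBit_valLE, List.getD_eq_getElem?_getD, List.getElem?_take]
    by_cases hl : l < B₀
    · rw [if_pos hl, if_pos ⟨h.1, h.2.1, h.2.2, hl⟩, List.getElem?_drop, bat,
        List.getD_eq_getElem?_getD]
      congr 2
      ring
    · rw [if_neg hl, if_neg (by omega)]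
      rfl
  · rw [if_neg h, if_neg (by omega), Nat.zero_testBit]

theorem loadF_eq {B B₀ N : ℕ} (M : ℕ) (h0 : 0 < B₀) (hB : B₀ < B) (x : List Bool) :
    (emk3 B N fun i j k => (chunkF B₀ M x i j k : RB B)) = loadF B B₀ N M x := by
  refine Arr2.arr_ext (n := N * N * N * (2 * B)) ?_ ?_ fun p hp => ?_
  · rw [emk3, length_emk]; ring
  · rw [loadF, length_padA]; ring
  obtain ⟨q, hq, l, hl, rfl⟩ := Arr2.decomp hp
  obtain ⟨r, hr, k, hk, rfl⟩ := Arr2.decomp hq
  obtain ⟨i, hi, j, hj, rfl⟩ := Arr2.decomp hr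
  rw [bat_loadF x hi hj hk hl, emk3, bat_emk _ (by rwa [show N ^ 3 = N * N * N by ring]) hl,
    bat_ebits_nat h0 hB (chunkF_lt _ _ _ _ _ _), testBit_chunkF, Arr2.mod_eq hk, Arr2.div_eq hk,
    Arr2.mod_eq hj, pow_two N, ← Nat.div_div_eq_div_mul, Arr2.div_eq hk, Arr2.div_eq hj]

section
variable {ι γ : Type} [Enc γ] {pre : World → ι → Prop} {inp : ι → γ} {σ : ι → ℝ}

theorem le_Ex (n m : ι → ℕ) (c : ℕ) (hσ : Le pre (fun i => (n i : ℝ)) σ)
    (h : ∀ w i, pre w i → 0 < n i ∧ m i ≤ c * n i) : Le pre (fun i => (Ex (m i) : ℝ)) σ := by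
  obtain ⟨K, hK⟩ := Ex_pow_le 1 1 one_pos
  refine Arr2.le_nat (K * (c + 1)) (fun i => Ex (m i)) n (fun _ _ _ => le_rfl) hσ fun w i hi => ?_
  obtain ⟨h1, h2⟩ := h w i hi
  have := hK (m i) ((c + 1) * n i) (by positivity) (by rw [pow_one, add_mul]; omega)
  rwa [pow_one, ← mul_assoc] at this

theorem l0_pad {R N N' L : ι → ℕ} {a : ι → List Bool} (hR : L0 pre inp σ R) (hN : L0 pre inp σ N)
    (hN' : L0 pre inp σ N') (hL : L0 pre inp σ L) (ha : L0 pre inp σ a) (n : ι → ℕ)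
    (hσ : Le pre (fun i => (n i : ℝ)) σ)
    (h : ∀ w i, pre w i → 0 < R i ∧ 0 < N i ∧ 0 < N' i ∧ 0 < L i ∧
      (a i).length = R i * N i * L i ∧ R i * N i * L i ≤ 2 * n i ∧ R i * N' i * L i ≤ 2 * n i) :
    L0 pre inp σ fun i => padA (R i) (N i) (N' i) (L i) (a i) := by
  refine L0.sub sub_padA (hN'.pair (hR.pair (hN.pair (hL.pair ha))))
    (fun w i hi => ?_) (Le.add (Le.add ?_ ?_) ?_)
  · obtain ⟨h1, h2, h3, h4, h5, -⟩ := h w i hi
    exact ⟨h3, h1, h2, h4, h5⟩
  · refine Arr2.le_nat 2 (fun i => (a i).length) n (fun _ _ _ => le_rfl) hσ fun w i hi => ?_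
    obtain ⟨-, -, -, -, h5, h6, -⟩ := h w i hi
    omega
  · refine Arr2.le_nat 2 (fun i => R i * N' i * L i) n (fun _ _ _ => by push_cast; rfl) hσ
      fun w i hi => (h w i hi).2.2.2.2.2.2
  · refine le_Ex n _ 4 hσ fun w i hi => ?_
    obtain ⟨h1, h2, h3, h4, h5, h6, h7⟩ := h w i hi
    have : 0 < R i * N i * L i := by positivity
    simp only
    omega

end

end Kron

open Kron in
/-- input `(B, B₀, N, x)` -/
theorem sub_load : Sub (fun x : ℕ × ℕ × ℕ × List Bool => 0 < x.2.1 ∧ x.2.1 < x.1 ∧ 0 < x.2.2.1 ∧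
      x.2.2.2.length ≤ ((x.2.2.1 + 1) / 2) ^ 3 * x.2.1)
    (fun x => emk3 x.1 x.2.2.1 fun i j k =>
      (chunkF x.2.1 ((x.2.2.1 + 1) / 2) x.2.2.2 i j k : RB x.1))
    (fun x => (x.2.2.1 : ℝ) ^ 3 * x.1) := by
  set pre : World → ℕ × ℕ × ℕ × List Bool → Prop := fun _ x => 0 < x.2.1 ∧ x.2.1 < x.1 ∧
    0 < x.2.2.1 ∧ x.2.2.2.length ≤ ((x.2.2.1 + 1) / 2) ^ 3 * x.2.1 with hpre
  set σ : ℕ × ℕ × ℕ × List Bool → ℝ := fun x => (x.2.2.1 : ℝ) ^ 3 * x.1 with hσ
  let n : ℕ × ℕ × ℕ × List Bool → ℕ := fun x => x.2.2.1 * x.2.2.1 * x.2.2.1 * x.1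
  have hn : Le pre (fun x => (n x : ℝ)) σ := Le.of_le fun _ x _ => by
    simp only [hσ, n]
    push_cast
    exact le_of_eq (by ring)
  have hb : ∀ w x, pre w x → ∀ M, M = (x.2.2.1 + 1) / 2 → 0 < M ∧ M ≤ x.2.2.1 ∧
      x.2.2.2.length ≤ M * M * M * x.2.1 ∧ M * M * M * x.2.1 ≤ n x ∧ x.1 ≤ n x ∧
      x.2.2.1 ≤ n x ∧ M * M * M * x.1 ≤ n x ∧ M * M * x.2.2.1 * x.1 ≤ n x ∧
      M * x.2.2.1 * x.2.2.1 * x.1 ≤ n x := by
    rintro w ⟨B, B₀, N, x⟩ ⟨h1, h2, h3, h4⟩ M hM
    simp only [n] at *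
    rw [← hM, show M ^ 3 = M * M * M by ring] at h4
    have h5 : M ≤ N := by omega
    have h6 : 0 < B := by omega
    refine ⟨by omega, h5, h4, by gcongr, Nat.le_mul_of_pos_left _ (by positivity), ?_, by gcongr,
      by gcongr, by gcongr⟩
    calc N = 1 * 1 * N * 1 := by ring
      _ ≤ N * N * N * B := by gcongr <;> omega
  have hpar : ∀ w x, pre w x → sz (x.1, x.2.1, x.2.2.1) + 1 ≤ 6 * lg (n x) ^ 1 + 6 := by
    intro w x hx
    obtain ⟨-, -, -, -, h1, h2, -⟩ := hb w x hx _ rfl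
    have a1 := sz_nat_le_lg h1
    have a2 := sz_nat_le_lg h2
    have a3 := sz_nat_le_lg (hx.2.1.le.trans h1)
    simp only [sz_pair, pow_one]
    omega
  have hEx : Le pre (fun x => (Ex (n x) : ℝ)) σ := le_Ex n n 1 hn fun w x hx => by
    obtain ⟨-, -, -, -, h1, -⟩ := hb w x hx _ rfl
    have := hx.2.1
    omega
  have hin : Le pre (fun x => (sz x : ℝ)) σ := by
    refine Arr2.le_nat 20 sz n (fun _ _ _ => le_rfl) hn fun w x hx => ?_
    obtain ⟨-, -, h1, h2, h3, h4, -⟩ := hb w x hx _ rfl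
    obtain ⟨B, B₀, N, x⟩ := x
    have h5 : B₀ < B := hx.2.1
    have a1 := Prims.sz_nat_le B
    have a2 := Prims.sz_nat_le B₀
    have a3 := Prims.sz_nat_le N
    simp only [sz_pair, sz_bits] at *
    omega
  have h0 := L0.input hin
  have ha := L0.lin (g := fun x : ℕ × ℕ × ℕ × List Bool => x.2.2.2) (by fun_prop) h0
  have hp := L0.lin (g := fun x : ℕ × ℕ × ℕ × List Bool => (x.1, x.2.1, x.2.2.1)) (by fun_prop) h0
  have par : ∀ g : ℕ × ℕ × ℕ → ℕ, Poly g →
      L0 pre (fun x => x) σ fun x => g (x.1, x.2.1, x.2.2.1) := fun g hg =>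
    L0.poly hg hp fun e => by
      obtain ⟨K, hK⟩ := poly_lg_le_Ex 6 e 1
      refine Le.trans (Le.of_le_mul K (Nat.cast_nonneg _) fun w x hx => ?_) hEx
      exact_mod_cast (Nat.pow_le_pow_left (hpar w x hx) e).trans (hK _)
  have h1 := par (fun _ => 1) (by fun_prop)
  have hB₀ := par (fun p => p.2.1) (by fun_prop)
  have hN := par (fun p => p.2.2) (by fun_prop)
  have hM := par (fun p => (p.2.2 + 1) / 2) (by fun_prop)
  have hM2 := par (fun p => (p.2.2 + 1) / 2 * ((p.2.2 + 1) / 2)) (by fun_prop)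
  have hM3 := par (fun p => (p.2.2 + 1) / 2 * ((p.2.2 + 1) / 2) * ((p.2.2 + 1) / 2)) (by fun_prop)
  have hM4 := par (fun p => (p.2.2 + 1) / 2 * ((p.2.2 + 1) / 2) * ((p.2.2 + 1) / 2) * p.2.1)
    (by fun_prop)
  have hL1 := par (fun p => 2 * p.1) (by fun_prop)
  have hL2 := par (fun p => p.2.2 * (2 * p.1)) (by fun_prop)
  have hL3 := par (fun p => p.2.2 * p.2.2 * (2 * p.1)) (by fun_prop)
  have hd := L0.lin (g := fun p : ℕ × List Bool => p.1 - p.2.length)
    (Lin.sub (by fun_prop) (by fun_prop)) (hM4.pair ha)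
  have hz := L0.sub sub_replicate (hd.pair (L0.const hin false)) (fun _ _ _ => trivial) (by
    refine Arr2.le_nat 4 (fun x => (n x + 1) * 2) n (fun w x hx => ?_) hn fun w x hx => ?_
    · obtain ⟨-, -, -, h2, -⟩ := hb w x hx _ rfl
      have h3 : ((x.2.2.1 + 1) / 2 * ((x.2.2.1 + 1) / 2) * ((x.2.2.1 + 1) / 2) * x.2.1
        - x.2.2.2.length + 1) * (1 + 1) ≤ (n x + 1) * 2 := by omega
      simp only [sz_bool]
      exact_mod_cast h3
    · obtain ⟨-, -, -, -, h1, -⟩ := hb w x hx _ rfl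
      have := hx.2.1
      omega)
  have a0 := L0.lin (g := fun p : List Bool × List Bool => p.1 ++ p.2) (by fun_prop) (ha.pair hz)
  have a1 := l0_pad hM3 hB₀ hL1 h1 a0 n hn fun w x hx => by
    obtain ⟨b1, b2, b3, b4, b5, b6, b7, b8, b9⟩ := hb w x hx _ rfl
    have c1 := hx.1
    have c2 := hx.2.1
    simp only [List.length_append, List.length_replicate]
    refine ⟨by positivity, c1, by omega, one_pos, by omega, by omega, by nlinarith⟩
  have a2 := l0_pad hM2 hM hN hL1 a1 n hn fun w x hx => by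
    obtain ⟨b1, b2, b3, b4, b5, b6, b7, b8, b9⟩ := hb w x hx _ rfl
    have c2 := hx.2.1
    simp only [length_padA]
    refine ⟨by positivity, b1, by omega, by omega, by ring, by nlinarith, by nlinarith⟩
  have a3 := l0_pad hM hM hN hL2 a2 n hn fun w x hx => by
    obtain ⟨b1, b2, b3, b4, b5, b6, b7, b8, b9⟩ := hb w x hx _ rfl
    have c2 : 0 < x.1 := by have := hx.2.1; omega
    have c3 := hx.2.2.1
    simp only [length_padA]
    refine ⟨b1, b1, c3, by positivity, by ring, by nlinarith, by nlinarith⟩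
  have a4 := l0_pad h1 hM hN hL3 a3 n hn fun w x hx => by
    obtain ⟨b1, b2, b3, b4, b5, b6, b7, b8, b9⟩ := hb w x hx _ rfl
    have c2 : 0 < x.1 := by have := hx.2.1; omega
    have c3 := hx.2.2.1
    simp only [length_padA]
    refine ⟨one_pos, b1, c3, by positivity, by ring, by nlinarith,
      le_of_eq (by simp only [n]; ring)⟩
  exact L0.toSub (a4.congr fun w x hx => loadF_eq _ hx.1 hx.2.1 _)

end Crest.Agent.R326
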