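import Crest.Agent.R326.LoopsAux

/-! Row 326: loops over lists. -/

set_option autoImplicit false

namespace Crest.Agent.R326

variable {ι α β γ δ : Type} [Enc α] [Enc β] [Enc γ] [Enc δ]
  {pre : World → ι → Prop} {σ : ι → ℝ}

open Loops

theorem Cf.map {l : ι → List α} {g : ι → α → β} {σb cb : ι × α → ℝ}
    (hb : Cf (fun w (j : ι × α) => pre w j.1 ∧ j.2 ∈ l j.1) (fun j => j.2) (fun j => g j.1 j.2)
      σb cb)
    (hσ : Le pre (fun i => ((l i).map fun x => σb (i, x)).sum) σ)
    (hin : Le pre (fun i => (sz (l i) : ℝ)) σ)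
    (hout : Le pre (fun i => (sz ((l i).map (g i)) : ℝ)) σ) :
    Cf pre l (fun i => (l i).map (g i)) σ (fun i => ((l i).map fun x => cb (i, x)).sum) := by
  obtain ⟨p, K, hK, hp⟩ := hb
  have h1 : Cf pre l (fun i => (l i, ())) σ (fun _ => 0 + 0) :=
    Cf.pair hin (Cf.id (hin.const_of_sz 1)) (Cf.const hin ())
  have h2 := cf_scan (pre := pre) (σ := σ) (l := l) (s := fun _ => ())
    (f := fun i x => (g i x.1, x.2)) (σb := fun j => σb (j.1, j.2.1))
    (cb := fun j => cb (j.1, j.2.1)) _ K 2 hK zero_le_two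
    (fun w i hi x hx => by
      rw [scanIn_keep (fun x : α × Unit => g i x.1)] at hx
      obtain ⟨a, ha, rfl⟩ := List.mem_map.1 hx
      exact ev_first (hp w (i, a) ⟨hi, ha⟩) _)
    (by simpa only [scanIn_keep (fun x : α × Unit => g _ x.1), List.map_map, Function.comp_def]
      using hσ) hin
    (by simpa only [scan_keep (fun x : α × Unit => g _ x.1)] using hout)
  simp only [scanIn_keep (fun x : α × Unit => g _ x.1), scan_keep (fun x : α × Unit => g _ x.1),
    List.map_map] at h2
  have h3 := Cf.lin (Lin.fst Lin.id) (h1.comp h2) (by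
    simp only [sz_pair, sz_unit]
    push_cast
    exact (hout.add (hin.const_of_sz 1)).add (hin.const_of_sz 1))
  exact h3.mono (fun _ _ h => h) Le.refl fun w i _ => by simp [Function.comp_def]

/-- the state stays in place: only the items and the output items are moved -/
theorem Cf.scan {l : ι → List α} {s : ι → δ} {f : ι → α × δ → β × δ} {σb cb : ι × (α × δ) → ℝ}
    (hb : Cf (fun w (j : ι × (α × δ)) => pre w j.1 ∧ j.2 ∈ scanIn (f j.1) (l j.1) (s j.1))
      (fun j => j.2) (fun j => f j.1 j.2) σb cb)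
    (hσ : Le pre (fun i => ((scanIn (f i) (l i) (s i)).map fun x => σb (i, x)).sum) σ)
    (hin : Le pre (fun i => (sz (l i) : ℝ)) σ)
    (hout : Le pre (fun i => (sz (scan (f i) (l i) (s i)).1 : ℝ)) σ) :
    Cf pre (fun i => (l i, s i)) (fun i => scan (f i) (l i) (s i)) σ
      (fun i => ((scanIn (f i) (l i) (s i)).map fun x => cb (i, x)).sum) := by
  obtain ⟨p, K, hK, hp⟩ := hb
  exact cf_scan p K 0 hK le_rfl (fun w i hi x hx => by simpa using hp w (i, x) ⟨hi, hx⟩)
    hσ hin hout

/-- fold with an invariant `I i n s` (the state after `n` items) and uniform bounds per step -/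
theorem Cf.foldl {l : ι → List α} {s : ι → δ} {f : ι → δ → α → δ} {σb cb : ι → ℝ}
    (I : ι → ℕ → δ → Prop) (hI0 : ∀ w i, pre w i → I i 0 (s i))
    (hI : ∀ w i, pre w i → ∀ n (hn : n < (l i).length) t, I i n t → I i (n + 1) (f i t (l i)[n]))
    (hb : Cf (fun w (j : ι × (α × δ)) => pre w j.1 ∧
        ∃ n, ∃ hn : n < (l j.1).length, j.2.1 = (l j.1)[n] ∧ I j.1 n j.2.2)
      (fun j => j.2) (fun j => f j.1 j.2.2 j.2.1) (fun j => σb j.1) (fun j => cb j.1))
    (hσ : Le pre (fun i => ((l i).length : ℝ) * σb i) σ)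
    (hin : Le pre (fun i => (sz (l i) : ℝ)) σ) :
    Cf pre (fun i => (l i, s i)) (fun i => (l i).foldl (f i) (s i)) σ
      (fun i => ((l i).length : ℝ) * cb i) := by
  obtain ⟨p, K, hK, hp⟩ := hb
  have hu : Le pre (fun i => (sz ((l i).map fun _ => ()) : ℝ)) σ := by
    refine Le.trans (Le.of_le_mul 2 zero_le_two fun w i _ => ?_) hin
    have := length_le_real (l i)
    rw [sz_real]
    simp only [sz_unit, Nat.cast_one, List.map_const', List.sum_replicate, List.length_replicate,
      nsmul_eq_mul, mul_one]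
    linarith
  have h2 := cf_scan (pre := pre) (σ := σ) (l := l) (s := s)
    (f := fun i x => ((), f i x.2 x.1)) (σb := fun j => σb j.1)
    (cb := fun j => cb j.1) _ K 2 hK zero_le_two
    (fun w i hi x hx => ev_unit (hp w (i, x)
      ⟨hi, mem_scanIn_fold (f i) (l i) (s i) (I i) (hI0 w i hi) (hI w i hi) x hx⟩))
    (by simpa only [List.map_const', List.sum_replicate, scanIn_length, nsmul_eq_mul] using hσ)
    hin (by simpa only [scan_fold] using hu)
  simp only [scan_fold, List.map_const', List.sum_replicate, scanIn_length, nsmul_eq_mul] at h2 hu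
  exact (h2.comp (cf_snd _ hu)).mono (fun _ _ h => h) Le.refl fun w i _ => by simp

variable {inp : ι → γ}

theorem L0.map {l : ι → List α} {g : ι → α → β} {σb : ι × α → ℝ} (hl : L0 pre inp σ l)
    (hb : L0 (fun w (j : ι × α) => pre w j.1 ∧ j.2 ∈ l j.1) (fun j => j.2) σb
      (fun j => g j.1 j.2))
    (hσ : Le pre (fun i => ((l i).map fun x => σb (i, x)).sum) σ) :
    L0 pre inp σ (fun i => (l i).map (g i)) := by
  have hout : Le pre (fun i => (sz ((l i).map (g i)) : ℝ)) σ := by
    obtain ⟨K, hK, h⟩ := hb.sz_le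
    refine Le.trans (Le.of_le fun w i hi => ?_) ((hσ.const_mul K hK).add hl.sz_le)
    have h1 := length_le_real (l i)
    have h2 := sum_le_sum (L := l i) (u := fun x => (sz (g i x) : ℝ))
      (v := fun x => K * σb (i, x)) fun x hx => h w (i, x) ⟨hi, hx⟩
    rw [List.sum_map_mul_left] at h2
    rw [sz_real, List.map_map, List.length_map]
    simp only [Function.comp_def]
    linarith
  exact ⟨hl.1, (hl.thenCf (Cf.map hb.2 hσ hl.sz_le hout)).mono (fun _ _ h => h) Le.refl
    fun w i _ => by simp⟩

theorem L0.map_sub {l : ι → List α} {P : α → Prop} {g : α → β} {τ : α → ℝ} (hl : L0 pre inp σ l)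
    (hg : Sub P g τ) (hP : ∀ w i, pre w i → ∀ x ∈ l i, P x)
    (hσ : Le pre (fun i => ((l i).map τ).sum) σ) : L0 pre inp σ (fun i => (l i).map g) := by
  refine L0.map (g := fun _ => g) (σb := fun j => τ j.2 + sz j.2) hl ⟨?_, ?_⟩ ?_
  · refine Le.of_le fun w j hj => ?_
    have := sub_nonneg hg (hP w j.1 hj.1 j.2 hj.2)
    linarith
  · refine (Cf.reindex hg (pre' := fun w (j : ι × α) => pre w j.1 ∧ j.2 ∈ l j.1) Prod.snd
      fun w j hj => hP w j.1 hj.1 j.2 hj.2).mono (fun _ _ h => h) (Le.of_le fun w j _ => ?_)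
      fun _ _ _ => le_rfl
    exact le_add_of_nonneg_right (Nat.cast_nonneg _)
  · refine Le.trans (Le.of_le fun w i _ => ?_) (hσ.add hl.sz_le)
    rw [List.sum_map_add, sz_real]
    have : (0 : ℝ) ≤ (l i).length := Nat.cast_nonneg _
    linarith

theorem Lin.map' {g : α → β} (hg : Lin g) : Lin (List.map g) := by
  refine Lin.of_L0 (L0.map_sub (L0.input Le.refl) hg (fun _ _ _ _ _ => trivial)
    (Le.of_le fun w l _ => ?_))
  rw [sz_real]
  have : (0 : ℝ) ≤ l.length := Nat.cast_nonneg _
  linarith

/-- pair every item with a copy of `x` -/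
theorem sub_distl : Sub (fun _ : δ × List α => True) (fun p => p.2.map fun a => (p.1, a))
    (fun p => (sz p.2 : ℝ) + (p.2.length + 1) * sz p.1) := by
  have hnn : ∀ p : δ × List α, (0 : ℝ) ≤ (p.2.length : ℝ) * sz p.1 := fun p => by positivity
  have hx : ∀ p : δ × List α, (1 : ℝ) ≤ sz p.1 := fun p => by exact_mod_cast sz_pos p.1
  have hl : ∀ p : δ × List α, (1 : ℝ) ≤ sz p.2 := fun p => by exact_mod_cast sz_pos p.2
  have hs : Le (fun _ (_ : δ × List α) => True) (fun p => (sz p : ℝ))
      (fun p => (sz p.2 : ℝ) + (p.2.length + 1) * sz p.1) :=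
    Le.of_le_mul 2 zero_le_two fun _ p _ => by
      have h1 := hnn p
      have h2 := hx p
      have h3 := hl p
      have : (sz p : ℝ) = sz p.1 + sz p.2 + 1 := by exact_mod_cast sz_pair p.1 p.2
      nlinarith
  have h1 : L0 (fun _ (_ : δ × List α) => True) (fun p => p)
      (fun p => (sz p.2 : ℝ) + (p.2.length + 1) * sz p.1) (fun p => (p.2, p.1)) :=
    L0.lin (g := fun p : δ × List α => (p.2, p.1)) (by fun_prop) (L0.input hs)
  have hf : Lin (fun x : α × δ => ((x.2, x.1), x.2)) := by fun_prop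
  have hsum : ∀ p : δ × List α, (p.2.map fun a => (sz (p.1, a) : ℝ)).sum + p.2.length + 1 ≤
      2 * ((sz p.2 : ℝ) + (p.2.length + 1) * sz p.1) := fun p => by
    simp only [sz_pair]
    push_cast
    rw [List.sum_map_add, List.sum_map_add]
    simp only [List.map_const', List.sum_replicate, nsmul_eq_mul, mul_one]
    have h1 := hnn p
    have h2 := hx p
    have h3 := length_le_real p.2
    have h4 := sz_real p.2
    have : (0 : ℝ) ≤ p.2.length := Nat.cast_nonneg _
    nlinarith
  have hout : Le (fun _ (_ : δ × List α) => True)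
      (fun p => (sz (p.2.map fun a => (p.1, a)) : ℝ))
      (fun p => (sz p.2 : ℝ) + (p.2.length + 1) * sz p.1) :=
    Le.of_le_mul 2 zero_le_two fun _ p _ => by
      rw [sz_real, List.map_map, List.length_map]
      exact hsum p
  have h2 := Cf.scan (pre := fun _ (_ : δ × List α) => True)
    (σ := fun p => (sz p.2 : ℝ) + (p.2.length + 1) * sz p.1) (l := fun p => p.2)
    (s := fun p => p.1) (f := fun _ x => ((x.2, x.1), x.2)) (σb := fun j => (sz j.2 : ℝ))
    (cb := fun _ => 0) (Cf.reindex hf Prod.snd fun _ _ _ => trivial)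
    (Le.of_le_mul 2 zero_le_two fun _ p _ => by
      rw [scanIn_keep (fun x : α × δ => (x.2, x.1)), List.map_map]
      have h1 := hsum p
      have h2 : ((fun x : α × δ => (sz x : ℝ)) ∘ fun a => (a, p.1)) =
          fun a => (sz (p.1, a) : ℝ) := by
        funext a
        simp only [Function.comp, sz_pair]
        push_cast
        ring
      have : (0 : ℝ) ≤ p.2.length := Nat.cast_nonneg _
      rw [h2]
      linarith)
    (Le.of_le fun _ p _ => by
      have h1 := hnn p
      have h2 := hx p
      nlinarith)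
    (by simpa only [scan_keep (fun x : α × δ => (x.2, x.1))] using hout)
  simp only [scan_keep (fun x : α × δ => (x.2, x.1))] at h2
  have h3 := Cf.lin (Lin.fst Lin.id) (h1.thenCf h2) (by
    simp only [sz_pair]
    push_cast
    refine (hout.add (Le.of_le fun _ p _ => ?_)).add (hs.const_of_sz 1)
    have h1 := hnn p
    have h2 := hl p
    nlinarith)
  exact h3.mono (fun _ _ h => h) Le.refl fun w i _ => by simp

/-- map of a polynomial-time function with a context `x i` copied to every item -/
theorem L0.map_poly {l : ι → List α} {x : ι → δ} {g : δ × α → β} (hl : L0 pre inp σ l)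
    (hx : L0 pre inp σ x) (hg : Poly g) (s : ι → ℝ)
    (hs : ∀ w i, pre w i → (sz (x i) : ℝ) ≤ s i ∧ ∀ a ∈ l i, (sz a : ℝ) ≤ s i)
    (hσ : ∀ e : ℕ, Le pre (fun i => (((l i).length : ℝ) + 1) * (s i + 1) ^ e) σ) :
    L0 pre inp σ (fun i => (l i).map fun a => g (x i, a)) := by
  obtain ⟨c, hg⟩ := hg
  have hd : L0 pre inp σ (fun i => (l i).map fun a => (x i, a)) := by
    refine L0.sub sub_distl (hx.pair hl) (fun _ _ _ => trivial) (hl.sz_le.add ?_)
    refine Le.trans (Le.of_le fun w i hi => ?_) (hσ 1)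
    have := (hs w i hi).1
    simp only [pow_one]
    exact mul_le_mul_of_nonneg_left (by linarith) (by positivity)
  refine (L0.map_sub hd hg (fun _ _ _ _ _ => trivial) ?_).congr fun w i _ => by
    simp [Function.comp_def]
  refine Le.trans (Le.of_le_mul (2 ^ c) (by positivity) fun w i hi => ?_) (hσ c)
  obtain ⟨h1, h2⟩ := hs w i hi
  have h0 : (0 : ℝ) ≤ s i := (Nat.cast_nonneg _).trans h1
  have h3 := sum_le_sum (L := l i) (u := fun a => ((sz (x i, a) : ℝ) + 1) ^ c)
    (v := fun _ => 2 ^ c * (s i + 1) ^ c) fun a ha => by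
      rw [← mul_pow]
      refine pow_le_pow_left₀ (by positivity) ?_ c
      have := h2 a ha
      simp only [sz_pair]
      push_cast
      linarith
  simp only [List.map_const', List.sum_replicate, nsmul_eq_mul] at h3
  rw [List.map_map]
  refine h3.trans ?_
  have : (0 : ℝ) ≤ 2 ^ c * (s i + 1) ^ c := by positivity
  nlinarith

/-- map of a linear-time function with a context copied to every item -/
theorem L0.map_ctx {l : ι → List α} {x : ι → δ} {g : δ × α → β} (hl : L0 pre inp σ l)
    (hx : L0 pre inp σ x) (hg : Lin g)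
    (hσ : Le pre (fun i => (((l i).length : ℝ) + 1) * sz (x i)) σ) :
    L0 pre inp σ (fun i => (l i).map fun a => g (x i, a)) := by
  have hd : L0 pre inp σ (fun i => (l i).map fun a => (x i, a)) :=
    L0.sub sub_distl (hx.pair hl) (fun _ _ _ => trivial) (hl.sz_le.add hσ)
  exact (L0.lin (Lin.map' hg) hd).congr fun w i _ => by simp [Function.comp_def]

@[fun_prop] theorem Lin.map {g : α → β} {l : γ → List α} (hg : Lin g) (hl : Lin l) :
    Lin (fun a => (l a).map g) := by
  exact Lin.comp (Lin.map' hg) hl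

/-- a finite-state transducer -/
theorem Lin.scan [Finite δ] {f : α × δ → β × δ}
    (hf : Lin f) : Lin (fun p : List α × δ => scan f p.1 p.2) := by
  obtain ⟨M, hM⟩ : ∃ M : ℕ, ∀ d : δ, sz d ≤ M := by
    obtain ⟨M, hM⟩ := (Set.finite_range (sz : δ → ℕ)).bddAbove
    exact ⟨M, fun d => hM ⟨d, rfl⟩⟩
  obtain ⟨K, hK⟩ := hf.sz_le
  have hl : ∀ p : List α × δ, (sz p.1 : ℝ) ≤ sz p := fun p => by
    have : sz p = sz p.1 + sz p.2 + 1 := sz_pair p.1 p.2
    exact_mod_cast (by omega : sz p.1 ≤ sz p)
  have hsum : ∀ p : List α × δ, ((scanIn f p.1 p.2).map fun x => (sz x : ℝ)).sum ≤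
      (M + 2) * sz p := fun p => by
    have h1 := sum_le_sum (L := scanIn f p.1 p.2) (u := fun x => (sz x : ℝ))
      (v := fun x => (sz x.1 : ℝ) + (M + 1)) fun x _ => by
        have : sz x = sz x.1 + sz x.2 + 1 := sz_pair x.1 x.2
        have h2 := hM x.2
        exact_mod_cast (by omega : sz x ≤ sz x.1 + (M + 1))
    have h2 : ((scanIn f p.1 p.2).map fun x => (sz x.1 : ℝ)) = p.1.map fun a => (sz a : ℝ) := by
      conv_rhs => rw [← scanIn_fst f p.1 p.2, List.map_map]
      rfl
    rw [List.sum_map_add, h2] at h1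
    simp only [List.map_const', List.sum_replicate, nsmul_eq_mul, scanIn_length] at h1
    have h3 := length_le_real p.1
    have h4 := sz_real p.1
    have h5 := hl p
    have h6 : (0 : ℝ) ≤ p.1.length := Nat.cast_nonneg _
    have h7 : (0 : ℝ) ≤ M := Nat.cast_nonneg _
    nlinarith
  have h2 := Cf.scan (pre := fun _ (_ : List α × δ) => True) (σ := fun p => (sz p : ℝ))
    (l := fun p => p.1) (s := fun p => p.2) (f := fun _ => f) (σb := fun j => (sz j.2 : ℝ))
    (cb := fun _ => 0) (Cf.reindex hf Prod.snd fun _ _ _ => trivial)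
    (Le.of_le_mul (M + 2) (by positivity) fun _ p _ => hsum p) (Le.of_le fun _ p _ => hl p)
    (Le.of_le_mul (K * (M + 2) + 1) (by positivity) fun _ p _ => by
      have h1 := sum_le_sum (L := scanIn f p.1 p.2) (u := fun x => (sz (f x).1 : ℝ))
        (v := fun x => (K : ℝ) * sz x) fun x _ => by
          have : sz (f x) = sz (f x).1 + sz (f x).2 + 1 := sz_pair (f x).1 (f x).2
          have h2 := hK x
          exact_mod_cast (by omega : sz (f x).1 ≤ K * sz x)
      rw [List.sum_map_mul_left] at h1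
      have h2 := mul_le_mul_of_nonneg_left (hsum p) (Nat.cast_nonneg (α := ℝ) K)
      have h3 := length_le_real p.1
      have h5 := hl p
      rw [scan_fst, sz_real, List.map_map, List.length_map, scanIn_length]
      simp only [Function.comp_def]
      nlinarith)
  exact h2.mono (fun _ _ h => h) Le.refl fun w i _ => by simp

end Crest.Agent.R326
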