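import Crest.Agent.R326.Rules

/-! Row 326: the scan program. -/

set_option autoImplicit false

namespace Crest.Agent.R326

open Function

namespace Loops

/-- a state with its first three registers displayed -/
def st3 (s : St) (l0 l1 l2 : List Val) : St := fun r =>
  if r = 0 then l0 else if r = 1 then l1 else if r = 2 then l2 else s r

variable {s : St} {l0 l1 l2 x : List Val}

@[simp] theorem st3_0 : st3 s l0 l1 l2 0 = l0 := rfl
@[simp] theorem st3_1 : st3 s l0 l1 l2 1 = l1 := rfl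
@[simp] theorem st3_2 : st3 s l0 l1 l2 2 = l2 := rfl

@[simp] theorem up0 : update (st3 s l0 l1 l2) 0 x = st3 s x l1 l2 := by
  funext r
  by_cases h : r = 0
  · subst h; simp
  · rw [update_of_ne h]; simp [st3, h]

@[simp] theorem up1 : update (st3 s l0 l1 l2) 1 x = st3 s l0 x l2 := by
  funext r
  by_cases h : r = 1
  · subst h; simp
  · rw [update_of_ne h]; simp [st3, h]

@[simp] theorem up2 : update (st3 s l0 l1 l2) 2 x = st3 s l0 l1 x := by
  funext r
  by_cases h : r = 2
  · subst h; simp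
  · rw [update_of_ne h]; simp [st3, h]

theorem update_eq_st3 (s : St) (x : List Val) : update s 0 x = st3 s x (s 1) (s 2) := by
  funext r
  by_cases h : r = 0
  · subst h; simp
  · rw [update_of_ne h]
    unfold st3
    rw [if_neg h]
    split_ifs with h1 h2
    · rw [h1]
    · rw [h2]
    · rfl

variable {Γ : VP} {a b v : Val}

theorem cons0 : Exec Γ (.cons 0) (st3 s (a :: b :: l0) l1 l2) (st3 s (.cons a b :: l0) l1 l2) 1 := by
  simpa using Exec.cons Γ (r := 0) (s := st3 s (a :: b :: l0) l1 l2) rfl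
theorem cons1 : Exec Γ (.cons 1) (st3 s l0 (a :: b :: l1) l2) (st3 s l0 (.cons a b :: l1) l2) 1 := by
  simpa using Exec.cons Γ (r := 1) (s := st3 s l0 (a :: b :: l1) l2) rfl
theorem cons2 : Exec Γ (.cons 2) (st3 s l0 l1 (a :: b :: l2)) (st3 s l0 l1 (.cons a b :: l2)) 1 := by
  simpa using Exec.cons Γ (r := 2) (s := st3 s l0 l1 (a :: b :: l2)) rfl
theorem uncons0 :
    Exec Γ (.uncons 0) (st3 s (.cons a b :: l0) l1 l2) (st3 s (a :: b :: l0) l1 l2) 1 := by
  simpa using Exec.uncons Γ (r := 0) (s := st3 s (.cons a b :: l0) l1 l2) rfl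
theorem uncons1 :
    Exec Γ (.uncons 1) (st3 s l0 (.cons a b :: l1) l2) (st3 s l0 (a :: b :: l1) l2) 1 := by
  simpa using Exec.uncons Γ (r := 1) (s := st3 s l0 (.cons a b :: l1) l2) rfl
theorem uncons2 :
    Exec Γ (.uncons 2) (st3 s l0 l1 (.cons a b :: l2)) (st3 s l0 l1 (a :: b :: l2)) 1 := by
  simpa using Exec.uncons Γ (r := 2) (s := st3 s l0 l1 (.cons a b :: l2)) rfl
theorem move01 :
    Exec Γ (.move 0 1) (st3 s (v :: l0) l1 l2) (st3 s l0 (v :: l1) l2) v.size := by
  simpa using Exec.move Γ (r := 0) 1 (s := st3 s (v :: l0) l1 l2) rfl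
theorem move02 :
    Exec Γ (.move 0 2) (st3 s (v :: l0) l1 l2) (st3 s l0 l1 (v :: l2)) v.size := by
  simpa using Exec.move Γ (r := 0) 2 (s := st3 s (v :: l0) l1 l2) rfl
theorem move10 :
    Exec Γ (.move 1 0) (st3 s l0 (v :: l1) l2) (st3 s (v :: l0) l1 l2) v.size := by
  simpa using Exec.move Γ (r := 1) 0 (s := st3 s l0 (v :: l1) l2) rfl
theorem move21 :
    Exec Γ (.move 2 1) (st3 s l0 l1 (v :: l2)) (st3 s l0 (v :: l1) l2) v.size := by
  simpa using Exec.move Γ (r := 2) 1 (s := st3 s l0 l1 (v :: l2)) rfl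
theorem push0 : Exec Γ (.push 0 v) (st3 s l0 l1 l2) (st3 s (v :: l0) l1 l2) v.size := by
  simpa using Exec.push Γ 0 v (st3 s l0 l1 l2)
theorem push2 : Exec Γ (.push 2 v) (st3 s l0 l1 l2) (st3 s l0 l1 (v :: l2)) v.size := by
  simpa using Exec.push Γ 2 v (st3 s l0 l1 l2)
theorem drop0 : Exec Γ (.drop 0) (st3 s (v :: l0) l1 l2) (st3 s l0 l1 l2) v.size := by
  simpa using Exec.drop Γ (r := 0) (s := st3 s (v :: l0) l1 l2) rfl
theorem drop2 : Exec Γ (.drop 2) (st3 s l0 l1 (v :: l2)) (st3 s l0 l1 l2) v.size := by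
  simpa using Exec.drop Γ (r := 2) (s := st3 s l0 l1 (v :: l2)) rfl

theorem ev_st3 {p : VP} {T : ℝ} (h : Ev Γ p a b T) (s : St) (l0 l1 l2 : List Val) :
    ∃ t : ℕ, (t : ℝ) ≤ T ∧ Exec Γ p (st3 s (a :: l0) l1 l2) (st3 s (b :: l0) l1 l2) t := by
  simpa using h (st3 s l0 l1 l2)

theorem ev_of_st3 {p : VP} {T : ℝ} (h : ∀ (s : St) (l0 l1 l2 : List Val),
    ∃ t : ℕ, (t : ℝ) ≤ T ∧ Exec Γ p (st3 s (a :: l0) l1 l2) (st3 s (b :: l0) l1 l2) t) :
    Ev Γ p a b T := fun s => by
  rw [update_eq_st3, update_eq_st3]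
  exact h s _ _ _

theorem ev_mono {p : VP} {T T' : ℝ} (h : Ev Γ p a b T) (hT : T ≤ T') : Ev Γ p a b T' := fun s =>
  let ⟨t, ht, he⟩ := h s
  ⟨t, ht.trans hT, he⟩

theorem ev_first {p : VP} {T : ℝ} (h : Ev Γ p a b T) (c : Val) :
    Ev Γ (.seq (.uncons 0) (.seq p (.cons 0))) (.cons a c) (.cons b c) (T + 2) :=
  ev_of_st3 fun s l0 l1 l2 => by
    obtain ⟨t, ht, he⟩ := ev_st3 h s (c :: l0) l1 l2
    exact ⟨_, by push_cast; linarith, uncons0.seq (he.seq cons0)⟩

theorem ev_unit {p : VP} {T : ℝ} (h : Ev Γ p a b T) :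
    Ev Γ (.seq p (.seq (.push 0 .nil) (.cons 0))) a (.cons .nil b) (T + 2) :=
  ev_of_st3 fun s l0 l1 l2 => by
    obtain ⟨t, ht, he⟩ := ev_st3 h s l0 l1 l2
    exact ⟨_, by simp only [Val.size]; push_cast; linarith, he.seq (push0.seq cons0)⟩

theorem ev_snd (a b : Val) : Ev Γ (.seq (.uncons 0) (.drop 0)) (.cons a b) b (1 + a.size) :=
  ev_of_st3 fun s l0 l1 l2 => ⟨_, by push_cast; exact le_rfl, uncons0.seq drop0⟩

theorem val_size_pos (v : Val) : 1 ≤ v.size := by
  cases v <;> simp [Val.size]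

theorem exec_pos {Γ p : VP} {s s' : St} {t : ℕ} (h : Exec Γ p s s' t) : 1 ≤ t := by
  induction h <;> first | omega | exact val_size_pos _

variable {α β δ : Type} [Enc α] [Enc β] [Enc δ]

theorem enc_cons (a : α) (l : List α) : enc (a :: l) = Val.cons (enc a) (enc l) := rfl
theorem enc_nil : enc ([] : List α) = Val.nil := rfl
theorem enc_pair (a : α) (b : β) : enc (a, b) = Val.cons (enc a) (enc b) := rfl

theorem sz_real (l : List α) :
    (sz l : ℝ) = (l.map fun a => (sz a : ℝ)).sum + l.length + 1 := by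
  induction l with
  | nil => simp
  | cons a l ih => simp only [sz_cons, List.map_cons, List.sum_cons, List.length_cons]; push_cast
                   rw [ih]; ring

theorem sz_reverse (l : List α) : (sz l.reverse : ℝ) = sz l := by
  rw [sz_real, sz_real, List.map_reverse, List.sum_reverse, List.length_reverse]

def revBody : VP := .seq (.uncons 2) (.seq (.move 2 1) (.cons 1))

theorem rev_loop (s : St) (l0 l1 l2 : List Val) (vs acc : List β) :
    ∃ t : ℕ, t ≤ 3 * sz vs ∧ Exec Γ (.loop 2 revBody) (st3 s l0 (enc acc :: l1) (enc vs :: l2))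
      (st3 s l0 (enc (vs.reverse ++ acc) :: l1) (.nil :: l2)) t := by
  induction vs generalizing acc with
  | nil => exact ⟨1, by simp, Exec.loopN Γ _ rfl⟩
  | cons b vs ih =>
    obtain ⟨t, ht, he⟩ := ih (b :: acc)
    rw [List.reverse_cons, List.append_assoc, List.singleton_append]
    refine ⟨_, ?_,
      Exec.loopC (a := enc b) (b := enc vs) rfl (uncons2.seq (move21.seq cons1)) he⟩
    have : (enc b).size = sz b := rfl
    rw [sz_cons]
    omega

def scanBody (p : VP) : VP :=
  .seq (.uncons 1) (.seq (.move 1 0) (.seq (.cons 0) (.seq p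
    (.seq (.uncons 0) (.seq (.move 0 2) (.cons 2))))))

theorem scan_loop {p : VP} (f : α × δ → β × δ) (T : α × δ → ℝ) (s : St) (l0 l1 l2 : List Val)
    (l : List α) (d : δ) (acc : List β)
    (h : ∀ x ∈ scanIn f l d, Ev Γ p (enc x) (enc (f x)) (T x)) :
    ∃ t : ℕ, (t : ℝ) ≤ ((scanIn f l d).map T).sum + 5 * sz l + sz (scan f l d).1 ∧
      Exec Γ (.loop 1 (scanBody p)) (st3 s (enc d :: l0) (enc l :: l1) (enc acc :: l2))
        (st3 s (enc (scan f l d).2 :: l0) (.nil :: l1)
          (enc ((scan f l d).1.reverse ++ acc) :: l2)) t := by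
  induction l generalizing d acc with
  | nil => exact ⟨1, by simp [scanIn, scan], Exec.loopN Γ _ rfl⟩
  | cons a l ih =>
    obtain ⟨t, ht, he⟩ := ih (f (a, d)).2 ((f (a, d)).1 :: acc)
      fun x hx => h x (List.mem_cons_of_mem _ hx)
    obtain ⟨t', ht', he'⟩ := ev_st3 (h (a, d) List.mem_cons_self) s l0 (enc l :: l1) (enc acc :: l2)
    simp only [scan]
    rw [List.reverse_cons, List.append_assoc, List.singleton_append]
    refine ⟨_, ?_, Exec.loopC (a := enc a) (b := enc l) rfl
        (uncons1.seq (move10.seq (cons0.seq (he'.seq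
          ((uncons0 (a := enc (f (a, d)).1) (b := enc (f (a, d)).2)).seq
            (move02.seq cons2)))))) he⟩
    have h1 : (enc a).size = sz a := rfl
    have h2 : (enc (f (a, d)).1).size = sz (f (a, d)).1 := rfl
    have h3 : (1 : ℝ) ≤ sz a := by exact_mod_cast val_size_pos (enc a)
    simp only [scanIn, List.map_cons, List.sum_cons, sz_cons, h1, h2]
    push_cast
    linarith

def scanP (p : VP) : VP :=
  .seq (.uncons 0) (.seq (.move 0 1) (.seq (.push 2 .nil) (.seq (.loop 1 (scanBody p))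
    (.seq (.loop 2 revBody) (.seq (.drop 2) (.seq (.move 1 0) (.cons 0)))))))

theorem ev_scan {p : VP} (f : α × δ → β × δ) (T : α × δ → ℝ) (l : List α) (d : δ)
    (h : ∀ x ∈ scanIn f l d, Ev Γ p (enc x) (enc (f x)) (T x)) :
    Ev Γ (scanP p) (enc (l, d)) (enc (scan f l d))
      (((scanIn f l d).map T).sum + 10 * sz l + 5 * sz (scan f l d).1) :=
  ev_of_st3 fun s l0 l1 l2 => by
    obtain ⟨t, ht, he⟩ := scan_loop f T s l0 l1 l2 l d [] h
    rw [List.append_nil] at he
    obtain ⟨t', ht', he'⟩ := rev_loop (Γ := Γ) s (enc (scan f l d).2 :: l0) l1 l2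
      (scan f l d).1.reverse []
    rw [List.append_nil, List.reverse_reverse] at he'
    refine ⟨_, ?_, (uncons0 (a := enc l) (b := enc d)).seq (move01.seq (push2.seq
      (he.seq (he'.seq (drop2.seq (move10.seq cons0))))))⟩
    have h1 : (enc l).size = sz l := rfl
    have h2 : (enc (scan f l d).1).size = sz (scan f l d).1 := rfl
    have h3 : (t' : ℝ) ≤ 3 * sz (scan f l d).1 := by
      rw [← sz_reverse]; exact_mod_cast ht'
    have h4 : (1 : ℝ) ≤ sz l := by exact_mod_cast val_size_pos (enc l)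
    simp only [h1, h2, Val.size]
    push_cast
    linarith

omit [Enc α] [Enc β] [Enc δ] in
theorem scanIn_fst (f : α × δ → β × δ) (l : List α) (d : δ) :
    (scanIn f l d).map Prod.fst = l := by
  induction l generalizing d with
  | nil => rfl
  | cons a l ih => simp [scanIn, ih]

omit [Enc α] [Enc β] [Enc δ] in
theorem scanIn_length (f : α × δ → β × δ) (l : List α) (d : δ) :
    (scanIn f l d).length = l.length := by
  rw [← List.length_map Prod.fst, scanIn_fst]

omit [Enc α] [Enc β] [Enc δ] in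
theorem scan_fst (f : α × δ → β × δ) (l : List α) (d : δ) :
    (scan f l d).1 = (scanIn f l d).map fun x => (f x).1 := by
  induction l generalizing d with
  | nil => rfl
  | cons a l ih => simp [scanIn, scan, ih]

omit [Enc α] [Enc β] [Enc δ] in
theorem scanIn_keep (g : α × δ → β) (l : List α) (d : δ) :
    scanIn (fun x => (g x, x.2)) l d = l.map fun a => (a, d) := by
  induction l with
  | nil => rfl
  | cons a l ih => simp [scanIn, ih]

omit [Enc α] [Enc β] [Enc δ] in
theorem scan_keep (g : α × δ → β) (l : List α) (d : δ) :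
    scan (fun x => (g x, x.2)) l d = (l.map fun a => g (a, d), d) := by
  induction l with
  | nil => rfl
  | cons a l ih => simp [scan, ih]

omit [Enc α] [Enc δ] in
theorem scan_fold (g : δ → α → δ) (l : List α) (d : δ) :
    scan (fun x : α × δ => ((), g x.2 x.1)) l d = (l.map fun _ => (), l.foldl g d) := by
  induction l generalizing d with
  | nil => rfl
  | cons a l ih => simp only [scan, ih, List.map_cons, List.foldl_cons]

omit [Enc α] [Enc δ] in
theorem mem_scanIn_fold (g : δ → α → δ) (l : List α) (d : δ) (I : ℕ → δ → Prop) (h0 : I 0 d)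
    (hI : ∀ n (hn : n < l.length) t, I n t → I (n + 1) (g t l[n])) :
    ∀ x ∈ scanIn (fun x : α × δ => ((), g x.2 x.1)) l d,
      ∃ n, ∃ hn : n < l.length, x.1 = l[n] ∧ I n x.2 := by
  induction l generalizing d I with
  | nil => intro x hx; simp [scanIn] at hx
  | cons a l ih =>
    intro x hx
    rcases List.mem_cons.1 hx with rfl | hx
    · exact ⟨0, by simp, rfl, h0⟩
    · obtain ⟨n, hn, h1, h2⟩ := ih (g d a) (fun n => I (n + 1)) (hI 0 (by simp) d h0)
        (fun n hn t ht => hI (n + 1) (by simpa using hn) t ht) x hx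
      exact ⟨n + 1, by simpa using hn, h1, h2⟩

theorem sum_affine {X : Type} (L : List X) (K A C : ℝ) (u v : X → ℝ) :
    (L.map fun x => K * u x + A * v x + C).sum =
      K * (L.map u).sum + A * (L.map v).sum + C * L.length := by
  induction L with
  | nil => simp
  | cons a L ih => simp only [List.map_cons, List.sum_cons, List.length_cons, ih]; push_cast; ring

theorem sum_le_sum {X : Type} {L : List X} {u v : X → ℝ} (h : ∀ x ∈ L, u x ≤ v x) :
    (L.map u).sum ≤ (L.map v).sum := List.sum_le_sum h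

theorem length_le_real (l : List α) : (l.length : ℝ) + 1 ≤ sz l := by
  rw [sz_real]
  have : 0 ≤ (l.map fun a => (sz a : ℝ)).sum :=
    List.sum_nonneg fun x hx => by
      obtain ⟨a, -, rfl⟩ := List.mem_map.1 hx
      exact Nat.cast_nonneg _
  linarith

variable {ι : Type} {pre : World → ι → Prop} {σ : ι → ℝ}

/-- the scan rule with a constant overhead `C` in the body -/
theorem cf_scan {l : ι → List α} {s : ι → δ} {f : ι → α × δ → β × δ}
    {σb cb : ι × (α × δ) → ℝ} (p : VP) (K C : ℝ) (hK : 0 ≤ K) (hC : 0 ≤ C)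
    (hb : ∀ w i, pre w i → ∀ x ∈ scanIn (f i) (l i) (s i),
      Ev w.Γ p (enc x) (enc (f i x)) (K * σb (i, x) + w.A * cb (i, x) + C))
    (hσ : Le pre (fun i => ((scanIn (f i) (l i) (s i)).map fun x => σb (i, x)).sum) σ)
    (hin : Le pre (fun i => (sz (l i) : ℝ)) σ)
    (hout : Le pre (fun i => (sz (scan (f i) (l i) (s i)).1 : ℝ)) σ) :
    Cf pre (fun i => (l i, s i)) (fun i => scan (f i) (l i) (s i)) σ
      (fun i => ((scanIn (f i) (l i) (s i)).map fun x => cb (i, x)).sum) := by
  obtain ⟨K1, hK1, h1⟩ := hσ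
  obtain ⟨K2, hK2, h2⟩ := hin
  obtain ⟨K3, hK3, h3⟩ := hout
  refine ⟨scanP p, K * K1 + (C + 10) * K2 + 5 * K3, by positivity, fun w i hi => ?_⟩
  refine ev_mono (ev_scan (f i) _ (l i) (s i) (hb w i hi)) ?_
  rw [sum_affine, scanIn_length]
  have e1 := mul_le_mul_of_nonneg_left (h1 w i hi) hK
  have e2 := h2 w i hi
  have e3 := h3 w i hi
  have e4 := mul_le_mul_of_nonneg_left ((le_add_of_nonneg_right zero_le_one).trans
    ((length_le_real (l i)).trans e2)) hC
  simp only at e1 e2 e3 e4 ⊢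
  nlinarith

theorem cf_snd {f : ι → α} (g : ι → β) (hs : Le pre (fun i => (sz (f i) : ℝ)) σ) :
    Cf pre (fun i => (f i, g i)) g σ (fun _ => 0) := by
  obtain ⟨K, hK, h⟩ := hs
  refine ⟨_, 2 * K, by positivity, fun w i hi => ev_mono (ev_snd (enc (f i)) (enc (g i))) ?_⟩
  have e := h w i hi
  have h4 : (1 : ℝ) ≤ sz (f i) := by exact_mod_cast val_size_pos (enc (f i))
  have h5 : ((enc (f i)).size : ℝ) = sz (f i) := rfl
  simp only at e
  rw [h5]
  linarith

theorem sub_nonneg {P : α → Prop} {g : α → β} {τ : α → ℝ} (h : Sub P g τ) {a : α} (ha : P a) :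
    0 ≤ τ a := by
  obtain ⟨p, K, hK, h⟩ := h
  obtain ⟨t, ht, he⟩ := h ⟨.skip, 0, le_rfl⟩ a ha fun _ => []
  have h1 : (1 : ℝ) ≤ t := by exact_mod_cast exec_pos he
  by_contra hc
  have : K * τ a ≤ 0 := mul_nonpos_of_nonneg_of_nonpos hK (not_le.1 hc).le
  simp only [mul_zero, add_zero] at ht
  linarith

end Loops

end Crest.Agent.R326
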