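import Crest.Agent.R326.Words

/-! Row 326: pointwise multiplication of arrays of elements through the recursive call. -/

set_option autoImplicit false

namespace Crest.Agent.R326

namespace MulE

open Crest.LogicCS.IntMul

abbrev W : Type := List Bool

theorem bitsVal_reverse (l : W) : bitsVal l.reverse = valLE l := by
  unfold bitsVal
  rw [List.foldl_reverse]
  induction l with
  | nil => rfl
  | cons b l ih => rw [List.foldr_cons, ih, valLE_cons]; cases b <;> rfl

theorem reverse_mulF (x y : W) :
    (mulF (x.reverse, y.reverse)).reverse = wordLE (2 * x.length) (valLE x * valLE y) := by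
  simp only [mulF, toBits, List.reverse_reverse, List.length_reverse, bitsVal_reverse, wordLE]

theorem length_mulF (p : W × W) : (mulF p).length = 2 * p.1.length := by simp [mulF, toBits]

theorem two_pow_cast (B : ℕ) : ((2 ^ B : ℕ) : ZMod (2 ^ B - 1)) = 1 := by
  have h : ((2 ^ B - 1 + 1 : ℕ) : ZMod (2 ^ B - 1)) = 1 := by
    rw [Nat.cast_add, ZMod.natCast_self, zero_add, Nat.cast_one]
  rwa [Nat.sub_add_cancel Nat.one_le_two_pow] at h

/-- low plus high half of a product -/
theorem lo_add_hi {B : ℕ} {x y : W} (hx : x.length = B) (hy : y.length = B) :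
    ((valLE ((mulF (x.reverse, y.reverse)).reverse.take B) : ℕ) : ZMod (2 ^ B - 1)) +
      (valLE ((mulF (x.reverse, y.reverse)).reverse.drop B) : ℕ) =
        (valLE x : ℕ) * (valLE y : ℕ) := by
  rw [reverse_mulF, hx]
  have h1 : valLE x * valLE y < 2 ^ (2 * B) := by
    rw [two_mul, pow_add]
    exact Nat.mul_lt_mul'' (hx ▸ valLE_lt x) (hy ▸ valLE_lt y)
  have h2 := valLE_append ((wordLE (2 * B) (valLE x * valLE y)).take B)
    ((wordLE (2 * B) (valLE x * valLE y)).drop B)
  rw [List.take_append_drop, valLE_wordLE h1, List.length_take, length_wordLE,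
    min_eq_left (by omega)] at h2
  have h3 := congrArg (Nat.cast : ℕ → ZMod (2 ^ B - 1)) h2
  rw [Nat.cast_add, Nat.cast_mul, Nat.cast_mul, two_pow_cast, one_mul] at h3
  exact h3.symm

/-- block number `j` -/
def blk (B : ℕ) (a : W) (j : ℕ) : W := (a.drop (j * (2 * B))).take (2 * B)

theorem eat_blk (B : ℕ) (a : W) (j : ℕ) :
    eat B a j = ⟨(valLE ((blk B a j).take B) : ℕ), (valLE ((blk B a j).drop B) : ℕ)⟩ := by
  have e1 : (blk B a j).take B = (a.drop (2 * B * j)).take B := by
    rw [blk, List.take_take, min_eq_left (by omega), mul_comm j]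
  have e2 : (blk B a j).drop B = (a.drop (2 * B * j + B)).take B := by
    rw [blk, List.drop_take, List.drop_drop, mul_comm j, show 2 * B - B = B by omega]
  rw [e1, e2, eat]

theorem length_blk {B n j : ℕ} {a : W} (ha : a.length = n * (2 * B)) (hj : j < n) :
    (blk B a j).length = 2 * B :=
  length_of_mem_blocks ha.ge (List.mem_map.2 ⟨j, List.mem_range.2 hj, rfl⟩)

theorem length_flat {B n : ℕ} {g : ℕ → W} (hg : ∀ j < n, (g j).length = 2 * B) :
    ((List.range n).map g).flatten.length = n * (2 * B) := by
  rw [List.length_flatten, List.map_map,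
    List.map_congr_left (f := List.length ∘ g) (g := fun _ => 2 * B)
      fun j hj => hg j (List.mem_range.1 hj)]
  simp

theorem blk_flat {B n j : ℕ} {g : ℕ → W} (hg : ∀ j < n, (g j).length = 2 * B) (hj : j < n) :
    blk B ((List.range n).map g).flatten j = g j := by
  have h := blocks_flatten (k := 2 * B) (L := (List.range n).map g) fun r hr => by
    obtain ⟨j, hj, rfl⟩ := List.mem_map.1 hr
    exact hg j (List.mem_range.1 hj)
  rw [List.length_map, List.length_range, blocks, List.map_inj_left] at h
  exact h j (List.mem_range.2 hj)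

theorem eat_flat {B n j : ℕ} {x y : ℕ → W} (hx : ∀ j < n, (x j).length = B)
    (hy : ∀ j < n, (y j).length = B) (hj : j < n) :
    eat B ((List.range n).map fun j => x j ++ y j).flatten j =
      ⟨(valLE (x j) : ℕ), (valLE (y j) : ℕ)⟩ := by
  rw [eat_blk, blk_flat (fun j hj => by rw [List.length_append, hx j hj, hy j hj, two_mul]) hj,
    List.take_left' (hx j hj), List.drop_left' (hx j hj)]

/-- the two pairs of factors -/
def prep (w : List Unit × W → W) (x : List Unit × W × W) : (W × W) × W × W :=
  (((w (x.1, x.2.1)).reverse, (x.2.2.take x.1.length).reverse),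
    (w (x.1, x.2.1)).reverse, (x.2.2.drop x.1.length).reverse)

theorem lin_prep {w : List Unit × W → W} (hw : Lin w) : Lin (prep w) := by
  have h : Lin fun x : List Unit × W × W => w (x.1, x.2.1) := hw.comp (by fun_prop)
  unfold prep
  fun_prop

def lo (x : List Unit × W × W) : W :=
  x.2.1.reverse.take x.1.length ++ x.2.2.reverse.take x.1.length

def hi (x : List Unit × W × W) : W :=
  x.2.1.reverse.drop x.1.length ++ x.2.2.reverse.drop x.1.length

theorem lin_lo : Lin lo := by unfold lo; fun_prop

theorem lin_hi : Lin hi := by unfold hi; fun_prop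

section
variable {ι : Type} {pre : World → ι → Prop} {B n : ι → ℕ} {a b : ι → W}

theorem ok_le {B n : ℕ} {a : W} (h : OkE B n a) :
    (n + 1) * (2 * B + 1) ≤ 4 * a.length ∧ B + 1 ≤ a.length ∧ n + 1 ≤ 2 * a.length := by
  obtain ⟨h1, h2, h3⟩ := h
  rw [h3]
  refine ⟨by nlinarith, by nlinarith, by nlinarith⟩

theorem le_input (h : ∀ w i, pre w i → OkE (B i) (n i) (a i) ∧ OkE (B i) (n i) (b i)) :
    Le pre (fun i => (sz (B i, n i, a i, b i) : ℝ)) (fun i => ((a i).length : ℝ)) := by
  refine Le.of_le_mul 20 (by norm_num) fun w i hi => ?_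
  obtain ⟨h1, h2⟩ := h w i hi
  obtain ⟨-, k2, k3⟩ := ok_le h1
  have k4 := Prims.sz_nat_le (B i)
  have k5 := Prims.sz_nat_le (n i)
  have k6 : (b i).length = (a i).length := h2.2.2.trans h1.2.2.symm
  have : sz (B i, n i, a i, b i) ≤ 20 * (a i).length := by
    simp only [sz_pair, sz_bits]
    omega
  exact_mod_cast this

/-- an array of words times an array of elements -/
theorem cf_half (τ : ℕ → ℝ) {w : List Unit × W → W} (hw : Lin w)
    (hl : ∀ (B : ℕ) (e : W), e.length = 2 * B → (w (un B, e)).length = B)
    (h : ∀ w i, pre w i → OkE (B i) (n i) (a i) ∧ OkE (B i) (n i) (b i) ∧ CanMul τ w (B i)) :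
    Cf pre (fun i => (B i, n i, a i, b i))
      (fun i => emk (B i) (n i) fun j =>
        (⟨(valLE (w (un (B i), blk (B i) (a i) j)) : ℕ), 0⟩ : RB (B i)) * eat (B i) (b i) j)
      (fun i => ((a i).length : ℝ)) (fun i => 2 * (n i : ℝ) * τ (B i)) := by
  have hin := le_input (pre := pre) fun w i hi => ⟨(h w i hi).1, (h w i hi).2.1⟩
  have h0 := L0.input hin
  have hB1 : Le pre (fun i => (B i : ℝ) + 1) (fun i => ((a i).length : ℝ)) :=
    Le.of_le fun w i hi => by exact_mod_cast (ok_le (h w i hi).1).2.1
  have hctx : Le pre (fun i => ((n i : ℝ) + 1) * sz (un (B i))) (fun i => ((a i).length : ℝ)) :=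
    Le.of_le_mul 4 (by norm_num) fun w i hi => by
      rw [sz_un]
      exact_mod_cast (ok_le (h w i hi).1).1
  have hB := L0.lin (g := fun p : ℕ × ℕ × W × W => p.1) (by fun_prop) h0
  have hn := L0.lin (g := fun p : ℕ × ℕ × W × W => p.2.1) (by fun_prop) h0
  have ha := L0.lin (g := fun p : ℕ × ℕ × W × W => p.2.2.1) (by fun_prop) h0
  have hb := L0.lin (g := fun p : ℕ × ℕ × W × W => p.2.2.2) (by fun_prop) h0
  have hu := hB.un hB1
  have h2B : L0 pre (fun i => (B i, n i, a i, b i)) (fun i => ((a i).length : ℝ))
      fun i => 2 * B i :=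
    (L0.lin (g := fun u : List Unit => (u ++ u).length) (by fun_prop) hu).congr fun _ i _ => by
      simp [two_mul]
  have hblk : ∀ c : ι → W, (∀ w i, pre w i → (c i).length = (a i).length) →
      L0 pre (fun i => (B i, n i, a i, b i)) (fun i => ((a i).length : ℝ)) c →
      L0 pre (fun i => (B i, n i, a i, b i)) (fun i => ((a i).length : ℝ))
        fun i => (List.range (n i)).map (blk (B i) (c i)) := fun c hc hc' =>
    L0.sub sub_blocks (hn.pair (h2B.pair hc')) (fun _ _ _ => trivial)
      (Le.of_le_mul 7 (by norm_num) fun w i hi => by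
        obtain ⟨k1, k2, -⟩ := ok_le (h w i hi).1
        have : sz (c i) + (n i + 1) * (2 * B i + 1) ≤ 7 * (a i).length := by
          rw [sz_bits, hc w i hi]
          omega
        exact_mod_cast this)
  have hz := L0.lin (g := fun p : List W × List W => p.1.zip p.2) (by fun_prop)
    ((hblk a (fun _ _ _ => rfl) ha).pair
      (hblk b (fun w i hi => (h w i hi).2.1.2.2.trans (h w i hi).1.2.2.symm) hb))
  simp only [List.zip_map'] at hz
  have hitems := L0.map_ctx hz hu (lin_prep hw) (by simpa using hctx)
  simp only [List.map_map] at hitems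
  -- the recursive calls
  let item : ι → ℕ → (W × W) × W × W := fun i j =>
    prep w (un (B i), blk (B i) (a i) j, blk (B i) (b i) j)
  have hitem : ∀ w' i, pre w' i → ∀ j < n i,
      ((item i j).1.1.length = B i ∧ (item i j).1.2.length = B i) ∧
        (item i j).2.1.length = B i ∧ (item i j).2.2.length = B i := fun w' i hi j hj => by
    have k1 := length_blk (h w' i hi).1.2.2 hj
    have k2 := length_blk (h w' i hi).2.1.2.2 hj
    have k3 := hl _ _ k1
    simp only [item, prep, List.length_reverse, k3, List.length_take, List.length_drop, k2,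
      List.length_replicate, true_and]
    omega
  have hmem : ∀ w' (j : ι × (W × W) × W × W),
      pre w' j.1 ∧ j.2 ∈ (List.range (n j.1)).map (item j.1) →
      (j.2.1.1.length = B j.1 ∧ j.2.1.2.length = B j.1) ∧
        j.2.2.1.length = B j.1 ∧ j.2.2.2.length = B j.1 := fun w' j hj => by
    obtain ⟨k, hk, e⟩ := List.mem_map.1 hj.2
    exact e ▸ hitem w' j.1 hj.1 k (List.mem_range.1 hk)
  have hcall : ∀ s : (W × W) × W × W → W × W, Lin s →
      (∀ (x : (W × W) × W × W) (B : ℕ), (x.1.1.length = B ∧ x.1.2.length = B) ∧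
        x.2.1.length = B ∧ x.2.2.length = B → (s x).1.length = B ∧ (s x).2.length = B) →
      Cf (fun w' (j : ι × (W × W) × W × W) => pre w' j.1 ∧ j.2 ∈ (List.range (n j.1)).map (item j.1))
        (fun j => j.2) (fun j => mulF (s j.2)) (fun j => (sz j.2 : ℝ)) fun j => τ (B j.1) := by
    intro s hs hs'
    refine (L0.lin hs (L0.input Le.refl)).thenCf ((Cf.self (D := MulD) (μ := mulMu) (F := mulF)
      (τ := fun p => τ p.1.length) (fun j => B j.1 + 1) fun w' j hj => ?_).mono (fun _ _ h => h)
        Le.refl fun w' j hj => ?_)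
    · obtain ⟨k1, k2⟩ := hs' _ _ (hmem w' j hj)
      exact ⟨(h w' j.1 hj.1).2.2, k1.trans k2.symm, Nat.lt_succ_of_le k1.le⟩
    · rw [(hs' _ _ (hmem w' j hj)).1]
  have hszM : Le pre (fun i => (sz (((List.range (n i)).map (item i)).map
      fun q => (mulF q.1, mulF q.2)) : ℝ)) (fun i => ((a i).length : ℝ)) :=
    Le.of_le_mul 20 (by norm_num) fun w' i hi => by
      have k1 := sz_list_le (l := ((List.range (n i)).map (item i)).map
        fun q => (mulF q.1, mulF q.2)) (s := 8 * B i + 3) fun x hx => by
          obtain ⟨q, hq, rfl⟩ := List.mem_map.1 hx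
          obtain ⟨⟨l1, -⟩, l2, -⟩ := hmem w' (i, q) ⟨hi, hq⟩
          simp only at l1 l2
          rw [sz_pair, sz_bits, sz_bits, length_mulF, length_mulF, l1, l2]
          omega
      rw [List.length_map, List.length_map, List.length_range] at k1
      obtain ⟨k2, k3, -⟩ := ok_le (h w' i hi).1
      have : sz (((List.range (n i)).map (item i)).map fun q => (mulF q.1, mulF q.2)) ≤
          20 * (a i).length := by nlinarith
      exact_mod_cast this
  have hmap := hitems.thenCf (Cf.map (l := fun i => (List.range (n i)).map (item i))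
    (g := fun _ q => (mulF q.1, mulF q.2))
    (Cf.pair Le.refl (hcall Prod.fst (by fun_prop) fun _ _ h => h.1)
      (hcall Prod.snd (by fun_prop) fun _ _ h => h.2))
    (Le.trans (Le.of_le fun _ i _ => by
      rw [Prims.cast_sum_map]
      exact_mod_cast Prims.sum_sz_le _) hitems.sz_le) hitems.sz_le hszM)
  -- the reductions
  have g0 := L0.input (pre := pre) (σ := fun i => ((a i).length : ℝ))
    (inp := fun i => ((B i, n i), ((List.range (n i)).map (item i)).map
      fun q => (mulF q.1, mulF q.2)))
    (by simpa only [sz_pair, Nat.cast_add, Nat.cast_one] using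
      (((hB.sz_le.add hn.sz_le).add (hin.const_of_sz 1)).add hszM).add (hin.const_of_sz 1))
  have gB := L0.lin (g := fun p : (ℕ × ℕ) × List (W × W) => p.1.1) (by fun_prop) g0
  have gn := L0.lin (g := fun p : (ℕ × ℕ) × List (W × W) => p.1.2) (by fun_prop) g0
  have gM := L0.lin (g := fun p : (ℕ × ℕ) × List (W × W) => p.2) (by fun_prop) g0
  have gu := gB.un hB1
  have gLo := (L0.lin (g := fun l : List W => l.flatten) (by fun_prop)
    (L0.map_ctx gM gu lin_lo (by simpa using hctx))).congr
    (f' := fun i => ((List.range (n i)).map fun j => (mulF (item i j).1).reverse.take (B i) ++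
      (mulF (item i j).2).reverse.take (B i)).flatten) fun _ i _ => by
        simp only [List.map_map, Function.comp_def, lo, List.length_replicate]
  have gHi := (L0.lin (g := fun l : List W => l.flatten) (by fun_prop)
    (L0.map_ctx gM gu lin_hi (by simpa using hctx))).congr
    (f' := fun i => ((List.range (n i)).map fun j => (mulF (item i j).1).reverse.drop (B i) ++
      (mulF (item i j).2).reverse.drop (B i)).flatten) fun _ i _ => by
        simp only [List.map_map, Function.comp_def, hi, List.length_replicate]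
  have l0 : ∀ (B : ℕ) (p : W × W), p.1.length = B →
      ((mulF p).reverse.take B).length = B ∧ ((mulF p).reverse.drop B).length = B :=
    fun B p hp => by
      simp only [List.length_take, List.length_drop, List.length_reverse, length_mulF, hp]
      omega
  have l1 := fun w' i hi j hj => l0 _ _ (hitem w' i hi j hj).1.1
  have l2 := fun w' i hi j hj => l0 _ _ (hitem w' i hi j hj).2.1
  have gadd := L0.sub sub_addE (gB.pair (gn.pair (gLo.pair gHi)))
    (fun w' i hi => ⟨⟨(h w' i hi).1.1, (h w' i hi).1.2.1, length_flat fun j hj => by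
        rw [List.length_append, (l1 w' i hi j hj).1, (l2 w' i hi j hj).1, two_mul]⟩,
      (h w' i hi).1.1, (h w' i hi).1.2.1, length_flat fun j hj => by
        rw [List.length_append, (l1 w' i hi j hj).2, (l2 w' i hi j hj).2, two_mul]⟩)
    (Le.trans (Le.of_le fun _ i _ => by exact_mod_cast length_le_sz _) gLo.sz_le)
  refine (((Cf.pair hin (hB.pair hn).2 hmap).comp gadd.2).mono (fun _ _ h => h) Le.refl
    fun _ i _ => le_of_eq ?_).congr (fun _ _ _ => rfl) fun w' i hi => congrArg enc ?_
  · simp only [List.map_map, Function.comp_def, List.map_const', List.sum_replicate,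
      List.length_range, nsmul_eq_mul]
    ring
  · refine emk_congr fun j hj => ?_
    have k1 := length_blk (h w' i hi).1.2.2 hj
    have k2 := length_blk (h w' i hi).2.1.2.2 hj
    have k3 := hl _ _ k1
    rw [eat_flat (fun j hj => (l1 w' i hi j hj).1) (fun j hj => (l2 w' i hi j hj).1) hj,
      eat_flat (fun j hj => (l1 w' i hi j hj).2) (fun j hj => (l2 w' i hi j hj).2) hj, eat_blk]
    have e1 := lo_add_hi (y := (blk (B i) (b i) j).take (B i)) k3
      (by rw [List.length_take, k2]; omega)
    have e2 := lo_add_hi (y := (blk (B i) (b i) j).drop (B i)) k3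
      (by rw [List.length_drop, k2]; omega)
    ext
    · simpa [item, prep] using e1.symm
    · simpa [item, prep] using e2.symm

end

end MulE

open MulE in
theorem cf_mulE {ι : Type} {pre : World → ι → Prop} (τ : ℕ → ℝ) (B n : ι → ℕ)
    (a b : ι → List Bool)
    (h : ∀ w i, pre w i → OkE (B i) (n i) (a i) ∧ OkE (B i) (n i) (b i) ∧ CanMul τ w (B i)) :
    Cf pre (fun i => (B i, n i, a i, b i))
      (fun i => emk (B i) (n i) fun j => eat (B i) (a i) j * eat (B i) (b i) j)
      (fun i => ((a i).length : ℝ)) (fun i => 4 * (n i : ℝ) * τ (B i)) := by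
  have hin := le_input (pre := pre) fun w i hi => ⟨(h w i hi).1, (h w i hi).2.1⟩
  have h0 := L0.input hin
  have hB := L0.lin (g := fun p : ℕ × ℕ × W × W => p.1) (by fun_prop) h0
  have hn := L0.lin (g := fun p : ℕ × ℕ × W × W => p.2.1) (by fun_prop) h0
  have h1 := cf_half τ (w := fun x => x.2.take x.1.length) (by fun_prop)
    (fun B e he => by simp [he]; omega) h
  have h2 := cf_half τ (w := fun x => x.2.drop x.1.length) (by fun_prop)
    (fun B e he => by simp [he]; omega) h
  simp only [List.length_replicate] at h1 h2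
  have hok : ∀ w i, pre w i → ∀ f, OkE (B i) (n i) (emk (B i) (n i) f) := fun w i hi f =>
    ⟨(h w i hi).1.1, (h w i hi).1.2.1, length_emk _ _ _⟩
  have hlen : ∀ f : ∀ i, ℕ → RB (B i), Le pre (fun i => ((emk (B i) (n i) (f i)).length : ℝ))
      (fun i => ((a i).length : ℝ)) := fun f =>
    Le.of_le fun w i hi => by rw [length_emk, (h w i hi).1.2.2]
  have hsz : ∀ f : ∀ i, ℕ → RB (B i), Le pre (fun i => (sz (emk (B i) (n i) (f i)) : ℝ))
      (fun i => ((a i).length : ℝ)) := fun f => by
    simpa only [sz_bits, Nat.cast_add, Nat.cast_mul, Nat.cast_ofNat, Nat.cast_one] using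
      ((hlen f).const_mul 2 zero_le_two).add (hin.const_of_sz 1)
  have key : ∀ f g : ∀ i, ℕ → RB (B i),
      Cf pre (fun i => ((B i, n i), emk (B i) (n i) (f i), emk (B i) (n i) (g i)))
        (fun i => emk (B i) (n i) fun j => f i j + iB (B i) * g i j)
        (fun i => ((a i).length : ℝ)) fun _ => 0 := fun f g => by
    have g0 := L0.input (pre := pre) (σ := fun i => ((a i).length : ℝ))
      (inp := fun i => ((B i, n i), emk (B i) (n i) (f i), emk (B i) (n i) (g i)))
      (by simpa only [sz_pair, Nat.cast_add, Nat.cast_one] using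
        (((hB.sz_le.add hn.sz_le).add (hin.const_of_sz 1)).add
          (((hsz f).add (hsz g)).add (hin.const_of_sz 1))).add (hin.const_of_sz 1))
    have gB := L0.lin (g := fun p : (ℕ × ℕ) × W × W => p.1.1) (by fun_prop) g0
    have gn := L0.lin (g := fun p : (ℕ × ℕ) × W × W => p.1.2) (by fun_prop) g0
    have gf := L0.lin (g := fun p : (ℕ × ℕ) × W × W => p.2.1) (by fun_prop) g0
    have gg := L0.lin (g := fun p : (ℕ × ℕ) × W × W => p.2.2) (by fun_prop) g0
    have gi := L0.sub sub_mulIE (gB.pair (gn.pair gg)) (fun w i hi => hok w i hi _) (hlen g)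
    have ga := L0.sub sub_addE (gB.pair (gn.pair (gf.pair gi)))
      (fun w i hi => ⟨hok w i hi _, hok w i hi _⟩) (hlen f)
    refine (ga.congr fun w i hi => emk_congr fun j hj => ?_).2
    have hB2 := (h w i hi).1.1
    simp only [eat_emk hB2 _ hj]
  refine (((Cf.pair hin (hB.pair hn).2 (Cf.pair hin h1 h2)).comp (key _ _)).mono (fun _ _ h => h)
    Le.refl fun _ i _ => le_of_eq (by ring)).congr (fun _ _ _ => rfl) fun w i _ => congrArg enc ?_
  refine emk_congr fun j _ => ?_
  rw [← mul_assoc, ← add_mul, eat_blk (B i) (a i)]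
  congr 1
  ext <;> simp [iB]

end Crest.Agent.R326
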