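import Crest.Agent.R326.TopDefs
import Crest.Agent.R326.DigPoly
import Crest.Agent.R326.MulE
import Crest.Agent.R326.Ten

/-! Row 326: one macro on the machine. -/

set_option autoImplicit false

namespace Crest.Agent.R326

theorem slabs_le {P : Par} (h : OkPar P) :
    0 < slabs P.1 ∧ slabs P.1 ≤ 3 * P.1.prod ∧ P.1.prod ^ 2 ≤ slabs P.1 * (dataY P.1).length ∧
      WW ^ Nat.log mm P.1.length ∣ slabs P.1 := by
  have hW : 0 < WW ^ Nat.log mm P.1.length := pow_pos (by rw [WW_eq]; norm_num) _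
  have hN := h.good.1.prod_pos
  have hD := le_two_mul_dataY h.good
  have hw := h.wires
  unfold slabs
  generalize WW ^ Nat.log mm P.1.length = W at *
  generalize (dataY P.1).length = D at *
  generalize P.1.prod = N at *
  have hD0 : 0 < D := by omega
  refine ⟨by positivity, ?_, ?_, Dvd.intro _ rfl⟩
  · have h1 : N ^ 2 / (W * D) * (W * D) ≤ N ^ 2 := Nat.div_mul_le_self _ _
    have h2 : W * (N ^ 2 / (W * D)) ≤ 2 * N := by
      refine Nat.le_of_mul_le_mul_right ?_ hD0
      nlinarith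
    rw [mul_add]
    omega
  · have h1 := Nat.lt_mul_div_succ (N ^ 2) (Nat.mul_pos hW hD0)
    nlinarith

namespace MM

open Function CT

/-- the shape of the slab array -/
def sz5 (Z N : ℕ) : List ℕ := s5 Z N 1 [1]

theorem prod_sz5 (Z N : ℕ) : (sz5 Z N).prod = Z * N * N := by
  rw [sz5, prod_s5]; ring

theorem sz5_pos {Z N : ℕ} (hZ : 0 < Z) (hN : 0 < N) : ∀ x ∈ sz5 Z N, 0 < x := by
  simp only [sz5, s5, List.mem_cons, List.not_mem_nil, or_false]
  rintro x (rfl | rfl | rfl | rfl | rfl) <;> first | assumption | exact one_pos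

/-- a slab function read on digit vectors -/
def onD {S : Type} {N : ℕ} (f : ℕ → ZMod N × ZMod N → S) (d : ℕ → ℕ) : S :=
  f (d 0) ((d 1 : ZMod N), (d 3 : ZMod N))

theorem emkZ_eq {B N Z : ℕ} (_ : 0 < N) (f : ℕ → ZMod N × ZMod N → RB B) :
    emkZ B N Z f = arr B (sz5 Z N) (onD f) := by
  rw [arr, prod_sz5, emkZ]
  refine emk_congr fun j hj => ?_
  have h0 : j / (N * N) < Z := Nat.div_lt_of_lt_mul (by rw [mul_comm, ← mul_assoc]; exact hj)
  simp [onD, dig, vol, ax, sz5, s5, Nat.mod_eq_of_lt h0]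

theorem length_emkZ (B N Z : ℕ) (f : ℕ → ZMod N × ZMod N → RB B) :
    (emkZ B N Z f).length = Z * N * N * (2 * B) := length_emk _ _ _

theorem c2s_nil {S : Type} [CommRing S] (I : S) {N : ℕ} (f : ZMod N × ZMod N → S) :
    c2s I [] f = f := rfl

theorem c2s_cons {S : Type} [CommRing S] (I : S) {N : ℕ} (c : ℕ) (cs : List ℕ)
    (f : ZMod N × ZMod N → S) : c2s I (c :: cs) f =
      c2 I (fun v : ZMod N × ZMod N => ((c : ZMod N) * v.1, (c : ZMod N) * v.2)) (c2s I cs f) := rfl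

theorem c2s_cten {R : Type} [CommRing R] {I hf : R} (h2 : 2 * hf = 1) {N : ℕ} (qs : List ℕ)
    (f : ℕ → ZMod N × ZMod N → R) (d : ℕ → ℕ) :
    2 ^ qs.length * qs.foldr (fun p g => cop I hf (tauI N 1 3 (sgnc N p)) g) (onD f) d =
      onD (fun z => c2s I (qs.map (sgnc N)) (f z)) d := by
  induction qs generalizing d with
  | nil => simp [onD, c2s_nil]
  | cons p qs ih =>
    have e0 : tauI N 1 3 (sgnc N p) d 0 = d 0 := tauI_other (by omega) (by omega) _ _
    have e1 : tauI N 1 3 (sgnc N p) d 1 = sgnc N p * d 1 % N := by simp [tauI]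
    have e3 : tauI N 1 3 (sgnc N p) d 3 = sgnc N p * d 3 % N := by simp [tauI]
    have h1 := ih d
    have h3 := ih (tauI N 1 3 (sgnc N p) d)
    simp only [onD, e0, e1, e3, ZMod.natCast_mod, Nat.cast_mul] at h1 h3
    simp only [onD, List.map_cons, c2s_cons, List.foldr_cons, c2, cop, List.length_cons]
    rw [← h1, ← h3]
    linear_combination (2 ^ qs.length * ((1 + I) *
      qs.foldr (fun p g => cop I hf (tauI N 1 3 (sgnc N p)) g) (onD f) d + (1 - I) *
      qs.foldr (fun p g => cop I hf (tauI N 1 3 (sgnc N p)) g) (onD f)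
        (tauI N 1 3 (sgnc N p) d))) * h2

theorem prod_le_two_pow (l : List ℕ) : l.prod ≤ 2 ^ l.sum := by
  induction l with
  | nil => simp
  | cons p l ih =>
    rw [List.prod_cons, List.sum_cons, pow_add]
    exact Nat.mul_le_mul Nat.lt_two_pow_self.le ih

theorem lg_prod_le_sum (l : List ℕ) : lg l.prod ≤ l.sum + 2 := by
  have : l.prod.size ≤ l.sum + 1 := Nat.size_le.2 ((prod_le_two_pow l).trans_lt
    (Nat.pow_lt_pow_right one_lt_two (Nat.lt_succ_self _)))
  unfold lg
  omega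

theorem sz_map_un {l : List ℕ} (h : ∀ p ∈ l, 1 ≤ p) : sz (l.map un) ≤ 4 * l.sum + 1 := by
  induction l with
  | nil => simp
  | cons p l ih =>
    have h1 := h p List.mem_cons_self
    have h2 := ih fun q hq => h q (List.mem_cons_of_mem _ hq)
    simp only [List.map_cons, sz_cons, sz_un, List.sum_cons]
    omega

theorem sum_succ_le {l : List ℕ} (h : ∀ p ∈ l, 1 ≤ p) :
    (l.map fun n : ℕ => (n : ℝ) + 1).sum ≤ 2 * (l.sum : ℝ) := by
  induction l with
  | nil => simp
  | cons p l ih =>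
    have h1 : (1 : ℝ) ≤ p := by exact_mod_cast h p List.mem_cons_self
    have h2 := ih fun q hq => h q (List.mem_cons_of_mem _ hq)
    simp only [List.map_cons, List.sum_cons, Nat.cast_add]
    linarith

/-- the sum of the small parameters -/
def tot (P : Par) : ℕ := P.1.sum + P.2.1 + P.2.2.1 + P.2.2.2

section facts
variable {P : Par} (h : OkPar P)
include h

theorem hN : 0 < P.1.prod := h.good.1.prod_pos
theorem hZ : 0 < slabs P.1 := (slabs_le h).1
theorem one_le_p : ∀ p ∈ P.1, 1 ≤ p := fun p hp => by have := (h.good.1.2 p hp).2; omega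
theorem N_le_Z : P.1.prod ≤ slabs P.1 := by
  have h1 := (slabs_le h).2.2.1
  have h2 : (dataY P.1).length ≤ P.1.prod := by
    unfold dataY
    exact (List.length_filter_le _ _).trans (List.length_range).le
  refine Nat.le_of_mul_le_mul_right ?_ (hN h)
  nlinarith
theorem cube_le : 4 * P.1.prod ^ 3 ≤ P.len := by
  have := h.two_le
  unfold Par.len
  nlinarith [Nat.zero_le (P.1.prod ^ 3)]
theorem N_le_len : 4 * P.1.prod ≤ P.len :=
  le_trans (Nat.mul_le_mul_left _ (Nat.le_self_pow (by norm_num) _)) (cube_le h)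
theorem B_le_len : P.2.2.2 ≤ P.len := by
  have : 1 ≤ P.1.prod ^ 3 := Nat.one_le_pow _ _ (hN h)
  unfold Par.len
  nlinarith
theorem len_le_arr : P.len ≤ slabs P.1 * P.1.prod * P.1.prod * (2 * P.2.2.2) := by
  unfold Par.len
  refine Nat.mul_le_mul_right _ ?_
  rw [pow_succ, pow_two]
  exact Nat.mul_le_mul_right _ (Nat.mul_le_mul_right _ (N_le_Z h))
theorem cnt_le : slabs P.1 * P.1.prod * P.1.prod ≤ 3 * P.1.prod ^ 3 := by
  have h1 := Nat.mul_le_mul_right (P.1.prod * P.1.prod) (slabs_le h).2.1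
  calc slabs P.1 * P.1.prod * P.1.prod = slabs P.1 * (P.1.prod * P.1.prod) := by ring
    _ ≤ 3 * P.1.prod * (P.1.prod * P.1.prod) := h1
    _ = 3 * P.1.prod ^ 3 := by ring
theorem arr_le_len : slabs P.1 * P.1.prod * P.1.prod * (2 * P.2.2.2) ≤ 3 * P.len := by
  unfold Par.len
  rw [← mul_assoc 3]
  exact Nat.mul_le_mul_right _ (cnt_le h)
theorem ex_arr : Ex (slabs P.1 * P.1.prod * P.1.prod * (2 * P.2.2.2)) ^ 2 ≤ P.2.2.2 :=
  (Nat.pow_le_pow_left (Ex_mono (arr_le_len h)) 2).trans h.ex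
theorem ex_len : Ex P.len ≤ P.len :=
  (((Ex_mono (by omega)).trans (Nat.le_self_pow two_ne_zero _)).trans h.ex).trans (B_le_len h)
theorem lg_tot : lg (tot P) ≤ lg P.1.prod := by
  have h1 := h.tabs
  have h2 : lg P.1.prod ^ 2 ≤ lg P.1.prod ^ 3 :=
    Nat.pow_le_pow_right (one_le_lg _) (by norm_num)
  exact (Nat.pow_le_pow_iff_left (by norm_num)).1 (h1.trans h2)
theorem sz_ctx {μ : ℕ} (hμ : μ ≤ P.2.1) : sz (P, slabs P.1, μ) ≤ 21 * lg P.len ^ 1 := by
  have h0 : lg P.1.prod ≤ lg P.len := lg_mono (by have := N_le_len h; omega)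
  have h1 := h.good.1.sz_le
  have h2 : sz P.2.1 ≤ 2 * lg (tot P) := sz_nat_le_lg (by unfold tot; omega)
  have h3 : sz P.2.2.1 ≤ 2 * lg (tot P) := sz_nat_le_lg (by unfold tot; omega)
  have h4 : sz P.2.2.2 ≤ 2 * lg (tot P) := sz_nat_le_lg (by unfold tot; omega)
  have h5 : sz μ ≤ 2 * lg (tot P) := sz_nat_le_lg (by unfold tot; omega)
  have h6 : sz (slabs P.1) ≤ 2 * lg P.len :=
    sz_nat_le_lg (by have := N_le_len h; have := (slabs_le h).2.1; omega)
  have h7 := lg_tot h
  have h8 := one_le_lg P.len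
  obtain ⟨ps, n, b, B⟩ := P
  simp only [sz_pair, pow_one] at *
  omega
theorem cost_div : P.cost / P.2.1 = P.len * lam P.1 * ((max P.1.length 1 : ℕ) : ℝ) ^ θ := by
  have : (P.2.1 : ℝ) ≠ 0 := by have := h.pos; positivity
  unfold Par.cost
  field_simp
theorem len_le_cost : (P.len : ℝ) ≤ P.cost / P.2.1 := by
  have h2 : (1 : ℝ) ≤ lam P.1 := by exact_mod_cast one_le_lam P.1
  have h3 := one_le_rpow_max P.1.length
  rw [cost_div h, mul_assoc]
  exact le_mul_of_one_le_right (Nat.cast_nonneg _) (one_le_mul_of_one_le_of_one_le h2 h3)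
theorem okE (f : ℕ → ZMod P.1.prod × ZMod P.1.prod → RB P.2.2.2) :
    OkE P.2.2.2 (slabs P.1 * P.1.prod * P.1.prod) (emkZ P.2.2.2 P.1.prod (slabs P.1) f) :=
  ⟨h.two_le, Nat.mul_pos (Nat.mul_pos (hZ h) (hN h)) (hN h), length_emkZ _ _ _ _⟩

end facts

/-- the context of the table computation -/
def tabCtx (P : Par) (μ : ℕ) : List (List Unit) × List Unit × List Unit × ℕ × ℕ :=
  (P.1.map un, un P.2.2.1, un P.2.2.2, μ, P.1.prod)

/-- the bits of one table entry -/
def entT (T : TabIn → GaussianInt) (ν : ℕ)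
    (y : (List (List Unit) × List Unit × List Unit × ℕ × ℕ) × ℕ) : List Bool :=
  ebits y.1.2.2.1.length (toRB y.1.2.2.1.length
    (T (y.1.1, y.1.2.1, y.1.2.2.2.1, ν, y.2 / y.1.2.2.2.2 % y.1.2.2.2.2, y.2 % y.1.2.2.2.2)))

theorem poly_entT {T : TabIn → GaussianInt} (hT : Poly T) (ν : ℕ) : Poly (entT T ν) := by
  have h1 : Poly fun y : (List (List Unit) × List Unit × List Unit × ℕ × ℕ) × ℕ =>
      ((y.1.1, y.1.2.1, y.1.2.2.2.1, ν, y.2 / y.1.2.2.2.2 % y.1.2.2.2.2, y.2 % y.1.2.2.2.2) :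
        TabIn) := by fun_prop
  have h2 : Poly fun y : (List (List Unit) × List Unit × List Unit × ℕ × ℕ) × ℕ => y.1.2.2.1 := by
    fun_prop
  have h3 := poly_ebits.comp (h2.pair (hT.comp h1))
  dsimp only at h3
  exact h3

/-- one slab of a table -/
def slabT (T : TabIn → GaussianInt) (ν : ℕ) (P : Par) (μ : ℕ) : List Bool :=
  emk P.2.2.2 (P.1.prod * P.1.prod) fun j => toRB P.2.2.2
    (T (P.1.map un, un P.2.2.1, μ, ν, j / P.1.prod % P.1.prod, j % P.1.prod))

theorem slabT_eq (T : TabIn → GaussianInt) (ν : ℕ) (P : Par) (μ : ℕ) : slabT T ν P μ =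
    ((List.range (P.1.prod * P.1.prod)).map fun j => entT T ν (tabCtx P μ, j)).flatten := by
  simp only [slabT, emk, entT, tabCtx]
  congr 2
  funext j
  rw [List.length_replicate]

theorem table_eq (T : TabIn → GaussianInt) (ν : ℕ) (P : Par) (μ Z : ℕ) :
    (emkZ P.2.2.2 P.1.prod Z fun _ v => (rbMac T P μ).tab ν v) =
      (List.replicate Z (slabT T ν P μ)).flatten := by
  have h : List.replicate Z (slabT T ν P μ) = (List.range Z).map fun _ => slabT T ν P μ := by
    rw [List.map_const', List.length_range]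
  rw [h]
  refine Eq.trans ?_ (flatten_emk P.2.2.2 Z (P.1.prod * P.1.prod) fun _ j => toRB P.2.2.2
    (T (P.1.map un, un P.2.2.1, μ, ν, j / P.1.prod % P.1.prod, j % P.1.prod))).symm
  rw [emkZ, mul_assoc]
  refine emk_congr fun j _ => ?_
  simp only [rbMac, intMac, MacD.map, ZMod.val_natCast, Nat.mod_mod, Nat.mod_mul_right_div_self,
    Nat.mod_mul_left_mod]

theorem lg_sq_le (P : Par) : lg (P.1.prod * P.1.prod) ≤ 2 * (tot P + 2) := by
  have h1 := lg_mul_le P.1.prod P.1.prod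
  have h2 := lg_prod_le_sum P.1
  unfold tot
  omega

theorem sz_tabCtx {P : Par} (h : OkPar P) {μ : ℕ} (hμ : μ ≤ P.2.1) :
    sz (tabCtx P μ) + 1 ≤ 13 * (tot P + 1) := by
  have h2 := sz_map_un (one_le_p h)
  have h3 := Prims.sz_nat_le μ
  have h4 := sz_nat_le_lg (le_refl P.1.prod)
  have h5 := lg_prod_le_sum P.1
  simp only [tabCtx, sz_pair, sz_un]
  unfold tot
  omega

theorem sz_slabT (T : TabIn → GaussianInt) (ν : ℕ) {P : Par} (h : OkPar P) (μ : ℕ) :
    (slabs P.1 + 1) * (sz (slabT T ν P μ) + 1) ≤ 16 * P.len := by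
  have h4 := (slabs_le h).2.1
  have h5 := hN h
  have h6 := h.two_le
  have h7 : 1 ≤ P.1.prod * P.1.prod * (2 * P.2.2.2) := Nat.mul_pos (Nat.mul_pos h5 h5) (by omega)
  rw [sz_bits, slabT, length_emk]
  calc (slabs P.1 + 1) * (2 * (P.1.prod * P.1.prod * (2 * P.2.2.2)) + 1 + 1)
      ≤ (4 * P.1.prod) * (4 * (P.1.prod * P.1.prod * (2 * P.2.2.2))) :=
        Nat.mul_le_mul (by omega) (by omega)
    _ = 16 * P.len := by unfold Par.len; ring

/-- the parameter of the shears -/
def shCtx (P : Par) (μ : ℕ) : List (List Unit) × ℕ × ℕ := (P.1.map un, μ, P.1.prod)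

theorem sz_shCtx {P : Par} (h : OkPar P) {μ : ℕ} (hμ : μ ≤ P.2.1) :
    sz (shCtx P μ) ≤ 12 * lg P.len ^ 4 := by
  have h2 := sz_map_un (one_le_p h)
  have h3 := Prims.sz_nat_le μ
  have h4 : sz P.1.prod ≤ 2 * lg P.len := sz_nat_le_lg (by have := N_le_len h; omega)
  have h5 := h.small
  have h6 : lg P.len ≤ lg P.len ^ 4 := Nat.le_self_pow (by norm_num) _
  have h7 := one_le_lg P.len
  simp only [shCtx, sz_pair]
  omega

theorem cast_neg {N : ℕ} (hN : 0 < N) (x : ℕ) : ((N - x % N : ℕ) : ZMod N) = -(x : ZMod N) := by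
  rw [Nat.cast_sub (Nat.mod_lt _ hN).le, ZMod.natCast_self, ZMod.natCast_mod, zero_sub]

theorem toRB_zero (B : ℕ) : toRB B 0 = 0 := by
  obtain ⟨φ, hφ⟩ := exists_toRB_hom B
  rw [← hφ, map_zero]

theorem emkZ_mul {B N Z : ℕ} (h2 : 2 ≤ B) (f g : ℕ → ZMod N × ZMod N → RB B) :
    (emk B (Z * N * N) fun j => eat B (emkZ B N Z f) j * eat B (emkZ B N Z g) j) =
      emkZ B N Z fun z v => f z v * g z v :=
  emk_congr fun j hj => by rw [emkZ, emkZ, eat_emk h2 _ hj, eat_emk h2 _ hj]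

/-- the context `(P, Z, μ)` -/
abbrev CX : Type := Par × ℕ × ℕ

/-- the state of the macro: context and array -/
def st {ι : Type} (P : ι → Par) (μ : ι → ℕ)
    (f : ∀ i, ℕ → ZMod (P i).1.prod × ZMod (P i).1.prod → RB (P i).2.2.2) (i : ι) :
    CX × List Bool :=
  ((P i, slabs (P i).1, μ i), emkZ (P i).2.2.2 (P i).1.prod (slabs (P i).1) (f i))

section machine
variable {ι α : Type} [Enc α] {pre : World → ι → Prop} {inp : ι → α} {σ : ι → ℝ} {P : ι → Par}
  {μ : ι → ℕ}

/-- the standing hypotheses -/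
def Hyp (pre : World → ι → Prop) (σ : ι → ℝ) (P : ι → Par) (μ : ι → ℕ) : Prop :=
  ∀ w i, pre w i → OkPar (P i) ∧ μ i ≤ (P i).2.1 ∧ ((P i).len : ℝ) ≤ σ i

variable (H : Hyp pre σ P μ)
include H

theorem le_len : Le pre (fun i => ((P i).len : ℝ)) σ := Le.of_le fun w i hi => (H w i hi).2.2

theorem ex_le : ∀ w i, pre w i → (Ex (P i).len : ℝ) ≤ σ i := fun w i hi =>
  le_trans (by exact_mod_cast ex_len (H w i hi).1) (H w i hi).2.2

theorem le_nat (K : ℕ) {u : ι → ℕ} (h : ∀ w i, pre w i → u i ≤ K * (P i).len) :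
    Le pre (fun i => (u i : ℝ)) σ :=
  Le.trans (Le.of_le_mul K (Nat.cast_nonneg _) fun w i hi => by exact_mod_cast h w i hi) (le_len H)

theorem le_ctx : Le pre (fun i => (sz (P i, slabs (P i).1, μ i) : ℝ)) σ :=
  Ax.le_sz 21 1 (fun w i hi => sz_ctx (H w i hi).1 (H w i hi).2.1) (ex_le H)

theorem le_emkZ_len (f : ∀ i, ℕ → ZMod (P i).1.prod × ZMod (P i).1.prod → RB (P i).2.2.2) :
    Le pre (fun i => ((emkZ (P i).2.2.2 (P i).1.prod (slabs (P i).1) (f i)).length : ℝ)) σ :=
  le_nat H 3 fun w i hi => by rw [length_emkZ]; exact arr_le_len (H w i hi).1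

theorem le_emkZ (f : ∀ i, ℕ → ZMod (P i).1.prod × ZMod (P i).1.prod → RB (P i).2.2.2) :
    Le pre (fun i => (sz (emkZ (P i).2.2.2 (P i).1.prod (slabs (P i).1) (f i)) : ℝ)) σ :=
  le_nat H 7 fun w i hi => by
    have h1 := arr_le_len (H w i hi).1
    have h2 := N_le_len (H w i hi).1
    have h3 := hN (H w i hi).1
    rw [sz_bits, length_emkZ]
    omega

theorem l0_small {β : Type} [Enc β] {g : CX → β} (hg : Poly g)
    (hc : L0 pre inp σ fun i => (P i, slabs (P i).1, μ i)) :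
    L0 pre inp σ fun i => g (P i, slabs (P i).1, μ i) :=
  L0.poly hg hc (Ax.le_pow 21 1 (fun w i hi => sz_ctx (H w i hi).1 (H w i hi).2.1) (ex_le H))

theorem le_tot (e : ℕ) : Le pre (fun i => (((P i).1.prod : ℝ) * (P i).1.prod + 1) *
    ((tot (P i) : ℝ) + 1) ^ e) σ := by
  obtain ⟨K, hK⟩ := pow_le_of_lg e
  refine Le.trans (Le.of_le fun w i hi => ?_)
    (le_nat H K (u := fun i => ((P i).1.prod * (P i).1.prod + 1) * (tot (P i) + 1) ^ e)
      fun w i hi => ?_)
  · push_cast; exact le_rfl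
  · have h := (H w i hi).1
    have h1 := hK (tot (P i)) _ (hN h) h.tabs
    have h2 := cube_le h
    have h3 : 1 ≤ (P i).1.prod * (P i).1.prod := Nat.mul_pos (hN h) (hN h)
    calc ((P i).1.prod * (P i).1.prod + 1) * (tot (P i) + 1) ^ e
        ≤ (2 * ((P i).1.prod * (P i).1.prod)) * (K * (P i).1.prod) :=
          Nat.mul_le_mul (by omega) h1
      _ = K * (2 * (P i).1.prod ^ 3) := by ring
      _ ≤ K * (P i).len := Nat.mul_le_mul_left _ (by omega)

theorem le_tot1 : Le pre (fun i => (tot (P i) : ℝ) + 1) σ := by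
  refine Le.trans (Le.of_le fun w i _ => ?_) (le_tot H 1)
  rw [pow_one]
  exact le_mul_of_one_le_left (by positivity) (le_add_of_nonneg_left (by positivity))

theorem l0_uns (hc : L0 pre inp σ fun i => (P i, slabs (P i).1, μ i)) :
    L0 pre inp σ fun i => (P i).1.map un := by
  refine L0.map_sub (l0_small H (g := fun c => c.1.1) (by fun_prop) hc) sub_un
    (fun _ _ _ _ _ => trivial) (Le.trans (Le.of_le_mul 2 zero_le_two fun w i hi => ?_) (le_tot1 H))
  refine (sum_succ_le (one_le_p (H w i hi).1)).trans ?_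
  have : ((P i).1.sum : ℝ) ≤ tot (P i) := by exact_mod_cast (by unfold tot; omega)
  linarith

theorem l0_c2s (hκ : ∀ w i, pre w i → (P i).cost / (P i).2.1 ≤ σ i)
    (hc : L0 pre inp σ fun i => (P i, slabs (P i).1, μ i))
    {f : ∀ i, ℕ → ZMod (P i).1.prod × ZMod (P i).1.prod → RB (P i).2.2.2}
    (hz : ∀ w i, pre w i → ∀ z v, (∃ p ∈ (P i).1, p ∣ v.1.val) → f i z v = 0)
    (ha : L0 pre inp σ fun i => emkZ (P i).2.2.2 (P i).1.prod (slabs (P i).1) (f i)) :
    L0 pre inp σ fun i => emkZ (P i).2.2.2 (P i).1.prod (slabs (P i).1) fun z =>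
      c2s (iB _) ((P i).1.map (sgnc (P i).1.prod)) (f i z) := by
  have h1 : L0 pre inp σ fun i => (((P i).2.2.2, (P i).1, slabs (P i).1, 1, 1,
      emkZ (P i).2.2.2 (P i).1.prod (slabs (P i).1) (f i)) : XT) :=
    (l0_small H (g := fun c => c.1.2.2.2) (by fun_prop) hc).pair
      ((l0_small H (g := fun c => c.1.1) (by fun_prop) hc).pair
        ((l0_small H (g := fun c => c.2.1) (by fun_prop) hc).pair
          ((L0.const hc.1 1).pair ((L0.const hc.1 1).pair ha))))
  have h2 : L0 pre inp σ fun i => arr (P i).2.2.2 (sz5 (slabs (P i).1) (P i).1.prod)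
      (cten (iB _) (hB _) (P i).1 1 3 (onD (f i))) := by
    refine (L0.sub sub_ctenA h1 (fun w i hi => ?_)
      (Le.of_le_mul 3 (by norm_num) fun w i hi => ?_)).congr fun w i hi => ?_
    · have h := (H w i hi).1
      refine ⟨⟨h.two_le, h.good.1, hZ h, one_pos, one_pos, ?_, ?_⟩, (slabs_le h).2.2.2, ?_⟩
      · change Canon _ (sz5 (slabs (P i).1) (P i).1.prod).prod (emkZ _ _ _ (f i))
        rw [emkZ_eq (hN h)]
        exact canon_arr h.two_le _
      · change Ex (emkZ _ _ _ (f i)).length ^ 2 ≤ _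
        rw [length_emkZ]
        exact ex_arr h
      · change GenZ _ _ (sz5 (slabs (P i).1) (P i).1.prod) 1 (emkZ _ _ _ (f i))
        rintro d hd ⟨p, hp, hpd⟩
        rw [emkZ_eq (hN h), eat_arr h.two_le _ hd]
        refine hz w i hi _ _ ⟨p, hp, ?_⟩
        have h3 : d 1 < (P i).1.prod := hd 1
        rwa [ZMod.val_natCast, Nat.mod_eq_of_lt h3]
    · have h := (H w i hi).1
      have h3 := hκ w i hi
      rw [cost_div h] at h3
      have h4 : ((emkZ (P i).2.2.2 (P i).1.prod (slabs (P i).1) (f i)).length : ℝ) ≤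
          3 * (P i).len := by
        rw [length_emkZ]; exact_mod_cast arr_le_len h
      calc _ ≤ 3 * ((P i).len : ℝ) * lam (P i).1 * ((max (P i).1.length 1 : ℕ) : ℝ) ^ θ := by
            dsimp only
            gcongr
        _ ≤ 3 * σ i := by linarith
    · have h := (H w i hi).1
      change _ = ctenS _ _ (sz5 (slabs (P i).1) (P i).1.prod) 1 3 (emkZ _ _ _ (f i))
      rw [emkZ_eq (hN h), ctenS_arr h.two_le (sz5_pos (hZ h) (hN h)) (hN h) rfl rfl]
  have h3 := (l0_small H (g := fun c => c.1.1.length) (by fun_prop) hc).pair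
    ((l0_small H (g := fun c => c.1.2.2.2) (by fun_prop) hc).pair
      ((l0_small H (g := fun c => c.2.1 * c.1.1.prod * c.1.1.prod) (by fun_prop) hc).pair h2))
  refine (L0.sub sub_shlE h3 (fun w i hi => ?_) (le_nat H 3 fun w i hi => ?_)).congr
    fun w i hi => ?_
  · have h := (H w i hi).1
    refine ⟨h.len_le, h.two_le, Nat.mul_pos (Nat.mul_pos (hZ h) (hN h)) (hN h), ?_⟩
    dsimp only
    rw [length_arr, prod_sz5]
  · dsimp only
    rw [length_arr, prod_sz5]
    exact arr_le_len (H w i hi).1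
  · have h := (H w i hi).1
    dsimp only
    rw [← prod_sz5, emk_eat_arr h.two_le _ fun z => 2 ^ (P i).1.length * z, emkZ_eq (hN h)]
    congr 1
    funext d
    exact (c2s_cten (two_mul_hB (by have := h.two_le; omega)) _ _ d).symm

theorem l0_tabCtx (hc : L0 pre inp σ fun i => (P i, slabs (P i).1, μ i)) :
    L0 pre inp σ fun i => tabCtx (P i) (μ i) := by
  have hb : L0 pre inp σ fun i => un (P i).2.2.1 :=
    L0.un (l0_small H (g := fun c => c.1.2.2.1) (by fun_prop) hc)
      (Le.trans (Le.of_le fun w i _ => by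
        have : ((P i).2.2.1 : ℝ) ≤ tot (P i) := by exact_mod_cast (by unfold tot; omega)
        linarith) (le_tot1 H))
  have hB' : L0 pre inp σ fun i => un (P i).2.2.2 :=
    L0.un (l0_small H (g := fun c => c.1.2.2.2) (by fun_prop) hc)
      (Le.trans (Le.of_le fun w i _ => by
        have : ((P i).2.2.2 : ℝ) ≤ tot (P i) := by exact_mod_cast (by unfold tot; omega)
        linarith) (le_tot1 H))
  exact (l0_uns H hc).pair (hb.pair (hB'.pair
    ((l0_small H (g := fun c => c.2.2) (by fun_prop) hc).pair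
      (l0_small H (g := fun c => c.1.1.prod) (by fun_prop) hc))))

theorem l0_range (hc : L0 pre inp σ fun i => (P i, slabs (P i).1, μ i)) :
    L0 pre inp σ fun i => List.range ((P i).1.prod * (P i).1.prod) := by
  refine L0.sub sub_range' (l0_small H (g := fun c => c.1.1.prod * c.1.1.prod) (by fun_prop) hc)
    (fun _ _ _ => trivial) (Le.trans (Le.of_le_mul 10 (by norm_num) fun w i _ => ?_) (le_tot H 1))
  have h1 := sz_nat_le_lg (le_refl ((P i).1.prod * (P i).1.prod))
  have h2 := lg_sq_le (P i)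
  have h3 : (sz ((P i).1.prod * (P i).1.prod) : ℝ) + 1 ≤ 10 * ((tot (P i) : ℝ) + 1) := by
    exact_mod_cast (by omega)
  rw [Nat.cast_mul, pow_one, mul_left_comm]
  exact mul_le_mul_of_nonneg_left h3 (by positivity)

theorem l0_slab {T : TabIn → GaussianInt} (hT : Poly T) (ν : ℕ)
    (hc : L0 pre inp σ fun i => (P i, slabs (P i).1, μ i)) :
    L0 pre inp σ fun i => slabT T ν (P i) (μ i) := by
  have h1 := L0.map_poly (l0_range H hc) (l0_tabCtx H hc) (poly_entT hT ν)
    (fun i => 13 * ((tot (P i) : ℝ) + 1) - 1)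
    (fun w i hi => by
      constructor
      · have h7 : (sz (tabCtx (P i) (μ i)) : ℝ) + 1 ≤ 13 * ((tot (P i) : ℝ) + 1) := by
          exact_mod_cast sz_tabCtx (H w i hi).1 (H w i hi).2.1
        linarith
      · intro a ha
        have h7 := sz_nat_le_lg (List.mem_range.1 ha).le
        have h8 := lg_sq_le (P i)
        have h9 : (sz a : ℝ) + 1 ≤ 13 * ((tot (P i) : ℝ) + 1) := by exact_mod_cast (by omega)
        linarith)
    (fun e => Le.trans (Le.of_le_mul (13 ^ e) (by positivity) fun w i _ => by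
      rw [sub_add_cancel, mul_pow, List.length_range, Nat.cast_mul]
      exact le_of_eq (by ring)) (le_tot H e))
  exact (L0.lin (g := fun l : List (List Bool) => l.flatten) (Lin.flatten Lin.id) h1).congr
    fun w i _ => slabT_eq T ν (P i) (μ i)

theorem l0_table {T : TabIn → GaussianInt} (hT : Poly T) (ν : ℕ)
    (hc : L0 pre inp σ fun i => (P i, slabs (P i).1, μ i)) :
    L0 pre inp σ fun i => emkZ (P i).2.2.2 (P i).1.prod (slabs (P i).1) fun _ v =>
      (rbMac T (P i) (μ i)).tab ν v := by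
  have h2 : L0 pre inp σ fun i => (slabs (P i).1, slabT T ν (P i) (μ i)) :=
    (l0_small H (g := fun c => c.2.1) (by fun_prop) hc).pair (l0_slab H hT ν hc)
  have h3 : L0 pre inp σ fun i => List.replicate (slabs (P i).1) (slabT T ν (P i) (μ i)) :=
    L0.sub sub_replicate h2 (fun _ _ _ => trivial)
      (Le.trans (Le.of_le fun w i _ => by push_cast; exact le_rfl)
        (le_nat H 16 (u := fun i => (slabs (P i).1 + 1) * (sz (slabT T ν (P i) (μ i)) + 1))
          fun w i hi => sz_slabT T ν (H w i hi).1 _))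
  exact (L0.lin (g := fun l : List (List Bool) => l.flatten) (Lin.flatten Lin.id) h3).congr
    fun w i _ => table_eq T ν (P i) (μ i) _

theorem l0_shCtx (hc : L0 pre inp σ fun i => (P i, slabs (P i).1, μ i)) :
    L0 pre inp σ fun i => shCtx (P i) (μ i) :=
  (l0_uns H hc).pair ((l0_small H (g := fun c => c.2.2) (by fun_prop) hc).pair
    (l0_small H (g := fun c => c.1.1.prod) (by fun_prop) hc))

/-- a shear of the row axis (`t = 1`) or of the column axis (`t = 3`) -/
theorem l0_shear {g : (List (List Unit) × ℕ × ℕ) × List ℕ → ℕ} (hg : Poly g) {t : ℕ}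
    (ht : t = 1 ∨ t = 3) (hc : L0 pre inp σ fun i => (P i, slabs (P i).1, μ i))
    {f f' : ∀ i, ℕ → ZMod (P i).1.prod × ZMod (P i).1.prod → RB (P i).2.2.2}
    (hf : ∀ w i, pre w i → ∀ d, Valid (sz5 (slabs (P i).1) (P i).1.prod) d → onD (f' i) d =
      onD (f i) (update d t ((d t + g (shCtx (P i) (μ i), hiD t d)) % (P i).1.prod)))
    (ha : L0 pre inp σ fun i => emkZ (P i).2.2.2 (P i).1.prod (slabs (P i).1) (f i)) :
    L0 pre inp σ fun i => emkZ (P i).2.2.2 (P i).1.prod (slabs (P i).1) (f' i) := by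
  have h1 : L0 pre inp σ fun i => (shCtx (P i) (μ i),
      sz5 (slabs (P i).1) (P i).1.prod ++ [2 * (P i).2.2.2],
      emkZ (P i).2.2.2 (P i).1.prod (slabs (P i).1) (f i)) :=
    (l0_shCtx H hc).pair ((l0_small H
      (g := fun c => [c.2.1, c.1.1.prod, 1, c.1.1.prod, 1, 2 * c.1.2.2.2]) (by fun_prop) hc).pair ha)
  have hax : ∀ i, ax (sz5 (slabs (P i).1) (P i).1.prod ++ [2 * (P i).2.2.2]) t = (P i).1.prod :=
    fun i => by rcases ht with rfl | rfl <;> rfl
  have hax' : ∀ i, ax (sz5 (slabs (P i).1) (P i).1.prod) t = (P i).1.prod :=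
    fun i => by rcases ht with rfl | rfl <;> rfl
  refine (L0.sub (sub_shS hg 6 t 12 4 (by omega)) h1 (fun w i hi => ?_) ?_).congr fun w i hi => ?_
  · have h := (H w i hi).1
    refine ⟨⟨rfl, ?_, ?_⟩, ?_⟩
    · intro y hy
      rcases List.mem_append.1 hy with hy | hy
      · exact sz5_pos (hZ h) (hN h) y hy
      · have := h.two_le
        rw [List.mem_singleton.1 hy]; omega
    · dsimp only
      rw [length_emkZ, List.prod_append, prod_sz5, List.prod_singleton]
    · dsimp only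
      rw [length_emkZ]
      exact (sz_shCtx h (H w i hi).2.1).trans
        (Nat.mul_le_mul_left _ (Nat.pow_le_pow_left (lg_mono (len_le_arr h)) 4))
  · refine Le.trans (Le.of_le fun w i _ => by push_cast; exact le_rfl)
      (le_nat H 6 (u := fun i => (emkZ (P i).2.2.2 (P i).1.prod (slabs (P i).1) (f i)).length +
        vol (sz5 (slabs (P i).1) (P i).1.prod ++ [2 * (P i).2.2.2]) 0 t *
          Ex (emkZ (P i).2.2.2 (P i).1.prod (slabs (P i).1) (f i)).length) fun w i hi => ?_)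
    have h := (H w i hi).1
    have h2 := arr_le_len h
    have h3 := (Nat.le_self_pow two_ne_zero _).trans (ex_arr h)
    have h4 : vol (sz5 (slabs (P i).1) (P i).1.prod ++ [2 * (P i).2.2.2]) 0 t ≤
        slabs (P i).1 * (P i).1.prod * (P i).1.prod := by
      have h5 := hN h
      rcases ht with rfl | rfl
      · simp only [vol, sz5, s5, List.cons_append, List.take_succ_cons, List.take_zero,
          List.drop_zero, List.prod_cons, List.prod_nil, mul_one]
        exact (Nat.le_mul_of_pos_right _ h5).trans (Nat.le_mul_of_pos_right _ h5)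
      · simp only [vol, sz5, s5, List.cons_append, List.take_succ_cons, List.take_zero,
          List.drop_zero, List.prod_cons, List.prod_nil, mul_one]
        exact Nat.le_mul_of_pos_right _ h5
    have h6 := Nat.mul_le_mul h4 (h3.trans (Nat.le_mul_of_pos_left _ two_pos))
    rw [length_emkZ]
    omega
  · have h := (H w i hi).1
    dsimp only
    rw [emkZ_eq (hN h), emkZ_eq (hN h), gathS_arr h.two_le (sz5_pos (hZ h) (hN h))]
    · refine arr_congr (sz5_pos (hZ h) (hN h)) fun d hd => ?_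
      rw [hf w i hi d hd, shI, hax]
    · intro d hd v
      rw [shI, hax]
      by_cases hv : v = t
      · rw [hv, update_self, hax']; exact Nat.mod_lt _ (hN h)
      · rw [update_of_ne hv]; exact hd v
    · intro d y _
      have h5 : t ≠ (sz5 (slabs (P i).1) (P i).1.prod).length := by
        rcases ht with rfl | rfl <;> simp [sz5, s5]
      have h6 : t ≤ (sz5 (slabs (P i).1) (P i).1.prod).length := by
        rcases ht with rfl | rfl <;> simp [sz5, s5]
      rw [shI, shI, hiD_update h6, update_of_ne h5, update_comm h5]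

theorem l0_shIn (T : TabIn → GaussianInt) (hc : L0 pre inp σ fun i => (P i, slabs (P i).1, μ i))
    {f : ∀ i, ℕ → ZMod (P i).1.prod × ZMod (P i).1.prod → RB (P i).2.2.2}
    (ha : L0 pre inp σ fun i => emkZ (P i).2.2.2 (P i).1.prod (slabs (P i).1) (f i)) :
    L0 pre inp σ fun i => emkZ (P i).2.2.2 (P i).1.prod (slabs (P i).1) fun z v =>
      f i z (v.1 + (rbMac T (P i) (μ i)).d,
        v.2 + (rbMac T (P i) (μ i)).F (v.1 + (rbMac T (P i) (μ i)).d)) := by
  obtain ⟨fD, hD, hD'⟩ := exists_poly_tenD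
  obtain ⟨fF, hF, hF'⟩ := exists_poly_tenF
  have h1 := l0_shear H (g := fun y => fF (y.1.1, y.1.2.1, y.2.getD 1 0)) (hF.comp (by fun_prop))
    (Or.inr rfl) hc (f' := fun i z v => f i z (v.1, v.2 + (rbMac T (P i) (μ i)).F v.1))
    (fun w i hi d hd => by
      have h3 : d 1 < (P i).1.prod := hd 1
      simp only [shCtx, getD_hiD (show 1 < 3 by omega), hF' _ _ _ (H w i hi).1.good.1, onD, rbMac,
        intMac, MacD.map, ZMod.val_natCast, Nat.mod_eq_of_lt h3]
      simp) ha
  exact l0_shear H (g := fun y => fD (y.1.1, y.1.2.1)) (hD.comp (by fun_prop)) (Or.inl rfl) hc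
    (fun w i hi d _ => by
      simp only [shCtx, hD' _ _ (H w i hi).1.good.1, onD, rbMac, intMac, MacD.map]
      simp) h1

theorem l0_shOut (T : TabIn → GaussianInt) (hc : L0 pre inp σ fun i => (P i, slabs (P i).1, μ i))
    {f : ∀ i, ℕ → ZMod (P i).1.prod × ZMod (P i).1.prod → RB (P i).2.2.2}
    (ha : L0 pre inp σ fun i => emkZ (P i).2.2.2 (P i).1.prod (slabs (P i).1) (f i)) :
    L0 pre inp σ fun i => emkZ (P i).2.2.2 (P i).1.prod (slabs (P i).1) fun z v =>
      f i z (v.1 - (rbMac T (P i) (μ i)).d, v.2 - (rbMac T (P i) (μ i)).F v.1) := by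
  obtain ⟨fD, hD, hD'⟩ := exists_poly_tenD
  obtain ⟨fF, hF, hF'⟩ := exists_poly_tenF
  have h1 := l0_shear H (g := fun y => y.1.2.2 - fD (y.1.1, y.1.2.1) % y.1.2.2)
    (Poly.sub (by fun_prop) (Poly.mod (hD.comp (by fun_prop)) (by fun_prop))) (Or.inl rfl) hc
    (f' := fun i z v => f i z (v.1 - (rbMac T (P i) (μ i)).d, v.2))
    (fun w i hi d _ => by
      simp only [shCtx, hD' _ _ (H w i hi).1.good.1, onD, rbMac, intMac, MacD.map]
      simp [cast_neg (hN (H w i hi).1), sub_eq_add_neg]) ha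
  exact l0_shear H (g := fun y => y.1.2.2 - fF (y.1.1, y.1.2.1, y.2.getD 1 0) % y.1.2.2)
    (Poly.sub (by fun_prop) (Poly.mod (hF.comp (by fun_prop)) (by fun_prop))) (Or.inr rfl) hc
    (fun w i hi d hd => by
      have h3 : d 1 < (P i).1.prod := hd 1
      simp only [shCtx, getD_hiD (show 1 < 3 by omega), hF' _ _ _ (H w i hi).1.good.1, onD, rbMac,
        intMac, MacD.map, ZMod.val_natCast, Nat.mod_eq_of_lt h3]
      simp [cast_neg (hN (H w i hi).1), sub_eq_add_neg]) h1

theorem l0_st (f : ∀ i, ℕ → ZMod (P i).1.prod × ZMod (P i).1.prod → RB (P i).2.2.2) :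
    L0 pre (st P μ f) σ (fun i => (P i, slabs (P i).1, μ i)) ∧
      L0 pre (st P μ f) σ fun i => emkZ (P i).2.2.2 (P i).1.prod (slabs (P i).1) (f i) :=
  have h := L0.input (pre := pre) (Ax.le_sz_pair (le_ctx H) (le_emkZ H f))
  ⟨l0_fst h, l0_snd h⟩

/-- multiplication by table `ν` -/
theorem cf_mulT {T : TabIn → GaussianInt} (hT : Poly T) (ν : ℕ) (τ : ℕ → ℝ) (hτ : ∀ B, 0 ≤ τ B)
    (hm : ∀ w i, pre w i → CanMul τ w (P i).2.2.2)
    (f : ∀ i, ℕ → ZMod (P i).1.prod × ZMod (P i).1.prod → RB (P i).2.2.2) :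
    Cf pre (st P μ f) (st P μ fun i z v => (rbMac T (P i) (μ i)).tab ν v * f i z v) σ
      (fun i => 12 * ((P i).1.prod : ℝ) ^ 3 * τ (P i).2.2.2) := by
  obtain ⟨hc, ha⟩ := l0_st H f
  have h1 := (l0_small H (g := fun c => c.1.2.2.2) (by fun_prop) hc).pair
    ((l0_small H (g := fun c => c.2.1 * c.1.1.prod * c.1.1.prod) (by fun_prop) hc).pair
      ((l0_table H hT ν hc).pair ha))
  have h2 := (cf_mulE (pre := pre) τ (fun i => (P i).2.2.2)
    (fun i => slabs (P i).1 * (P i).1.prod * (P i).1.prod)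
    (fun i => emkZ (P i).2.2.2 (P i).1.prod (slabs (P i).1) fun _ v =>
      (rbMac T (P i) (μ i)).tab ν v)
    (fun i => emkZ (P i).2.2.2 (P i).1.prod (slabs (P i).1) (f i))
    fun w i hi => ⟨okE (H w i hi).1 _, okE (H w i hi).1 _, hm w i hi⟩).mono (fun _ _ h => h)
      (le_emkZ_len H _) (c' := fun i => 12 * ((P i).1.prod : ℝ) ^ 3 * τ (P i).2.2.2)
      fun w i hi => by
        have h3 : ((slabs (P i).1 * (P i).1.prod * (P i).1.prod : ℕ) : ℝ) ≤
            3 * ((P i).1.prod : ℝ) ^ 3 := by exact_mod_cast cnt_le (H w i hi).1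
        exact mul_le_mul_of_nonneg_right (by linarith) (hτ _)
  have h3 : Cf pre (st P μ f) (fun i => emkZ (P i).2.2.2 (P i).1.prod (slabs (P i).1)
      fun z v => (rbMac T (P i) (μ i)).tab ν v * f i z v) σ
      (fun i => 12 * ((P i).1.prod : ℝ) ^ 3 * τ (P i).2.2.2) :=
    (h1.thenCf h2).congr (fun _ _ _ => rfl) fun w i hi => by
      rw [emkZ_mul (H w i hi).1.two_le]
  exact (Cf.pair hc.1 hc.2 h3).mono (fun _ _ h => h) Le.refl fun _ _ _ => by rw [zero_add]

/-- multiplication by table `ν` followed by `c2s` -/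
theorem cf_round {T : TabIn → GaussianInt} (hT : Poly T) (hG : GoodT T) (ν : ℕ) (τ : ℕ → ℝ)
    (hτ : ∀ B, 0 ≤ τ B) (hm : ∀ w i, pre w i → CanMul τ w (P i).2.2.2)
    (hκ : ∀ w i, pre w i → (P i).cost / (P i).2.1 ≤ σ i)
    (f : ∀ i, ℕ → ZMod (P i).1.prod × ZMod (P i).1.prod → RB (P i).2.2.2) :
    Cf pre (st P μ f) (st P μ fun i z => c2s (iB _) ((P i).1.map (sgnc (P i).1.prod))
      fun v => (rbMac T (P i) (μ i)).tab ν v * f i z v) σ
      (fun i => 12 * ((P i).1.prod : ℝ) ^ 3 * τ (P i).2.2.2) := by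
  obtain ⟨hc, ha⟩ := l0_st H fun i z v => (rbMac T (P i) (μ i)).tab ν v * f i z v
  have h1 := l0_c2s H hκ hc (fun w i hi z v hv => by
    have h2 := (hG _ (P i).2.2.1 (μ i) ν v.1.val v.2.val (H w i hi).1.good).2 hv
    simp only [rbMac, intMac, MacD.map, h2, toRB_zero, zero_mul]) ha
  exact ((cf_mulT H hT ν τ hτ hm f).comp (hc.pair h1).2).mono (fun _ _ h => h) Le.refl
    fun _ _ _ => by rw [add_zero]

end machine

end MM

open MM

/-- `c2s` on every slab; input `(P, Z, a)` -/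
theorem cf_c2s {ι : Type} {pre : World → ι → Prop} (P : ι → Par)
    (f : ∀ i, ℕ → ZMod (P i).1.prod × ZMod (P i).1.prod → RB (P i).2.2.2)
    (h : ∀ w i, pre w i → OkPar (P i) ∧ ∀ z v, (∃ p ∈ (P i).1, p ∣ v.1.val) → f i z v = 0) :
    Cf pre (fun i => (P i, slabs (P i).1, emkZ (P i).2.2.2 (P i).1.prod (slabs (P i).1) (f i)))
      (fun i => emkZ (P i).2.2.2 (P i).1.prod (slabs (P i).1) fun z =>
        c2s (iB _) ((P i).1.map (sgnc (P i).1.prod)) (f i z))
      (fun i => (P i).cost / (P i).2.1) (fun _ => 0) := by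
  have H : Hyp pre (fun i => (P i).cost / (P i).2.1) P (fun _ => 0) := fun w i hi =>
    ⟨(h w i hi).1, Nat.zero_le _, len_le_cost (h w i hi).1⟩
  have hc := le_ctx H
  have hin : L0 pre (fun i => (P i, slabs (P i).1,
      emkZ (P i).2.2.2 (P i).1.prod (slabs (P i).1) (f i))) (fun i => (P i).cost / (P i).2.1) _ :=
    L0.input (Le.trans (Le.of_le fun w i _ => by
      simp only [sz_pair]
      push_cast
      have : (1 : ℝ) ≤ sz (0 : ℕ) := by exact_mod_cast sz_pos (0 : ℕ)
      linarith) (hc.add (le_emkZ H f)))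
  exact (l0_c2s H (fun _ _ _ => le_rfl)
    ((CT.l0_fst hin).pair ((CT.l0_fst (CT.l0_snd hin)).pair (L0.const hin.1 0)))
    (fun w i hi => (h w i hi).2) (CT.l0_snd (CT.l0_snd hin))).2

/-- table `ν` of macro `μ`, repeated for every slab; input `(P, Z, μ)` -/
theorem cf_table {T : TabIn → GaussianInt} (hT : Poly T) (ν : ℕ) {ι : Type}
    {pre : World → ι → Prop} (P : ι → Par) (μ : ι → ℕ)
    (h : ∀ w i, pre w i → OkPar (P i) ∧ μ i < (P i).2.1) :
    Cf pre (fun i => (P i, slabs (P i).1, μ i))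
      (fun i => emkZ (P i).2.2.2 (P i).1.prod (slabs (P i).1) fun _ v =>
        (rbMac T (P i) (μ i)).tab ν v)
      (fun i => ((P i).len : ℝ)) (fun _ => 0) :=
  have H : Hyp pre (fun i => ((P i).len : ℝ)) P μ := fun w i hi =>
    ⟨(h w i hi).1, (h w i hi).2.le, le_rfl⟩
  (l0_table H hT ν (L0.input (le_ctx H))).2

/-- macro `μ` on every slab; input `(P, Z, μ, a)` -/
theorem cf_mac {T : TabIn → GaussianInt} (hT : Poly T) (hG : GoodT T) (τ : ℕ → ℝ)
    (hτ : ∀ B, 0 ≤ τ B) {ι : Type} {pre : World → ι → Prop} (P : ι → Par) (μ : ι → ℕ)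
    (f : ∀ i, ℕ → ZMod (P i).1.prod × ZMod (P i).1.prod → RB (P i).2.2.2)
    (h : ∀ w i, pre w i → OkPar (P i) ∧ μ i < (P i).2.1 ∧ CanMul τ w (P i).2.2.2) :
    Cf pre (fun i => (P i, slabs (P i).1, μ i,
        emkZ (P i).2.2.2 (P i).1.prod (slabs (P i).1) (f i)))
      (fun i => emkZ (P i).2.2.2 (P i).1.prod (slabs (P i).1) fun z =>
        mac (iB _) ((P i).1.map (sgnc (P i).1.prod)) (rbMac T (P i) (μ i)) (f i z))
      (fun i => (P i).cost / (P i).2.1)
      (fun i => 60 * ((P i).1.prod : ℝ) ^ 3 * τ (P i).2.2.2) := by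
  have H : Hyp pre (fun i => (P i).cost / (P i).2.1) P μ := fun w i hi =>
    ⟨(h w i hi).1, (h w i hi).2.1.le, len_le_cost (h w i hi).1⟩
  have hm : ∀ w i, pre w i → CanMul τ w (P i).2.2.2 := fun w i hi => (h w i hi).2.2
  have hin : L0 pre (fun i => (P i, slabs (P i).1, μ i,
      emkZ (P i).2.2.2 (P i).1.prod (slabs (P i).1) (f i))) (fun i => (P i).cost / (P i).2.1) _ :=
    L0.input (Le.trans (Le.of_le fun w i _ => by
      simp only [sz_pair]
      push_cast
      linarith) (Ax.le_sz_pair (le_ctx H) (le_emkZ H f)))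
  have hc := (CT.l0_fst hin).pair ((CT.l0_fst (CT.l0_snd hin)).pair
    (CT.l0_fst (CT.l0_snd (CT.l0_snd hin))))
  have h0 := hc.pair (l0_shIn H T hc (CT.l0_snd (CT.l0_snd (CT.l0_snd hin))))
  have r := fun ν => cf_round H hT hG ν τ hτ hm fun _ _ _ => le_rfl
  have h1 := (((((h0.thenCf (r 0 _)).comp (r 1 _)).comp (r 2 _)).comp (r 3 _)).comp
    (cf_mulT H hT 4 τ hτ hm _))
  exact (h1.comp (l0_shOut H T (l0_st H _).1 (l0_st H _).2).2).mono (fun _ _ h => h) Le.refl
    fun _ _ _ => le_of_eq (by ring)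

end Crest.Agent.R326
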