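import Mathlib

/-!
Row 326, layer 1: a stack language over binary trees with recursion, its exact timed semantics,
and the cost judgement `Cf` used by all algorithms of the row.
-/

set_option autoImplicit false

namespace Crest.Agent.R326

open Function

/-- values: binary trees with leaves `nil` and bits -/
inductive Val : Type
  | nil : Val
  | bit (b : Bool) : Val
  | cons (a b : Val) : Val

def Val.size : Val → ℕ
  | .nil => 1
  | .bit _ => 1
  | .cons a b => a.size + b.size + 1

/-- registers: stacks of values -/
abbrev St := ℕ → List Val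

/-- programs; `self` calls the body of the innermost enclosing `fix` -/
inductive VP : Type
  | skip : VP
  | seq (p q : VP) : VP
  | push (r : ℕ) (v : Val) : VP
  | cons (r : ℕ) : VP
  | uncons (r : ℕ) : VP
  | move (r r' : ℕ) : VP
  | copy (r r' : ℕ) : VP
  | drop (r : ℕ) : VP
  | case (r : ℕ) (pn pf pt pc : VP) : VP
  | loop (r : ℕ) (p : VP) : VP
  | self : VP
  | fix (p : VP) : VP

/-- `Exec Γ p s s' t`: with `self` meaning `Γ`, the program `p` leads from `s` to `s'` in time `t` -/
inductive Exec : VP → VP → St → St → ℕ → Prop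
  | skip (Γ : VP) (s : St) : Exec Γ .skip s s 1
  | seq {Γ p q : VP} {s s' s'' : St} {t t' : ℕ} :
      Exec Γ p s s' t → Exec Γ q s' s'' t' → Exec Γ (.seq p q) s s'' (t + t')
  | push (Γ : VP) (r : ℕ) (v : Val) (s : St) :
      Exec Γ (.push r v) s (update s r (v :: s r)) v.size
  | cons (Γ : VP) {r : ℕ} {s : St} {a b : Val} {l : List Val} :
      s r = a :: b :: l → Exec Γ (.cons r) s (update s r (.cons a b :: l)) 1
  | uncons (Γ : VP) {r : ℕ} {s : St} {a b : Val} {l : List Val} :
      s r = .cons a b :: l → Exec Γ (.uncons r) s (update s r (a :: b :: l)) 1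
  | move (Γ : VP) {r : ℕ} (r' : ℕ) {s : St} {v : Val} {l : List Val} :
      s r = v :: l →
        Exec Γ (.move r r') s (update (update s r l) r' (v :: update s r l r')) v.size
  | copy (Γ : VP) {r : ℕ} (r' : ℕ) {s : St} {v : Val} {l : List Val} :
      s r = v :: l → Exec Γ (.copy r r') s (update s r' (v :: s r')) v.size
  | drop (Γ : VP) {r : ℕ} {s : St} {v : Val} {l : List Val} :
      s r = v :: l → Exec Γ (.drop r) s (update s r l) v.size
  | caseN {Γ : VP} {r : ℕ} {pn pf pt pc : VP} {s s' : St} {l : List Val} {t : ℕ} :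
      s r = .nil :: l → Exec Γ pn s s' t → Exec Γ (.case r pn pf pt pc) s s' (t + 1)
  | caseF {Γ : VP} {r : ℕ} {pn pf pt pc : VP} {s s' : St} {l : List Val} {t : ℕ} :
      s r = .bit false :: l → Exec Γ pf s s' t → Exec Γ (.case r pn pf pt pc) s s' (t + 1)
  | caseT {Γ : VP} {r : ℕ} {pn pf pt pc : VP} {s s' : St} {l : List Val} {t : ℕ} :
      s r = .bit true :: l → Exec Γ pt s s' t → Exec Γ (.case r pn pf pt pc) s s' (t + 1)
  | caseC {Γ : VP} {r : ℕ} {pn pf pt pc : VP} {s s' : St} {a b : Val} {l : List Val} {t : ℕ} :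
      s r = .cons a b :: l → Exec Γ pc s s' t → Exec Γ (.case r pn pf pt pc) s s' (t + 1)
  | loopN (Γ : VP) {r : ℕ} (p : VP) {s : St} {l : List Val} :
      s r = .nil :: l → Exec Γ (.loop r p) s s 1
  | loopC {Γ : VP} {r : ℕ} {p : VP} {s s' s'' : St} {a b : Val} {l : List Val} {t t' : ℕ} :
      s r = .cons a b :: l → Exec Γ p s s' t → Exec Γ (.loop r p) s' s'' t' →
        Exec Γ (.loop r p) s s'' (t + t' + 1)
  | self {Γ : VP} {s s' : St} {t : ℕ} : Exec Γ Γ s s' t → Exec Γ .self s s' (t + 1)
  | fix (Γ : VP) {p : VP} {s s' : St} {t : ℕ} : Exec p p s s' t → Exec Γ (.fix p) s s' (t + 1)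

/-- `p` replaces the top value `a` of register `0` by `b`, restores everything else, and takes
time at most `T`, whatever lies below. -/
def Ev (Γ p : VP) (a b : Val) (T : ℝ) : Prop :=
  ∀ s : St, ∃ t : ℕ, (t : ℝ) ≤ T ∧ Exec Γ p (update s 0 (a :: s 0)) (update s 0 (b :: s 0)) t

/-- encodings of data as values -/
class Enc (α : Type) where
  enc : α → Val

export Enc (enc)

def encList {α : Type} (e : α → Val) : List α → Val
  | [] => .nil
  | a :: l => .cons (e a) (encList e l)

instance : Enc Val := ⟨id⟩
instance : Enc Bool := ⟨Val.bit⟩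
instance : Enc Unit := ⟨fun _ => .nil⟩
instance {α β : Type} [Enc α] [Enc β] : Enc (α × β) := ⟨fun p => .cons (enc p.1) (enc p.2)⟩
instance {α : Type} [Enc α] : Enc (List α) := ⟨encList enc⟩
/-- naturals in binary, least significant bit first -/
instance : Enc ℕ := ⟨fun n => enc n.bits⟩
/-- integers: sign (true = negative) and absolute value -/
instance : Enc ℤ := ⟨fun z => enc (decide (z < 0), z.natAbs)⟩
instance {α : Type} [Enc α] : Enc (Option α) := ⟨fun o => enc o.toList⟩
instance : Enc GaussianInt := ⟨fun z => enc (z.re, z.im)⟩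

/-- the size of the encoding -/
def sz {α : Type} [Enc α] (a : α) : ℕ := (enc a).size

/-- the meaning of `self` and the unit in which recursive calls are charged -/
structure World where
  Γ : VP
  A : ℝ
  hA : 0 ≤ A

/-- big-O on the precondition -/
def Le {ι : Type} (pre : World → ι → Prop) (f g : ι → ℝ) : Prop :=
  ∃ K : ℝ, 0 ≤ K ∧ ∀ w i, pre w i → f i ≤ K * g i

/-- One program computes `out i` from `inp i` (whenever `pre`) in time `O(σ i) + A * c i`, the
second summand (the cost of the recursive calls) being exact. -/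
def Cf {ι α β : Type} [Enc α] [Enc β] (pre : World → ι → Prop) (inp : ι → α) (out : ι → β)
    (σ c : ι → ℝ) : Prop :=
  ∃ (p : VP) (K : ℝ), 0 ≤ K ∧ ∀ w i, pre w i →
    Ev w.Γ p (enc (inp i)) (enc (out i)) (K * σ i + w.A * c i)

/-- no recursive calls: time `O(σ i)`; the input is required to have size `O(σ i)` -/
def L0 {ι α β : Type} [Enc α] [Enc β] (pre : World → ι → Prop) (inp : ι → α) (σ : ι → ℝ)
    (out : ι → β) : Prop :=
  Le pre (fun i => (sz (inp i) : ℝ)) σ ∧ Cf pre inp out σ (fun _ => 0)

/-- a closed subroutine: `g` on inputs satisfying `P`, in time `O(τ)` -/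
def Sub {α β : Type} [Enc α] [Enc β] (P : α → Prop) (g : α → β) (τ : α → ℝ) : Prop :=
  Cf (fun _ a => P a) (fun a => a) g τ (fun _ => 0)

/-- linear time -/
def Lin {α β : Type} [Enc α] [Enc β] (g : α → β) : Prop :=
  Sub (fun _ => True) g (fun a => (sz a : ℝ))

/-- polynomial time -/
def Poly {α β : Type} [Enc α] [Enc β] (g : α → β) : Prop :=
  ∃ c : ℕ, Sub (fun _ => True) g (fun a => ((sz a : ℝ) + 1) ^ c)

/-- in the world `w`, the recursive call computes `F` within `A * τ` on the inputs in `D` of
measure below `k` -/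
def SelfOK {α β : Type} [Enc α] [Enc β] (D : α → Prop) (μ : α → ℕ) (F : α → β) (τ : α → ℝ)
    (w : World) (k : ℕ) : Prop :=
  ∀ a, D a → μ a < k → Ev w.Γ .self (enc a) (enc (F a)) (w.A * τ a)

/-- left-to-right scan with state: the step receives the item and the state and returns the output
item and the new state -/
def scan {α β σ : Type} (f : α × σ → β × σ) : List α → σ → List β × σ
  | [], s => ([], s)
  | a :: l, s => ((f (a, s)).1 :: (scan f l (f (a, s)).2).1, (scan f l (f (a, s)).2).2)

/-- the (item, state) pairs met by `scan` -/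
def scanIn {α β σ : Type} (f : α × σ → β × σ) : List α → σ → List (α × σ)
  | [], _ => []
  | a :: l, s => (a, s) :: scanIn f l (f (a, s)).2

/-- unary numbers -/
abbrev un (n : ℕ) : List Unit := List.replicate n ()

/-- the first `c` consecutive blocks of length `k` -/
def blocks {α : Type} (c k : ℕ) (l : List α) : List (List α) :=
  (List.range c).map fun j => (l.drop (j * k)).take k

/-- put the rows, in order, at the marked places, and `z` at the others (and when the rows are
exhausted) -/
def expand {α : Type} (z : α) : List Bool → List α → List α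
  | [], _ => []
  | true :: m, a :: l => a :: expand z m l
  | true :: m, [] => z :: expand z m []
  | false :: m, l => z :: expand z m l

/-- little-endian value of a bit list -/
def valLE (l : List Bool) : ℕ := l.foldr (fun b acc => 2 * acc + b.toNat) 0

/-- little-endian word of length `B` -/
def wordLE (B z : ℕ) : List Bool := (List.range B).map fun i => z.testBit i

end Crest.Agent.R326
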