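import Crest.Agent.R326.TopDefs
import Crest.Agent.R326.Dig
import Crest.Agent.R326.Crt

/-! Row 326: the sizes of the parameters. -/

set_option autoImplicit false

namespace Crest.Agent.R326

open Filter

namespace P1

theorem poly_lg {α : Type} [Enc α] {f : α → ℕ} (hf : Poly f) : Poly fun a => lg (f a) := by
  unfold lg
  fun_prop

theorem poly_ul : Poly fun n : ℕ => un (lg n) :=
  ((Poly.un_size Poly.id).append (Poly.const [()])).congr fun n => by
    simp [lg, List.replicate_succ']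

theorem poly_Ex : Poly Ex :=
  (Poly.pow_min (Poly.const 2) (Poly.sqrt (poly_lg Poly.id)) poly_ul).congr fun n => by
    simp [Ex, min_eq_left (Nat.sqrt_le_self _)]

theorem poly_range : Poly fun n : ℕ => List.range (lg n ^ 2) :=
  (Poly.range_length (Poly.flatMap (g := fun n (_ : Unit) => un (lg n))
    (poly_ul.comp (Poly.fst Poly.id)) poly_ul)).congr fun n => by simp [sq]

theorem poly_primesL : Poly primesL := by
  have h1 := poly_range
  have h2 : Poly fun n : ℕ => lg n := poly_lg Poly.id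
  have h : Poly fun n : ℕ => (List.range (lg n ^ 2)).filter fun p =>
      decide (16 * lg n ≤ p) && (List.range (lg n ^ 2)).all fun d =>
        decide (d = 1) || decide (d = p) || decide (0 < p % d) := by
    refine Poly.filter (Poly.and (by fun_prop) (Poly.all (by fun_prop) (h1.comp (Poly.fst Poly.id)))) h1
  refine h.congr fun n => List.filter_congr fun p hp => ?_
  have := one_le_lg n
  rw [Bool.eq_iff_iff]
  simp only [List.mem_range, decide_eq_true_eq, Bool.and_eq_true, List.all_eq_true,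
    Bool.or_eq_true] at hp ⊢
  refine and_congr_right fun h16 => ⟨fun hp d _ => ?_, fun H => ?_⟩
  · by_contra hc
    have := hp.eq_one_or_self_of_dvd d (Nat.dvd_of_mod_eq_zero (by omega))
    omega
  · refine Nat.prime_def.2 ⟨by omega, fun d hd => ?_⟩
    have h3 := Nat.le_of_dvd (by omega) hd
    have h4 := H d (by omega)
    have h5 := Nat.mod_eq_zero_of_dvd hd
    omega

theorem poly_parPs : Poly parPs := by
  have h1 := poly_primesL
  have h2 := poly_Ex
  unfold parPs
  refine Poly.take (Poly.length (Poly.filter ?_ (Poly.range_length h1))) h1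
  fun_prop

theorem poly_max : Poly fun l : List ℕ => l.foldr max 0 := by
  refine (Poly.foldl_add (f := fun _ t x => max x t) (s := fun _ => 0) (l := fun l => l.reverse)
    (by fun_prop) (Poly.const 0) (by fun_prop) 1 1 fun a t x _ => ?_).congr fun l => by
      rw [List.foldl_reverse]
  rcases le_total x t with h | h
  · rw [max_eq_right h]
    omega
  · rw [max_eq_left h, pow_one]
    omega

theorem tendsto_lg : Tendsto lg atTop atTop :=
  tendsto_atTop.2 fun c => (eventually_ge_atTop (2 ^ c)).mono fun n hn =>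
    ((Nat.pow_lt_pow_iff_right one_lt_two).1 (hn.trans_lt (lt_two_pow_lg n))).le

theorem ev_poly (c e : ℕ) : ∀ᶠ n in atTop, c * (lg n + 1) ^ e ≤ Ex n := by
  obtain ⟨K, hK⟩ := lg_pow_le_Ex (e + 1)
  filter_upwards [tendsto_lg.eventually_ge_atTop (c * K)] with n hn
  have h1 := hK n
  have h0 : 0 < K := Nat.pos_of_ne_zero fun h => by simp [h] at h1
  refine Nat.le_of_mul_le_mul_left (le_trans ?_ h1) h0
  rw [pow_succ]
  nlinarith [Nat.zero_le ((lg n + 1) ^ e)]

theorem ev_Ex (e : ℕ) : ∀ᶠ n in atTop, Ex n ^ e ≤ n := by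
  obtain ⟨K, hK⟩ := Ex_pow_le (e + 1) 1 one_pos
  filter_upwards [ev_poly K 0, eventually_gt_atTop 0] with n h1 h2
  have h3 := hK n n h2 (by simp)
  have h4 := two_le_Ex n
  rw [pow_zero, mul_one] at h1
  refine Nat.le_of_mul_le_mul_right ?_ (show 0 < Ex n by omega)
  rw [← pow_succ]
  nlinarith

theorem many_primes : ∀ᶠ l : ℕ in atTop, 17 * l ≤ (Nat.primesBelow (l ^ 2)).card := by
  obtain ⟨K, hK⟩ : ∃ K, ∀ s, (s + 1) ^ 35 ≤ K * 2 ^ s := ⟨_, ExAux.poly_le_exp 35⟩
  filter_upwards [eventually_gt_atTop (K + 1)] with l hl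
  obtain ⟨s, rfl⟩ : ∃ s, l = s + 1 := ⟨l - 1, by omega⟩
  by_contra hc
  have h1 := hK s
  have h2 : (s + 1) ^ 34 < 2 ^ s := by
    by_contra h
    rw [pow_succ] at h1
    have : 0 < 2 ^ s := by positivity
    nlinarith
  have hm : (s + 1) ^ 2 = s * (s + 2) + 1 := by ring
  have hs : 0 < s := by omega
  have h3 := Chebyshev.two_pow_le_mul_lcmUpto (s * (s + 2))
  have h4 : Nat.lcmUpto (s * (s + 2)) ≤ ((s + 1) ^ 2) ^ (Nat.primesBelow ((s + 1) ^ 2)).card := by
    rw [Nat.lcmUpto_eq_prod_pow_log, Nat.primesLE, ← hm]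
    refine Finset.prod_le_pow_card _ _ _ fun p _ => ?_
    exact (Nat.pow_log_le_self p (by positivity)).trans (by omega)
  have h5 : 2 ^ (s * (s + 2)) ≤ ((s + 1) ^ 34) ^ (s + 1) := by
    refine h3.trans ?_
    rw [← hm]
    refine (Nat.mul_le_mul_left _ h4).trans ?_
    rw [← pow_succ', ← pow_mul, ← pow_mul]
    exact Nat.pow_le_pow_right (by omega) (by omega)
  have h6 := h5.trans_lt (Nat.pow_lt_pow_left h2 (by omega))
  rw [← pow_mul, Nat.pow_lt_pow_iff_right one_lt_two] at h6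
  nlinarith

theorem mem_primesL {n p : ℕ} (h : p ∈ primesL n) : p < lg n ^ 2 ∧ 16 * lg n ≤ p ∧ p.Prime := by
  simpa [primesL] using h

theorem nodup_primesL (n : ℕ) : (primesL n).Nodup := List.nodup_range.filter _

theorem prefix_spec {q : ℕ → Prop} [DecidablePred q] (hq : ∀ j, q (j + 1) → q j) (L : ℕ) :
    ∀ j < L, q j ↔ j < ((List.range L).filter fun j => decide (q j)).length := by
  have hq' : ∀ j k, j ≤ k → q k → q j := fun j k h => by
    induction k, h using Nat.le_induction with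
    | base => exact id
    | succ k _ ih => exact fun h => ih (hq _ h)
  by_cases h : ∃ k, ¬ q k
  · have h1 : ∀ j, q j ↔ j < Nat.find h := fun j => by
      rw [Nat.lt_find_iff]
      exact ⟨fun h m hm => not_not.2 (hq' _ _ hm h), fun h => not_not.1 (h j le_rfl)⟩
    intro j hj
    rw [List.filter_congr (q := fun j => decide (j < Nat.find h)) fun j _ => decide_eq_decide.2 (h1 j),
      filter_range_lt, List.length_range, h1]
    omega
  · push Not at h
    simp [h]

end P1

theorem poly_par : Poly (fun n : ℕ => (par n, parB0 n)) := by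
  have h1 := P1.poly_parPs
  have h2 : Poly parN := by
    have : Poly fun n => lam (parPs n) := P1.poly_lg (P1.poly_max.comp h1)
    unfold parN
    fun_prop
  have h3 : Poly parB0 :=
    (Poly.id.div ((((Poly.prod h1).add (Poly.const 1)).div (Poly.const 2)).pow_const 3)).add
      (Poly.const 1)
  have h4 : Poly parb :=
    ((Poly.const 2).mul h3).add (((Poly.const 150).mul (h2.add (Poly.const 1))).mul
      (P1.poly_lg (Poly.prod h1)))
  exact (h1.pair (h2.pair (h4.pair ((((Poly.const 45).mul h2).add (Poly.const 1)).mul h4)))).pair h3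

/-- enough primes -/
theorem primesL_long : ∀ᶠ n in atTop, lg n ≤ (primesL n).length := by
  filter_upwards [P1.tendsto_lg.eventually P1.many_primes] with n hn
  have h : Nat.primesBelow (lg n ^ 2) ⊆ (primesL n).toFinset ∪ Finset.range (16 * lg n) := by
    intro p hp
    rw [Nat.mem_primesBelow] at hp
    simp only [primesL, Finset.mem_union, List.mem_toFinset, List.mem_filter, List.mem_range,
      decide_eq_true_eq, Finset.mem_range, hp.1, hp.2, and_true, true_and]
    omega
  have h1 := (Finset.card_le_card h).trans (Finset.card_union_le _ _)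
  have h2 := List.toFinset_card_le (primesL n)
  rw [Finset.card_range] at h1
  omega

/-- the basic inequalities -/
theorem par_sizes : ∀ᶠ n in atTop, GoodD (parPs n) ∧ (parPs n).prod ^ 3 * Ex n ^ 3 ≤ n ∧
    n < (parPs n).prod ^ 3 * lg n ^ 6 * Ex n ^ 3 ∧ (parPs n).length ≤ lg n ∧
    (∀ p ∈ parPs n, p < lg n ^ 2) ∧ lam (parPs n) ≤ 2 * lg (lg n) ∧
    Ex n ^ 3 ≤ parB0 n ∧ parB0 n ≤ Ex n ^ 4 ∧ parb n ≤ 3 * parB0 n ∧
    (parPs n).prod ^ 3 * parB0 n ≤ 16 * n ∧ n ≤ (parPs n).prod ^ 4 := by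
  filter_upwards [primesL_long, P1.ev_Ex 3, P1.ev_Ex 16, P1.ev_poly 8 6, P1.ev_poly (10 ^ 9) 3]
    with n hL h3 h16 h8 h9
  have hl := one_le_lg n
  have hE := two_le_Ex n
  have hmem : ∀ p ∈ parPs n, p < lg n ^ 2 ∧ 16 * lg n ≤ p ∧ p.Prime := fun p hp =>
    P1.mem_primesL (List.mem_of_mem_take hp)
  have hspec := P1.prefix_spec
    (q := fun k => ((primesL n).take (k + 1)).prod ^ 3 * Ex n ^ 3 ≤ n) (fun j h => by
      refine le_trans (Nat.mul_le_mul_right _ (Nat.pow_le_pow_left ?_ _)) h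
      exact ((List.take_sublist_take_left (by omega)).prod_le_prod' fun p hp =>
        (P1.mem_primesL (List.mem_of_mem_take hp)).2.2.one_le)) (primesL n).length
  obtain ⟨k, hk, hkL, hP⟩ : ∃ k, (∀ j < (primesL n).length,
      ((primesL n).take (j + 1)).prod ^ 3 * Ex n ^ 3 ≤ n ↔ j < k) ∧ k ≤ (primesL n).length ∧
      parPs n = (primesL n).take k :=
    ⟨_, hspec, (List.length_filter_le _ _).trans (by simp), rfl⟩
  have hlen : (parPs n).length = k := by rw [hP, List.length_take, min_eq_left hkL]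
  have hN : (parPs n).prod ^ 3 * Ex n ^ 3 ≤ n := by
    rw [hP]
    rcases k with _ | k
    · simpa using h3
    · exact (hk k (by omega)).2 (by omega)
  have hN2 : 2 ^ k ≤ (parPs n).prod :=
    hlen ▸ List.pow_card_le_prod _ _ fun p hp => (hmem p hp).2.2.two_le
  have hN1 : 1 ≤ (parPs n).prod := le_trans (Nat.one_le_two_pow) hN2
  have hN3 : (parPs n).prod ^ 3 ≤ n := le_trans (Nat.le_mul_of_pos_right _ (by positivity)) hN
  have hNn : (parPs n).prod ≤ n := le_trans (Nat.le_self_pow (by omega) _) hN3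
  have hkl : k < lg n :=
    (Nat.pow_lt_pow_iff_right one_lt_two).1 ((hN2.trans hNn).trans_lt (lt_two_pow_lg n))
  have hup : n < (parPs n).prod ^ 3 * lg n ^ 6 * Ex n ^ 3 := by
    have h1 := (hk k (by omega)).not.2 (lt_irrefl k)
    rw [not_le, List.prod_take_succ _ _ (by omega), ← hP, mul_pow] at h1
    refine h1.trans_le (Nat.mul_le_mul_right _ (Nat.mul_le_mul_left _ ?_))
    rw [show 6 = 2 * 3 from rfl, pow_mul]
    exact Nat.pow_le_pow_left (P1.mem_primesL (List.getElem_mem _)).1.le _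
  have hlam : lam (parPs n) ≤ 2 * lg (lg n) := by
    have h1 := lg_mono (CT.foldr_max_le fun p hp => (hmem p hp).1.le)
    have h2 := lg_mul_le (lg n) (lg n)
    rw [sq] at h1
    unfold lam
    omega
  have h8' : 8 * lg n ^ 6 ≤ Ex n :=
    le_trans (Nat.mul_le_mul_left _ (Nat.pow_le_pow_left (Nat.le_succ _) _)) h8
  generalize hNN : (parPs n).prod = N at *
  obtain ⟨M, hM, hM1, hM2⟩ : ∃ M, parB0 n = n / M ^ 3 + 1 ∧ M ≤ N ∧ N ≤ 2 * M :=
    ⟨(N + 1) / 2, by rw [parB0, hNN], by omega, by omega⟩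
  have hM0 : 0 < M ^ 3 := pow_pos (by omega) _
  have hM3 : N ^ 3 ≤ 8 * M ^ 3 := (Nat.pow_le_pow_left hM2 3).trans_eq (by ring)
  have hB1 : Ex n ^ 3 ≤ parB0 n := by
    rw [hM]
    refine le_trans ((Nat.le_div_iff_mul_le hM0).2 (le_trans ?_ hN)) (Nat.le_succ _)
    rw [mul_comm]
    exact Nat.mul_le_mul_right _ (Nat.pow_le_pow_left hM1 _)
  refine ⟨⟨⟨?_, fun p hp => ?_⟩, fun p hp => ?_⟩, hN, hup, by omega, fun p hp => (hmem p hp).1, hlam,
    hB1, ?_, ?_, ?_, ?_⟩
  · have : (parPs n).Nodup := hP ▸ (P1.nodup_primesL n).sublist (List.take_sublist _ _)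
    exact this.pairwise_of_forall_ne fun p hp q hq =>
      (Nat.coprime_primes (hmem p hp).2.2 (hmem q hq).2.2).2
  · obtain ⟨-, h1, h2⟩ := hmem p hp
    exact ⟨h2.odd_of_ne_two (by omega), by omega⟩
  · obtain ⟨-, h1, -⟩ := hmem p hp
    omega
  · rw [hM]
    refine (Nat.div_lt_iff_lt_mul hM0).2 (hup.trans_le ?_)
    calc N ^ 3 * lg n ^ 6 * Ex n ^ 3 ≤ 8 * M ^ 3 * lg n ^ 6 * Ex n ^ 3 := by gcongr
      _ = 8 * lg n ^ 6 * (Ex n ^ 3 * M ^ 3) := by ring
      _ ≤ Ex n * (Ex n ^ 3 * M ^ 3) := by gcongr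
      _ = Ex n ^ 4 * M ^ 3 := by ring
  · have h1 : lam (parPs n) ≤ 2 * (lg n + 1) := hlam.trans (Nat.mul_le_mul_left _ (lg_le _))
    have h2 : lg N ≤ lg n + 1 := (lg_mono hNn).trans (Nat.le_succ _)
    have h3 : 150 * (parN n + 1) * lg N ≤ 10 ^ 9 * (lg n + 1) ^ 3 := by
      have h4 : 1 ≤ (lg n + 1) ^ 2 := Nat.one_le_pow _ _ (by omega)
      calc 150 * (parN n + 1) * lg N ≤
            150 * (10 ^ 6 * (2 * (lg n + 1)) ^ 2 + (lg n + 1) ^ 2) * (lg n + 1) := by
            unfold parN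
            gcongr
        _ = 600000150 * (lg n + 1) ^ 3 := by ring
        _ ≤ _ := Nat.mul_le_mul_right _ (by norm_num)
    have h4 : Ex n ≤ Ex n ^ 3 := Nat.le_self_pow (by omega) _
    rw [parb, hNN]
    omega
  · have h1 := Nat.div_mul_le_self n (M ^ 3)
    have h2 := Nat.mul_le_mul_right (n / M ^ 3) hM3
    rw [hM, mul_add]
    nlinarith
  · have h1 : n < N ^ 3 * Ex n ^ 4 := by
      refine hup.trans_le ?_
      calc N ^ 3 * lg n ^ 6 * Ex n ^ 3 ≤ N ^ 3 * Ex n * Ex n ^ 3 := by gcongr; omega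
        _ = _ := by ring
    have h2 : Ex n ^ 4 ≤ N := by
      by_contra h
      have h3 : N ^ 3 * Ex n ^ 4 ≤ (Ex n ^ 4) ^ 3 * Ex n ^ 4 := by gcongr; omega
      have h4 : (Ex n ^ 4) ^ 3 * Ex n ^ 4 = Ex n ^ 16 := by ring
      omega
    exact h1.le.trans ((Nat.mul_le_mul_left _ h2).trans_eq (by ring))

end Crest.Agent.R326
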