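import Crest.Agent.R326.SwapRec

/-! Row 326: fast transposition of two registers of any equal length. -/

set_option autoImplicit false

namespace Crest.Agent.R326

open Arr2

theorem WW_pow_log_le : ∃ K : ℕ, ∀ k n, k ≤ lg n → WW ^ Nat.log mm k ≤ K * Ex n := by
  obtain ⟨K, hK⟩ := lg_pow_le_Ex 4
  refine ⟨K, fun k n hk => le_trans ?_ (hK n)⟩
  have h1 : WW ≤ mm ^ 4 := by rw [WW_eq, mm_eq]; norm_num
  have h2 : mm ^ Nat.log mm k ≤ lg n + 1 := by
    rcases Nat.eq_zero_or_pos k with rfl | h0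
    · simp
    · exact (Nat.pow_log_le_self mm h0.ne').trans (by omega)
  calc WW ^ Nat.log mm k ≤ (mm ^ 4) ^ Nat.log mm k := Nat.pow_le_pow_left h1 _
    _ = (mm ^ Nat.log mm k) ^ 4 := by rw [← pow_mul, ← pow_mul, mul_comm]
    _ ≤ (lg n + 1) ^ 4 := Nat.pow_le_pow_left h2 _

namespace Swap

theorem θ_nonneg : 0 ≤ θ := by unfold θ; norm_num

theorem one_le_lg_pow (n : ℕ) : (1 : ℝ) ≤ (lg n : ℝ) ^ θ :=
  Real.one_le_rpow (by exact_mod_cast one_le_lg n) θ_nonneg

theorem Ex_le_sq (n : ℕ) : Ex n ≤ Ex n ^ 2 := Nat.le_self_pow two_ne_zero _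

section
variable {ι α β γ : Type} [Enc α] [Enc β] [Enc γ] {pre : World → ι → Prop}
  {inp : ι → α} {σ : ι → ℝ}

theorem le_len (n m : ι → ℕ) :
    Le pre (fun i => (n i : ℝ)) fun i => (n i : ℝ) * (lg (m i) : ℝ) ^ θ :=
  Le.of_le fun _ _ _ => le_mul_of_one_le_right (Nat.cast_nonneg _) (one_le_lg_pow _)

/-- polynomial-time functions of small parameters -/
theorem l0_par {f : ι → β} {g : β → γ} (hg : Poly g) (hf : L0 pre inp σ f) (n : ι → ℕ) (c e : ℕ)
    (hs : ∀ w i, pre w i → sz (f i) ≤ c * lg (n i) ^ e)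
    (hσ : Le pre (fun i => (Ex (n i) : ℝ)) σ) : L0 pre inp σ (fun i => g (f i)) := by
  refine L0.poly hg hf fun e' => ?_
  obtain ⟨K, hK⟩ := poly_lg_le_Ex (c + 1) e' e
  refine le_nat K (fun i => (sz (f i) + 1) ^ e') _ (fun _ _ _ => by push_cast; exact le_rfl) hσ
    fun w i hi => le_trans (Nat.pow_le_pow_left ?_ e') (hK (n i))
  have h1 := hs w i hi
  rw [add_mul]
  omega

theorem l0_pad {N' R N L : ι → ℕ} {a : ι → List Bool} (hN' : L0 pre inp σ N') (hR : L0 pre inp σ R)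
    (hN : L0 pre inp σ N) (hL : L0 pre inp σ L) (ha : L0 pre inp σ a) (C : ℕ) (n : ι → ℕ)
    (h : ∀ w i, pre w i → 0 < N' i ∧ 0 < R i ∧ 0 < N i ∧ 0 < L i ∧
      (a i).length = R i * N i * L i ∧ R i * N i * L i ≤ C * n i ∧ R i * N' i * L i ≤ C * n i)
    (h1 : Le pre (fun i => (n i : ℝ)) σ) (h2 : Le pre (fun i => (Ex (n i) : ℝ)) σ) :
    L0 pre inp σ (fun i => padA (R i) (N i) (N' i) (L i) (a i)) := by
  obtain ⟨K, hK⟩ := Ex_mul_le (2 * C)
  refine L0.sub sub_padA (hN'.pair (hR.pair (hN.pair (hL.pair ha))))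
    (fun w i hi => ?_) (Le.add (Le.add ?_ ?_) ?_)
  · obtain ⟨e1, e2, e3, e4, e5, -⟩ := h w i hi
    exact ⟨e1, e2, e3, e4, e5⟩
  · refine le_nat C (fun i => (a i).length) _ (fun _ _ _ => le_rfl) h1 fun w i hi => ?_
    obtain ⟨-, -, -, -, e5, e6, -⟩ := h w i hi
    omega
  · refine le_nat C (fun i => R i * N' i * L i) _ (fun _ _ _ => by push_cast; exact le_rfl) h1
      fun w i hi => (h w i hi).2.2.2.2.2.2
  · refine le_nat K (fun i => Ex ((a i).length + R i * N' i * L i)) _ (fun _ _ _ => le_rfl) h2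
      fun w i hi => le_trans (Ex_mono ?_) (hK (n i))
    obtain ⟨-, -, -, -, e5, e6, e7⟩ := h w i hi
    rw [mul_assoc 2]
    omega

end

theorem length_padA (R N N' L : ℕ) (a : List Bool) : (padA R N N' L a).length = R * N' * L :=
  length_bmk _ _

theorem length_swapA (H N M L : ℕ) (a : List Bool) :
    (swapA H N M L a).length = H * N * M * N * L := length_bmk _ _

theorem clog_le_size {q : ℕ} (hq : 1 < q) (N : ℕ) : Nat.clog q N ≤ N.size := by
  rw [Nat.clog_le_iff_le_pow hq]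
  exact (Nat.lt_size_self _).le.trans (Nat.pow_le_pow_left hq _)

theorem pow_clog_le {q N : ℕ} (hq : 1 < q) (hN : 0 < N) : q ^ Nat.clog q N ≤ q * N := by
  rcases Nat.eq_zero_or_pos (Nat.clog q N) with h | h
  · rw [h, pow_zero]
    exact Nat.mul_pos (by omega) hN
  · obtain ⟨k, hk⟩ : ∃ k, Nat.clog q N = k + 1 := ⟨Nat.clog q N - 1, by omega⟩
    have h1 : q ^ k < N := (Nat.lt_clog_iff_pow_lt hq).1 (by omega)
    rw [hk, pow_succ, mul_comm]
    exact Nat.mul_le_mul_left _ h1.le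

/-- the padded length of the exchanged axes -/
def pN (q N : ℕ) : ℕ := q ^ Nat.clog q N
/-- the number of wires needed by the recursion -/
def pW (q N : ℕ) : ℕ := WW ^ Nat.log mm (Nat.clog q N)
/-- the padded length of the lowest axis -/
def pL (q N L : ℕ) : ℕ := pW q N * (L / pW q N + 1)

theorem pW_pos (q N : ℕ) : 0 < pW q N := Nat.pow_pos (by rw [WW_eq]; norm_num)

theorem le_pL (q N L : ℕ) : L ≤ pL q N L := (Nat.lt_mul_div_succ L (pW_pos q N)).le

theorem pL_le (q N L : ℕ) : pL q N L ≤ L + pW q N := by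
  have := Nat.mul_div_le L (pW q N)
  rw [pL, mul_add, mul_one]
  omega

theorem poly_pN {q : ℕ} (hq : 1 < q) : Poly (pN q) :=
  (Poly.pow_min_size (Poly.const q) (Poly.clog q Poly.id) Poly.id).congr fun N => by
    rw [pN, min_eq_left (clog_le_size hq N)]

theorem poly_pW {q : ℕ} (hq : 1 < q) : Poly (pW q) :=
  (Poly.pow_min_size (Poly.const WW) (Poly.log mm (Poly.clog q Poly.id)) Poly.id).congr fun N => by
    rw [pW, min_eq_left ((Nat.log_le_self _ _).trans (clog_le_size hq N))]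

theorem poly_pL {q : ℕ} (hq : 1 < q) : Poly fun p : ℕ × ℕ => pL q p.1 p.2 := by
  have h : Poly fun p : ℕ × ℕ => pW q p.1 := (poly_pW hq).comp (Poly.fst Poly.id)
  exact h.mul ((Poly.div (Poly.snd Poly.id) h).add (Poly.const 1))

theorem Ok5.le {H N M L : ℕ} {a : List Bool} (h : Ok5 (H, N, M, L, a)) :
    H ≤ a.length ∧ N ≤ a.length ∧ M ≤ a.length ∧ L ≤ a.length := by
  obtain ⟨h1, h2, h3, h4, h5⟩ := h
  dsimp only at h1 h2 h3 h4 h5
  have hb : ∀ p r : ℕ, H * N * M * N * L = p * r → p ≤ a.length := fun p r e => by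
    have h0 : 0 < H * N * M * N * L := by positivity
    rw [h5, e]
    exact Nat.le_mul_of_pos_right _ (Nat.pos_of_mul_pos_left (e ▸ h0))
  exact ⟨hb H (N * M * N * L) (by ring), hb N (H * M * N * L) (by ring),
    hb M (H * N * N * L) (by ring), hb L (H * N * M * N) (by ring)⟩

end Swap

open Swap

/-- input `(H, N, M, L, a)` -/
theorem sub_swapA : Sub (fun x : ℕ × ℕ × ℕ × ℕ × List Bool =>
      Ok5 x ∧ Ex x.2.2.2.2.length ^ 2 ≤ x.2.2.2.1)
    (fun x => swapA x.1 x.2.1 x.2.2.1 x.2.2.2.1 x.2.2.2.2)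
    (fun x => (x.2.2.2.2.length : ℝ) * (lg x.2.1 : ℝ) ^ θ) := by
  obtain ⟨q, hq, hrec⟩ := swap_rec
  have hq1 := hq.one_lt
  obtain ⟨K, hK⟩ := WW_pow_log_le
  let X := ℕ × ℕ × ℕ × ℕ × List Bool
  let pre : World → X → Prop := fun _ x => Ok5 x ∧ Ex x.2.2.2.2.length ^ 2 ≤ x.2.2.2.1
  let n : X → ℕ := fun x => x.2.2.2.2.length
  let σ : X → ℝ := fun x => (n x : ℝ) * (lg x.2.1 : ℝ) ^ θ
  have hlen : Le pre (fun x => (n x : ℝ)) σ := Swap.le_len n fun x => x.2.1
  have hEx : Le pre (fun x => (Ex (n x) : ℝ)) σ :=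
    le_nat 1 _ _ (fun _ _ _ => le_rfl) hlen fun _ x h => by
      rw [one_mul]
      exact (Ex_le_sq _).trans (h.2.trans (Swap.Ok5.le h.1).2.2.2)
  have h0 : L0 pre (fun x => x) σ (fun x => x) :=
    L0.input (le_nat 19 _ _ (fun _ _ _ => le_rfl) hlen fun w x h => by
      obtain ⟨H, N, M, L, a⟩ := x
      obtain ⟨h1, h2, h3, h4⟩ := Swap.Ok5.le h.1
      have h5 : 0 < H := h.1.1
      have := Prims.sz_nat_le H
      have := Prims.sz_nat_le N
      have := Prims.sz_nat_le M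
      have := Prims.sz_nat_le L
      have := sz_bits a
      show sz H + (sz N + (sz M + (sz L + sz a + 1) + 1) + 1) + 1 ≤ 19 * a.length
      omega)
  have ha := L0.lin (g := fun x : X => x.2.2.2.2) (by fun_prop) h0
  have hp := L0.lin (g := fun x : X => (x.1, x.2.1, x.2.2.1, x.2.2.2.1)) (by fun_prop) h0
  have par : ∀ g : ℕ × ℕ × ℕ × ℕ → ℕ, Poly g →
      L0 pre (fun x => x) σ fun x => g (x.1, x.2.1, x.2.2.1, x.2.2.2.1) := fun g hg =>
    l0_par hg hp n 11 1 (fun w x h => by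
      obtain ⟨H, N, M, L, a⟩ := x
      obtain ⟨h1, h2, h3, h4⟩ := Swap.Ok5.le h.1
      have := sz_nat_le_lg h1
      have := sz_nat_le_lg h2
      have := sz_nat_le_lg h3
      have := sz_nat_le_lg h4
      have := one_le_lg a.length
      simp only [sz_pair, n, pow_one] at *
      omega) hEx
  have pn : Poly fun p : ℕ × ℕ × ℕ × ℕ => pN q p.2.1 := (poly_pN hq1).comp (by fun_prop)
  have pl : Poly fun p : ℕ × ℕ × ℕ × ℕ => pL q p.2.1 p.2.2.2 :=
    (poly_pL hq1).comp (f := fun p : ℕ × ℕ × ℕ × ℕ => (p.2.1, p.2.2.2)) (by fun_prop)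
  have hH := par (fun p => p.1) (by fun_prop)
  have hN := par (fun p => p.2.1) (by fun_prop)
  have hM := par (fun p => p.2.2.1) (by fun_prop)
  have hL := par (fun p => p.2.2.2) (by fun_prop)
  have hk := par (fun p => Nat.clog q p.2.1) (Poly.clog q (by fun_prop))
  have hN' := par _ pn
  have hL' := par _ pl
  have hMNL := par (fun p => p.2.2.1 * p.2.1 * p.2.2.2) (by fun_prop)
  have hHNM := par (fun p => p.1 * pN q p.2.1 * p.2.2.1)
    (((Poly.fst Poly.id).mul pn).mul (by fun_prop))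
  have hHNMN := par (fun p => p.1 * pN q p.2.1 * p.2.2.1 * pN q p.2.1)
    ((((Poly.fst Poly.id).mul pn).mul (by fun_prop)).mul pn)
  have h1 := par (fun _ => 1) (Poly.const 1)
  dsimp only at hH hN hM hL hk hN' hL' hMNL hHNM hHNMN h1
  -- the inequalities between the parameters
  have key : ∀ w x, pre w x → 0 < x.1 ∧ 0 < x.2.1 ∧ 0 < x.2.2.1 ∧ 0 < x.2.2.2.1 ∧
      0 < pN q x.2.1 ∧ 0 < pL q x.2.1 x.2.2.2.1 ∧ pW q x.2.1 ≤ K * Ex (n x) ∧
      n x = x.1 * x.2.1 * x.2.2.1 * x.2.1 * x.2.2.2.1 ∧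
      ∀ u v l, u ≤ pN q x.2.1 → v ≤ pN q x.2.1 → l ≤ pL q x.2.1 x.2.2.2.1 →
        x.1 * u * x.2.2.1 * v * l ≤ q * q * (K + 1) * n x := by
    rintro w ⟨H, N, M, L, a⟩ ⟨h, hE⟩
    obtain ⟨-, b2, -, -⟩ := Swap.Ok5.le h
    obtain ⟨e1, e2, e3, e4, e5⟩ := h
    dsimp only [n] at e1 e2 e3 e4 e5 hE ⊢
    have hW : pW q N ≤ K * Ex a.length :=
      hK _ _ ((clog_le_size hq1 N).trans ((Nat.le_succ _).trans (lg_mono b2)))
    refine ⟨e1, e2, e3, e4, Nat.pow_pos hq.pos, e4.trans_le (le_pL _ _ _), hW, e5,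
      fun u v l hu hv hl => ?_⟩
    have f1 : u ≤ q * N := hu.trans (pow_clog_le hq1 e2)
    have f2 : v ≤ q * N := hv.trans (pow_clog_le hq1 e2)
    have f3 : l ≤ (K + 1) * L := by
      have := pL_le q N L
      have := Nat.mul_le_mul_left K ((Ex_le_sq _).trans hE)
      rw [add_mul]
      omega
    calc H * u * M * v * l ≤ H * (q * N) * M * (q * N) * ((K + 1) * L) := by gcongr
      _ = q * q * (K + 1) * a.length := by rw [e5]; ring
  have bN : ∀ N, N ≤ pN q N := fun N => Nat.le_pow_clog hq1 N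
  have s1 := l0_pad hN' hH hN hMNL ha (q * q * (K + 1)) n (fun w x h => by
    obtain ⟨e1, e2, e3, e4, e5, e6, -, e7, e8⟩ := key w x h
    refine ⟨e5, e1, e2, by positivity, e7.trans (by ring), ?_, ?_⟩
    · exact le_of_eq_of_le (by ring) (e8 _ _ _ (bN _) (bN _) (le_pL _ _ _))
    · exact le_of_eq_of_le (by ring) (e8 _ _ _ le_rfl (bN _) (le_pL _ _ _))) hlen hEx
  have s2 := l0_pad hN' hHNM hN hL s1 (q * q * (K + 1)) n (fun w x h => by
    obtain ⟨e1, e2, e3, e4, e5, e6, -, e7, e8⟩ := key w x h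
    refine ⟨e5, by positivity, e2, e4, (length_padA _ _ _ _ _).trans (by ring), ?_, ?_⟩
    · exact e8 _ _ _ le_rfl (bN _) (le_pL _ _ _)
    · exact e8 _ _ _ le_rfl le_rfl (le_pL _ _ _)) hlen hEx
  have s3 := l0_pad hL' hHNMN hL h1 s2 (q * q * (K + 1)) n (fun w x h => by
    obtain ⟨e1, e2, e3, e4, e5, e6, -, e7, e8⟩ := key w x h
    refine ⟨e6, by positivity, e4, one_pos, (length_padA _ _ _ _ _).trans (by ring), ?_, ?_⟩
    · exact le_of_eq_of_le (by ring) (e8 _ _ _ le_rfl le_rfl (le_pL _ _ _))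
    · exact le_of_eq_of_le (by ring) (e8 _ _ _ le_rfl le_rfl le_rfl)) hlen hEx
  obtain ⟨K', hK'⟩ := Ex_mul_le (q * q * (K + 1))
  have s4 := L0.sub hrec (hk.pair (hH.pair (hM.pair (hL'.pair s3)))) (fun w x h => by
    obtain ⟨e1, e2, e3, e4, e5, e6, -, e7, e8⟩ := key w x h
    exact ⟨⟨e1, e5, e3, e6, (length_padA _ _ _ _ _).trans (mul_one _)⟩, Dvd.intro _ rfl⟩) (by
    refine Le.of_le_mul ((q * q * (K + 1) + q * q * K * K' : ℕ) : ℝ) (Nat.cast_nonneg _)
      fun w x h => ?_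
    obtain ⟨e1, e2, e3, e4, e5, e6, e9, e7, e8⟩ := key w x h
    have hE := h.2
    obtain ⟨H, N, M, L, a⟩ := x
    dsimp only [n, σ] at e1 e2 e3 e4 e5 e6 e7 e8 e9 hE ⊢
    rw [length_padA, mul_one]
    have f1 := e8 _ _ _ le_rfl le_rfl le_rfl
    have f2 : Ex (H * pN q N * M * pN q N * pL q N L) ≤ K' * Ex a.length :=
      (Ex_mono f1).trans (hK' _)
    have f3 : pN q N ≤ q * N := pow_clog_le hq1 e2
    have f4 : H * pN q N * M * pN q N * (pW q N * Ex (H * pN q N * M * pN q N * pL q N L)) ≤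
        q * q * K * K' * a.length :=
      calc _ ≤ H * (q * N) * M * (q * N) * (K * Ex a.length * (K' * Ex a.length)) := by gcongr
        _ = q * q * K * K' * (H * N * M * N * Ex a.length ^ 2) := by ring
        _ ≤ q * q * K * K' * (H * N * M * N * L) := by gcongr
        _ = _ := by rw [e7]
    have f5 : max (Nat.clog q N) 1 ≤ lg N :=
      max_le ((clog_le_size hq1 N).trans (Nat.le_succ _)) (one_le_lg N)
    rw [← mul_assoc]
    refine mul_le_mul ?_ (Real.rpow_le_rpow (Nat.cast_nonneg _) (by exact_mod_cast f5) θ_nonneg)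
      (Real.rpow_nonneg (Nat.cast_nonneg _) _) (by positivity)
    have f6 := Nat.add_le_add f1 f4
    rw [← add_mul] at f6
    exact_mod_cast f6)
  have s5 := l0_pad hL hHNMN hL' h1 s4 (q * q * (K + 1)) n (fun w x h => by
    obtain ⟨e1, e2, e3, e4, e5, e6, -, e7, e8⟩ := key w x h
    refine ⟨e4, by positivity, e6, one_pos, (length_swapA _ _ _ _ _).trans (mul_one _).symm, ?_, ?_⟩
    · exact le_of_eq_of_le (by ring) (e8 _ _ _ le_rfl le_rfl le_rfl)
    · exact le_of_eq_of_le (by ring) (e8 _ _ _ le_rfl le_rfl (le_pL _ _ _))) hlen hEx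
  have s6 := l0_pad hN hHNM hN' hL s5 (q * q * (K + 1)) n (fun w x h => by
    obtain ⟨e1, e2, e3, e4, e5, e6, -, e7, e8⟩ := key w x h
    refine ⟨e2, by positivity, e5, e4, (length_padA _ _ _ _ _).trans (by ring), ?_, ?_⟩
    · exact e8 _ _ _ le_rfl le_rfl (le_pL _ _ _)
    · exact e8 _ _ _ le_rfl (bN _) (le_pL _ _ _)) hlen hEx
  have s7 := l0_pad hN hH hN' hMNL s6 (q * q * (K + 1)) n (fun w x h => by
    obtain ⟨e1, e2, e3, e4, e5, e6, -, e7, e8⟩ := key w x h
    refine ⟨e2, e1, e5, by positivity, (length_padA _ _ _ _ _).trans (by ring), ?_, ?_⟩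
    · exact le_of_eq_of_le (by ring) (e8 _ _ _ le_rfl (bN _) (le_pL _ _ _))
    · exact le_of_eq_of_le (by ring) (e8 _ _ _ (bN _) (bN _) (le_pL _ _ _))) hlen hEx
  exact L0.toSub (s7.congr fun _ x h =>
    swapA_pad h.1.2.1 h.1.2.2.1 h.1.2.2.2.1 (bN _) (le_pL _ _ _))

namespace Swap

theorem vol_split {n : ℕ} {s : List ℕ} {a : List Bool} (h : OkS n s a) {u : ℕ} (hu : u ≤ n) :
    vol s 0 u * vol s u n = a.length := by
  rw [vol_mul s (Nat.zero_le _) hu, h.2.2, ← h.1, vol_zero_length]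

theorem len_pos {n : ℕ} {s : List ℕ} {a : List Bool} (h : OkS n s a) : 0 < a.length := by
  rw [h.2.2, ← vol_zero_length]
  exact vol_pos h.2.1 _ _

theorem vol_Ex_le {n t' : ℕ} {s : List ℕ} {a : List Bool} (h : OkS n s a) (ht : t' < n)
    (hE : Ex a.length ^ 2 ≤ vol s (t' + 1) n) : vol s 0 t' * Ex a.length ≤ a.length := by
  have h1 : vol s 0 t' ≤ vol s 0 (t' + 1) := by
    rw [← vol_mul s (Nat.zero_le t') (Nat.le_succ t')]
    exact Nat.le_mul_of_pos_right _ (vol_pos h.2.1 _ _)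
  exact (Nat.mul_le_mul h1 ((Ex_le_sq _).trans hE)).trans (vol_split h ht).le

theorem Ex_le_len {n t' : ℕ} {s : List ℕ} {a : List Bool} (h : OkS n s a) (ht : t' < n)
    (hE : Ex a.length ^ 2 ≤ vol s (t' + 1) n) : Ex a.length ≤ a.length :=
  (Nat.le_mul_of_pos_left _ (vol_pos h.2.1 _ _)).trans (vol_Ex_le h ht hE)

theorem okS_gathS {n : ℕ} {s : List ℕ} {a : List Bool} (h : OkS n s a)
    (σ : (ℕ → ℕ) → ℕ → ℕ) : OkS n s (gathS s σ a) := ⟨h.1, h.2.1, length_gathS _ _⟩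

theorem len_gathS {n : ℕ} {s : List ℕ} {a : List Bool} (h : OkS n s a)
    (σ : (ℕ → ℕ) → ℕ → ℕ) : (gathS s σ a).length = a.length := by rw [length_gathS, h.2.2]

theorem sz_shape {n : ℕ} {s : List ℕ} {a : List Bool} (h : OkS n s a) :
    sz (s, a) ≤ (6 * n + 6) * a.length := by
  have h1 := h.sz_le
  have h2 := len_pos h
  have h3 : lg a.length ≤ 2 * a.length := (lg_le _).trans (by omega)
  have h4 := Nat.mul_le_mul_left (3 * n + 1) h3
  rw [sz_pair, sz_bits]
  nlinarith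

end Swap

theorem sub_swS (n t t' : ℕ) (htt : t < t') (ht : t' < n) :
    Sub (fun x : List ℕ × List Bool => OkS n x.1 x.2 ∧ ax x.1 t = ax x.1 t' ∧
        Ex x.2.length ^ 2 ≤ vol x.1 (t' + 1) n)
      (fun x => gathS x.1 (swI t t') x.2)
      (fun x => (x.2.length : ℝ) * (lg (ax x.1 t) : ℝ) ^ θ) := by
  let pre : World → List ℕ × List Bool → Prop := fun _ x => OkS n x.1 x.2 ∧ ax x.1 t = ax x.1 t' ∧
    Ex x.2.length ^ 2 ≤ vol x.1 (t' + 1) n
  let σ : List ℕ × List Bool → ℝ := fun x => (x.2.length : ℝ) * (lg (ax x.1 t) : ℝ) ^ θ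
  have hlen : Le pre (fun x => (x.2.length : ℝ)) σ := Swap.le_len _ _
  have hEx : Le pre (fun x => (Ex x.2.length : ℝ)) σ :=
    le_nat 1 _ _ (fun _ _ _ => le_rfl) hlen fun _ x h => by
      rw [one_mul]
      exact Ex_le_len h.1 ht h.2.2
  have h0 : L0 pre (fun x => x) σ (fun x => x) :=
    L0.input (le_nat (6 * n + 6) _ _ (fun _ _ _ => le_rfl) hlen fun w x h => sz_shape h.1)
  have s1 := L0.sub (sub_five n t t') h0 (fun _ _ h => h.1) (hlen.add hEx)
  have s2 := L0.sub sub_swapA s1 (fun _ x h => ⟨ok5_of_okS h.1 htt ht h.2.1, by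
    have := h.2.2
    rw [← h.1.1] at this
    exact this⟩) Le.refl
  exact L0.toSub (s2.congr fun _ x h => gathS_swI h.1.2.1 htt (h.1.1.symm ▸ ht) h.2.1 _)

namespace Swap

/-- `(x, y) ↦ (y + A x, x)` on the digits `t < t'`, `A` depending on the digits above `t` -/
def half (s : List ℕ) (t t' : ℕ) (A : List ℕ → ℕ) (ι : ℕ → ℕ) : ℕ → ℕ :=
  swI t t' (shI s t' (fun ds => A (ds.take t) * ds.getD t 0) ι)

section
variable {s : List ℕ} {t t' : ℕ} {A : List ℕ → ℕ} {ι : ℕ → ℕ}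

theorem take_hiD (htt : t < t') (ι : ℕ → ℕ) : (hiD t' ι).take t = hiD t ι := by
  rw [hiD, hiD, ← List.map_take, List.take_range, min_eq_left htt.le]

theorem getD_hiD (htt : t < t') (ι : ℕ → ℕ) : (hiD t' ι).getD t 0 = ι t := by
  simp [hiD, htt]

theorem half_fst (htt : t < t') :
    half s t t' A ι t = (ι t' + A (hiD t ι) * ι t) % ax s t' := by
  simp only [half, swI, shI, Equiv.swap_apply_left, Function.update_self, take_hiD htt,
    getD_hiD htt]

theorem half_snd (htt : t < t') : half s t t' A ι t' = ι t := by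
  simp only [half, swI, shI, Equiv.swap_apply_right, Function.update_of_ne htt.ne]

theorem half_ne {u : ℕ} (h : u ≠ t) (h' : u ≠ t') : half s t t' A ι u = ι u := by
  simp only [half, swI, shI, Equiv.swap_apply_of_ne_of_ne h h', Function.update_of_ne h']

theorem hiD_half (htt : t < t') : hiD t (half s t t' A ι) = hiD t ι :=
  List.map_congr_left fun u hu => by
    have := List.mem_range.1 hu
    exact half_ne (by omega) (by omega)

theorem valid_shI (hs : ∀ x ∈ s, 0 < x) (G : List ℕ → ℕ) (h : Valid s ι) :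
    Valid s (shI s t G ι) := fun u => by
  rcases eq_or_ne u t with rfl | hu
  · rw [shI, Function.update_self]
    exact Nat.mod_lt _ (ax_pos hs _)
  · rw [shI, Function.update_of_ne hu]
    exact h u

theorem valid_half (hs : ∀ x ∈ s, 0 < x) (htt : t < t') (he : ax s t = ax s t') (h : Valid s ι) :
    Valid s (half s t t' A ι) := fun u => by
  rcases eq_or_ne u t with rfl | hu
  · rw [half_fst htt, he]
    exact Nat.mod_lt _ (ax_pos hs _)
  · rcases eq_or_ne u t' with rfl | hu'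
    · rw [half_snd htt, ← he]
      exact h t
    · rw [half_ne hu hu']
      exact h u

theorem four_half {c : List ℕ → ℕ} (hs : ∀ x ∈ s, 0 < x) (htt : t < t') (he : ax s t = ax s t')
    (hc : c (hiD t ι) * c (hiD t ι) ≡ 1 [MOD ax s t]) :
    half s t t' (fun ds => (ax s t - 1) * c ds) (half s t t' (fun ds => c ds + (ax s t - 1))
      (half s t t' (fun _ => 1) (half s t t' (fun ds => c ds + (ax s t - 1)) ι))) =
      tauI (ax s t) t t' (c (hiD t ι)) ι := by
  have h1 : ((ax s t - 1 : ℕ) : ZMod (ax s t)) = -1 := by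
    rw [Nat.cast_sub (ax_pos hs t), ZMod.natCast_self, Nat.cast_one, zero_sub]
  have h2 : (c (hiD t ι) : ZMod (ax s t)) * c (hiD t ι) = 1 := by
    have := (ZMod.natCast_eq_natCast_iff _ _ _).2 hc
    rwa [Nat.cast_mul, Nat.cast_one] at this
  funext u
  rcases eq_or_ne u t' with rfl | hu'
  · rw [tauI, Function.update_self]
    simp only [half_snd htt, half_fst htt, hiD_half htt, ← he]
    rw [← ZMod.natCast_eq_natCast_iff']
    simp only [Nat.cast_add, Nat.cast_mul, ZMod.natCast_mod, h1, Nat.cast_one]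
    linear_combination (ι t : ZMod (ax s t)) * h2
  · rcases eq_or_ne u t with rfl | hu
    · rw [tauI, Function.update_of_ne hu', Function.update_self]
      simp only [half_snd htt, half_fst htt, hiD_half htt, ← he]
      rw [← ZMod.natCast_eq_natCast_iff']
      simp only [Nat.cast_add, Nat.cast_mul, ZMod.natCast_mod, h1, Nat.cast_one]
      linear_combination (-(c (hiD u ι) : ZMod (ax s u)) * (ι u : ZMod (ax s u))
        - (ι t' : ZMod (ax s u))) * h2
    · rw [tauI, Function.update_of_ne hu', Function.update_of_ne hu, half_ne hu hu',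
        half_ne hu hu', half_ne hu hu', half_ne hu hu']

end

theorem l0_half {ι α π : Type} [Enc α] [Enc π] {pre : World → ι → Prop} {inp : ι → α} {σ : ι → ℝ}
    {A : π × List ℕ → ℕ} (hA : Poly A) {n t t' : ℕ} (c e : ℕ) (htt : t < t') (ht : t' < n)
    {p : ι → π} {s : ι → List ℕ} {a : ι → List Bool} (m : ι → ℕ)
    (hp : L0 pre inp σ p) (hs : L0 pre inp σ s) (ha : L0 pre inp σ a)
    (h : ∀ w i, pre w i → OkS n (s i) (a i) ∧ (a i).length = m i ∧ ax (s i) t = ax (s i) t' ∧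
      Ex (m i) ^ 2 ≤ vol (s i) (t' + 1) n ∧ sz (p i) ≤ c * lg (m i) ^ e)
    (h1 : Le pre (fun i => (m i : ℝ)) σ)
    (hσ : Le pre (fun i => (m i : ℝ) * (lg (ax (s i) t) : ℝ) ^ θ) σ) :
    L0 pre inp σ fun i => gathS (s i) (half (s i) t t' fun ds => A (p i, ds)) (a i) := by
  have s1 := L0.sub (sub_swS n t t' htt ht) (hs.pair ha) (fun w i hi => by
    obtain ⟨e1, e2, e3, e4, -⟩ := h w i hi
    exact ⟨e1, e3, e2.symm ▸ e4⟩)
    (Le.trans (Le.of_le fun w i hi => by rw [(h w i hi).2.1]) hσ)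
  have hG : Poly fun y : π × List ℕ => A (y.1, y.2.take t) * y.2.getD t 0 :=
    Poly.mul (hA.comp (by fun_prop)) (by fun_prop)
  have s2 := L0.sub (sub_shS hG n t' c e ht) (hp.pair (hs.pair s1)) (fun w i hi => by
    obtain ⟨e1, e2, -, -, e5⟩ := h w i hi
    refine ⟨okS_gathS e1 _, ?_⟩
    dsimp only
    rw [len_gathS e1, e2]
    exact e5)
    (le_nat 2 (fun i => m i + vol (s i) 0 t' * Ex (m i)) _ (fun w i hi => by
      obtain ⟨e1, e2, -⟩ := h w i hi
      dsimp only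
      rw [len_gathS e1, e2]
      push_cast
      exact le_rfl) h1 fun w i hi => by
      obtain ⟨e1, e2, -, e4, -⟩ := h w i hi
      have := vol_Ex_le e1 ht (e2.symm ▸ e4)
      rw [e2] at this
      omega)
  exact s2.congr fun w i hi =>
    (gathS_gathS (h w i hi).1.2.1 _ fun _ hv => valid_shI (h w i hi).1.2.1 _ hv).symm

end Swap

/-- multiplication of the digits `t < t'` by a square root of one that depends on a small
parameter and on the digits above `t`; input `(P, s, a)` -/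
theorem sub_mulcS {π : Type} [Enc π] {g : π × List ℕ → ℕ} (hg : Poly g) (n t t' c e : ℕ)
    (htt : t < t') (ht : t' < n) :
    Sub (fun x : π × List ℕ × List Bool => OkS n x.2.1 x.2.2 ∧ ax x.2.1 t = ax x.2.1 t' ∧
        Ex x.2.2.length ^ 2 ≤ vol x.2.1 (t' + 1) n ∧ sz x.1 ≤ c * lg x.2.2.length ^ e ∧
        ∀ ι, Valid x.2.1 ι → g (x.1, hiD t ι) * g (x.1, hiD t ι) ≡ 1 [MOD ax x.2.1 t])
      (fun x => gathS x.2.1 (fun ι => tauI (ax x.2.1 t) t t' (g (x.1, hiD t ι)) ι) x.2.2)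
      (fun x => (x.2.2.length : ℝ) * (lg (ax x.2.1 t) : ℝ) ^ θ) := by
  let pre : World → π × List ℕ × List Bool → Prop := fun _ x =>
    OkS n x.2.1 x.2.2 ∧ ax x.2.1 t = ax x.2.1 t' ∧
      Ex x.2.2.length ^ 2 ≤ vol x.2.1 (t' + 1) n ∧ sz x.1 ≤ c * lg x.2.2.length ^ e ∧
      ∀ ι, Valid x.2.1 ι → g (x.1, hiD t ι) * g (x.1, hiD t ι) ≡ 1 [MOD ax x.2.1 t]
  let σ : π × List ℕ × List Bool → ℝ := fun x =>
    (x.2.2.length : ℝ) * (lg (ax x.2.1 t) : ℝ) ^ θ
  have hlen : Le pre (fun x => (x.2.2.length : ℝ)) σ := Swap.le_len _ _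
  obtain ⟨K, hK⟩ := lg_pow_le_Ex e
  have h0 : L0 pre (fun x => x) σ (fun x => x) :=
    L0.input (le_nat (c * K + (6 * n + 6) + 1) _ _ (fun _ _ _ => le_rfl) hlen fun w x h => by
      obtain ⟨P, s, a⟩ := x
      obtain ⟨e1, -, e3, e4, -⟩ := h
      dsimp only at e1 e3 e4 ⊢
      have f1 := sz_shape e1
      have f2 := len_pos e1
      have f3 : lg a.length ^ e ≤ K * a.length :=
        (Nat.pow_le_pow_left (Nat.le_succ _) e).trans
          ((hK _).trans (Nat.mul_le_mul_left K (Ex_le_len e1 ht e3)))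
      have f4 := Nat.mul_le_mul_left c f3
      rw [sz_pair, add_mul, add_mul, mul_assoc]
      omega)
  have hp := L0.lin (g := fun x : π × List ℕ × List Bool => (x.1, x.2.1)) (by fun_prop) h0
  have hs := L0.lin (g := fun x : π × List ℕ × List Bool => x.2.1) (by fun_prop) h0
  have ha := L0.lin (g := fun x : π × List ℕ × List Bool => x.2.2) (by fun_prop) h0
  have pg : Poly fun y : (π × List ℕ) × List ℕ => g (y.1.1, y.2) := hg.comp (by fun_prop)
  have pN : Poly fun y : (π × List ℕ) × List ℕ => ax y.1.2 t - 1 := by fun_prop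
  have key : ∀ w x, pre w x → ∀ b : List Bool, b.length = x.2.2.length →
      OkS n x.2.1 b ∧ b.length = x.2.2.length ∧ ax x.2.1 t = ax x.2.1 t' ∧
      Ex x.2.2.length ^ 2 ≤ vol x.2.1 (t' + 1) n ∧
      sz (x.1, x.2.1) ≤ (c + (3 * n + 1) + 1) * lg x.2.2.length ^ (e + 1) := by
    rintro w ⟨P, s, a⟩ ⟨e1, e2, e3, e4, -⟩ b hb
    dsimp only at e1 e2 e3 e4 hb ⊢
    refine ⟨⟨e1.1, e1.2.1, hb.trans e1.2.2⟩, hb, e2, e3, ?_⟩
    have f1 := e1.sz_le
    have f2 := one_le_lg a.length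
    have f3 : lg a.length ^ e ≤ lg a.length ^ (e + 1) := Nat.pow_le_pow_right f2 (Nat.le_succ e)
    have f4 : lg a.length ≤ lg a.length ^ (e + 1) := Nat.le_self_pow (Nat.succ_ne_zero e) _
    have f5 := Nat.mul_le_mul_left c f3
    have f6 := Nat.mul_le_mul_left (3 * n + 1) f4
    rw [sz_pair, add_mul, add_mul]
    omega
  have s1 := l0_half (pN.mul pg) _ _ htt ht (fun x => x.2.2.length) hp hs ha
    (fun w x h => key w x h _ rfl) hlen Le.refl
  have s2 := l0_half (pg.add pN) _ _ htt ht (fun x => x.2.2.length) hp hs s1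
    (fun w x h => key w x h _ ((length_gathS _ _).trans h.1.2.2.symm)) hlen Le.refl
  have s3 := l0_half (Poly.const 1) _ _ htt ht (fun x => x.2.2.length) hp hs s2
    (fun w x h => key w x h _ ((length_gathS _ _).trans h.1.2.2.symm)) hlen Le.refl
  have s4 := l0_half (pg.add pN) _ _ htt ht (fun x => x.2.2.length) hp hs s3
    (fun w x h => key w x h _ ((length_gathS _ _).trans h.1.2.2.symm)) hlen Le.refl
  refine L0.toSub (s4.congr fun _ x h => ?_)
  have hv : ∀ A ι, Valid x.2.1 ι → Valid x.2.1 (half x.2.1 t t' A ι) := fun A ι =>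
    valid_half h.1.2.1 htt h.2.1
  rw [gathS_gathS h.1.2.1 _ (hv _), gathS_gathS h.1.2.1 _ fun ι hι => hv _ _ (hv _ _ hι),
    gathS_gathS h.1.2.1 _ fun ι hι => hv _ _ (hv _ _ (hv _ _ hι))]
  exact gathS_congr h.1.2.1 _ fun ι hι =>
    (four_half (c := fun ds => g (x.1, ds)) h.1.2.1 htt h.2.1 (h.2.2.2.2 ι hι)).symm

end Crest.Agent.R326
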