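import Crest.Agent.R326.Par1
import Crest.Agent.R326.Swap

/-! Row 326: the parameters are admissible and the recursion closes. -/

set_option autoImplicit false

namespace Crest.Agent.R326

open Filter

namespace Par2

theorem tendsto_lg : Tendsto lg atTop atTop :=
  tendsto_atTop.2 fun c => (eventually_ge_atTop (2 ^ c)).mono fun n hn =>
    ((Nat.pow_lt_pow_iff_right one_lt_two).1 (hn.trans_lt (lt_two_pow_lg n))).le

theorem ev_sqrt (c : ℕ) : ∀ᶠ n in atTop, c ≤ (lg n).sqrt :=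
  (tendsto_lg.eventually (eventually_ge_atTop (c * c))).mono fun _ h => Nat.le_sqrt.2 h

theorem ev_polyE (c e : ℕ) : ∀ᶠ n in atTop, c * (lg n + 1) ^ e ≤ Ex n := by
  obtain ⟨K, hK⟩ := lg_pow_le_Ex (e + 1)
  refine (tendsto_lg.eventually (eventually_ge_atTop (c * K))).mono fun n hn => ?_
  have h1 := hK n
  have h0 : 0 < K := by
    rcases Nat.eq_zero_or_pos K with rfl | h
    · have : 0 < (lg n + 1) ^ (e + 1) := by positivity
      omega
    · exact h
  refine Nat.le_of_mul_le_mul_left (le_trans ?_ h1) h0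
  rw [pow_succ, ← mul_assoc, mul_comm ((lg n + 1) ^ e)]
  exact Nat.mul_le_mul_right _ (by rw [mul_comm]; omega)

theorem ev_log (C : ℝ) (k : ℕ) {δ : ℝ} (hδ : 0 < δ) :
    ∀ᶠ L : ℕ in atTop, C * (lg L : ℝ) ^ k ≤ (L : ℝ) ^ δ := by
  have h := (isLittleO_log_rpow_rpow_atTop (k : ℝ) hδ).const_mul_left (|C| * 4 ^ k)
  have h2 := tendsto_natCast_atTop_atTop.eventually (h.bound one_pos)
  filter_upwards [h2, eventually_ge_atTop 3] with L h2 h3
  have hL : (3 : ℝ) ≤ L := by exact_mod_cast h3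
  have hlog : 1 ≤ Real.log L := by
    rw [Real.le_log_iff_exp_le (by linarith)]
    linarith [Real.exp_one_lt_d9]
  have h4 : (lg L : ℝ) ≤ 4 * Real.log L := by
    have h5 : (2 : ℝ) ^ lg L ≤ 2 ^ 2 * L := by
      have := two_pow_lg_le (n := L) (by omega)
      exact_mod_cast this
    have h6 := Real.log_le_log (by positivity) h5
    rw [Real.log_mul (by norm_num) (by linarith), Real.log_pow, Real.log_pow] at h6
    have h7 := Real.log_two_gt_d9
    have h8 := Real.log_two_lt_d9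
    have h9 : (0 : ℝ) ≤ lg L := Nat.cast_nonneg _
    push_cast at h6
    nlinarith
  rw [one_mul, Real.rpow_natCast, Real.norm_of_nonneg (by positivity),
    Real.norm_of_nonneg (by positivity)] at h2
  calc C * (lg L : ℝ) ^ k ≤ |C| * (4 * Real.log L) ^ k :=
        mul_le_mul (le_abs_self C) (pow_le_pow_left₀ (Nat.cast_nonneg _) h4 k) (by positivity)
          (abs_nonneg _)
    _ = |C| * 4 ^ k * Real.log L ^ k := by rw [mul_pow, mul_assoc]
    _ ≤ _ := h2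

/-- consequences of `par_sizes` -/
theorem sizes : ∀ᶠ n in atTop, parN n ≤ 4000000 * lg (lg n) ^ 2 ∧
    45 * parN n + 1 ≤ 200000000 * lg (lg n) ^ 2 ∧ 288 * (45 * parN n + 1) ≤ Ex n ∧
    (par n).len ≤ 96 * (45 * parN n + 1) * n ∧ 2 * Ex n ^ 3 ≤ (par n).2.2.2 ∧
    8 * (par n).2.2.2 ≤ Ex n ^ 6 ∧ 2 * Ex n ^ 8 ≤ n := by
  filter_upwards [par_sizes, ev_polyE (288 * 200000000) 2, ev_sqrt 30000] with n h hE hs
  obtain ⟨-, -, -, -, -, hlam, hB0, hB1, hb, hN, -⟩ := h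
  have h1 : parN n ≤ 4000000 * lg (lg n) ^ 2 := by
    have := Nat.pow_le_pow_left hlam 2
    unfold parN
    nlinarith
  have h2 : 45 * parN n + 1 ≤ 200000000 * lg (lg n) ^ 2 := by
    have := Nat.one_le_pow 2 _ (one_le_lg (lg n))
    omega
  have h3 : 288 * (45 * parN n + 1) ≤ Ex n := by
    have := Nat.pow_le_pow_left (lg_le (lg n)) 2
    omega
  have hb2 : 2 * parB0 n ≤ parb n := Nat.le_add_right _ _
  refine ⟨h1, h2, h3, ?_, ?_, ?_, ?_⟩
  · show (parPs n).prod ^ 3 * (2 * ((45 * parN n + 1) * parb n)) ≤ _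
    calc (parPs n).prod ^ 3 * (2 * ((45 * parN n + 1) * parb n))
        ≤ (parPs n).prod ^ 3 * (2 * ((45 * parN n + 1) * (3 * parB0 n))) := by gcongr
      _ = 6 * (45 * parN n + 1) * ((parPs n).prod ^ 3 * parB0 n) := by ring
      _ ≤ 6 * (45 * parN n + 1) * (16 * n) := by gcongr
      _ = _ := by ring
  · show _ ≤ (45 * parN n + 1) * parb n
    have : parb n ≤ (45 * parN n + 1) * parb n := Nat.le_mul_of_pos_left _ (Nat.succ_pos _)
    omega
  · show 8 * ((45 * parN n + 1) * parb n) ≤ _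
    calc 8 * ((45 * parN n + 1) * parb n) ≤ 8 * ((45 * parN n + 1) * (3 * Ex n ^ 4)) := by
          gcongr
          omega
      _ = 24 * (45 * parN n + 1) * Ex n ^ 4 := by ring
      _ ≤ Ex n * Ex n ^ 4 := by
          gcongr
          omega
      _ = Ex n ^ 5 := by ring
      _ ≤ Ex n ^ 6 := Nat.pow_le_pow_right (by have := two_le_Ex n; omega) (by norm_num)
  · have hn : 0 < n := by
      rcases Nat.eq_zero_or_pos n with rfl | h
      · revert hs
        decide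
      · exact h
    have h4 := two_pow_lg_le hn
    have h5 : 2 ^ ((lg n).sqrt * 8 + 3) ≤ 2 ^ lg n :=
      Nat.pow_le_pow_right two_pos (by nlinarith [Nat.sqrt_le (lg n)])
    rw [pow_add, pow_mul] at h5
    unfold Ex
    omega

theorem lg_two_pow (k : ℕ) : lg (2 ^ k) = k + 2 := by rw [lg, Nat.size_pow]

end Par2

open Par2

theorem okTop_par : ∀ᶠ n in atTop, OkTop n (par n) (parB0 n) ∧ (par n).2.2.2 < n := by
  obtain ⟨K, hK⟩ := WW_pow_log_le
  filter_upwards [par_sizes, sizes, ev_polyE K 0, ev_polyE 9 3, ev_sqrt 30000] with n h h' hE hE' hs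
  obtain ⟨hG, hNE, -, hlen, hp, hlam, hB0, hB1, hb, -, hN4⟩ := h
  obtain ⟨h1, -, h3, h4, h5, h6, h7⟩ := h'
  have hE2 := two_le_Ex n
  have hL1 : lg n + 1 ≤ (lg n + 1) ^ 3 := Nat.le_self_pow (by norm_num) _
  have hL3 : lg n ^ 3 ≤ (lg n + 1) ^ 3 := Nat.pow_le_pow_left (Nat.le_succ _) 3
  have hp3 : Ex n ≤ Ex n ^ 3 := Nat.le_self_pow (by norm_num) _
  have hp8 : Ex n ^ 6 ≤ Ex n ^ 8 := Nat.pow_le_pow_right (by omega) (by norm_num)
  have hp6 : Ex n ^ 3 ≤ Ex n ^ 6 := Nat.pow_le_pow_right (by omega) (by norm_num)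
  have hEN : Ex n ^ 2 ≤ (parPs n).prod := by
    refine (Nat.pow_le_pow_iff_left (n := 4) (by norm_num)).1 ?_
    rw [← pow_mul]
    show Ex n ^ 8 ≤ _
    omega
  have hEN' : Ex n ≤ (parPs n).prod := (Nat.le_self_pow two_ne_zero _).trans hEN
  have hsq := Nat.sqrt_le (lg n)
  have hsq' := Nat.lt_succ_sqrt (lg n)
  have hLbig : 900000000 ≤ lg n := by nlinarith
  have hsum : (parPs n).sum ≤ lg n ^ 3 :=
    calc (parPs n).sum ≤ (parPs n).length • lg n ^ 2 :=
          List.sum_le_card_nsmul _ _ fun p h => (hp p h).le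
      _ ≤ lg n * lg n ^ 2 := Nat.mul_le_mul_right _ hlen
      _ = lg n ^ 3 := by ring
  have hfit : n ≤ (((parPs n).prod + 1) / 2) ^ 3 * parB0 n :=
    (Nat.lt_mul_div_succ n (pow_pos (by omega) 3)).le
  have hbB : parb n ≤ (par n).2.2.2 :=
    Nat.le_mul_of_pos_left (parb n) (Nat.succ_pos (45 * parN n))
  have hb2 : 2 * parB0 n ≤ parb n := Nat.le_add_right _ _
  refine ⟨⟨⟨hG, by omega, ?_, ?_, ?_, ?_, ?_, ?_⟩, fun p hp' => ?_, le_rfl, rfl, hfit, ?_, ?_⟩, by omega⟩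
  · show 1 ≤ 10 ^ 6 * lam (parPs n) ^ 2
    have := Nat.one_le_pow 2 _ (CT.one_le_lam (parPs n))
    omega
  · refine (hK _ n hlen).trans (le_trans ?_ hEN)
    rw [sq]
    exact Nat.mul_le_mul_right _ (by simpa using hE)
  · have e1 : lg (3 * (par n).len) ≤ (lg n).sqrt + 2 + lg n := by
      have a1 : 3 * (par n).len ≤ Ex n * n := by
        have := Nat.mul_le_mul_right n h3
        nlinarith
      have a2 := (lg_mono a1).trans (lg_mul_le _ _)
      rwa [Ex, lg_two_pow] at a2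
    have e2 : Ex (3 * (par n).len) ≤ 2 * Ex n := by
      rw [Ex, Ex, ← pow_succ']
      refine Nat.pow_le_pow_right two_pos (Nat.lt_succ_iff.1 (Nat.sqrt_lt.2 ?_))
      simp only [Nat.succ_eq_add_one] at hsq' ⊢
      nlinarith
    calc Ex (3 * (par n).len) ^ 2 ≤ (2 * Ex n) ^ 2 := Nat.pow_le_pow_left e2 2
      _ = 2 * (2 * Ex n ^ 2) := by ring
      _ ≤ 2 * (Ex n * Ex n ^ 2) := by gcongr
      _ = 2 * Ex n ^ 3 := by ring
      _ ≤ _ := h5
  · show (parPs n).length ≤ _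
    omega
  · show (parPs n).sum + parN n ≤ _
    have a1 : n ≤ (par n).len := by
      refine hfit.trans (Nat.mul_le_mul (Nat.pow_le_pow_left ?_ 3) (by omega))
      show _ ≤ (parPs n).prod
      omega
    have a2 := Nat.pow_le_pow_left (lg_mono a1) 4
    have a3 := Nat.pow_le_pow_left ((lg_le (lg n)).trans (show lg n + 1 ≤ 2 * lg n by omega)) 2
    have a4 : 16000000 * lg n ^ 2 ≤ lg n ^ 3 := by
      rw [pow_succ' (lg n) 2]
      exact Nat.mul_le_mul_right _ (by omega)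
    have a5 : 2 * lg n ^ 3 ≤ lg n ^ 4 := by
      rw [pow_succ' (lg n) 3]
      exact Nat.mul_le_mul_right _ (by omega)
    rw [mul_pow] at a3
    omega
  · show lg ((parPs n).sum + parN n + parb n + (par n).2.2.2) ^ 3 ≤ lg (parPs n).prod ^ 2
    have a1 : (parPs n).sum + parN n + parb n + (par n).2.2.2 ≤ 2 ^ ((lg n).sqrt * 6) := by
      rw [pow_mul]
      show _ ≤ Ex n ^ 6
      omega
    have a2 := lg_mono a1
    rw [lg_two_pow] at a2
    have a3 := (lg_mono hN4).trans (lg_pow_le _ _)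
    have a4 : (lg n).sqrt * (lg n).sqrt ≤ 5 * lg (parPs n).prod := by omega
    have a5 := Nat.pow_le_pow_left (a2.trans (show _ ≤ 7 * (lg n).sqrt by omega)) 3
    have a6 := Nat.pow_le_pow_left a4 2
    have a7 : 25 * (7 * (lg n).sqrt) ^ 3 ≤ ((lg n).sqrt * (lg n).sqrt) ^ 2 :=
      calc 25 * (7 * (lg n).sqrt) ^ 3 = 8575 * (lg n).sqrt ^ 3 := by ring
        _ ≤ (lg n).sqrt * (lg n).sqrt ^ 3 := Nat.mul_le_mul_right _ (by omega)
        _ = _ := by ring
    rw [mul_pow 5] at a6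
    omega
  · refine (length_digProg (by have := (hG.2 p hp').1; omega)).trans ?_
    exact Nat.mul_le_mul_left _ (Nat.pow_le_pow_left (lg_mono (CT.le_foldr_max hp')) 2)
  · show 3 * lg (parPs n).prod ≤ _
    have a1 : (parPs n).prod ≤ n := by
      refine le_trans ?_ hNE
      exact (Nat.le_self_pow (by norm_num) _).trans (Nat.le_mul_of_pos_right _ (by omega))
    have := lg_mono a1
    omega
  · show 9 ≤ (parPs n).prod
    omega

theorem le_tau0 (n : ℕ) : ((2 * n : ℕ) : ℝ) ≤ tau0 (2 * n) := by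
  rcases Nat.eq_zero_or_pos n with rfl | hn
  · simp [tau0]
  · refine le_mul_of_one_le_right (Nat.cast_nonneg _) (Real.one_le_rpow ?_ (by norm_num))
    rw [Real.le_logb_iff_rpow_le one_lt_two (by positivity), Real.rpow_one]
    exact_mod_cast (by omega : 2 ≤ 2 * n)

theorem one_le_tau (n : ℕ) : 1 ≤ tau n := by
  have := le_tau0 n
  have : (0 : ℝ) ≤ ((2 * n : ℕ) : ℝ) := Nat.cast_nonneg _
  unfold tau
  linarith

theorem Par2.tau_ge {n : ℕ} (hn : 0 < n) :
    (n : ℝ) * (lg n : ℝ) ^ (1 - 1 / (2 : ℝ) ^ 182) ≤ tau n := by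
  have hτ0 : (0 : ℝ) ≤ 1 - 1 / (2 : ℝ) ^ 182 := by norm_num
  have hτ1 : 1 - 1 / (2 : ℝ) ^ 182 ≤ 1 := by norm_num
  generalize hτ : 1 - 1 / (2 : ℝ) ^ 182 = τ at hτ0 hτ1
  have h0 : (1 : ℝ) ≤ Real.logb 2 ((2 * n : ℕ) : ℝ) := by
    rw [Real.le_logb_iff_rpow_le one_lt_two (by positivity), Real.rpow_one]
    exact_mod_cast (by omega : 2 ≤ 2 * n)
  have h1 : (lg n : ℝ) - 1 ≤ Real.logb 2 ((2 * n : ℕ) : ℝ) := by
    rw [Real.le_logb_iff_rpow_le one_lt_two (by positivity), Real.rpow_sub two_pos, Real.rpow_one,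
      Real.rpow_natCast, div_le_iff₀ two_pos]
    have := two_pow_lg_le hn
    exact_mod_cast (by omega : 2 ^ lg n ≤ 2 * n * 2)
  have h2 : (lg n : ℝ) ^ τ ≤ 2 * Real.logb 2 ((2 * n : ℕ) : ℝ) ^ τ :=
    calc (lg n : ℝ) ^ τ ≤ (2 * Real.logb 2 ((2 * n : ℕ) : ℝ)) ^ τ :=
          Real.rpow_le_rpow (Nat.cast_nonneg _) (by linarith) hτ0
      _ = 2 ^ τ * Real.logb 2 ((2 * n : ℕ) : ℝ) ^ τ := Real.mul_rpow zero_le_two (by linarith)
      _ ≤ _ := by
          gcongr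
          simpa using Real.rpow_le_rpow_of_exponent_le one_le_two hτ1
  unfold tau tau0
  rw [hτ]
  have := mul_le_mul_of_nonneg_left h2 (Nat.cast_nonneg (α := ℝ) n)
  push_cast at this ⊢
  linarith

theorem Par2.tau_le {B k : ℕ} (hB : 0 < B) (hk : 2 * B ≤ 2 ^ k) : tau B ≤ 2 * B * (k + 1) := by
  have h0 : (1 : ℝ) ≤ Real.logb 2 ((2 * B : ℕ) : ℝ) := by
    rw [Real.le_logb_iff_rpow_le one_lt_two (by positivity), Real.rpow_one]
    exact_mod_cast (by omega : 2 ≤ 2 * B)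
  have h1 : Real.logb 2 ((2 * B : ℕ) : ℝ) ≤ k := by
    rw [Real.logb_le_iff_le_rpow one_lt_two (by positivity), Real.rpow_natCast]
    exact_mod_cast hk
  have h2 : Real.logb 2 ((2 * B : ℕ) : ℝ) ^ (1 - 1 / (2 : ℝ) ^ 182) ≤ k :=
    (Real.rpow_le_self_of_one_le h0 (by norm_num)).trans h1
  have h3 := mul_le_mul_of_nonneg_left h2 (Nat.cast_nonneg (α := ℝ) (2 * B))
  have h4 : (1 : ℝ) ≤ B := by exact_mod_cast hB
  unfold tau tau0
  push_cast at h3 ⊢
  linarith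

theorem cost_par : ∀ᶠ n in atTop, (par n).cost ≤ tau n ∧
    600 * ((par n).2.1 : ℝ) * ((par n).1.prod : ℝ) ^ 3 * tau (par n).2.2.2 ≤ tau n / 2 := by
  have hδ1 : 0 < (1 - 1 / (2 : ℝ) ^ 182) - θ := by unfold θ; norm_num
  have hδ2 : 0 < (1 - 1 / (2 : ℝ) ^ 182) - 1 / 2 := by norm_num
  have hge := @Par2.tau_ge
  generalize 1 - 1 / (2 : ℝ) ^ 182 = τ at hδ1 hδ2 hge
  filter_upwards [par_sizes, sizes, ev_sqrt 1, eventually_gt_atTop 0,
    tendsto_lg.eventually (ev_log (4000000 * (96 * 200000000) * 2) 5 hδ1),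
    tendsto_lg.eventually (ev_log (2 * (600 * 4000000 * (96 * 200000000) * 7)) 4 hδ2)]
    with n h h' hs hn hc1 hc2
  obtain ⟨-, -, -, hlen, -, hlam, -⟩ := h
  obtain ⟨h1, h2, -, h4, h5, h6, -⟩ := h'
  have hL : (0 : ℝ) < lg n := by exact_mod_cast one_le_lg n
  have r1 : ((par n).2.1 : ℝ) ≤ 4000000 * (lg (lg n) : ℝ) ^ 2 := by exact_mod_cast h1
  have r2 : ((par n).len : ℝ) ≤ 96 * 200000000 * (lg (lg n) : ℝ) ^ 2 * n := by
    have : (par n).len ≤ 96 * 200000000 * lg (lg n) ^ 2 * n :=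
      h4.trans (Nat.mul_le_mul_right _ (by omega))
    exact_mod_cast this
  refine ⟨le_trans ?_ (hge hn), le_trans ?_ (div_le_div_of_nonneg_right (hge hn) zero_le_two)⟩
  · have r3 : (lam (par n).1 : ℝ) ≤ 2 * lg (lg n) := by exact_mod_cast hlam
    have r4 : ((max (par n).1.length 1 : ℕ) : ℝ) ^ θ ≤ (lg n : ℝ) ^ θ :=
      Real.rpow_le_rpow (Nat.cast_nonneg _) (by exact_mod_cast max_le hlen (one_le_lg n)) θ_pos.le
    calc (par n).cost ≤ (4000000 * (lg (lg n) : ℝ) ^ 2) *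
          (96 * 200000000 * (lg (lg n) : ℝ) ^ 2 * n) * (2 * lg (lg n)) * (lg n : ℝ) ^ θ := by
          unfold Par.cost
          exact mul_le_mul (mul_le_mul (mul_le_mul r1 r2 (Nat.cast_nonneg _) (by positivity)) r3
            (Nat.cast_nonneg _) (by positivity)) r4 (Real.rpow_nonneg (Nat.cast_nonneg _) _)
            (by positivity)
      _ = n * ((4000000 * (96 * 200000000) * 2 * (lg (lg n) : ℝ) ^ 5) * (lg n : ℝ) ^ θ) := by ring
      _ ≤ n * ((lg n : ℝ) ^ (τ - θ) * (lg n : ℝ) ^ θ) := by gcongr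
      _ = _ := by rw [← Real.rpow_add hL, sub_add_cancel]
  · have hE := pow_pos (lt_of_lt_of_le two_pos (two_le_Ex n)) 3
    have r3 := Par2.tau_le (B := (par n).2.2.2) (k := (lg n).sqrt * 6) (by omega) (by
      rw [pow_mul]
      show _ ≤ Ex n ^ 6
      omega)
    have r4 : (((lg n).sqrt * 6 : ℕ) : ℝ) + 1 ≤ 7 * (lg n : ℝ) ^ (1 / 2 : ℝ) := by
      have a1 : ((lg n).sqrt : ℝ) ≤ (lg n : ℝ) ^ (1 / 2 : ℝ) := by
        rw [← Real.sqrt_eq_rpow]
        exact Real.nat_sqrt_le_real_sqrt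
      have a2 : (1 : ℝ) ≤ (lg n).sqrt := by exact_mod_cast hs
      push_cast
      linarith
    have r5 : ((par n).len : ℝ) = ((par n).1.prod : ℝ) ^ 3 * (2 * (par n).2.2.2) := by
      unfold Par.len
      push_cast
      rfl
    generalize par n = Q at r1 r2 r3 r5 ⊢
    calc 600 * (Q.2.1 : ℝ) * (Q.1.prod : ℝ) ^ 3 * tau Q.2.2.2
        ≤ 600 * (Q.2.1 : ℝ) * (Q.1.prod : ℝ) ^ 3 *
          (2 * Q.2.2.2 * (7 * (lg n : ℝ) ^ (1 / 2 : ℝ))) := by
          refine mul_le_mul_of_nonneg_left (r3.trans ?_) (by positivity)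
          exact mul_le_mul_of_nonneg_left r4 (by positivity)
      _ = 600 * (Q.2.1 : ℝ) * Q.len * (7 * (lg n : ℝ) ^ (1 / 2 : ℝ)) := by
          rw [r5]; ring
      _ ≤ 600 * (4000000 * (lg (lg n) : ℝ) ^ 2) * (96 * 200000000 * (lg (lg n) : ℝ) ^ 2 * n) *
          (7 * (lg n : ℝ) ^ (1 / 2 : ℝ)) :=
          mul_le_mul_of_nonneg_right (mul_le_mul (mul_le_mul_of_nonneg_left r1 (by norm_num)) r2
            (Nat.cast_nonneg _) (by positivity)) (by positivity)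
      _ = n * ((2 * (600 * 4000000 * (96 * 200000000) * 7) * (lg (lg n) : ℝ) ^ 4) *
          (lg n : ℝ) ^ (1 / 2 : ℝ)) / 2 := by ring
      _ ≤ n * ((lg n : ℝ) ^ (τ - 1 / 2) * (lg n : ℝ) ^ (1 / 2 : ℝ)) / 2 := by gcongr
      _ = _ := by rw [← Real.rpow_add hL, sub_add_cancel]

end Crest.Agent.R326
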