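import Crest.Agent.R326.Prims

/-! Row 326: polynomial-time functions (for parameters, indices and small tables). -/

set_option autoImplicit false

namespace Crest.Agent.R326

variable {α β γ δ : Type} [Enc α] [Enc β] [Enc γ] [Enc δ]

attribute [fun_prop] Poly

namespace P0

/-- polynomially bounded quantities -/
def PB (τ : α → ℕ) : Prop := ∃ K e : ℕ, ∀ a, τ a ≤ K * (sz a + 1) ^ e

theorem PB.mono {τ τ' : α → ℕ} (h : PB τ') (e : ∀ a, τ a ≤ τ' a) : PB τ := by
  obtain ⟨K, c, h⟩ := h
  exact ⟨K, c, fun a => (e a).trans (h a)⟩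

theorem PB.const (b : ℕ) : PB (fun _ : α => b) := ⟨b, 0, fun a => by simp⟩

theorem PB.sz : PB (fun a : α => sz a) := ⟨1, 1, fun a => by simp⟩

theorem PB.add {τ τ' : α → ℕ} (h : PB τ) (h' : PB τ') : PB (fun a => τ a + τ' a) := by
  obtain ⟨K, c, h⟩ := h
  obtain ⟨K', c', h'⟩ := h'
  refine ⟨K + K', c + c', fun a => ?_⟩
  have h1 : (R326.sz a + 1) ^ c ≤ (R326.sz a + 1) ^ (c + c') :=
    Nat.pow_le_pow_right (by omega) (by omega)
  have h2 : (R326.sz a + 1) ^ c' ≤ (R326.sz a + 1) ^ (c + c') :=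
    Nat.pow_le_pow_right (by omega) (by omega)
  have := h a
  have := h' a
  have := Nat.mul_le_mul_left K h1
  have := Nat.mul_le_mul_left K' h2
  rw [add_mul]
  show τ a + τ' a ≤ _
  omega

theorem PB.mul {τ τ' : α → ℕ} (h : PB τ) (h' : PB τ') : PB (fun a => τ a * τ' a) := by
  obtain ⟨K, c, h⟩ := h
  obtain ⟨K', c', h'⟩ := h'
  refine ⟨K * K', c + c', fun a => ?_⟩
  calc τ a * τ' a ≤ (K * (R326.sz a + 1) ^ c) * (K' * (R326.sz a + 1) ^ c') :=
        Nat.mul_le_mul (h a) (h' a)
    _ = _ := by ring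

theorem PB.pow {τ : α → ℕ} (h : PB τ) (n : ℕ) : PB (fun a => τ a ^ n) := by
  induction n with
  | zero => simpa using PB.const 1
  | succ n ih => simpa [pow_succ] using ih.mul h

/-- the trivial precondition -/
abbrev TT (α : Type) : World → α → Prop := fun _ _ => True

/-- the time `(sz a + 1) ^ c` -/
abbrev pw (α : Type) [Enc α] (c : ℕ) : α → ℝ := fun a => ((R326.sz a : ℝ) + 1) ^ c

theorem le_pw {τ : α → ℝ} (K : ℝ) (e : ℕ) (hτ : ∀ a, τ a ≤ K * ((R326.sz a : ℝ) + 1) ^ e) :
    ∀ᶠ c in Filter.atTop, Le (TT α) τ (pw α c) := by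
  filter_upwards [Filter.eventually_ge_atTop e] with c hc
  refine Le.of_le_mul (max K 0) (le_max_right _ _) fun _ a _ => (hτ a).trans ?_
  have h1 : (1 : ℝ) ≤ (R326.sz a : ℝ) + 1 := by
    have : (0 : ℝ) ≤ R326.sz a := Nat.cast_nonneg _
    linarith
  exact mul_le_mul (le_max_left _ _) (pow_le_pow_right₀ h1 hc) (by positivity) (le_max_right _ _)

theorem PB.le {B : α → ℕ} (h : PB B) {τ : α → ℝ} (hτ : ∀ a, τ a ≤ B a) :
    ∀ᶠ c in Filter.atTop, Le (TT α) τ (pw α c) := by
  obtain ⟨K, e, h⟩ := h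
  refine le_pw K e fun a => (hτ a).trans ?_
  exact_mod_cast h a

theorem ev_input : ∀ᶠ c in Filter.atTop, Le (TT α) (fun a => (R326.sz a : ℝ)) (pw α c) :=
  PB.sz.le fun _ => le_rfl

theorem ev_of_poly {g : α → β} (h : Poly g) :
    ∀ᶠ c in Filter.atTop, L0 (TT α) (fun a => a) (pw α c) g := by
  obtain ⟨e, h⟩ := h
  filter_upwards [le_pw (α := α) (τ := pw α e) 1 e (fun a => by simp), ev_input (α := α)]
    with c hc hc'
  exact ⟨hc', Cf.mono h (fun _ _ _ => trivial) hc (fun _ _ _ => le_rfl)⟩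

theorem poly_of_ev {g : α → β}
    (h : ∀ᶠ c in Filter.atTop, L0 (TT α) (fun a => a) (pw α c) g) : Poly g := by
  obtain ⟨c, hc⟩ := h.exists
  exact ⟨c, hc.2⟩

theorem pb_of_poly {g : α → β} (h : Poly g) : PB (fun a => R326.sz (g a)) := by
  obtain ⟨c, hc⟩ := (ev_of_poly h).exists
  obtain ⟨K, hK, H⟩ := hc.sz_le
  refine ⟨⌈K⌉₊, c, fun a => ?_⟩
  have h1 := H ⟨.skip, 0, le_rfl⟩ a trivial
  have h2 : K * pw α c a ≤ (⌈K⌉₊ : ℝ) * ((R326.sz a : ℝ) + 1) ^ c :=
    mul_le_mul_of_nonneg_right (Nat.le_ceil K) (by positivity)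
  have h3 : (R326.sz (g a) : ℝ) ≤ (⌈K⌉₊ : ℝ) * ((R326.sz a : ℝ) + 1) ^ c := h1.trans h2
  show R326.sz (g a) ≤ ⌈K⌉₊ * (R326.sz a + 1) ^ c
  exact_mod_cast h3

theorem pb_length {l : α → List β} (h : Poly l) : PB (fun a => (l a).length) :=
  (pb_of_poly h).mono fun _ => length_le_sz _

/-- calling a subroutine whose time is polynomially bounded on the computed arguments -/
theorem apply_sub {f : α → β} {P : β → Prop} {g : β → γ} {τ : β → ℝ} (hg : Sub P g τ)
    (hf : Poly f) (hP : ∀ a, P (f a)) {B : α → ℕ} (hB : PB B) (hτ : ∀ a, τ (f a) ≤ B a) :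
    Poly (fun a => g (f a)) := by
  refine poly_of_ev ?_
  filter_upwards [ev_of_poly hf, hB.le hτ] with c h1 h2
  exact L0.sub hg h1 (fun _ a _ => hP a) h2

theorem apply_lin {f : α → β} {g : β → γ} (hg : Lin g) (hf : Poly f) :
    Poly (fun a => g (f a)) :=
  apply_sub hg hf (fun _ => trivial) (pb_of_poly hf) (fun _ => le_rfl)

end P0

open P0

theorem Lin.poly {g : α → β} (h : Lin g) : Poly g := by
  refine poly_of_ev ?_
  filter_upwards [ev_input (α := α)] with c hc
  exact L0.lin h (L0.input hc)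
theorem Poly.sz_le {g : α → β} (h : Poly g) : ∃ K e : ℕ, ∀ a, sz (g a) ≤ K * (sz a + 1) ^ e :=
  pb_of_poly h
theorem Poly.congr {g g' : α → β} (h : Poly g) (e : ∀ a, g' a = g a) : Poly g' := by
  obtain rfl : g' = g := funext e
  exact h
theorem Poly.of_sub {g : α → β} {τ : α → ℝ} (h : Sub (fun _ => True) g τ) (K : ℝ) (e : ℕ)
    (hτ : ∀ a, τ a ≤ K * ((sz a : ℝ) + 1) ^ e) : Poly g := by
  obtain ⟨c, hc⟩ := (le_pw K e hτ).exists
  exact ⟨c, Cf.mono h (fun _ _ _ => trivial) hc (fun _ _ _ => le_rfl)⟩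

@[fun_prop] theorem Poly.id : Poly (fun a : α => a) := Lin.id.poly
@[fun_prop] theorem Poly.const (b : β) : Poly (fun _ : α => b) := (Lin.const b).poly
@[fun_prop] theorem Poly.comp {g : β → γ} {f : α → β} (hg : Poly g) (hf : Poly f) :
    Poly (fun a => g (f a)) := by
  obtain ⟨c, hg⟩ := hg
  refine apply_sub hg hf (fun _ => trivial) (((pb_of_poly hf).add (PB.const 1)).pow c) fun a => ?_
  push_cast
  exact le_rfl
@[fun_prop] theorem Poly.pair {f : α → β} {g : α → γ} (hf : Poly f) (hg : Poly g) :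
    Poly (fun a => (f a, g a)) := by
  refine poly_of_ev ?_
  filter_upwards [ev_of_poly hf, ev_of_poly hg] with c h1 h2
  exact h1.pair h2
@[fun_prop] theorem Poly.fst {f : α → β × γ} (hf : Poly f) : Poly (fun a => (f a).1) :=
  apply_lin (g := fun p : β × γ => p.1) (Lin.fst Lin.id) hf
@[fun_prop] theorem Poly.snd {f : α → β × γ} (hf : Poly f) : Poly (fun a => (f a).2) :=
  apply_lin (g := fun p : β × γ => p.2) (Lin.snd Lin.id) hf
@[fun_prop] theorem Poly.cond {b : α → Bool} {f g : α → β} (hb : Poly b) (hf : Poly f)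
    (hg : Poly g) : Poly (fun a => cond (b a) (f a) (g a)) :=
  apply_lin (g := fun p : Bool × β × β => _root_.cond p.1 p.2.1 p.2.2)
    (Lin.cond (Lin.fst Lin.id) (Lin.fst (Lin.snd Lin.id)) (Lin.snd (Lin.snd Lin.id)))
    (hb.pair (hf.pair hg))
theorem Poly.ite {q : α → Prop} [DecidablePred q] {f g : α → β}
    (hq : Poly fun a => decide (q a)) (hf : Poly f) (hg : Poly g) :
    Poly (fun a => if q a then f a else g a) :=
  (Poly.cond hq hf hg).congr fun a => by by_cases h : q a <;> simp [h]

/-! lists -/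

namespace P0

theorem map' {g : α → β} (hg : Poly g) : Poly (fun l : List α => l.map g) := by
  obtain ⟨e, hg⟩ := hg
  refine poly_of_ev ?_
  have hB : PB fun l : List α => sz l * (sz l + 1) ^ e :=
    PB.sz.mul ((PB.sz.add (PB.const 1)).pow e)
  have hτ : ∀ l : List α, (l.map fun a => ((sz a : ℝ) + 1) ^ e).sum ≤
      ((sz l * (sz l + 1) ^ e : ℕ) : ℝ) := by
    intro l
    have h1 : (l.map fun a => ((sz a : ℝ) + 1) ^ e).sum ≤
        (l.map fun a => ((sz a : ℝ) + 1) ^ e).length • (((sz l : ℝ) + 1) ^ e) := by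
      refine List.sum_le_card_nsmul _ _ fun x hx => ?_
      obtain ⟨a, ha, rfl⟩ := List.mem_map.1 hx
      have : (sz a : ℝ) ≤ sz l := by exact_mod_cast sz_mem ha
      gcongr
    refine h1.trans ?_
    rw [List.length_map, nsmul_eq_mul]
    push_cast
    have : (l.length : ℝ) ≤ sz l := by exact_mod_cast length_le_sz l
    gcongr
  filter_upwards [ev_input (α := List α), hB.le hτ] with c h1 h2
  exact L0.map_sub (L0.input h1) hg (fun _ _ _ _ _ => trivial) h2

theorem distl {x : α → δ} {l : α → List β} (hx : Poly x) (hl : Poly l) :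
    Poly (fun a => (l a).map fun b => (x a, b)) := by
  refine apply_sub (sub_distl (δ := δ) (α := β)) (hx.pair hl) (fun _ => trivial)
    ((pb_of_poly hl).add (((pb_length hl).add (PB.const 1)).mul (pb_of_poly hx))) fun a => ?_
  push_cast
  exact le_rfl

omit [Enc α] [Enc β] [Enc δ] in
theorem foldl_pair (f : α → δ → β → δ) (a : α) (l : List β) (t : δ) :
    l.foldl (fun (u : α × δ) x => (u.1, f u.1 u.2 x)) (a, t) = (a, l.foldl (f a) t) := by
  induction l generalizing t with
  | nil => rfl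
  | cons x l ih => simp only [List.foldl_cons, ih]

@[fun_prop] theorem isEmpty {l : α → List β} (hl : Poly l) : Poly (fun a => (l a).isEmpty) :=
  apply_lin (g := fun l : List β => l.isEmpty) (Lin.isEmpty Lin.id) hl

@[fun_prop] theorem tail {l : α → List β} (hl : Poly l) : Poly (fun a => (l a).tail) :=
  apply_lin (g := fun l : List β => l.tail) (Lin.tail Lin.id) hl

@[fun_prop] theorem headD {l : α → List β} {d : α → β} (hl : Poly l) (hd : Poly d) :
    Poly (fun a => (l a).headD (d a)) :=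
  apply_lin (g := fun p : List β × β => p.1.headD p.2)
    (Lin.headD (Lin.fst Lin.id) (Lin.snd Lin.id)) (hl.pair hd)

@[fun_prop] theorem bnot {b : α → Bool} (hb : Poly b) : Poly (fun a => !(b a)) :=
  apply_lin (g := fun b : Bool => !b) (Lin.not Lin.id) hb

@[fun_prop] theorem bxor {b b' : α → Bool} (hb : Poly b) (hb' : Poly b') :
    Poly (fun a => xor (b a) (b' a)) :=
  apply_lin (g := fun p : Bool × Bool => xor p.1 p.2)
    (Lin.xor (Lin.fst Lin.id) (Lin.snd Lin.id)) (hb.pair hb')

end P0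

@[fun_prop] theorem Poly.map {g : α → β → γ} {l : α → List β}
    (hg : Poly fun p : α × β => g p.1 p.2) (hl : Poly l) : Poly (fun a => (l a).map (g a)) :=
  ((P0.map' hg).comp (distl Poly.id hl)).congr fun a => by simp [Function.comp_def]
@[fun_prop] theorem Poly.flatMap {g : α → β → List γ} {l : α → List β}
    (hg : Poly fun p : α × β => g p.1 p.2) (hl : Poly l) :
    Poly (fun a => (l a).flatMap (g a)) :=
  (apply_lin (g := fun L : List (List γ) => L.flatten) (Lin.flatten Lin.id)
    (Poly.map hg hl)).congr fun _ => List.flatMap_def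
@[fun_prop] theorem Poly.filter {q : α → β → Bool} {l : α → List β}
    (hq : Poly fun p : α × β => q p.1 p.2) (hl : Poly l) :
    Poly (fun a => (l a).filter (q a)) := by
  have h1 : Poly fun a => (l a).map fun x => (q a x, x) :=
    Poly.map (g := fun a x => (q a x, x)) (hq.pair (Poly.snd Poly.id)) hl
  have h2 : Lin fun L : List (Bool × β) => (L.filter fun p => p.1).map fun p => p.2 :=
    Lin.map (Lin.snd Lin.id) (Lin.filter (Lin.fst Lin.id) Lin.id)
  refine (apply_lin h2 h1).congr fun a => ?_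
  simp [List.filter_map, Function.comp_def]
@[fun_prop] theorem Poly.all {q : α → β → Bool} {l : α → List β}
    (hq : Poly fun p : α × β => q p.1 p.2) (hl : Poly l) : Poly (fun a => (l a).all (q a)) := by
  refine (P0.isEmpty (Poly.filter (q := fun a x => !(q a x)) (P0.bnot hq) hl)).congr fun a => ?_
  rw [Bool.eq_iff_iff]
  simp [List.filter_eq_nil_iff]
/-- folds whose states stay polynomially bounded -/
theorem Poly.foldl {f : α → δ → β → δ} {s : α → δ} {l : α → List β}
    (hf : Poly fun p : α × δ × β => f p.1 p.2.1 p.2.2) (hs : Poly s) (hl : Poly l) (K e : ℕ)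
    (hb : ∀ a n, sz (((l a).take n).foldl (f a) (s a)) ≤ K * (sz a + 1) ^ e) :
    Poly (fun a => (l a).foldl (f a) (s a)) := by
  have hG : Poly fun q : β × α × δ => (q.2.1, f q.2.1 q.2.2 q.1) :=
    (Poly.fst (Poly.snd Poly.id)).pair (hf.comp (f := fun q : β × α × δ => (q.2.1, q.2.2, q.1))
      ((Poly.fst (Poly.snd Poly.id)).pair ((Poly.snd (Poly.snd Poly.id)).pair (Poly.fst Poly.id))))
  obtain ⟨c, hG⟩ := hG
  let B : α → ℕ := fun a => (sz (l a) + sz a + K * (sz a + 1) ^ e + 3) ^ c
  have hB : PB B :=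
    ((((pb_of_poly hl).add PB.sz).add
      ((PB.const K).mul ((PB.sz.add (PB.const 1)).pow e))).add (PB.const 3)).pow c
  have key : Poly fun a => (l a).foldl (fun (u : α × δ) x => (u.1, f u.1 u.2 x)) (a, s a) := by
    refine poly_of_ev ?_
    filter_upwards [ev_of_poly (hl.pair (Poly.id.pair hs)), ev_of_poly hl,
      ((pb_length hl).mul hB).le (τ := fun a => ((l a).length : ℝ) * (B a : ℝ))
        (fun a => by push_cast; exact le_rfl)] with c' h1 h2 h3
    refine ⟨h1.1, ?_⟩
    have h4 := Cf.foldl (pre := TT α) (σ := pw α c') (l := l) (s := fun a => (a, s a))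
      (f := fun _ (u : α × δ) x => (u.1, f u.1 u.2 x)) (σb := fun a => (B a : ℝ))
      (cb := fun _ => 0)
      (fun a n u => u = (a, ((l a).take n).foldl (f a) (s a))) (fun _ a _ => by simp)
      (fun _ a _ n hn u hu => by
        subst hu
        rw [List.take_succ_eq_append_getElem hn, List.foldl_append]
        rfl) ?_ h3 h2.sz_le
    · exact Cf.mono (h1.thenCf h4) (fun _ _ h => h) Le.refl (fun _ _ _ => by simp)
    · refine Cf.mono (Cf.reindex hG (pre' := fun _ (_ : α × β × α × δ) => True) (fun j => j.2)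
        (fun _ _ _ => trivial)) (fun _ _ _ => trivial) (Le.of_le ?_) (fun _ _ _ => le_rfl)
      rintro w ⟨a, x, u⟩ ⟨-, n, hn, hx, hu⟩
      dsimp only at hx hu hn ⊢
      subst hu
      have h5 : sz x ≤ sz (l a) := sz_mem (hx ▸ List.getElem_mem hn)
      have h6 := hb a n
      have h7 : sz (x, a, ((l a).take n).foldl (f a) (s a)) + 1 ≤
          sz (l a) + sz a + K * (sz a + 1) ^ e + 3 := by
        simp only [sz_pair]
        omega
      exact_mod_cast Nat.pow_le_pow_left h7 c
  exact (Poly.snd key).congr fun a => by rw [foldl_pair]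
/-- folds whose state grows additively -/
theorem Poly.foldl_add {f : α → δ → β → δ} {s : α → δ} {l : α → List β}
    (hf : Poly fun p : α × δ × β => f p.1 p.2.1 p.2.2) (hs : Poly s) (hl : Poly l) (K e : ℕ)
    (hb : ∀ a t, ∀ x ∈ l a, sz (f a t x) ≤ sz t + K * (sz a + sz x + 1) ^ e) :
    Poly (fun a => (l a).foldl (f a) (s a)) := by
  have hB : PB fun a => sz (s a) + (l a).length * (K * (sz a + sz (l a) + 1) ^ e) :=
    (pb_of_poly hs).add ((pb_length hl).mul
      ((PB.const K).mul (((PB.sz.add (pb_of_poly hl)).add (PB.const 1)).pow e)))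
  obtain ⟨K', e', hB⟩ := hB
  refine Poly.foldl hf hs hl K' e' fun a n => le_trans ?_ (hB a)
  have key : ∀ l' : List β, (∀ x ∈ l', x ∈ l a) → ∀ t,
      sz (l'.foldl (f a) t) ≤ sz t + l'.length * (K * (sz a + sz (l a) + 1) ^ e) := by
    intro l'
    induction l' with
    | nil => intro _ t; simp
    | cons x l' ih =>
      intro h t
      have hx : x ∈ l a := h x (by simp)
      have h1 := ih (fun y hy => h y (by simp [hy])) (f a t x)
      have h2 := hb a t x hx
      have h3 : K * (sz a + sz x + 1) ^ e ≤ K * (sz a + sz (l a) + 1) ^ e := by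
        have := sz_mem hx
        gcongr
      rw [List.foldl_cons, List.length_cons, add_mul, one_mul]
      omega
  refine (key _ (fun x hx => List.mem_of_mem_take hx) _).trans ?_
  have : ((l a).take n).length ≤ (l a).length := by simp
  dsimp only
  gcongr
@[fun_prop] theorem Poly.cons {f : α → β} {l : α → List β} (hf : Poly f) (hl : Poly l) :
    Poly (fun a => f a :: l a) :=
  apply_lin (g := fun p : β × List β => p.1 :: p.2) (Lin.cons (Lin.fst Lin.id) (Lin.snd Lin.id))
    (hf.pair hl)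
@[fun_prop] theorem Poly.append {l l' : α → List β} (hl : Poly l) (hl' : Poly l') :
    Poly (fun a => l a ++ l' a) :=
  apply_lin (g := fun p : List β × List β => p.1 ++ p.2)
    (Lin.append (Lin.fst Lin.id) (Lin.snd Lin.id)) (hl.pair hl')
@[fun_prop] theorem Poly.flatten {l : α → List (List β)} (hl : Poly l) :
    Poly (fun a => (l a).flatten) :=
  apply_lin (g := fun L : List (List β) => L.flatten) (Lin.flatten Lin.id) hl
@[fun_prop] theorem Poly.reverse {l : α → List β} (hl : Poly l) : Poly (fun a => (l a).reverse) :=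
  apply_lin (g := fun L : List β => L.reverse) (Lin.reverse Lin.id) hl
@[fun_prop] theorem Poly.zip {l : α → List β} {l' : α → List γ} (hl : Poly l) (hl' : Poly l') :
    Poly (fun a => (l a).zip (l' a)) :=
  apply_lin (g := fun p : List β × List γ => p.1.zip p.2)
    (Lin.zip (Lin.fst Lin.id) (Lin.snd Lin.id)) (hl.pair hl')
@[fun_prop] theorem Poly.length {l : α → List β} (hl : Poly l) : Poly (fun a => (l a).length) :=
  apply_lin (g := fun L : List β => L.length) (Lin.length Lin.id) hl
/-- `range` and `replicate` below a unary bound (the length of any list) -/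
@[fun_prop] theorem Poly.range_length {u : α → List β} (hu : Poly u) :
    Poly (fun a => List.range (u a).length) := by
  refine apply_sub sub_range (Poly.length hu) (fun _ => trivial)
    (((pb_length hu).add (PB.const 1)).mul
      (((pb_of_poly (Poly.length hu)).add (PB.const 1)).pow 2)) fun a => ?_
  push_cast
  exact le_rfl
@[fun_prop] theorem Poly.not {b : α → Bool} (hb : Poly b) : Poly (fun a => !(b a)) := P0.bnot hb
@[fun_prop] theorem Poly.and {b b' : α → Bool} (hb : Poly b) (hb' : Poly b') :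
    Poly (fun a => (b a && b' a)) :=
  apply_lin (g := fun p : Bool × Bool => (p.1 && p.2))
    (Lin.and (Lin.fst Lin.id) (Lin.snd Lin.id)) (hb.pair hb')
@[fun_prop] theorem Poly.or {b b' : α → Bool} (hb : Poly b) (hb' : Poly b') :
    Poly (fun a => (b a || b' a)) :=
  apply_lin (g := fun p : Bool × Bool => (p.1 || p.2))
    (Lin.or (Lin.fst Lin.id) (Lin.snd Lin.id)) (hb.pair hb')

/-! further closure lemmas for `fun_prop` -/
namespace P0

@[fun_prop] theorem any {q : α → β → Bool} {l : α → List β}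
    (hq : Poly fun p : α × β => q p.1 p.2) (hl : Poly l) : Poly (fun a => (l a).any (q a)) := by
  refine (Poly.not (P0.isEmpty (Poly.filter hq hl))).congr fun a => ?_
  rw [Bool.eq_iff_iff]
  simp [List.filter_eq_nil_iff]

@[fun_prop] theorem zipWith {g : α → β → γ → δ} {l : α → List β} {l' : α → List γ}
    (hg : Poly fun p : α × β × γ => g p.1 p.2.1 p.2.2) (hl : Poly l) (hl' : Poly l') :
    Poly (fun a => List.zipWith (g a) (l a) (l' a)) :=
  (Poly.map (g := fun a (x : β × γ) => g a x.1 x.2) hg (Poly.zip hl hl')).congr fun a => by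
    rw [List.zip, List.map_zipWith]

@[fun_prop] theorem ite' {q : α → Prop} {d : ∀ a, Decidable (q a)} {f g : α → β}
    (hq : Poly fun a => @decide (q a) (d a)) (hf : Poly f) (hg : Poly g) :
    Poly (fun a => @ite β (q a) (d a) (f a) (g a)) :=
  @Poly.ite α β _ _ q d f g hq hf hg

@[fun_prop] theorem decide_true {b : α → Bool} (hb : Poly b) :
    Poly (fun a => decide (b a = true)) :=
  hb.congr fun a => by simp

@[fun_prop] theorem replicate_length {u : α → List β} {x : α → γ} (hu : Poly u) (hx : Poly x) :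
    Poly (fun a => List.replicate (u a).length (x a)) :=
  (Poly.map (g := fun a (_ : β) => x a) (hx.comp (Poly.fst Poly.id)) hu).congr fun a => by simp

end P0

end Crest.Agent.R326
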