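import Crest.Agent.R326.Poly0

/-! Row 326: polynomial-time functions (for parameters, indices and small tables). -/

set_option autoImplicit false

namespace Crest.Agent.R326

variable {α β γ δ : Type} [Enc α] [Enc β] [Enc γ] [Enc δ]

/-! auxiliary material: bit lists -/

theorem Lin.congr_enc {g : α → β} {g' : α → γ} (h : Lin g) (e : ∀ a, enc (g' a) = enc (g a)) :
    Lin g' :=
  Cf.congr h (fun _ _ _ => rfl) (fun _ a _ => e a)

theorem Lin.congr' {g g' : α → β} (h : Lin g) (e : ∀ a, g' a = g a) : Lin g' :=
  h.congr_enc fun a => by rw [e a]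

theorem enc_bool_inj : Function.Injective (enc : Bool → Val) := by
  intro a b h
  have h' : Val.bit a = Val.bit b := h
  injection h'

theorem enc_pair_inj (ha : Function.Injective (enc : α → Val))
    (hb : Function.Injective (enc : β → Val)) : Function.Injective (enc : α × β → Val) := by
  intro p q h
  have h' : Val.cons (enc p.1) (enc p.2) = Val.cons (enc q.1) (enc q.2) := h
  injection h' with h1 h2
  exact Prod.ext (ha h1) (hb h2)

/-- a natural number, read as its list of bits -/
theorem Lin.bits : Lin Nat.bits := Lin.of_enc_eq fun _ => rfl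

@[simp] theorem valLE_nil : valLE [] = 0 := rfl
theorem valLE_cons (b : Bool) (l : List Bool) : valLE (b :: l) = 2 * valLE l + b.toNat := rfl

theorem valLE_cons_bit (b : Bool) (l : List Bool) : valLE (b :: l) = Nat.bit b (valLE l) := by
  rw [valLE_cons, Nat.bit_val]

theorem valLE_append (l l' : List Bool) :
    valLE (l ++ l') = valLE l + 2 ^ l.length * valLE l' := by
  induction l with
  | nil => simp
  | cons b l ih => rw [List.cons_append, valLE_cons, valLE_cons, ih, List.length_cons]; ring

theorem valLE_lt (l : List Bool) : valLE l < 2 ^ l.length := by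
  induction l with
  | nil => simp
  | cons b l ih =>
    rw [valLE_cons, List.length_cons, pow_succ]
    have : b.toNat ≤ 1 := Bool.toNat_le b
    omega

theorem valLE_bits (n : ℕ) : valLE n.bits = n := by
  induction n using Nat.binaryRec' with
  | zero => simp
  | bit b n h ih => rw [Nat.bits_append_bit n b h, valLE_cons_bit, ih]

theorem valLE_map_false {ι : Type} (l : List ι) : valLE (l.map fun _ => false) = 0 := by
  induction l with
  | nil => rfl
  | cons a l ih => rw [List.map_cons, valLE_cons, ih]; rfl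

theorem bits_valLE_append_true (l : List Bool) : (valLE (l ++ [true])).bits = l ++ [true] := by
  induction l with
  | nil => simp [valLE]
  | cons b l ih =>
    rw [List.cons_append, valLE_cons_bit, Nat.bits_append_bit, ih]
    intro h
    rw [h] at ih
    simp at ih

theorem bits_valLE (l : List Bool) :
    (valLE l).bits = (l.reverse.dropWhile fun b => !b).reverse := by
  induction l using List.reverseRecOn with
  | nil => simp
  | append_singleton l b ih =>
    cases b
    · rw [valLE_append]
      simpa [valLE] using ih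
    · rw [bits_valLE_append_true]
      simp

namespace PN

/-- drop the leading `false`s -/
def dstep (p : Bool × Bool) : List Bool × Bool :=
  if (p.2 || p.1) = true then ([p.1], true) else ([], false)

theorem scan_dstep_true (r : List Bool) : (scan dstep r true).1.flatten = r := by
  induction r with
  | nil => rfl
  | cons b r ih => simp [scan, dstep, ih]

theorem scan_dstep_false (r : List Bool) :
    (scan dstep r false).1.flatten = r.dropWhile fun b => !b := by
  induction r with
  | nil => rfl
  | cons b r ih =>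
    cases b
    · simp [scan, dstep, ih]
    · simp [scan, dstep, scan_dstep_true]

/-- full adder -/
def astep (p : (Bool × Bool) × Bool) : Bool × Bool :=
  (xor (xor p.1.1 p.1.2) p.2, (p.1.1 && p.1.2) || (p.2 && (p.1.1 || p.1.2)))

/-- full subtractor -/
def sstep (p : (Bool × Bool) × Bool) : Bool × Bool :=
  (xor (xor p.1.1 p.1.2) p.2, (!p.1.1 && p.1.2) || (p.2 && (!p.1.1 || p.1.2)))

omit [Enc α] [Enc β] in
theorem length_scan {σ : Type} (f : α × σ → β × σ) (l : List α) (s : σ) :
    (scan f l s).1.length = l.length := by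
  induction l generalizing s with
  | nil => rfl
  | cons a l ih => simp [scan, ih]

theorem scan_astep (l : List (Bool × Bool)) (c : Bool) :
    valLE ((scan astep l c).1 ++ [(scan astep l c).2]) =
      valLE (l.map Prod.fst) + valLE (l.map Prod.snd) + c.toNat := by
  induction l generalizing c with
  | nil => simp [scan, valLE]
  | cons a l ih =>
    obtain ⟨x, y⟩ := a
    simp only [scan, List.cons_append, List.map_cons, valLE_cons, ih]
    cases x <;> cases y <;> cases c <;> simp [astep] <;> omega

theorem scan_sstep (l : List (Bool × Bool)) (c : Bool) :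
    valLE (scan sstep l c).1 + valLE (l.map Prod.snd) + c.toNat =
      valLE (l.map Prod.fst) + 2 ^ l.length * (scan sstep l c).2.toNat := by
  induction l generalizing c with
  | nil => simp [scan, valLE]
  | cons a l ih =>
    obtain ⟨x, y⟩ := a
    have h := ih (sstep ((x, y), c)).2
    simp only [scan, List.map_cons, valLE_cons, List.length_cons, pow_succ]
    rw [mul_comm (2 ^ l.length) 2, mul_assoc]
    generalize 2 ^ l.length * (scan sstep l (sstep ((x, y), c)).2).2.toNat = T at h ⊢
    cases x <;> cases y <;> cases c <;> simp [sstep] at h ⊢ <;> omega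

/-- both numbers padded to the same length and zipped -/
def zp (p : ℕ × ℕ) : List (Bool × Bool) :=
  (p.1.bits ++ p.2.bits.map fun _ => false).zip (p.2.bits ++ p.1.bits.map fun _ => false)

theorem zp_fst (p : ℕ × ℕ) : valLE ((zp p).map Prod.fst) = p.1 := by
  rw [zp, List.map_fst_zip (by simp; omega), valLE_append, valLE_map_false, valLE_bits]; simp

theorem zp_snd (p : ℕ × ℕ) : valLE ((zp p).map Prod.snd) = p.2 := by
  rw [zp, List.map_snd_zip (by simp; omega), valLE_append, valLE_map_false, valLE_bits]; simp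

theorem lin_zp : Lin zp := by
  have h1 : Lin fun p : ℕ × ℕ => p.1.bits := Lin.bits.comp (Lin.fst Lin.id)
  have h2 : Lin fun p : ℕ × ℕ => p.2.bits := Lin.bits.comp (Lin.snd Lin.id)
  exact Lin.zip (h1.append (Lin.map (Lin.const false) h2)) (h2.append (Lin.map (Lin.const false) h1))

theorem inj3 : Function.Injective (enc : (Bool × Bool) × Bool → Val) :=
  enc_pair_inj (enc_pair_inj enc_bool_inj enc_bool_inj) enc_bool_inj

theorem lin_sscan : Lin fun p : ℕ × ℕ => scan sstep (zp p) false :=
  (Lin.scan (Lin.of_finite inj3 sstep)).comp (lin_zp.pair (Lin.const false))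

theorem sscan_spec (p : ℕ × ℕ) :
    (scan sstep (zp p) false).2 = decide (p.1 < p.2) ∧
      ((scan sstep (zp p) false).2 = false → valLE (scan sstep (zp p) false).1 = p.1 - p.2) := by
  have h := scan_sstep (zp p) false
  have hl := valLE_lt (scan sstep (zp p) false).1
  rw [length_scan] at hl
  rw [zp_fst, zp_snd] at h
  cases hb : (scan sstep (zp p) false).2
  · rw [hb] at h
    simp at h
    refine ⟨by simp; omega, fun _ => by omega⟩
  · rw [hb] at h
    simp at h
    refine ⟨by simp; omega, fun h' => by simp at h'⟩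

end PN

open PN

/-- the value of a bit list, in linear time -/
theorem Lin.valLE : Lin R326.valLE := by
  have h : Lin fun l : List Bool => (R326.scan dstep l.reverse false).1.flatten.reverse :=
    (((Lin.scan (Lin.of_finite (enc_pair_inj enc_bool_inj enc_bool_inj) dstep)).comp
      ((Lin.reverse Lin.id).pair (Lin.const false))).fst.flatten).reverse
  refine h.congr_enc fun l => ?_
  rw [scan_dstep_false, ← bits_valLE]
  rfl

theorem Lin.nadd : Lin fun p : ℕ × ℕ => p.1 + p.2 := by
  have h : Lin fun p : ℕ × ℕ => R326.scan astep (zp p) false :=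
    (Lin.scan (Lin.of_finite inj3 astep)).comp (lin_zp.pair (Lin.const false))
  refine (Lin.valLE.comp (h.fst.append (h.snd.cons (Lin.const [])))).congr' fun p => ?_
  rw [scan_astep, zp_fst, zp_snd]; rfl

theorem Lin.nlt : Lin fun p : ℕ × ℕ => decide (p.1 < p.2) :=
  lin_sscan.snd.congr' fun p => (sscan_spec p).1.symm

theorem Lin.nle : Lin fun p : ℕ × ℕ => decide (p.1 ≤ p.2) := by
  refine (Lin.not (Lin.nlt.comp ((Lin.snd Lin.id).pair (Lin.fst Lin.id)))).congr' fun p => ?_
  by_cases h : p.1 ≤ p.2
  · simp [h]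
  · simp [h, not_le.mp h]

theorem Lin.nsub : Lin fun p : ℕ × ℕ => p.1 - p.2 := by
  refine (Lin.cond lin_sscan.snd (Lin.const 0) (Lin.valLE.comp lin_sscan.fst)).congr' fun p => ?_
  obtain ⟨h1, h2⟩ := sscan_spec p
  cases hb : (R326.scan sstep (zp p) false).2
  · simp [h2 hb]
  · rw [hb] at h1
    have : p.1 < p.2 := by simpa using h1.symm
    simp; omega

theorem Lin.neq : Lin fun p : ℕ × ℕ => decide (p.1 = p.2) := by
  refine (Lin.and Lin.nle (Lin.nle.comp ((Lin.snd Lin.id).pair (Lin.fst Lin.id)))).congr'
    fun p => ?_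
  by_cases h : p.1 = p.2
  · simp [h]
  · simp [h]; omega

theorem Lin.add {f g : α → ℕ} (hf : Lin f) (hg : Lin g) : Lin fun a => f a + g a :=
  Lin.nadd.comp (hf.pair hg)
theorem Lin.sub {f g : α → ℕ} (hf : Lin f) (hg : Lin g) : Lin fun a => f a - g a :=
  Lin.nsub.comp (hf.pair hg)
theorem Lin.le {f g : α → ℕ} (hf : Lin f) (hg : Lin g) : Lin fun a => decide (f a ≤ g a) :=
  Lin.nle.comp (hf.pair hg)
theorem Lin.lt {f g : α → ℕ} (hf : Lin f) (hg : Lin g) : Lin fun a => decide (f a < g a) :=
  Lin.nlt.comp (hf.pair hg)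
theorem Lin.eq {f g : α → ℕ} (hf : Lin f) (hg : Lin g) : Lin fun a => decide (f a = g a) :=
  Lin.neq.comp (hf.pair hg)
theorem Lin.toNat : Lin Bool.toNat := Lin.of_finite enc_bool_inj _

theorem Poly.bits {f : α → ℕ} (hf : Poly f) : Poly fun a => (f a).bits := Lin.bits.poly.comp hf

theorem size_add_le (a b : ℕ) : (a + b).size ≤ max a.size b.size + 1 := by
  rw [Nat.size_le, pow_succ]
  have h1 : a < 2 ^ max a.size b.size :=
    (Nat.lt_size_self a).trans_le (Nat.pow_le_pow_right (by norm_num) (le_max_left _ _))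
  have h2 : b < 2 ^ max a.size b.size :=
    (Nat.lt_size_self b).trans_le (Nat.pow_le_pow_right (by norm_num) (le_max_right _ _))
  omega

theorem size_two_mul_add_le (a : ℕ) {e : ℕ} (he : e ≤ 1) : (a + a + e).size ≤ a.size + 1 := by
  rw [Nat.size_le, pow_succ]
  have h1 := Nat.lt_size_self a
  omega

/-! natural numbers -/
@[fun_prop] theorem Poly.add {f g : α → ℕ} (hf : Poly f) (hg : Poly g) :
    Poly (fun a => f a + g a) := Lin.nadd.poly.comp (hf.pair hg)
@[fun_prop] theorem Poly.sub {f g : α → ℕ} (hf : Poly f) (hg : Poly g) :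
    Poly (fun a => f a - g a) := Lin.nsub.poly.comp (hf.pair hg)

namespace PN

def mstep (x t : ℕ) (b : Bool) : ℕ := t + t + cond b x 0

theorem foldl_mstep (x : ℕ) (l : List Bool) : l.reverse.foldl (mstep x) 0 = x * valLE l := by
  rw [List.foldl_reverse]
  induction l with
  | nil => simp
  | cons b l ih =>
    rw [List.foldr_cons, ih, valLE_cons, mstep]
    cases b <;> simp <;> ring

theorem poly_mul : Poly fun p : ℕ × ℕ => p.1 * p.2 := by
  have hf : Poly fun q : (ℕ × ℕ) × ℕ × Bool => mstep q.1.1 q.2.1 q.2.2 := by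
    have ht : Poly fun q : (ℕ × ℕ) × ℕ × Bool => q.2.1 := Poly.id.snd.fst
    exact (ht.add ht).add (Poly.cond Poly.id.snd.snd Poly.id.fst.fst (Poly.const 0))
  have h := Poly.foldl_add (f := fun (p : ℕ × ℕ) t b => mstep p.1 t b) (s := fun _ => 0)
    (l := fun p => p.2.bits.reverse) hf (Poly.const 0) (Poly.reverse (Poly.bits Poly.id.snd)) 4 1
    (by
      rintro ⟨x, y⟩ t b -
      have h1 := size_add_le (t + t) (cond b x 0)
      have h2 := size_two_mul_add_le t (e := 0) (by norm_num)
      have h3 : (cond b x 0).size ≤ x.size := by cases b <;> simp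
      simp only [mstep, sz_nat, sz_pair, sz_bool, pow_one, add_zero] at *
      omega)
  refine h.congr fun p => ?_
  rw [foldl_mstep, valLE_bits]

def qstep (y : ℕ) (t : ℕ × ℕ) (b : Bool) : ℕ × ℕ :=
  cond (decide (y ≤ t.2 + t.2 + b.toNat) && decide (1 ≤ y))
    (t.1 + t.1 + 1, t.2 + t.2 + b.toNat - y) (t.1 + t.1, t.2 + t.2 + b.toNat)

theorem qstep_spec (y v : ℕ) (b : Bool) :
    qstep y (v / y, v % y) b = ((2 * v + b.toNat) / y, (2 * v + b.toNat) % y) := by
  rcases Nat.eq_zero_or_pos y with rfl | hy
  · simp [qstep, two_mul]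
  · have h1 := Nat.div_add_mod v y
    have h2 := Nat.mod_lt v hy
    have hb : b.toNat ≤ 1 := Bool.toNat_le b
    generalize v / y = q at *
    generalize v % y = r at *
    subst h1
    by_cases h : y ≤ r + r + b.toNat
    · have e : 2 * (y * q + r) + b.toNat = (r + r + b.toNat - y) + y * (q + q + 1) := by
        have : y * (q + q + 1) = 2 * (y * q) + y := by ring
        omega
      have hlt : r + r + b.toNat - y < y := by omega
      have hy' : 1 ≤ y := hy
      simp only [qstep, h, hy', decide_true, Bool.and_self, cond_true]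
      rw [e, Nat.add_mul_div_left _ _ hy, Nat.add_mul_mod_self_left, Nat.div_eq_of_lt hlt,
        Nat.mod_eq_of_lt hlt, zero_add]
    · have e : 2 * (y * q + r) + b.toNat = (r + r + b.toNat) + y * (q + q) := by ring
      have hlt : r + r + b.toNat < y := by omega
      simp only [qstep, h, decide_false, Bool.false_and, cond_false]
      rw [e, Nat.add_mul_div_left _ _ hy, Nat.add_mul_mod_self_left, Nat.div_eq_of_lt hlt,
        Nat.mod_eq_of_lt hlt, zero_add]

theorem foldl_qstep (y : ℕ) (l : List Bool) :
    l.reverse.foldl (qstep y) (0, 0) = (valLE l / y, valLE l % y) := by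
  rw [List.foldl_reverse]
  induction l with
  | nil => simp
  | cons b l ih => rw [List.foldr_cons, ih, valLE_cons, qstep_spec]

theorem poly_divmod : Poly fun p : ℕ × ℕ => (p.1 / p.2, p.1 % p.2) := by
  have hf : Poly fun q : (ℕ × ℕ) × (ℕ × ℕ) × Bool => qstep q.1.2 q.2.1 q.2.2 := by
    have hy : Lin fun q : (ℕ × ℕ) × (ℕ × ℕ) × Bool => q.1.2 := Lin.id.fst.snd
    have hq : Lin fun q : (ℕ × ℕ) × (ℕ × ℕ) × Bool => q.2.1.1 := Lin.id.snd.fst.fst
    have hr : Lin fun q : (ℕ × ℕ) × (ℕ × ℕ) × Bool => q.2.1.2 := Lin.id.snd.fst.snd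
    have hb : Lin fun q : (ℕ × ℕ) × (ℕ × ℕ) × Bool => q.2.2.toNat := Lin.toNat.comp Lin.id.snd.snd
    have hr' := (hr.add hr).add hb
    exact (Lin.cond (Lin.and (hy.le hr') ((Lin.const 1).le hy))
      (((hq.add hq).add (Lin.const 1)).pair (hr'.sub hy)) ((hq.add hq).pair hr')).poly
  have h := Poly.foldl_add (f := fun (p : ℕ × ℕ) t b => qstep p.2 t b) (s := fun _ => (0, 0))
    (l := fun p => p.1.bits.reverse) hf (Poly.const (0, 0))
    (Poly.reverse (Poly.bits Poly.id.fst)) 4 0
    (by
      rintro ⟨x, y⟩ ⟨q, r⟩ b -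
      have h1 := size_two_mul_add_le q (e := 1) le_rfl
      have h2 := size_two_mul_add_le q (e := 0) (by norm_num)
      have h3 := size_two_mul_add_le r (e := b.toNat) (Bool.toNat_le b)
      have h4 : (r + r + b.toNat - y).size ≤ (r + r + b.toNat).size :=
        Nat.size_le_size (Nat.sub_le _ _)
      simp only [qstep]
      cases (decide (y ≤ r + r + b.toNat) && decide (1 ≤ y)) <;>
        simp only [cond_true, cond_false, sz_nat, sz_pair, pow_zero, add_zero] at * <;> omega)
  refine h.congr fun p => ?_
  rw [foldl_qstep, valLE_bits]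

end PN

@[fun_prop] theorem Poly.mul {f g : α → ℕ} (hf : Poly f) (hg : Poly g) :
    Poly (fun a => f a * g a) := poly_mul.comp (hf.pair hg)
@[fun_prop] theorem Poly.div {f g : α → ℕ} (hf : Poly f) (hg : Poly g) :
    Poly (fun a => f a / g a) := (poly_divmod.comp (hf.pair hg)).fst
@[fun_prop] theorem Poly.mod {f g : α → ℕ} (hf : Poly f) (hg : Poly g) :
    Poly (fun a => f a % g a) := (poly_divmod.comp (hf.pair hg)).snd
@[fun_prop] theorem Poly.le {f g : α → ℕ} (hf : Poly f) (hg : Poly g) :
    Poly (fun a => decide (f a ≤ g a)) := Lin.nle.poly.comp (hf.pair hg)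
@[fun_prop] theorem Poly.lt {f g : α → ℕ} (hf : Poly f) (hg : Poly g) :
    Poly (fun a => decide (f a < g a)) := Lin.nlt.poly.comp (hf.pair hg)
@[fun_prop] theorem Poly.eq {f g : α → ℕ} (hf : Poly f) (hg : Poly g) :
    Poly (fun a => decide (f a = g a)) := Lin.neq.poly.comp (hf.pair hg)
@[fun_prop] theorem Poly.nmin {f g : α → ℕ} (hf : Poly f) (hg : Poly g) :
    Poly (fun a => min (f a) (g a)) := by
  refine (Poly.cond (hf.le hg) hf hg).congr fun a => ?_
  by_cases h : f a ≤ g a
  · simp [h]
  · simp [h, (not_le.mp h).le]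
@[fun_prop] theorem Poly.nmax {f g : α → ℕ} (hf : Poly f) (hg : Poly g) :
    Poly (fun a => max (f a) (g a)) := by
  refine (Poly.cond (hf.le hg) hg hf).congr fun a => ?_
  by_cases h : f a ≤ g a
  · simp [h]
  · simp [h, (not_le.mp h).le]
@[fun_prop] theorem Poly.size {f : α → ℕ} (hf : Poly f) : Poly (fun a => (f a).size) :=
  hf.bits.length.congr fun _ => (Nat.size_eq_bits_len _).symm
/-- the binary length in unary -/
theorem Poly.un_size {f : α → ℕ} (hf : Poly f) : Poly (fun a => un (f a).size) := by
  refine (Poly.map (g := fun _ _ => ()) (Poly.const ()) hf.bits).congr fun a => ?_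
  rw [← Nat.size_eq_bits_len, un, List.map_const']

end Crest.Agent.R326
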