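import Crest.Agent.R326.Mach

/-! Row 326: symbolic execution of small programs on the registers `0, 1, 2`, and the loop
programs behind the list primitives. -/

set_option autoImplicit false

namespace Crest.Agent.R326.P0

open Function

/-- the contents of the registers `0, 1, 2` -/
abbrev S3 := List Val × List Val × List Val

def toSt (s : St) (σ : S3) : St
  | 0 => σ.1
  | 1 => σ.2.1
  | 2 => σ.2.2
  | (r + 3) => s (r + 3)

def get3 (σ : S3) : ℕ → List Val
  | 0 => σ.1
  | 1 => σ.2.1
  | 2 => σ.2.2
  | _ => []

def set3 (σ : S3) (r : ℕ) (l : List Val) : S3 :=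
  match r with
  | 0 => (l, σ.2.1, σ.2.2)
  | 1 => (σ.1, l, σ.2.2)
  | 2 => (σ.1, σ.2.1, l)
  | _ => σ

theorem toSt_get (s : St) (σ : S3) {r : ℕ} (hr : r < 3) : toSt s σ r = get3 σ r := by
  interval_cases r <;> rfl

theorem update_toSt (s : St) (σ : S3) {r : ℕ} (hr : r < 3) (l : List Val) :
    update (toSt s σ) r l = toSt s (set3 σ r l) := by
  funext j
  interval_cases r
  all_goals
    match j with
    | 0 => simp [toSt, set3]
    | 1 => simp [toSt, set3]
    | 2 => simp [toSt, set3]
    | (j + 3) => simp [toSt, set3]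

theorem update_zero (s : St) (l : List Val) : update s 0 l = toSt s (l, s 1, s 2) := by
  funext j
  match j with
  | 0 => simp [toSt]
  | 1 => simp [toSt]
  | 2 => simp [toSt]
  | (j + 3) => simp [toSt]

/-- interpreter of the loop-free, call-free programs -/
def run : VP → S3 → Option (S3 × ℕ)
  | .skip, σ => some (σ, 1)
  | .seq p q, σ =>
    match run p σ with
    | none => none
    | some (σ', t) =>
      match run q σ' with
      | none => none
      | some (σ'', t') => some (σ'', t + t')
  | .push r v, σ => if r < 3 then some (set3 σ r (v :: get3 σ r), v.size) else none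
  | .cons r, σ =>
    if r < 3 then
      match get3 σ r with
      | a :: b :: l => some (set3 σ r (.cons a b :: l), 1)
      | _ => none
    else none
  | .uncons r, σ =>
    if r < 3 then
      match get3 σ r with
      | .cons a b :: l => some (set3 σ r (a :: b :: l), 1)
      | _ => none
    else none
  | .move r r', σ =>
    if r < 3 ∧ r' < 3 then
      match get3 σ r with
      | v :: l => some (set3 (set3 σ r l) r' (v :: get3 (set3 σ r l) r'), v.size)
      | _ => none
    else none
  | .copy r r', σ =>
    if r < 3 ∧ r' < 3 then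
      match get3 σ r with
      | v :: _ => some (set3 σ r' (v :: get3 σ r'), v.size)
      | _ => none
    else none
  | .drop r, σ =>
    if r < 3 then
      match get3 σ r with
      | v :: l => some (set3 σ r l, v.size)
      | _ => none
    else none
  | .case r pn pf pt pc, σ =>
    if r < 3 then
      match get3 σ r with
      | .nil :: _ => (run pn σ).map fun x => (x.1, x.2 + 1)
      | .bit false :: _ => (run pf σ).map fun x => (x.1, x.2 + 1)
      | .bit true :: _ => (run pt σ).map fun x => (x.1, x.2 + 1)
      | .cons _ _ :: _ => (run pc σ).map fun x => (x.1, x.2 + 1)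
      | _ => none
    else none
  | .loop _ _, _ => none
  | .self, _ => none
  | .fix _, _ => none

theorem run_sound (Γ : VP) (s : St) : ∀ (p : VP) (σ σ' : S3) (t : ℕ), run p σ = some (σ', t) →
    Exec Γ p (toSt s σ) (toSt s σ') t := by
  intro p
  induction p with
  | skip =>
    intro σ σ' t h
    simp only [run, Option.some.injEq, Prod.mk.injEq] at h
    obtain ⟨rfl, rfl⟩ := h
    exact .skip _ _
  | seq p q ihp ihq =>
    intro σ σ' t h
    simp only [run] at h
    split at h
    · cases h
    · rename_i σ1 t1 h1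
      split at h
      · cases h
      · rename_i σ2 t2 h2
        simp only [Option.some.injEq, Prod.mk.injEq] at h
        obtain ⟨rfl, rfl⟩ := h
        exact .seq (ihp _ _ _ h1) (ihq _ _ _ h2)
  | push r v =>
    intro σ σ' t h
    simp only [run] at h
    split at h
    · rename_i hr
      simp only [Option.some.injEq, Prod.mk.injEq] at h
      obtain ⟨rfl, rfl⟩ := h
      rw [← update_toSt s σ hr, ← toSt_get s σ hr]
      exact .push _ _ _ _
    · cases h
  | cons r =>
    intro σ σ' t h
    simp only [run] at h
    split at h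
    · rename_i hr
      split at h
      · rename_i a b l hg
        simp only [Option.some.injEq, Prod.mk.injEq] at h
        obtain ⟨rfl, rfl⟩ := h
        rw [← update_toSt s σ hr]
        exact .cons _ (by rw [toSt_get s σ hr, hg])
      · cases h
    · cases h
  | uncons r =>
    intro σ σ' t h
    simp only [run] at h
    split at h
    · rename_i hr
      split at h
      · rename_i a b l hg
        simp only [Option.some.injEq, Prod.mk.injEq] at h
        obtain ⟨rfl, rfl⟩ := h
        rw [← update_toSt s σ hr]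
        exact .uncons _ (by rw [toSt_get s σ hr, hg])
      · cases h
    · cases h
  | move r r' =>
    intro σ σ' t h
    simp only [run] at h
    split at h
    · rename_i hr
      split at h
      · rename_i v l hg
        simp only [Option.some.injEq, Prod.mk.injEq] at h
        obtain ⟨rfl, rfl⟩ := h
        rw [← update_toSt s _ hr.2, ← toSt_get s _ hr.2, ← update_toSt s σ hr.1]
        exact .move _ _ (by rw [toSt_get s σ hr.1, hg])
      · cases h
    · cases h
  | copy r r' =>
    intro σ σ' t h
    simp only [run] at h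
    split at h
    · rename_i hr
      split at h
      · rename_i v l hg
        simp only [Option.some.injEq, Prod.mk.injEq] at h
        obtain ⟨rfl, rfl⟩ := h
        rw [← update_toSt s _ hr.2, ← toSt_get s _ hr.2]
        exact .copy _ _ (by rw [toSt_get s σ hr.1, hg])
      · cases h
    · cases h
  | drop r =>
    intro σ σ' t h
    simp only [run] at h
    split at h
    · rename_i hr
      split at h
      · rename_i v l hg
        simp only [Option.some.injEq, Prod.mk.injEq] at h
        obtain ⟨rfl, rfl⟩ := h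
        rw [← update_toSt s σ hr]
        exact .drop _ (by rw [toSt_get s σ hr, hg])
      · cases h
    · cases h
  | case r pn pf pt pc ihn ihf iht ihc =>
    intro σ σ' t h
    simp only [run] at h
    split at h
    · rename_i hr
      split at h
      · rename_i l hg
        obtain ⟨⟨σ1, t1⟩, h1, h2⟩ := Option.map_eq_some_iff.1 h
        simp only [Prod.mk.injEq] at h2
        obtain ⟨rfl, rfl⟩ := h2
        exact .caseN (by rw [toSt_get s σ hr, hg]) (ihn _ _ _ h1)
      · rename_i l hg
        obtain ⟨⟨σ1, t1⟩, h1, h2⟩ := Option.map_eq_some_iff.1 h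
        simp only [Prod.mk.injEq] at h2
        obtain ⟨rfl, rfl⟩ := h2
        exact .caseF (by rw [toSt_get s σ hr, hg]) (ihf _ _ _ h1)
      · rename_i l hg
        obtain ⟨⟨σ1, t1⟩, h1, h2⟩ := Option.map_eq_some_iff.1 h
        simp only [Prod.mk.injEq] at h2
        obtain ⟨rfl, rfl⟩ := h2
        exact .caseT (by rw [toSt_get s σ hr, hg]) (iht _ _ _ h1)
      · rename_i a b l hg
        obtain ⟨⟨σ1, t1⟩, h1, h2⟩ := Option.map_eq_some_iff.1 h
        simp only [Prod.mk.injEq] at h2
        obtain ⟨rfl, rfl⟩ := h2
        exact .caseC (by rw [toSt_get s σ hr, hg]) (ihc _ _ _ h1)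
      · cases h
    · cases h
  | loop r p _ => intro σ σ' t h; cases h
  | self => intro σ σ' t h; cases h
  | fix p _ => intro σ σ' t h; cases h

/-- `p` leads from `σ` to `σ'` within `T` steps, not touching the other registers -/
def R (Γ p : VP) (σ σ' : S3) (T : ℕ) : Prop :=
  ∀ s : St, ∃ t ≤ T, Exec Γ p (toSt s σ) (toSt s σ') t

variable {Γ p q : VP} {σ σ' σ'' : S3} {T T' : ℕ}

theorem R.mono (h : R Γ p σ σ' T) (hT : T ≤ T') : R Γ p σ σ' T' := fun s => by
  obtain ⟨t, ht, h⟩ := h s
  exact ⟨t, ht.trans hT, h⟩

theorem R.run (h : run p σ = some (σ', T)) : R Γ p σ σ' T := fun s =>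
  ⟨T, le_rfl, run_sound Γ s p σ σ' T h⟩

theorem R.seq (h : R Γ p σ σ' T) (h' : R Γ q σ' σ'' T') : R Γ (.seq p q) σ σ'' (T + T') :=
  fun s => by
  obtain ⟨t, ht, h⟩ := h s
  obtain ⟨t', ht', h'⟩ := h' s
  exact ⟨t + t', by omega, .seq h h'⟩

theorem R.loopN {r : ℕ} {l : List Val} (hr : r < 3) (h : get3 σ r = .nil :: l) :
    R Γ (.loop r p) σ σ 1 := fun s =>
  ⟨1, le_rfl, .loopN _ _ (by rw [toSt_get s σ hr, h])⟩

theorem R.loopC {r : ℕ} {a b : Val} {l : List Val} (hr : r < 3) (h : get3 σ r = .cons a b :: l)
    (h1 : R Γ p σ σ' T) (h2 : R Γ (.loop r p) σ' σ'' T') : R Γ (.loop r p) σ σ'' (T + T' + 1) :=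
  fun s => by
  obtain ⟨t, ht, h1⟩ := h1 s
  obtain ⟨t', ht', h2⟩ := h2 s
  exact ⟨t + t' + 1, by omega, .loopC (by rw [toSt_get s σ hr, h]) h1 h2⟩

theorem R.caseT {r : ℕ} {pn pf pt pc : VP} {l : List Val} (hr : r < 3)
    (h : get3 σ r = .bit true :: l) (h1 : R Γ pt σ σ' T) :
    R Γ (.case r pn pf pt pc) σ σ' (T + 1) := fun s => by
  obtain ⟨t, ht, h1⟩ := h1 s
  exact ⟨t + 1, by omega, .caseT (by rw [toSt_get s σ hr, h]) h1⟩

theorem R.caseF {r : ℕ} {pn pf pt pc : VP} {l : List Val} (hr : r < 3)
    (h : get3 σ r = .bit false :: l) (h1 : R Γ pf σ σ' T) :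
    R Γ (.case r pn pf pt pc) σ σ' (T + 1) := fun s => by
  obtain ⟨t, ht, h1⟩ := h1 s
  exact ⟨t + 1, by omega, .caseF (by rw [toSt_get s σ hr, h]) h1⟩

theorem R.caseN {r : ℕ} {pn pf pt pc : VP} {l : List Val} (hr : r < 3)
    (h : get3 σ r = .nil :: l) (h1 : R Γ pn σ σ' T) :
    R Γ (.case r pn pf pt pc) σ σ' (T + 1) := fun s => by
  obtain ⟨t, ht, h1⟩ := h1 s
  exact ⟨t + 1, by omega, .caseN (by rw [toSt_get s σ hr, h]) h1⟩

theorem R.caseC {r : ℕ} {pn pf pt pc : VP} {a b : Val} {l : List Val} (hr : r < 3)
    (h : get3 σ r = .cons a b :: l) (h1 : R Γ pc σ σ' T) :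
    R Γ (.case r pn pf pt pc) σ σ' (T + 1) := fun s => by
  obtain ⟨t, ht, h1⟩ := h1 s
  exact ⟨t + 1, by omega, .caseC (by rw [toSt_get s σ hr, h]) h1⟩

theorem R.self (h : R Γ Γ σ σ' T) : R Γ .self σ σ' (T + 1) := fun s => by
  obtain ⟨t, ht, h⟩ := h s
  exact ⟨t + 1, by omega, .self h⟩

theorem R.fix (h : R p p σ σ' T) : R Γ (.fix p) σ σ' (T + 1) := fun s => by
  obtain ⟨t, ht, h⟩ := h s
  exact ⟨t + 1, by omega, .fix _ h⟩

theorem R.ev {a b : Val} (h : ∀ x y z, R Γ p (a :: x, y, z) (b :: x, y, z) T) {U : ℝ}
    (hU : (T : ℝ) ≤ U) : Ev Γ p a b U := fun s => by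
  obtain ⟨t, ht, h⟩ := h (s 0) (s 1) (s 2) s
  refine ⟨t, le_trans (by exact_mod_cast ht) hU, ?_⟩
  rw [update_zero, update_zero]
  exact h

variable {α β : Type} [Enc α] [Enc β]

theorem lin_of_R {g : α → β} (p : VP) (K : ℕ)
    (h : ∀ Γ a x y z, R Γ p (enc a :: x, y, z) (enc (g a) :: x, y, z) (K * sz a)) : Lin g := by
  refine ⟨p, K, by positivity, fun w a _ => R.ev (h w.Γ a) ?_⟩
  simp

theorem size_pos (v : Val) : 1 ≤ v.size := by cases v <;> simp [Val.size]

theorem sz_def (a : α) : (enc a).size = sz a := rfl
theorem sz_pos' (a : α) : 1 ≤ sz a := size_pos _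
theorem sz_nil' : sz ([] : List α) = 1 := rfl
theorem sz_cons' (a : α) (l : List α) : sz (a :: l) = sz a + sz l + 1 := rfl
theorem sz_pair' (a : α) (b : β) : sz (a, b) = sz a + sz b + 1 := rfl

/-! ### tail, head, emptiness -/

def tailP : VP := .case 0 .skip .skip .skip (.seq (.uncons 0) (.drop 0))

theorem lin_tail : Lin (fun l : List α => l.tail) := by
  refine lin_of_R tailP 2 fun Γ l x y z => ?_
  cases l with
  | nil => exact (R.run rfl).mono (by simp [sz_nil'])
  | cons a l =>
    refine (R.run rfl).mono ?_
    have := sz_pos' l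
    simp only [sz_def, sz_cons']
    omega

def headP : VP := .seq (.uncons 0) (.case 0 (.drop 0) .skip .skip
  (.seq (.uncons 0) (.seq (.move 0 1) (.seq (.drop 0) (.seq (.drop 0) (.move 1 0))))))

theorem lin_headD : Lin (fun p : List α × α => p.1.headD p.2) := by
  refine lin_of_R headP 2 fun Γ ⟨l, d⟩ x y z => ?_
  have := sz_pos' d
  cases l with
  | nil =>
    refine (R.run rfl).mono ?_
    change 1 + (1 + 1) ≤ _
    simp only [sz_pair', sz_nil']
    omega
  | cons a l =>
    refine (R.run rfl).mono ?_
    change 1 + (1 + (sz a + (sz l + (sz d + sz a))) + 1) ≤ _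
    simp only [sz_pair', sz_cons']
    omega

def emptyP : VP := .case 0 (.seq (.drop 0) (.push 0 (.bit true))) .skip .skip
  (.seq (.drop 0) (.push 0 (.bit false)))

theorem lin_isEmpty : Lin (fun l : List α => l.isEmpty) := by
  refine lin_of_R emptyP 3 fun Γ l x y z => ?_
  cases l with
  | nil => exact (R.run rfl).mono (le_refl 3)
  | cons a l =>
    refine (R.run rfl).mono ?_
    change sz (a :: l) + 1 + 1 ≤ _
    have := sz_pos' (a :: l)
    omega

/-! ### reversal and concatenation -/

/-- move the items of the list on top of `1` onto the list on top of `0` -/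
def revL : VP := .loop 1 (.seq (.uncons 1) (.seq (.move 1 0) (.cons 0)))

theorem revL_spec (Γ : VP) (l acc : List α) (x y z : List Val) :
    R Γ revL (enc acc :: x, enc l :: y, z) (enc (l.reverse ++ acc) :: x, .nil :: y, z)
      (3 * sz l) := by
  induction l generalizing acc with
  | nil => exact (R.loopN (by norm_num) rfl).mono (by simp [sz_nil'])
  | cons a l ih =>
    have h1 : R Γ (.seq (.uncons 1) (.seq (.move 1 0) (.cons 0)))
        (enc acc :: x, enc (a :: l) :: y, z) (enc (a :: acc) :: x, enc l :: y, z)
        (1 + (sz a + 1)) := R.run rfl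
    have h2 := R.loopC (by norm_num) rfl h1 (ih (a :: acc))
    rw [List.reverse_cons, List.append_assoc]
    refine h2.mono ?_
    simp only [sz_cons']
    omega

theorem lin_revAppend : Lin (fun p : List α × List α => p.1.reverse ++ p.2) := by
  refine lin_of_R (.seq (.seq (.uncons 0) (.move 0 1)) (.seq revL (.drop 1))) 4
    fun Γ ⟨l, l'⟩ x y z => ?_
  have h1 : R Γ (.seq (.uncons 0) (.move 0 1)) (enc (l, l') :: x, y, z)
      (enc l' :: x, enc l :: y, z) (1 + sz l) := R.run rfl
  have h2 : R Γ (.drop 1) (enc (l.reverse ++ l') :: x, .nil :: y, z)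
      (enc (l.reverse ++ l') :: x, y, z) 1 := R.run rfl
  refine (h1.seq ((revL_spec Γ l l' x y z).seq h2)).mono ?_
  simp only [sz_pair']
  omega

def flatL : VP := .loop 1 (.seq (.uncons 1) (.seq revL (.drop 1)))

theorem flatL_spec (Γ : VP) (L : List (List α)) (acc : List α) (x y z : List Val) :
    R Γ flatL (enc acc :: x, enc L :: y, z) (enc (L.flatten.reverse ++ acc) :: x, .nil :: y, z)
      (3 * sz L) := by
  induction L generalizing acc with
  | nil => exact (R.loopN (by norm_num) rfl).mono (by simp [sz_nil'])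
  | cons l L ih =>
    have h1 : R Γ (.uncons 1) (enc acc :: x, enc (l :: L) :: y, z)
        (enc acc :: x, enc l :: enc L :: y, z) 1 := R.run rfl
    have h3 : R Γ (.drop 1) (enc (l.reverse ++ acc) :: x, .nil :: enc L :: y, z)
        (enc (l.reverse ++ acc) :: x, enc L :: y, z) 1 := R.run rfl
    have h2 := R.loopC (by norm_num) rfl (h1.seq ((revL_spec Γ l acc x _ z).seq h3))
      (ih (l.reverse ++ acc))
    rw [List.flatten_cons, List.reverse_append, List.append_assoc]
    refine h2.mono ?_
    simp only [sz_cons']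
    omega

theorem lin_flatten_reverse : Lin (fun L : List (List α) => L.flatten.reverse) := by
  refine lin_of_R (.seq (.seq (.move 0 1) (.push 0 .nil)) (.seq flatL (.drop 1))) 6
    fun Γ L x y z => ?_
  have h1 : R Γ (.seq (.move 0 1) (.push 0 .nil)) (enc L :: x, y, z)
      (enc ([] : List α) :: x, enc L :: y, z) (sz L + 1) := R.run rfl
  have h2 : R Γ (.drop 1) (enc (L.flatten.reverse ++ []) :: x, .nil :: y, z)
      (enc (L.flatten.reverse ++ []) :: x, y, z) 1 := R.run rfl
  have h := h1.seq ((flatL_spec Γ L [] x y z).seq h2)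
  rw [List.append_nil] at h
  refine h.mono ?_
  have := sz_pos' L
  omega

/-! ### zip -/

def zipB : VP := .seq (.uncons 1) (.case 2 (.drop 1) .skip .skip
  (.seq (.uncons 2) (.seq (.move 2 0) (.seq (.move 1 0) (.seq (.cons 0) (.cons 0))))))

theorem zipL_spec (Γ : VP) (l : List α) (l' : List β) (acc : List (α × β)) (x y z : List Val) :
    R Γ (.loop 1 zipB) (enc acc :: x, enc l :: y, enc l' :: z)
      (enc ((l.zip l').reverse ++ acc) :: x, .nil :: y, enc (l'.drop l.length) :: z)
      (4 * sz l + sz l') := by
  induction l generalizing acc l' with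
  | nil => exact (R.loopN (by norm_num) rfl).mono (by simp only [sz_nil']; omega)
  | cons a l ih =>
    have := sz_pos' a
    cases l' with
    | nil =>
      have h1 : R Γ zipB (enc acc :: x, enc (a :: l) :: y, enc ([] : List β) :: z)
          (enc acc :: x, enc l :: y, enc ([] : List β) :: z) (1 + (sz a + 1)) := R.run rfl
      have h2 := R.loopC (by norm_num) rfl h1 (ih [] acc)
      simp only [List.zip_nil_right, List.drop_nil] at h2 ⊢
      refine h2.mono ?_
      simp only [sz_cons']
      omega
    | cons b l' =>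
      have h1 : R Γ zipB (enc acc :: x, enc (a :: l) :: y, enc (b :: l') :: z)
          (enc ((a, b) :: acc) :: x, enc l :: y, enc l' :: z)
          (1 + (1 + (sz b + (sz a + (1 + 1))) + 1)) := R.run rfl
      have h2 := R.loopC (by norm_num) rfl h1 (ih l' ((a, b) :: acc))
      rw [List.zip_cons_cons, List.reverse_cons, List.append_assoc, List.length_cons,
        List.drop_succ_cons]
      refine h2.mono ?_
      simp only [sz_cons']
      omega

theorem sz_drop_le (l : List α) (n : ℕ) : sz (l.drop n) ≤ sz l := by
  induction l generalizing n with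
  | nil => simp
  | cons a l ih =>
    cases n with
    | zero => simp
    | succ n =>
      have := ih n
      simp only [List.drop_succ_cons, sz_cons']
      omega

theorem lin_zip_reverse : Lin (fun p : List α × List β => (p.1.zip p.2).reverse) := by
  refine lin_of_R (.seq (.seq (.uncons 0) (.seq (.move 0 1) (.seq (.move 0 2) (.push 0 .nil))))
    (.seq (.loop 1 zipB) (.seq (.drop 1) (.drop 2)))) 5 fun Γ ⟨l, l'⟩ x y z => ?_
  have h1 : R Γ (.seq (.uncons 0) (.seq (.move 0 1) (.seq (.move 0 2) (.push 0 .nil))))
      (enc (l, l') :: x, y, z) (enc ([] : List (α × β)) :: x, enc l :: y, enc l' :: z)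
      (1 + (sz l + (sz l' + 1))) := R.run rfl
  have h2 : R Γ (.seq (.drop 1) (.drop 2))
      (enc ((l.zip l').reverse ++ []) :: x, .nil :: y, enc (l'.drop l.length) :: z)
      (enc ((l.zip l').reverse ++ []) :: x, y, z) (1 + sz (l'.drop l.length)) := R.run rfl
  have h := h1.seq ((zipL_spec Γ l l' [] x y z).seq h2)
  rw [List.append_nil] at h
  refine h.mono ?_
  have := sz_drop_le l' l.length
  simp only [sz_pair']
  omega

/-! ### drop -/

theorem dropL_spec (Γ : VP) (u : List β) (l : List α) (x y z : List Val) :
    R Γ (.loop 1 (.seq (.uncons 1) (.seq (.drop 1) tailP))) (enc l :: x, enc u :: y, z)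
      (enc (l.drop u.length) :: x, .nil :: y, z) (3 * sz u + sz l) := by
  induction u generalizing l with
  | nil => exact (R.loopN (by norm_num) rfl).mono (by simp only [sz_nil']; omega)
  | cons b u ih =>
    have := sz_pos' b
    cases l with
    | nil =>
      have h1 : R Γ (.seq (.uncons 1) (.seq (.drop 1) tailP))
          (enc ([] : List α) :: x, enc (b :: u) :: y, z)
          (enc ([] : List α) :: x, enc u :: y, z) (1 + (sz b + (1 + 1))) := R.run rfl
      have h2 := R.loopC (by norm_num) rfl h1 (ih [])
      simp only [List.drop_nil] at h2 ⊢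
      refine h2.mono ?_
      simp only [sz_cons']
      omega
    | cons a l =>
      have h1 : R Γ (.seq (.uncons 1) (.seq (.drop 1) tailP))
          (enc (a :: l) :: x, enc (b :: u) :: y, z)
          (enc l :: x, enc u :: y, z) (1 + (sz b + (1 + sz a + 1))) := R.run rfl
      have h2 := R.loopC (by norm_num) rfl h1 (ih l)
      rw [List.length_cons, List.drop_succ_cons]
      refine h2.mono ?_
      simp only [sz_cons']
      omega

theorem lin_drop : Lin (fun p : List β × List α => p.2.drop p.1.length) := by
  refine lin_of_R (.seq (.seq (.uncons 0) (.move 0 1))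
    (.seq (.loop 1 (.seq (.uncons 1) (.seq (.drop 1) tailP))) (.drop 1))) 4
    fun Γ ⟨u, l⟩ x y z => ?_
  have h1 : R Γ (.seq (.uncons 0) (.move 0 1)) (enc (u, l) :: x, y, z)
      (enc l :: x, enc u :: y, z) (1 + sz u) := R.run rfl
  have h2 : R Γ (.drop 1) (enc (l.drop u.length) :: x, .nil :: y, z)
      (enc (l.drop u.length) :: x, y, z) 1 := R.run rfl
  refine (h1.seq ((dropL_spec Γ u l x y z).seq h2)).mono ?_
  simp only [sz_pair']
  omega

/-! ### the binary counter -/

def inc : List Bool → List Bool
  | [] => [true]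
  | false :: l => true :: l
  | true :: l => false :: inc l

theorem bits_succ (n : ℕ) : (n + 1).bits = inc n.bits := by
  induction n using Nat.binaryRec' with
  | zero => simp [inc]
  | bit b n hn ih =>
    rw [Nat.bits_append_bit n b hn]
    cases b with
    | false =>
      have : Nat.bit false n + 1 = Nat.bit true n := by simp [Nat.bit]
      rw [this, Nat.bits_append_bit n true (fun _ => rfl)]
      rfl
    | true =>
      have : Nat.bit true n + 1 = Nat.bit false (n + 1) := by simp [Nat.bit]; ring
      rw [this, Nat.bits_append_bit (n + 1) false (by simp), ih]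
      rfl

/-- the cost of an increment -/
def cinc : List Bool → ℕ
  | [] => 3
  | false :: _ => 6
  | true :: l => cinc l + 7

theorem cinc_le (l : List Bool) :
    cinc l + 7 * (inc l).count true ≤ 7 * l.count true + 13 := by
  induction l with
  | nil => simp [cinc, inc]
  | cons b l ih =>
    cases b with
    | false => simp [cinc, inc]; omega
    | true => simp [cinc, inc]; omega

def incB : VP := .case 0 (.seq (.push 0 (.bit true)) (.cons 0)) .skip .skip
  (.seq (.uncons 0) (.case 0 .skip (.seq (.drop 0) (.seq (.push 0 (.bit true)) (.cons 0)))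
    (.seq (.drop 0) (.seq .self (.seq (.push 0 (.bit false)) (.cons 0)))) .skip))

theorem incB_spec (l : List Bool) (x y z : List Val) :
    R incB incB (enc l :: x, y, z) (enc (inc l) :: x, y, z) (cinc l) := by
  induction l with
  | nil => exact R.run rfl
  | cons b l ih =>
    cases b with
    | false => exact R.run rfl
    | true =>
      have h1 : R incB (.uncons 0) (enc (true :: l) :: x, y, z) (.bit true :: enc l :: x, y, z) 1 :=
        R.run rfl
      have h2 : R incB (.drop 0) (.bit true :: enc l :: x, y, z) (enc l :: x, y, z) 1 := R.run rfl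
      have h3 : R incB (.seq (.push 0 (.bit false)) (.cons 0)) (enc (inc l) :: x, y, z)
          (enc (inc (true :: l)) :: x, y, z) 2 := R.run rfl
      refine (R.caseC (by norm_num) rfl (h1.seq (R.caseT (by norm_num) rfl
        (h2.seq (ih.self.seq h3))))).mono ?_
      simp only [cinc]
      omega

theorem lenL_spec (Γ : VP) (l : List α) (n : ℕ) (x y z : List Val) :
    R Γ (.loop 1 (.seq (.seq (.uncons 1) (.drop 1)) (.fix incB))) (enc n :: x, enc l :: y, z)
      (enc (n + l.length) :: x, .nil :: y, z) (16 * sz l + 7 * n.bits.count true) := by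
  induction l generalizing n with
  | nil => exact (R.loopN (by norm_num) rfl).mono (by simp only [sz_nil']; omega)
  | cons a l ih =>
    have h1 : R Γ (.seq (.uncons 1) (.drop 1)) (enc n :: x, enc (a :: l) :: y, z)
        (enc n :: x, enc l :: y, z) (1 + sz a) := R.run rfl
    have h2 : R Γ (.fix incB) (enc n :: x, enc l :: y, z) (enc (n + 1) :: x, enc l :: y, z)
        (cinc n.bits + 1) := by
      have := (incB_spec n.bits x (enc l :: y) z).fix (Γ := Γ)
      rw [← bits_succ] at this
      exact this
    have h := R.loopC (by norm_num) rfl (h1.seq h2) (ih (n + 1))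
    have e : n + (a :: l).length = n + 1 + l.length := by simp; ring
    rw [e]
    refine h.mono ?_
    have := cinc_le n.bits
    rw [← bits_succ] at this
    simp only [sz_cons']
    omega

theorem lin_length : Lin (fun l : List α => l.length) := by
  refine lin_of_R (.seq (.seq (.move 0 1) (.push 0 .nil))
    (.seq (.loop 1 (.seq (.seq (.uncons 1) (.drop 1)) (.fix incB))) (.drop 1))) 19
    fun Γ l x y z => ?_
  have h1 : R Γ (.seq (.move 0 1) (.push 0 .nil)) (enc l :: x, y, z)
      (enc (0 : ℕ) :: x, enc l :: y, z) (sz l + 1) := by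
    have : enc (0 : ℕ) = Val.nil := by
      change enc (Nat.bits 0) = _
      rw [Nat.zero_bits]
      rfl
    rw [this]
    exact R.run rfl
  have h2 : R Γ (.drop 1) (enc (0 + l.length) :: x, .nil :: y, z)
      (enc (0 + l.length) :: x, y, z) 1 := R.run rfl
  have h := h1.seq ((lenL_spec Γ l 0 x y z).seq h2)
  rw [Nat.zero_add] at h
  refine h.mono ?_
  have := sz_pos' l
  simp only [Nat.zero_bits, List.count_nil]
  omega

end Crest.Agent.R326.P0
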