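import Crest.Agent.R326.Loops
import Crest.Agent.R326.Prims0Aux

/-! Row 326: bulk primitives on lists. -/

set_option autoImplicit false

namespace Crest.Agent.R326

variable {α β γ : Type} [Enc α] [Enc β] [Enc γ]

@[fun_prop] theorem Lin.cons {f : γ → α} {l : γ → List α} (hf : Lin f) (hl : Lin l) :
    Lin (fun a => f a :: l a) :=
  Lin.comp (g := fun p : α × List α => p.1 :: p.2) (Lin.of_enc_eq fun _ => rfl) (hf.pair hl)
@[fun_prop] theorem Lin.tail {l : γ → List α} (hl : Lin l) : Lin (fun a => (l a).tail) :=
  Lin.comp P0.lin_tail hl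
@[fun_prop] theorem Lin.headD {l : γ → List α} {d : γ → α} (hl : Lin l) (hd : Lin d) :
    Lin (fun a => (l a).headD (d a)) :=
  Lin.comp P0.lin_headD (hl.pair hd)
@[fun_prop] theorem Lin.isEmpty {l : γ → List α} (hl : Lin l) : Lin (fun a => (l a).isEmpty) :=
  Lin.comp P0.lin_isEmpty hl
@[fun_prop] theorem Lin.reverse {l : γ → List α} (hl : Lin l) : Lin (fun a => (l a).reverse) := by
  simpa using Lin.comp P0.lin_revAppend (hl.pair (Lin.const ([] : List α)))
@[fun_prop] theorem Lin.append {l l' : γ → List α} (hl : Lin l) (hl' : Lin l') :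
    Lin (fun a => l a ++ l' a) := by
  simpa using Lin.comp P0.lin_revAppend (hl.reverse.pair hl')
@[fun_prop] theorem Lin.flatten {l : γ → List (List α)} (hl : Lin l) :
    Lin (fun a => (l a).flatten) := by
  simpa only [List.reverse_reverse] using (Lin.comp P0.lin_flatten_reverse hl).reverse
@[fun_prop] theorem Lin.zip {l : γ → List α} {l' : γ → List β} (hl : Lin l) (hl' : Lin l') :
    Lin (fun a => (l a).zip (l' a)) := by
  simpa only [List.reverse_reverse] using (Lin.comp P0.lin_zip_reverse (hl.pair hl')).reverse
theorem Lin.zipWith {δ : Type} [Enc δ] {g : α → β → δ} {l : γ → List α} {l' : γ → List β}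
    (hg : Lin fun p : α × β => g p.1 p.2) (hl : Lin l) (hl' : Lin l') :
    Lin (fun a => List.zipWith g (l a) (l' a)) := by
  have e : ∀ (u : List α) (v : List β),
      List.zipWith g u v = (u.zip v).map fun p : α × β => g p.1 p.2 := by
    intro u
    induction u with
    | nil => intro v; simp
    | cons a u ih => intro v; cases v <;> simp [ih]
  simp only [e]
  exact Lin.map hg (hl.zip hl')
/-- `take` and `drop` by a unary number (the length of any list) -/
@[fun_prop] theorem Lin.take {u : γ → List β} {l : γ → List α} (hu : Lin u) (hl : Lin l) :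
    Lin (fun a => (l a).take (u a).length) := by
  have e : ∀ (u : List β) (v : List α), v.take u.length = (u.zip v).map fun p => p.2 := by
    intro u
    induction u with
    | nil => intro v; simp
    | cons a u ih => intro v; cases v <;> simp [ih]
  simp only [e]
  exact Lin.map (Lin.snd Lin.id) (hu.zip hl)
@[fun_prop] theorem Lin.drop {u : γ → List β} {l : γ → List α} (hu : Lin u) (hl : Lin l) :
    Lin (fun a => (l a).drop (u a).length) :=
  Lin.comp P0.lin_drop (hu.pair hl)
theorem Lin.filter {q : α → Bool} {l : γ → List α} (hq : Lin q) (hl : Lin l) :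
    Lin (fun a => (l a).filter q) := by
  have e : ∀ u : List α, u.filter q = (u.map fun x => _root_.cond (q x) [x] []).flatten := by
    intro u
    induction u with
    | nil => simp
    | cons a u ih => cases h : q a <;> simp [h, ih]
  simp only [e]
  exact (Lin.map (Lin.cond hq (Lin.cons Lin.id (Lin.const [])) (Lin.const [])) hl).flatten
/-- the length in binary, in linear time -/
@[fun_prop] theorem Lin.length {l : γ → List α} (hl : Lin l) : Lin (fun a => (l a).length) :=
  Lin.comp P0.lin_length hl
@[fun_prop] theorem Lin.not {b : γ → Bool} (hb : Lin b) : Lin (fun a => !(b a)) := by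
  have e : ∀ x : Bool, (!x) = _root_.cond x false true := by decide
  simp only [e]
  exact Lin.cond hb (Lin.const false) (Lin.const true)
@[fun_prop] theorem Lin.and {b b' : γ → Bool} (hb : Lin b) (hb' : Lin b') :
    Lin (fun a => (b a && b' a)) := by
  have e : ∀ x y : Bool, (x && y) = _root_.cond x y false := by decide
  simp only [e]
  exact Lin.cond hb hb' (Lin.const false)
@[fun_prop] theorem Lin.or {b b' : γ → Bool} (hb : Lin b) (hb' : Lin b') :
    Lin (fun a => (b a || b' a)) := by
  have e : ∀ x y : Bool, (x || y) = _root_.cond x true y := by decide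
  simp only [e]
  exact Lin.cond hb (Lin.const true) hb'
@[fun_prop] theorem Lin.xor {b b' : γ → Bool} (hb : Lin b) (hb' : Lin b') :
    Lin (fun a => xor (b a) (b' a)) := by
  have e : (fun a => Bool.xor (b a) (b' a)) = fun a => _root_.cond (b a) (!(b' a)) (b' a) := by
    funext a
    cases b a <;> cases b' a <;> rfl
  exact e ▸ Lin.cond hb hb'.not hb'
/-- entry at a fixed position -/
theorem Lin.getD_const (n : ℕ) (d : α) : Lin (fun l : List α => l.getD n d) := by
  induction n with
  | zero =>
    have e : (fun l : List α => l.getD 0 d) = fun l => l.headD d := by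
      funext l
      cases l <;> rfl
    exact e ▸ Lin.headD Lin.id (Lin.const d)
  | succ n ih =>
    have e : (fun l : List α => l.getD (n + 1) d) = fun l => l.tail.getD n d := by
      funext l
      cases l <;> simp
    exact e ▸ Lin.comp ih (Lin.tail Lin.id)
/-- a fixed number of computed items -/
theorem Lin.ofFn {n : ℕ} {f : Fin n → γ → α} (hf : ∀ j, Lin (f j)) :
    Lin (fun a => List.ofFn fun j => f j a) := by
  induction n with
  | zero => simpa using Lin.const (α := γ) ([] : List α)
  | succ n ih =>
    simp only [List.ofFn_succ]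
    exact Lin.cons (hf 0) (ih fun j => hf j.succ)

end Crest.Agent.R326
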