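import Crest.Agent.R326.PolyInt

/-! Row 326: rational approximations of roots of unity in polynomial time. -/

set_option autoImplicit false

namespace Crest.Agent.R326

namespace Root

open Real

def zz (b t : ℕ) : GaussianInt := ⟨((2 ^ b : ℕ) : ℤ), (t : ℤ)⟩

noncomputable def th (b t : ℕ) : ℝ := arctan (t / 2 ^ b)

theorem th_nonneg (b t : ℕ) : 0 ≤ th b t := arctan_nonneg.2 (by positivity)

theorem th_le {b t : ℕ} (h : t ≤ 2 ^ b) : th b t ≤ π / 4 := by
  rw [← arctan_one]
  refine arctan_mono ((div_le_one (by positivity)).2 ?_)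
  exact_mod_cast h

theorem th_succ (b t : ℕ) : th b (t + 1) - th b t ≤ 1 / 2 ^ b := by
  have h : LipschitzWith 1 arctan := lipschitzWith_of_nnnorm_deriv_le differentiable_arctan
    fun x => by
      rw [← NNReal.coe_le_coe, coe_nnnorm, Real.deriv_arctan, NNReal.coe_one, Real.norm_eq_abs,
        abs_of_nonneg (by positivity), div_le_one (by positivity)]
      nlinarith [sq_nonneg x]
  have h1 := h.dist_le_mul (((t + 1 : ℕ) : ℝ) / 2 ^ b) (t / 2 ^ b)
  rw [Real.dist_eq, Real.dist_eq, NNReal.coe_one, one_mul] at h1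
  have h2 : (((t + 1 : ℕ) : ℝ) / 2 ^ b) - t / 2 ^ b = 1 / 2 ^ b := by push_cast; ring
  rw [h2, abs_of_nonneg (a := (1 : ℝ) / 2 ^ b) (by positivity)] at h1
  exact (le_abs_self _).trans h1

theorem polar (b t : ℕ) : ∃ r : ℝ, 0 < r ∧ ((zz b t : GaussianInt) : ℂ) =
    r * Complex.exp (th b t * Complex.I) := by
  have hc : 0 < cos (th b t) := cos_arctan_pos _
  have ht : sin (th b t) = t / 2 ^ b * cos (th b t) := by
    have := tan_arctan ((t : ℝ) / 2 ^ b)
    rw [tan_eq_sin_div_cos] at this
    exact (div_eq_iff hc.ne').1 this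
  refine ⟨2 ^ b / cos (th b t), by positivity, ?_⟩
  rw [zz, GaussianInt.toComplex_def', Complex.exp_mul_I, ← Complex.ofReal_cos, ← Complex.ofReal_sin,
    ht]
  have : ((cos (th b t) : ℝ) : ℂ) ≠ 0 := by exact_mod_cast hc.ne'
  generalize cos (th b t) = c at *
  push_cast
  field_simp

theorem im_pow (b t j : ℕ) : 0 ≤ (zz b t ^ j).im ↔ 0 ≤ sin (j * th b t) := by
  obtain ⟨r, hr, h⟩ := polar b t
  have h1 : (((zz b t ^ j).im : ℤ) : ℝ) = r ^ j * sin (j * th b t) := by
    rw [GaussianInt.intCast_im, map_pow, h, mul_pow, ← Complex.exp_nat_mul, ← mul_assoc,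
      ← Complex.ofReal_pow, Complex.im_ofReal_mul]
    congr 1
    have := Complex.exp_ofReal_mul_I_im (j * th b t)
    rwa [Complex.ofReal_mul, Complex.ofReal_natCast] at this
  rw [← Int.cast_nonneg_iff (R := ℝ), h1, mul_nonneg_iff_of_pos_left (by positivity)]

def ok (M b t : ℕ) : Prop := ∀ j ≤ M, 0 ≤ (zz b t ^ j).im

theorem ok_of_le {M b t : ℕ} (h : M * th b t ≤ π) : ok M b t := fun j hj => by
  rw [im_pow]
  have h0 := th_nonneg b t
  refine sin_nonneg_of_nonneg_of_le_pi (by positivity) (le_trans ?_ h)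
  gcongr

theorem le_of_ok {M b t : ℕ} (ht : t ≤ 2 ^ b) (h : ok M b t) : M * th b t ≤ π := by
  have key : ∀ j ≤ M, j * th b t ≤ π := by
    intro j
    induction j with
    | zero => intro _; simp [pi_pos.le]
    | succ j ih =>
      intro hj
      have h1 := ih (by omega)
      have h2 := (im_pow b t _).1 (h _ hj)
      have h3 := th_le ht
      by_contra h4
      have h5 : 0 < sin (((j + 1 : ℕ) : ℝ) * th b t - π) := by
        refine sin_pos_of_pos_of_lt_pi (by linarith) ?_
        push_cast; nlinarith [pi_pos]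
      rw [sin_sub_pi] at h5
      linarith
  exact key M le_rfl

theorem ok_zero (M b : ℕ) : ok M b 0 := ok_of_le (by simp [th, pi_pos.le])

theorem not_ok {M : ℕ} (hM : 8 ≤ M) (b : ℕ) : ¬ ok M b (2 ^ b) := fun h => by
  have h1 := le_of_ok le_rfl h
  have h2 : th b (2 ^ b) = π / 4 := by simp [th]
  have h3 : (8 : ℝ) ≤ M := by exact_mod_cast hM
  rw [h2] at h1
  nlinarith [pi_pos]

def okB (u : List Unit × List Unit) (t : ℕ) : Bool :=
  (List.range (() :: u.1).length).all fun j =>
    decide (0 ≤ ((⟨((2 ^ u.2.length : ℕ) : ℤ), (t : ℤ)⟩ : GaussianInt) ^ (u.1.take j).length).im)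

theorem okB_iff (M b t : ℕ) : okB (un M, un b) t = true ↔ ok M b t := by
  simp only [okB, List.all_eq_true, List.mem_range, List.length_cons, List.length_replicate,
    List.length_take, decide_eq_true_iff, ok, zz, Nat.lt_succ_iff]
  exact forall₂_congr fun j hj => by rw [min_eq_left hj]

theorem poly_okB : Poly fun p : (List Unit × List Unit) × ℕ => okB p.1 p.2 := by
  unfold okB
  fun_prop

def step (u : List Unit × List Unit) (t j : ℕ) : ℕ :=
  cond (okB u (t + 2 ^ (u.2.take j).length)) (t + 2 ^ (u.2.take j).length) t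

def tt (u : List Unit × List Unit) : ℕ := (List.range u.2.length).reverse.foldl (step u) 0

theorem poly_tt : Poly tt := by
  refine Poly.foldl_add (f := step) (s := fun _ => 0) ?_ (Poly.const 0) (by fun_prop) 4 1
    fun u t j _ => ?_
  · have h1 : Poly fun p : (List Unit × List Unit) × ℕ × ℕ =>
        p.2.1 + 2 ^ (p.1.2.take p.2.2).length := by fun_prop
    exact Poly.cond (poly_okB.comp (Poly.id.fst.pair h1)) h1 (by fun_prop)
  · unfold step
    cases okB u (t + 2 ^ (u.2.take j).length)
    · simp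
    · have h1 := size_add_le' t (2 ^ (u.2.take j).length)
      have h2 : (u.2.take j).length ≤ sz u := by
        have := length_le_sz u.2
        have h3 : sz u = sz u.1 + sz u.2 + 1 := rfl
        rw [List.length_take]; omega
      rw [Nat.size_pow] at h1
      simp only [cond_true, sz_nat, pow_one]
      omega

theorem foldl_step (M b : ℕ) : ∀ s t : ℕ, s ≤ b → ok M b t → ¬ ok M b (t + 2 ^ s) →
    t + 2 ^ s ≤ 2 ^ b → ∃ t', (List.range s).reverse.foldl (step (un M, un b)) t = t' ∧
      ok M b t' ∧ ¬ ok M b (t' + 1) ∧ t' + 1 ≤ 2 ^ b := by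
  intro s
  induction s with
  | zero => intro t _ h1 h2 h3; exact ⟨t, rfl, h1, h2, h3⟩
  | succ s ih =>
    intro t hs h1 h2 h3
    rw [List.range_succ, List.reverse_append, List.reverse_singleton, List.singleton_append,
      List.foldl_cons]
    have e : ((un b).take s).length = s := by simp; omega
    have e2 : t + 2 ^ s + 2 ^ s = t + 2 ^ (s + 1) := by rw [pow_succ]; omega
    by_cases h : ok M b (t + 2 ^ s)
    · have : step (un M, un b) t s = t + 2 ^ s := by
        simp only [step, e, (okB_iff _ _ _).2 h, cond_true]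
      rw [this]
      exact ih _ (by omega) h (e2 ▸ h2) (e2 ▸ h3)
    · have : step (un M, un b) t s = t := by
        have h' : okB (un M, un b) (t + 2 ^ s) = false := by
          rw [← Bool.not_eq_true, okB_iff]; exact h
        simp only [step, e, h', cond_false]
      rw [this]
      exact ih _ (by omega) h1 h (by rw [pow_succ] at h3; omega)

end Root

open Root in
/-- `z² / |z|²` approximates `exp (2πi / M)`; `M` and the precision `b` in unary -/
theorem exists_root : ∃ rt : List Unit × List Unit → GaussianInt, Poly rt ∧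
    ∀ M b : ℕ, 8 ≤ M → rt (un M, un b) ≠ 0 ∧
      ‖((rt (un M, un b) : GaussianInt) : ℂ) ^ 2 / ((rt (un M, un b)).norm : ℂ) -
        Complex.exp (2 * Real.pi * Complex.I / M)‖ ≤ 4 / 2 ^ b := by
  refine ⟨fun u => ⟨((2 ^ u.2.length : ℕ) : ℤ), (tt u : ℤ)⟩, ?_, fun M b hM => ?_⟩
  · have := poly_tt
    fun_prop
  obtain ⟨t, h0, h1, h2, h3⟩ := foldl_step M b b 0 le_rfl (ok_zero M b)
    (by simpa using not_ok hM b) (by simp)
  have e : (⟨((2 ^ (un M, un b).2.length : ℕ) : ℤ), (tt (un M, un b) : ℤ)⟩ : GaussianInt) =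
      zz b t := by
    simp only [tt, List.length_replicate, h0, zz]
  simp only [e]
  obtain ⟨r, hr, h⟩ := polar b t
  have hr' : (r : ℂ) ≠ 0 := by exact_mod_cast hr.ne'
  refine ⟨fun h0 => ?_, ?_⟩
  · rw [h0, map_zero] at h
    exact mul_ne_zero hr' (Complex.exp_ne_zero _) h.symm
  have hM0 : (0 : ℝ) < M := by exact_mod_cast (by omega : 0 < M)
  have a1 : th b t ≤ Real.pi / M := by
    rw [le_div_iff₀ hM0, mul_comm]; exact le_of_ok (by omega) h1
  have a2 : Real.pi / M ≤ th b (t + 1) := by
    rw [div_le_iff₀ hM0, mul_comm]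
    by_contra h4
    exact h2 (ok_of_le (not_le.1 h4).le)
  have a3 := th_succ b t
  have e1 : ((zz b t : GaussianInt) : ℂ) ^ 2 / ((zz b t).norm : ℂ) -
      Complex.exp (2 * Real.pi * Complex.I / M) = Complex.exp (2 * Real.pi * Complex.I / M) *
        (Complex.exp (Complex.I * ((2 * (th b t - Real.pi / M) : ℝ) : ℂ)) - 1) := by
    rw [GaussianInt.intCast_complex_norm, h, Complex.normSq_eq_norm_sq, norm_mul,
      Complex.norm_exp_ofReal_mul_I, mul_one, Complex.norm_real, Real.norm_of_nonneg hr.le, mul_sub,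
      ← Complex.exp_add, mul_pow, ← Complex.exp_nat_mul, mul_one]
    push_cast
    rw [mul_div_cancel_left₀ _ (pow_ne_zero 2 hr')]
    congr 2
    ring
  have e2 : ‖Complex.exp (2 * Real.pi * Complex.I / M)‖ = 1 := by
    rw [← Complex.norm_exp_ofReal_mul_I (2 * Real.pi / M)]
    congr 2
    push_cast; ring
  rw [e1, norm_mul, e2, one_mul]
  refine Real.norm_exp_I_mul_ofReal_sub_one_le.trans ?_
  rw [Real.norm_eq_abs, abs_of_nonpos (by linarith)]
  have : (4 : ℝ) / 2 ^ b = 4 * (1 / 2 ^ b) := by ring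
  have : (0 : ℝ) < 1 / 2 ^ b := by positivity
  linarith

end Crest.Agent.R326
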