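import Crest.Agent.R326.Rules0

/-! Row 326: derived rules: closed subroutines, the recursion-free judgement, linear time. -/

set_option autoImplicit false

namespace Crest.Agent.R326

section cf
variable {ι ι' α α' β β' γ δ : Type} [Enc α] [Enc α'] [Enc β] [Enc β'] [Enc γ] [Enc δ]
  {pre pre' : World → ι → Prop} {inp : ι → α} {σ σ' c c' d : ι → ℝ}

namespace RulesAux

theorem exec_cast {Γ p : VP} {s s' s'' : St} {t : ℕ} (h : Exec Γ p s s' t) (e : s' = s'') :
    Exec Γ p s s'' t := e ▸ h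

theorem pos_of_one (h1 : Le pre (fun _ => 1) σ) {w : World} {i : ι} (h : pre w i) : 0 ≤ σ i := by
  obtain ⟨K, hK, H⟩ := h1
  have := H w i h
  by_contra hn
  have : K * σ i ≤ 0 := mul_nonpos_of_nonneg_of_nonpos hK (not_le.1 hn).le
  linarith

/-- branch in place on the shape of a value -/
theorem caseVal {x : ι → Val} {out : ι → β} (h1 : Le pre (fun _ => 1) σ)
    (hn : Cf (fun w i => pre w i ∧ x i = .nil) x out σ c)
    (hf : Cf (fun w i => pre w i ∧ x i = .bit false) x out σ c)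
    (ht : Cf (fun w i => pre w i ∧ x i = .bit true) x out σ c)
    (hc : Cf (fun w i => pre w i ∧ ∃ a b, x i = .cons a b) x out σ c) : Cf pre x out σ c := by
  obtain ⟨pn, Kn, hKn, Hn⟩ := hn
  obtain ⟨pf, Kf, hKf, Hf⟩ := hf
  obtain ⟨pt, Kt, hKt, Ht⟩ := ht
  obtain ⟨pc, Kc, hKc, Hc⟩ := hc
  obtain ⟨K, hK, H⟩ := id h1
  refine ⟨.case 0 pn pf pt pc, K + Kn + Kf + Kt + Kc, by positivity, fun w i hi s => ?_⟩
  have h0 := pos_of_one h1 hi
  have h2 := H w i hi
  have a1 := mul_nonneg hKn h0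
  have a2 := mul_nonneg hKf h0
  have a3 := mul_nonneg hKt h0
  have a4 := mul_nonneg hKc h0
  have e0 : ∀ v : Val, x i = v →
      Function.update s 0 (enc (x i) :: s 0) 0 = v :: s 0 := fun v hv => by
    rw [Function.update_self, hv]; rfl
  cases hx : x i with
  | nil =>
    obtain ⟨t, ht, e⟩ := Hn w i ⟨hi, hx⟩ s
    rw [← hx]
    exact ⟨t + 1, by push_cast; nlinarith, .caseN (e0 _ hx) e⟩
  | bit b =>
    cases b with
    | false =>
      obtain ⟨t, ht, e⟩ := Hf w i ⟨hi, hx⟩ s
      rw [← hx]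
      exact ⟨t + 1, by push_cast; nlinarith, .caseF (e0 _ hx) e⟩
    | true =>
      obtain ⟨t, ht, e⟩ := Ht w i ⟨hi, hx⟩ s
      rw [← hx]
      exact ⟨t + 1, by push_cast; nlinarith, .caseT (e0 _ hx) e⟩
  | cons a b =>
    obtain ⟨t, ht, e⟩ := Hc w i ⟨hi, a, b, hx⟩ s
    rw [← hx]
    exact ⟨t + 1, by push_cast; nlinarith, .caseC (e0 _ hx) e⟩

theorem lin_fst : Lin (fun p : α × β => p.1) := by
  refine ⟨.seq (.uncons 0) (.seq (.move 0 1) (.seq (.drop 0) (.move 1 0))), 2, by norm_num,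
    fun w p _ s => ⟨1 + (sz p.1 + (sz p.2 + sz p.1)), ?_, ?_⟩⟩
  · obtain ⟨a, b⟩ := p
    simp only [sz_pair]; push_cast
    have : (0 : ℝ) ≤ sz b := Nat.cast_nonneg _
    linarith
  · refine .seq (.uncons _ (a := enc p.1) (b := enc p.2) (l := s 0) (Function.update_self ..))
      (.seq (.move _ 1 (v := enc p.1) (l := enc p.2 :: s 0) (Function.update_self ..))
      (.seq (.drop _ (v := enc p.2) (l := s 0) (by simp))
      (exec_cast (.move _ 0 (v := enc p.1) (l := s 1) (by simp)) ?_)))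
    funext r
    by_cases h0 : r = 0
    · subst h0; simp
    · by_cases h1 : r = 1
      · subst h1; simp
      · simp [h0, h1]

theorem lin_snd : Lin (fun p : α × β => p.2) := by
  refine ⟨.seq (.uncons 0) (.drop 0), 1, by norm_num,
    fun w p _ s => ⟨1 + sz p.1, ?_, ?_⟩⟩
  · obtain ⟨a, b⟩ := p
    simp only [sz_pair]; push_cast
    have : (0 : ℝ) ≤ sz b := Nat.cast_nonneg _
    linarith
  · refine .seq (.uncons _ (a := enc p.1) (b := enc p.2) (l := s 0) (Function.update_self ..))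
      (exec_cast (.drop _ (v := enc p.1) (l := enc p.2 :: s 0) (Function.update_self ..)) ?_)
    simp

theorem lin_const (b : β) : Lin (fun _ : α => b) := Cf.const Le.refl b

theorem lin_sz {g : α → β} (h : Lin g) :
    Le (fun _ _ => True) (fun a => (sz (g a) : ℝ)) (fun a => (sz a : ℝ)) := Cf.sz_le h Le.refl

theorem lin_comp {g : β → γ} {f : α → β} (hg : Lin g) (hf : Lin f) : Lin (fun a => g (f a)) :=
  Cf.lin hg hf (lin_sz hf)

theorem lin_cond {b : α → Bool} {f g : α → β} (hb : Lin b) (hf : Lin f) (hg : Lin g) :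
    Lin (fun a => cond (b a) (f a) (g a)) := by
  have h := Cf.ite (pre := fun _ _ => True) (inp := fun a : α => a) Le.refl hb
    (Cf.mono hf (fun _ _ _ => trivial) Le.refl fun _ _ _ => le_rfl)
    (Cf.mono hg (fun _ _ _ => trivial) Le.refl fun _ _ _ => le_rfl)
  refine (Cf.mono h (fun _ _ h => h) Le.refl fun _ _ _ => (add_zero _).le).congr
    (fun _ _ _ => rfl) fun _ a _ => ?_
  cases b a <;> rfl

def vfst : Val → Val
  | .cons a _ => a
  | _ => .nil

def vsnd : Val → Val
  | .cons _ b => b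
  | _ => .nil

theorem lin_valCases {g : Val → β} (hc : Lin (fun p : Val × Val => g (.cons p.1 p.2))) :
    Lin g := by
  have hk : ∀ v : Val, Cf (fun (_ : World) (x : Val) => True ∧ x = v) (fun x => x) g
      (fun x => (sz x : ℝ)) (fun _ => 0) := fun v =>
    (Cf.const Le.refl (g v)).congr (fun _ _ _ => rfl) fun _ _ h => by rw [h.2]
  refine caseVal (Le.const_of_sz (a := fun x : Val => x) Le.refl 1) (hk _) (hk _) (hk _) ?_
  have h := Cf.reindex hc (pre' := fun _ x => True ∧ ∃ a b, x = Val.cons a b)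
    (fun x => (vfst x, vsnd x)) fun _ _ _ => trivial
  refine Cf.mono (h.congr ?_ ?_) (fun _ _ h => h) (Le.of_le ?_) fun _ _ _ => le_rfl
  · rintro _ _ ⟨-, a, b, rfl⟩; rfl
  · rintro _ _ ⟨-, a, b, rfl⟩; rfl
  · rintro _ _ ⟨-, a, b, rfl⟩; exact le_rfl

open Classical in
theorem lin_eq (v : Val) : Lin (fun x : Val => decide (x = v)) := by
  induction v with
  | nil => exact lin_valCases (by simpa using lin_const false)
  | bit b => exact lin_valCases (by simpa using lin_const false)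
  | cons a b iha ihb =>
    refine lin_valCases ?_
    have h := lin_cond (lin_comp iha (lin_fst (α := Val) (β := Val)))
      (lin_comp ihb (lin_snd (α := Val) (β := Val))) (lin_const false)
    refine Cf.congr h (fun _ _ _ => rfl) fun _ p _ => congrArg enc ?_
    by_cases h1 : p.1 = a <;> simp [h1]

theorem casesList {κ : Type} (key : ι → κ) {out : ι → β} (code : κ → Val)
    (hcode : Function.Injective code) (hs : Le pre (fun i => (sz (inp i) : ℝ)) σ)
    (hk : Cf pre inp (fun i => code (key i)) σ (fun _ => 0))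
    (h : ∀ k, Cf (fun w i => pre w i ∧ key i = k) inp out σ c) (L : List κ) :
    Cf (fun w i => pre w i ∧ key i ∈ L) inp out σ c := by
  classical
  induction L with
  | nil => exact ⟨.skip, 0, le_rfl, fun _ _ h => absurd h.2 List.not_mem_nil⟩
  | cons k L ih =>
    have hb := Cf.lin (lin_eq (code k)) hk (Cf.sz_le hk hs)
    have h2 := Cf.ite (pre := fun w i => pre w i ∧ key i ∈ k :: L) (f := out) (g := out) (c := c)
      (hs.mono_pre fun _ _ h => h.1) (hb.mono (fun _ _ h => h.1) Le.refl fun _ _ _ => le_rfl)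
      ((h k).mono (fun _ _ h => ⟨h.1.1, hcode (of_decide_eq_true h.2)⟩) Le.refl
        fun _ _ _ => le_rfl)
      (ih.mono (fun _ i h => ⟨h.1.1, (List.mem_cons.1 h.1.2).resolve_left fun e =>
        of_decide_eq_false h.2 (by rw [e])⟩) Le.refl fun _ _ _ => le_rfl)
    exact (h2.mono (fun _ _ h => h) Le.refl fun _ _ _ => (zero_add _).le).congr
      (fun _ _ _ => rfl) fun _ _ _ => by rw [ite_self]

omit [Enc α] in
theorem encList_inj {e : α → Val} (he : Function.Injective e) : Function.Injective (encList e) := by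
  intro l
  induction l with
  | nil => intro l' h; cases l' with
    | nil => rfl
    | cons b l' => cases h
  | cons a l ih => intro l' h; cases l' with
    | nil => cases h
    | cons b l' =>
      simp only [encList, Val.cons.injEq] at h
      rw [he h.1, ih h.2]

theorem enc_nat_inj : Function.Injective (enc : ℕ → Val) := by
  intro m n h
  have h1 : m.bits = n.bits := encList_inj (e := Val.bit) (fun _ _ h => Val.bit.inj h) h
  apply Nat.digits.injective 2
  rw [Nat.digits_two_eq_bits, Nat.digits_two_eq_bits, h1]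

end RulesAux

open RulesAux

/-- finitely many programs, selected by a ghost that the input determines through `key` -/
theorem Cf.cases {κ : Type} [Fintype κ] (key : ι → κ) {out : ι → β} (code : κ → ℕ)
    (hcode : Function.Injective code) (hs : Le pre (fun i => (sz (inp i) : ℝ)) σ)
    (hk : Cf pre inp (fun i => code (key i)) σ (fun _ => 0))
    (h : ∀ k, Cf (fun w i => pre w i ∧ key i = k) inp out σ c) : Cf pre inp out σ c :=
  (casesList key (fun k => enc (code k)) (enc_nat_inj.comp hcode) hs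
    (hk.congr (fun _ _ _ => rfl) fun _ _ _ => rfl) h Finset.univ.toList).mono
    (fun _ _ h => ⟨h, Finset.mem_toList.2 (Finset.mem_univ _)⟩) Le.refl fun _ _ _ => le_rfl

theorem Sub.mono {P P' : α → Prop} {g : α → β} {τ τ' : α → ℝ} (h : Sub P g τ)
    (hP : ∀ a, P' a → P a) (hτ : ∃ K : ℝ, 0 ≤ K ∧ ∀ a, P' a → τ a ≤ K * τ' a) : Sub P' g τ' :=
  Cf.mono h (fun _ a => hP a) (hτ.imp fun _ hK => ⟨hK.1, fun _ a => hK.2 a⟩) fun _ _ _ => le_rfl

theorem Sub.congr {P : α → Prop} {g g' : α → β} {τ : α → ℝ} (h : Sub P g τ)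
    (hg : ∀ a, P a → g' a = g a) : Sub P g' τ :=
  Cf.congr h (fun _ _ _ => rfl) fun _ a ha => by rw [hg a ha]

/-! the recursion-free judgement -/

theorem L0.input (hs : Le pre (fun i => (sz (inp i) : ℝ)) σ) : L0 pre inp σ inp :=
  ⟨hs, Cf.id (hs.const_of_sz 1)⟩
theorem L0.sz_le {f : ι → β} (h : L0 pre inp σ f) : Le pre (fun i => (sz (f i) : ℝ)) σ :=
  h.2.sz_le h.1
theorem L0.congr {f f' : ι → β} (h : L0 pre inp σ f) (e : ∀ w i, pre w i → f' i = f i) :
    L0 pre inp σ f' :=
  ⟨h.1, h.2.congr (fun _ _ _ => rfl) fun w i hi => by rw [e w i hi]⟩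
theorem L0.mono {f : ι → β} (h : L0 pre inp σ f) (hp : ∀ w i, pre' w i → pre w i)
    (hσ : Le pre' σ σ') : L0 pre' inp σ' f :=
  ⟨(h.1.mono_pre hp).trans hσ, h.2.mono hp hσ fun _ _ _ => le_rfl⟩
theorem L0.const (hs : Le pre (fun i => (sz (inp i) : ℝ)) σ) (b : β) :
    L0 pre inp σ (fun _ => b) := ⟨hs, Cf.const hs b⟩
theorem L0.lin {f : ι → β} {g : β → γ} (hg : Lin g) (hf : L0 pre inp σ f) :
    L0 pre inp σ (fun i => g (f i)) := ⟨hf.1, Cf.lin hg hf.2 hf.sz_le⟩
theorem L0.pair {f : ι → β} {g : ι → γ} (hf : L0 pre inp σ f) (hg : L0 pre inp σ g) :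
    L0 pre inp σ (fun i => (f i, g i)) :=
  ⟨hf.1, (Cf.pair hf.1 hf.2 hg.2).mono (fun _ _ h => h) Le.refl fun _ _ _ => (add_zero _).le⟩
theorem L0.sub {f : ι → β} {P : β → Prop} {g : β → γ} {τ : β → ℝ} (hg : Sub P g τ)
    (hf : L0 pre inp σ f) (hP : ∀ w i, pre w i → P (f i)) (hτ : Le pre (fun i => τ (f i)) σ) :
    L0 pre inp σ (fun i => g (f i)) := ⟨hf.1, Cf.sub hg hf.2 hP hτ⟩
theorem L0.poly {f : ι → β} {g : β → γ} (hg : Poly g) (hf : L0 pre inp σ f)
    (hτ : ∀ e : ℕ, Le pre (fun i => ((sz (f i) : ℝ) + 1) ^ e) σ) :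
    L0 pre inp σ (fun i => g (f i)) := by
  obtain ⟨e, he⟩ := hg
  exact L0.sub he hf (fun _ _ _ => trivial) (hτ e)
theorem L0.ite {b : ι → Bool} {f g : ι → β} (hb : L0 pre inp σ b)
    (ht : L0 (fun w i => pre w i ∧ b i = true) inp σ f)
    (he : L0 (fun w i => pre w i ∧ b i = false) inp σ g) :
    L0 pre inp σ (fun i => if b i = true then f i else g i) :=
  ⟨hb.1, (Cf.ite hb.1 hb.2 ht.2 he.2).mono (fun _ _ h => h) Le.refl fun _ _ _ => (add_zero _).le⟩
/-- `let`: go on with the pair (input, computed value) as the new input -/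
theorem L0.bind {f : ι → β} {g : ι → γ} (hf : L0 pre inp σ f)
    (hg : Cf pre (fun i => (inp i, f i)) g σ c) : Cf pre inp g σ c :=
  (Cf.comp ((L0.input hf.1).pair hf).2 hg).mono (fun _ _ h => h) Le.refl
    fun _ _ _ => (zero_add _).le
/-- hand a computed value to a continuation -/
theorem L0.thenCf {f : ι → β} {g : ι → γ} (hf : L0 pre inp σ f) (hg : Cf pre f g σ c) :
    Cf pre inp g σ c :=
  (Cf.comp hf.2 hg).mono (fun _ _ h => h) Le.refl fun _ _ _ => (zero_add _).le
theorem L0.toSub {P : α → Prop} {g : α → β} {τ : α → ℝ}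
    (h : L0 (fun _ a => P a) (fun a => a) τ g) : Sub P g τ := h.2
theorem Lin.of_L0 {g : α → β} (h : L0 (fun _ _ => True) (fun a => a) (fun a => (sz a : ℝ)) g) :
    Lin g := h.2
theorem Lin.sz_le {g : α → β} (h : Lin g) : ∃ K : ℕ, ∀ a, sz (g a) ≤ K * sz a := by
  obtain ⟨K, -, H⟩ := lin_sz h
  refine ⟨⌈K⌉₊, fun a => ?_⟩
  have h1 : (sz (g a) : ℝ) ≤ K * (sz a : ℝ) := H ⟨.skip, 0, le_rfl⟩ a trivial
  have h2 : K * (sz a : ℝ) ≤ (⌈K⌉₊ : ℝ) * (sz a : ℝ) :=
    mul_le_mul_of_nonneg_right (Nat.le_ceil K) (Nat.cast_nonneg _)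
  exact_mod_cast h1.trans h2

/-! linear-time closure, usable by `fun_prop` -/

attribute [fun_prop] Lin

@[fun_prop] theorem Lin.id : Lin (fun a : α => a) :=
  Cf.id (Le.const_of_sz (a := fun a : α => a) Le.refl 1)
@[fun_prop] theorem Lin.const (b : β) : Lin (fun _ : α => b) := lin_const b
@[fun_prop] theorem Lin.comp {g : β → γ} {f : α → β} (hg : Lin g) (hf : Lin f) :
    Lin (fun a => g (f a)) := lin_comp hg hf
@[fun_prop] theorem Lin.pair {f : α → β} {g : α → γ} (hf : Lin f) (hg : Lin g) :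
    Lin (fun a => (f a, g a)) :=
  (Cf.pair Le.refl hf hg).mono (fun _ _ h => h) Le.refl fun _ _ _ => (add_zero _).le
@[fun_prop] theorem Lin.fst {f : α → β × γ} (hf : Lin f) : Lin (fun a => (f a).1) :=
  lin_comp lin_fst hf
@[fun_prop] theorem Lin.snd {f : α → β × γ} (hf : Lin f) : Lin (fun a => (f a).2) :=
  lin_comp lin_snd hf
@[fun_prop] theorem Lin.cond {b : α → Bool} {f g : α → β} (hb : Lin b) (hf : Lin f) (hg : Lin g) :
    Lin (fun a => cond (b a) (f a) (g a)) := lin_cond hb hf hg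
/-- any function on a finite type with injective encoding -/
theorem Lin.of_finite [Finite α] (hinj : Function.Injective (enc : α → Val)) (g : α → β) :
    Lin g := by
  have := Fintype.ofFinite α
  exact (casesList (pre := fun _ _ => True) (inp := fun a : α => a) (fun a => a) enc hinj Le.refl
    (Cf.congr (Lin.id (α := α)) (fun _ _ _ => rfl) fun _ _ _ => rfl)
    (fun k => (Cf.const Le.refl (g k)).congr (fun _ _ _ => rfl) fun _ _ h => by rw [h.2])
    Finset.univ.toList).mono (fun _ _ h => ⟨h, Finset.mem_toList.2 (Finset.mem_univ _)⟩) Le.refl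
    fun _ _ _ => le_rfl
/-- a mere change of type -/
theorem Lin.of_enc_eq {g : α → β} (h : ∀ a, enc (g a) = enc a) : Lin g :=
  Cf.congr (Lin.id (α := α)) (fun _ _ _ => rfl) fun _ a _ => h a

end cf

end Crest.Agent.R326
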