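import Crest.Agent.R326.Crt

/-! Row 326: splitting a pair of registers: index arithmetic. -/

set_option autoImplicit false

namespace Crest.Agent.R326

namespace Spl

open Arr2

/-- position of `(h, y, u, x, l)` in the shape `[H][N][M][N][T]` -/
def idx (N M T h y u x l : ℕ) : ℕ := (((h * N + y) * M + u) * N + x) * T + l

/-- shape `[H][N][M][N][T]`: `out[h,y,u,x,l] = in[h,φ y,u,φ x,l]` -/
def twoA (H N M T : ℕ) (φ : ℕ → ℕ) (a : List Bool) : List Bool :=
  bmk (H * N * M * N * T) fun j =>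
    bat a (idx N M T (j / (N * M * N * T)) (φ (j / (M * N * T) % N)) (j / (N * T) % M)
      (φ (j / T % N)) (j % T))

theorem length_twoA (H N M T : ℕ) (φ : ℕ → ℕ) (a : List Bool) :
    (twoA H N M T φ a).length = H * N * M * N * T := length_bmk _ _

theorem idx_lt {H N M T h y u x l : ℕ} (hh : h < H) (hy : y < N) (hu : u < M) (hx : x < N)
    (hl : l < T) : idx N M T h y u x l < H * N * M * N * T :=
  lt_mul (lt_mul (lt_mul (lt_mul hh hy) hu) hx) hl

theorem bat_twoA {H N M T h y u x l : ℕ} (φ : ℕ → ℕ) (a : List Bool) (hh : h < H) (hy : y < N)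
    (hu : u < M) (hx : x < N) (hl : l < T) :
    bat (twoA H N M T φ a) (idx N M T h y u x l) = bat a (idx N M T h (φ y) u (φ x) l) := by
  obtain ⟨e1, e2, e3, e4, e5⟩ := five_digits (h := h) hy hu hx hl (j := idx N M T h y u x l) rfl
  rw [twoA, bat_bmk _ (idx_lt hh hy hu hx hl), e1, e2, e3, e4, e5]

theorem eq_twoA {H N M T : ℕ} {φ : ℕ → ℕ} {a b : List Bool} (hb : b.length = H * N * M * N * T)
    (e : ∀ h < H, ∀ y < N, ∀ u < M, ∀ x < N, ∀ l < T,
      bat b (idx N M T h y u x l) = bat a (idx N M T h (φ y) u (φ x) l)) :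
    b = twoA H N M T φ a :=
  ext5 hb (length_twoA _ _ _ _ _ _) fun h hh y hy u hu x hx l hl =>
    (e h hh y hy u hu x hx l hl).trans (bat_twoA φ a hh hy hu hx hl).symm

theorem twoA_congr {H N M T : ℕ} {φ ψ : ℕ → ℕ} (a : List Bool) (e : ∀ y < N, φ y = ψ y) :
    twoA H N M T φ a = twoA H N M T ψ a :=
  eq_twoA (length_twoA _ _ _ _ _ _) fun h hh y hy u hu x hx l hl => by
    rw [bat_twoA φ a hh hy hu hx hl, e y hy, e x hx]

theorem twoA_id {H N M T : ℕ} {φ : ℕ → ℕ} {a : List Bool} (ha : a.length = H * N * M * N * T)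
    (e : ∀ y < N, φ y = y) : twoA H N M T φ a = a :=
  (eq_twoA ha fun h _ y hy u _ x hx l _ => by rw [e y hy, e x hx]).symm

theorem twoA_twoA {H N M T : ℕ} {φ ψ : ℕ → ℕ} (a : List Bool) (hφ : ∀ y < N, φ y < N) :
    twoA H N M T φ (twoA H N M T ψ a) = twoA H N M T (fun y => ψ (φ y)) a :=
  eq_twoA (length_twoA _ _ _ _ _ _) fun h hh y hy u hu x hx l hl => by
    rw [bat_twoA φ _ hh hy hu hx hl, bat_twoA ψ _ hh (hφ y hy) hu (hφ x hx) hl]

theorem idx_merge (N R M T h y y' u x x' l : ℕ) :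
    idx (N * R) M T h (y * R + y') u (x * R + x') l =
      idx R (M * N) T (h * N + y) y' (u * N + x) x' l := by
  unfold idx
  ring

/-- acting on the low parts of the two registers -/
theorem twoA_merge (H N R M T : ℕ) (φ : ℕ → ℕ) (a : List Bool) :
    twoA (H * N) R (M * N) T φ a =
      twoA H (N * R) M T (fun Y => Y / R * R + φ (Y % R)) a := by
  refine eq_twoA (by rw [length_twoA]; ring) fun h hh Y hY u hu X hX l hl => ?_
  obtain ⟨y, hy, y', hy', rfl⟩ := decomp hY
  obtain ⟨x, hx, x', hx', rfl⟩ := decomp hX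
  rw [div_eq hy', mod_eq hy', div_eq hx', mod_eq hx', idx_merge, idx_merge,
    bat_twoA φ a (lt_mul hh hy) hy' (lt_mul hu hx) hx' hl]

theorem idx_mul (N M L W h y u x l w : ℕ) :
    idx N M (L * W) h y u x (l * W + w) = idx N M L h y u x l * W + w := by
  unfold idx
  ring

/-- on arrays of elements -/
theorem twoA_emk {B H N M L : ℕ} {φ : ℕ → ℕ} (hφ : ∀ y < N, φ y < N) (f g : ℕ → RB B)
    (e : ∀ h < H, ∀ y < N, ∀ u < M, ∀ x < N, ∀ l < L,
      g (idx N M L h y u x l) = f (idx N M L h (φ y) u (φ x) l)) :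
    twoA H N M (L * (2 * B)) φ (emk B (H * N * M * N * L) f) = emk B (H * N * M * N * L) g := by
  refine (eq_twoA (by rw [length_emk]; ring) fun h hh y hy u hu x hx l' hl' => ?_).symm
  obtain ⟨l, hl, w, hw, rfl⟩ := decomp hl'
  rw [idx_mul, idx_mul, bat_emk g (idx_lt hh hy hu hx hl) hw,
    bat_emk f (idx_lt hh (hφ y hy) hu (hφ x hx) hl) hw, e h hh y hy u hu x hx l hl]

/-! ### positions in the split and unsplit shapes -/

theorem pos_append (s s' : List ℕ) (ι : ℕ → ℕ) :
    pos (s ++ s') ι = pos s ι * s'.prod + pos s' (fun u => ι (u + s.length)) := by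
  have h := pos_split (s := s ++ s') (a := s.length) (by simp) ι
  rw [← pos_take (by simp), ← prod_drop, List.take_left' rfl, List.drop_left' rfl] at h
  exact h

theorem pos_cons (N : ℕ) (s : List ℕ) (ι : ℕ → ℕ) :
    pos (N :: s) ι = ι 0 * s.prod + pos s (fun u => ι (u + 1)) := by
  have h := pos_append [N] s ι
  have e : pos [N] ι = ι 0 := by simp [pos, posN]
  rw [e] at h
  exact h

theorem pos_lt' {s : List ℕ} {ι : ℕ → ℕ} (h : ∀ t < s.length, ι t < ax s t) : pos s ι < s.prod := by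
  rw [← vol_zero_length]
  exact posN_lt h

theorem pos_s5 (H N M : ℕ) (tl : List ℕ) (ι : ℕ → ℕ) :
    pos (s5 H N M tl) ι =
      idx N M tl.prod (ι 0) (ι 1) (ι 2) (ι 3) (pos tl fun u => ι (u + 4)) := by
  simp only [s5, pos_cons, List.prod_cons, idx, zero_add, add_assoc, Nat.reduceAdd]
  ring

theorem pos_sD (H M : ℕ) (Ns tl : List ℕ) (ι : ℕ → ℕ) :
    pos (sD H Ns M tl) ι =
      idx Ns.prod M tl.prod (ι 0) (pos Ns fun u => ι (u + 1)) (ι (Ns.length + 1))
        (pos Ns fun u => ι (u + (Ns.length + 2))) (pos tl fun u => ι (u + (2 * Ns.length + 2))) := by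
  have e1 : (fun u => ι (u + 1 + Ns.length + 1)) = fun u => ι (u + (Ns.length + 2)) :=
    funext fun u => congrArg ι (by omega)
  have e2 : (fun u => ι (u + Ns.length + 1 + Ns.length + 1)) =
      fun u => ι (u + (2 * Ns.length + 2)) := funext fun u => congrArg ι (by omega)
  simp only [sD, pos_cons, pos_append, List.prod_cons, List.prod_append, idx, zero_add]
  rw [e1, e2]
  ring

theorem prod_s5 (H N M : ℕ) (tl : List ℕ) : (s5 H N M tl).prod = H * N * M * N * tl.prod := by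
  simp only [s5, List.prod_cons]
  ring

theorem ax_cons_succ (N : ℕ) (s : List ℕ) (t : ℕ) : ax (N :: s) (t + 1) = ax s t := rfl

theorem ax_append_left {s : List ℕ} (s' : List ℕ) {t : ℕ} (ht : t < s.length) :
    ax (s ++ s') t = ax s t := by
  simp [ax, List.getD_eq_getElem?_getD, List.getElem?_append_left ht]

theorem ax_append_right (s s' : List ℕ) (t : ℕ) : ax (s ++ s') (t + s.length) = ax s' t := by
  simp [ax, List.getD_eq_getElem?_getD, List.getElem?_append_right]

/-- the parts of a valid index of the split shape -/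
theorem valid_sD {H M : ℕ} {Ns tl : List ℕ} {ι : ℕ → ℕ} (h : Valid (sD H Ns M tl) ι) :
    ι 0 < H ∧ (∀ t < Ns.length, ι (t + 1) < ax Ns t) ∧ ι (Ns.length + 1) < M ∧
      (∀ t < Ns.length, ι (t + (Ns.length + 2)) < ax Ns t) ∧
      ∀ t, ι (t + (2 * Ns.length + 2)) < ax tl t := by
  refine ⟨h 0, fun t ht => ?_, ?_, fun t ht => ?_, fun t => ?_⟩
  · have := h (t + 1)
    rwa [sD, ax_cons_succ, ax_append_left _ ht] at this
  · have := h (0 + Ns.length + 1)
    rw [sD, ax_cons_succ, ax_append_right, zero_add] at this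
    exact this
  · have := h (t + 1 + Ns.length + 1)
    rw [sD, ax_cons_succ, ax_append_right, ax_cons_succ, ax_append_left _ ht,
      show t + 1 + Ns.length + 1 = t + (Ns.length + 2) by omega] at this
    exact this
  · have := h (t + Ns.length + 1 + Ns.length + 1)
    rw [sD, ax_cons_succ, ax_append_right, ax_cons_succ, ax_append_right,
      show t + Ns.length + 1 + Ns.length + 1 = t + (2 * Ns.length + 2) by omega] at this
    exact this

/-- `mrg` on positions -/
def mrgP : List ℕ → ℕ → ℕ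
  | [], _ => 0
  | N :: r, Y => (Y / r.prod + (N - invMod r.prod N * mrgP r (Y % r.prod) % N)) % N * r.prod
      + mrgP r (Y % r.prod)

/-- `spl` on positions -/
def splP (Ns : List ℕ) (Y : ℕ) : ℕ := pos Ns (spl Ns Y)

theorem mrgP_pos : ∀ {Ns : List ℕ} {y : ℕ → ℕ}, (∀ t < Ns.length, y t < ax Ns t) →
    mrgP Ns (pos Ns y) = mrg Ns y
  | [], _, _ => rfl
  | N :: r, y, h => by
    have h' : ∀ t < r.length, y (t + 1) < ax r t := fun t ht => h (t + 1) (by simpa using ht)
    have h1 := pos_lt' h'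
    rw [mrgP, mrg, pos_cons, div_eq h1, mod_eq h1, mrgP_pos h']

theorem mrgP_lt : ∀ {Ns : List ℕ}, (∀ x ∈ Ns, 0 < x) → ∀ Y, mrgP Ns Y < Ns.prod
  | [], _, _ => Nat.one_pos
  | N :: r, hp, Y => by
    rw [mrgP, List.prod_cons]
    exact lt_mul (Nat.mod_lt _ (hp N (by simp))) (mrgP_lt (fun x hx => hp x (by simp [hx])) _)

theorem splP_lt {Ns : List ℕ} (hp : ∀ x ∈ Ns, 0 < x) (Y : ℕ) : splP Ns Y < Ns.prod :=
  pos_lt' fun t _ => Nat.mod_lt _ (ax_pos hp t)

theorem ax_dvd_prod (s : List ℕ) (t : ℕ) : ax s t ∣ s.prod := by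
  rcases lt_or_ge t s.length with ht | ht
  · rw [ax_of_lt ht]
    exact List.dvd_prod (List.getElem_mem ht)
  · rw [ax_of_le ht]
    exact one_dvd _

theorem splP_cons (N : ℕ) (r : List ℕ) (Y : ℕ) :
    splP (N :: r) Y = invMod r.prod N * Y % N * r.prod + splP r (Y % r.prod) := by
  rw [splP, pos_cons, splP]
  congr 1
  refine pos_congr fun t _ => ?_
  have : Y ≡ Y % r.prod [MOD ax r t] := ((Nat.mod_modEq Y r.prod).of_dvd (ax_dvd_prod r t)).symm
  exact this.mul_left _

theorem pos_pos_sD {H M : ℕ} {Ns tl : List ℕ} (hH : 0 < H) (hM : 0 < M) (hp : ∀ x ∈ Ns, 0 < x)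
    (ht : ∀ x ∈ tl, 0 < x) : ∀ x ∈ sD H Ns M tl, 0 < x := by
  intro x hx
  simp only [sD, List.mem_cons, List.mem_append] at hx
  rcases hx with rfl | hx | rfl | hx | hx
  exacts [hH, hp x hx, hM, hp x hx, ht x hx]

theorem pos_pos_s5 {H N M : ℕ} {tl : List ℕ} (hH : 0 < H) (hM : 0 < M) (hN : 0 < N)
    (ht : ∀ x ∈ tl, 0 < x) : ∀ x ∈ s5 H N M tl, 0 < x := by
  intro x hx
  simp only [s5, List.mem_cons] at hx
  rcases hx with rfl | rfl | rfl | rfl | hx
  exacts [hH, hN, hM, hN, ht x hx]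

theorem prod_sD' (H M : ℕ) (Ns tl : List ℕ) :
    (sD H Ns M tl).prod = H * Ns.prod * M * Ns.prod * tl.prod := by
  simp only [sD, List.prod_cons, List.prod_append]
  ring

/-- the source index of the split -/
theorem split_idx {H M : ℕ} {Ns tl : List ℕ} (hH : 0 < H) (hM : 0 < M) (hp : ∀ x ∈ Ns, 0 < x)
    (ht : ∀ x ∈ tl, 0 < x) {h y u x l : ℕ} (hh : h < H) (hy : y < Ns.prod) (hu : u < M)
    (hx : x < Ns.prod) (hl : l < tl.prod) :
    pos (s5 H Ns.prod M tl) (mrgI Ns (dig (sD H Ns M tl) (idx Ns.prod M tl.prod h y u x l))) =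
      idx Ns.prod M tl.prod h (mrgP Ns y) u (mrgP Ns x) l := by
  have hs := pos_pos_sD hH hM hp ht
  have hj : idx Ns.prod M tl.prod h y u x l < (sD H Ns M tl).prod := by
    rw [prod_sD']; exact idx_lt hh hy hu hx hl
  have h0 := pos_dig hs hj
  obtain ⟨-, v1, v2, v3, v4⟩ := valid_sD (valid_dig hs (idx Ns.prod M tl.prod h y u x l))
  generalize dig (sD H Ns M tl) (idx Ns.prod M tl.prod h y u x l) = ι at h0 v1 v2 v3 v4 ⊢
  rw [pos_sD] at h0
  obtain ⟨a1, a2, a3, a4, a5⟩ := five_digits (h := h) hy hu hx hl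
    (j := idx Ns.prod M tl.prod h y u x l) rfl
  obtain ⟨b1, b2, b3, b4, b5⟩ := five_digits (pos_lt' v1) v2 (pos_lt' v3)
    (pos_lt' fun t _ => v4 t) h0.symm
  have e : (fun u => mrgI Ns ι (u + 4)) = fun u => ι (u + (2 * Ns.length + 2)) :=
    funext fun u => by
      simp only [mrgI]
      rw [if_neg (by omega), if_neg (by omega), if_neg (by omega), if_neg (by omega)]
      exact congrArg ι (by omega)
  rw [pos_s5, e, a1.symm.trans b1, a2.symm.trans b2, a3.symm.trans b3, a4.symm.trans b4,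
    a5.symm.trans b5, mrgP_pos v1, mrgP_pos v3]
  rfl

/-- the source index of the unsplit -/
theorem unsplit_idx {H M : ℕ} {Ns tl : List ℕ} (hH : 0 < H) (hM : 0 < M) (hp : ∀ x ∈ Ns, 0 < x)
    (ht : ∀ x ∈ tl, 0 < x) {h y u x l : ℕ} (hh : h < H) (hy : y < Ns.prod) (hu : u < M)
    (hx : x < Ns.prod) (hl : l < tl.prod) :
    pos (sD H Ns M tl) (splI Ns (dig (s5 H Ns.prod M tl) (idx Ns.prod M tl.prod h y u x l))) =
      idx Ns.prod M tl.prod h (splP Ns y) u (splP Ns x) l := by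
  have hs := pos_pos_s5 hH hM (List.prod_pos hp) ht
  have hj : idx Ns.prod M tl.prod h y u x l < (s5 H Ns.prod M tl).prod := by
    rw [prod_s5]; exact idx_lt hh hy hu hx hl
  have h0 := pos_dig hs hj
  have hv := valid_dig hs (idx Ns.prod M tl.prod h y u x l)
  generalize dig (s5 H Ns.prod M tl) (idx Ns.prod M tl.prod h y u x l) = ι at h0 hv ⊢
  rw [pos_s5] at h0
  obtain ⟨a1, a2, a3, a4, a5⟩ := five_digits (h := h) hy hu hx hl
    (j := idx Ns.prod M tl.prod h y u x l) rfl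
  obtain ⟨b1, b2, b3, b4, b5⟩ := five_digits (N := Ns.prod) (M := M) (L := tl.prod)
    (hv 1) (hv 2) (hv 3) (pos_lt' fun t _ => hv (t + 4)) h0.symm
  have e1 : (pos Ns fun u => splI Ns ι (u + 1)) = splP Ns (ι 1) :=
    pos_congr fun t ht => by
      simp only [splI]
      rw [if_neg (by omega), if_pos (by omega), Nat.add_sub_cancel]
  have e2 : splI Ns ι (Ns.length + 1) = ι 2 := by
    simp only [splI]
    rw [if_neg (by omega), if_neg (by omega), if_pos trivial]
  have e3 : (pos Ns fun u => splI Ns ι (u + (Ns.length + 2))) = splP Ns (ι 3) :=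
    pos_congr fun t ht => by
      simp only [splI]
      rw [if_neg (by omega), if_neg (by omega), if_neg (by omega), if_pos (by omega),
        Nat.add_sub_cancel]
  have e4 : (fun u => splI Ns ι (u + (2 * Ns.length + 2))) = fun u => ι (u + 4) :=
    funext fun u => by
      simp only [splI]
      rw [if_neg (by omega), if_neg (by omega), if_neg (by omega), if_neg (by omega)]
      exact congrArg ι (by omega)
  rw [pos_sD, e1, e2, e3, e4, a1.symm.trans b1, a2.symm.trans b2, a3.symm.trans b3,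
    a4.symm.trans b4, a5.symm.trans b5]
  rfl

theorem splitG_eq {H M : ℕ} {Ns tl : List ℕ} (hH : 0 < H) (hM : 0 < M) (hp : ∀ x ∈ Ns, 0 < x)
    (ht : ∀ x ∈ tl, 0 < x) (a : List Bool) :
    splitG H Ns M tl a = twoA H Ns.prod M tl.prod (mrgP Ns) a := by
  refine eq_twoA (by rw [splitG, length_bmk, prod_sD']) fun h hh y hy u hu x hx l hl => ?_
  rw [splitG, bat_bmk _ (by rw [prod_sD']; exact idx_lt hh hy hu hx hl),
    split_idx hH hM hp ht hh hy hu hx hl]

theorem unsplitG_eq {H M : ℕ} {Ns tl : List ℕ} (hH : 0 < H) (hM : 0 < M) (hp : ∀ x ∈ Ns, 0 < x)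
    (ht : ∀ x ∈ tl, 0 < x) (a : List Bool) :
    unsplitG H Ns M tl a = twoA H Ns.prod M tl.prod (splP Ns) a := by
  refine eq_twoA (by rw [unsplitG, length_bmk, prod_s5]) fun h hh y hy u hu x hx l hl => ?_
  rw [unsplitG, bat_bmk _ (by rw [prod_s5]; exact idx_lt hh hy hu hx hl),
    unsplit_idx hH hM hp ht hh hy hu hx hl]

/-! ### the shear of the high part by the low part -/

/-- add `G` of the low part to the high part -/
def beta (N R : ℕ) (G : ℕ → ℕ) (Y : ℕ) : ℕ := (Y / R + G (Y % R)) % N * R + Y % R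

theorem beta_lt {N R : ℕ} (hN : 0 < N) (hR : 0 < R) (G : ℕ → ℕ) (Y : ℕ) : beta N R G Y < N * R :=
  lt_mul (Nat.mod_lt _ hN) (Nat.mod_lt _ hR)

theorem split_cons {H N M T : ℕ} {r : List ℕ} (hp : ∀ x ∈ r, 0 < x) (a : List Bool) :
    twoA H (N * r.prod) M T (mrgP (N :: r)) a =
      twoA (H * N) r.prod (M * N) T (mrgP r)
        (twoA H (N * r.prod) M T
          (beta N r.prod fun y => N - invMod r.prod N * y % N) a) := by
  have hR := List.prod_pos hp
  rw [twoA_merge, twoA_twoA]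
  · refine twoA_congr a fun Y _ => ?_
    rw [beta, div_eq (mrgP_lt hp _), mod_eq (mrgP_lt hp _), mrgP]
  · intro Y hY
    exact lt_mul (Nat.div_lt_of_lt_mul (mul_comm N _ ▸ hY)) (mrgP_lt hp _)

theorem unsplit_cons {H N M T : ℕ} {r : List ℕ} (hN : 0 < N) (hp : ∀ x ∈ r, 0 < x)
    (hc : Nat.Coprime r.prod N) (a : List Bool) :
    twoA H (N * r.prod) M T (splP (N :: r)) a =
      twoA H (N * r.prod) M T (beta N r.prod fun y => invMod r.prod N * y)
        (twoA (H * N) r.prod (M * N) T (splP r) a) := by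
  have hR := List.prod_pos hp
  rw [twoA_merge, twoA_twoA _ fun Y _ => beta_lt hN hR _ Y]
  refine twoA_congr a fun Y _ => ?_
  have hm := Nat.mod_lt Y hR
  rw [splP_cons, beta, div_eq hm, mod_eq hm]
  congr 2
  have h1 := (mul_invMod hc).mul_right (Y / r.prod)
  have h2 := h1.add_right (invMod r.prod N * (Y % r.prod))
  rw [one_mul] at h2
  have h3 : invMod r.prod N * Y =
      r.prod * invMod r.prod N * (Y / r.prod) + invMod r.prod N * (Y % r.prod) := by
    conv_lhs => rw [← Nat.div_add_mod Y r.prod]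
    ring
  rw [h3]
  exact h2

/-- a digit vector with seven digits -/
def v7 (h y y' u x x' l : ℕ) : ℕ → ℕ := fun t => [h, y, y', u, x, x', l].getD t 0

theorem valid_v7 {H N R M T h y y' u x x' l : ℕ} (hh : h < H) (hy : y < N) (hy' : y' < R)
    (hu : u < M) (hx : x < N) (hx' : x' < R) (hl : l < T) :
    Valid [H, N, R, M, N, R, T] (v7 h y y' u x x' l) := by
  intro t
  rcases t with _ | _ | _ | _ | _ | _ | _ | t
  exacts [hh, hy, hy', hu, hx, hx', hl, Nat.one_pos]

theorem pos_v7 (H N R M T h y y' u x x' l : ℕ) :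
    pos [H, N, R, M, N, R, T] (v7 h y y' u x x' l) =
      idx (N * R) M T h (y * R + y') u (x * R + x') l := by
  show (((((((0 * H + h) * N + y) * R + y') * M + u) * N + x) * R + x') * T + l) = _
  unfold idx
  ring

theorem sw14_v7 (h y y' u x x' l : ℕ) : swI 1 4 (v7 h y y' u x x' l) = v7 h x y' u y x' l := by
  funext t
  rcases t with _ | _ | _ | _ | _ | _ | _ | t
  all_goals rfl

theorem sw25_v7 (h y y' u x x' l : ℕ) : swI 2 5 (v7 h y y' u x x' l) = v7 h y x' u x y' l := by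
  funext t
  rcases t with _ | _ | _ | _ | _ | _ | _ | t
  all_goals rfl

theorem sh4_v7 (s : List ℕ) (G : ℕ → ℕ) (h y y' u x x' l : ℕ) :
    shI s 4 (fun ds => G (ds.getD 2 0)) (v7 h y y' u x x' l) =
      v7 h y y' u ((x + G y') % ax s 4) x' l := by
  funext t
  rcases t with _ | _ | _ | _ | _ | _ | _ | t
  all_goals rfl

/-- the six passes -/
def six (s : List ℕ) (G : ℕ → ℕ) (a : List Bool) : List Bool :=
  gathS s (swI 1 4) (gathS s (shI s 4 fun ds => G (ds.getD 2 0)) (gathS s (swI 1 4)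
    (gathS s (swI 2 5) (gathS s (shI s 4 fun ds => G (ds.getD 2 0)) (gathS s (swI 2 5) a)))))

theorem six_eq {H N R M T : ℕ} (G : ℕ → ℕ) (a : List Bool) :
    six [H, N, R, M, N, R, T] G a = twoA H (N * R) M T (beta N R G) a := by
  refine eq_twoA (by simp only [six, length_gathS, List.prod_cons, List.prod_nil]; ring)
    fun h hh Y hY u hu X hX l hl => ?_
  obtain ⟨y, hy, y', hy', rfl⟩ := decomp hY
  obtain ⟨x, hx, x', hx', rfl⟩ := decomp hX
  have hN : 0 < N := by omega
  have e4 : ax [H, N, R, M, N, R, T] 4 = N := rfl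
  have m1 := Nat.mod_lt (y + G y') hN
  have m2 := Nat.mod_lt (x + G x') hN
  rw [← pos_v7 H, six, bat_gathS _ _ (valid_v7 hh hy hy' hu hx hx' hl), sw14_v7,
    bat_gathS _ _ (valid_v7 hh hx hy' hu hy hx' hl), sh4_v7, e4,
    bat_gathS _ _ (valid_v7 hh hx hy' hu m1 hx' hl), sw14_v7,
    bat_gathS _ _ (valid_v7 hh m1 hy' hu hx hx' hl), sw25_v7,
    bat_gathS _ _ (valid_v7 hh m1 hx' hu hx hy' hl), sh4_v7, e4,
    bat_gathS _ _ (valid_v7 hh m1 hx' hu m2 hy' hl), sw25_v7, pos_v7, beta, beta,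
    div_eq hy', mod_eq hy', div_eq hx', mod_eq hx']

end Spl

end Crest.Agent.R326
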