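import Crest.Agent.R326.Crt
import Crest.Agent.R326.Swap
import Crest.Agent.R326.SplitAux

/-! Row 326: splitting a pair of registers along a factorisation, on the machine. -/

set_option autoImplicit false

namespace Crest.Agent.R326

/-- the precondition on `(H, Ns, M, tl, a)`: `n` blocks and a tail of `r` axes -/
def OkSplit (n r : ℕ) (x : ℕ × List ℕ × ℕ × List ℕ × List Bool) : Prop :=
  x.2.1.length = n ∧ x.2.1.Pairwise Nat.Coprime ∧
    OkS (2 * n + 2 + r) (sD x.1 x.2.1 x.2.2.1 x.2.2.2.1) x.2.2.2.2 ∧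
    Ex x.2.2.2.2.length ^ 2 ≤ x.2.2.2.1.prod

namespace Spl

theorem one_le_lgθ (n : ℕ) : (1 : ℝ) ≤ (lg n : ℝ) ^ θ :=
  Real.one_le_rpow (by exact_mod_cast one_le_lg n) θ_pos.le

theorem lgθ_mono {m n : ℕ} (h : m ≤ n) : (lg m : ℝ) ^ θ ≤ (lg n : ℝ) ^ θ :=
  Real.rpow_le_rpow (Nat.cast_nonneg _) (by exact_mod_cast lg_mono h) θ_pos.le

theorem le_cost (k n : ℕ) : (k : ℝ) ≤ k * (lg n : ℝ) ^ θ :=
  le_mul_of_one_le_right (Nat.cast_nonneg _) (one_le_lgθ n)

theorem le_bits {ι : Type} {pre : World → ι → Prop} {σ : ι → ℝ} {a : ι → List Bool}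
    (h : ∀ w i, pre w i → 0 < (a i).length ∧ ((a i).length : ℝ) ≤ σ i) :
    Le pre (fun i => (sz (a i) : ℝ)) σ :=
  Le.of_le_mul 3 (by norm_num) fun w i hi => by
    obtain ⟨h1, h2⟩ := h w i hi
    have h3 : (1 : ℝ) ≤ (a i).length := by exact_mod_cast h1
    rw [sz_bits]
    push_cast
    linarith

theorem ex_le_sq (n : ℕ) : Ex n ≤ Ex n ^ 2 := Nat.le_self_pow (by norm_num) _

/-! ### the six passes -/

/-- precondition on `(s, a)` -/
def P7 (x : List ℕ × List Bool) : Prop :=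
  OkS 7 x.1 x.2 ∧ ax x.1 1 = ax x.1 4 ∧ ax x.1 2 = ax x.1 5 ∧ Ex x.2.length ^ 2 ≤ ax x.1 6

noncomputable def c7 (x : List ℕ × List Bool) : ℝ :=
  (x.2.length : ℝ) * (lg (ax x.1 1 * ax x.1 2) : ℝ) ^ θ

theorem P7.len_pos {x : List ℕ × List Bool} (h : P7 x) : 0 < x.2.length := by
  rw [h.1.2.2]
  exact List.prod_pos h.1.2.1

theorem P7.ex_le_vol {x : List ℕ × List Bool} (h : P7 x) {t : ℕ} (ht : t ≤ 6) :
    Ex x.2.length ^ 2 ≤ vol x.1 t 7 := by
  rw [vol_succ_right x.1 ht]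
  exact h.2.2.2.trans (Nat.le_mul_of_pos_left _ (vol_pos h.1.2.1 _ _))

theorem P7.vol_ex {x : List ℕ × List Bool} (h : P7 x) {t : ℕ} (ht : t ≤ 6) :
    vol x.1 0 t * Ex x.2.length ≤ x.2.length := by
  have h1 := vol_mul x.1 (Nat.zero_le t) (ht.trans (Nat.le_succ 6))
  have h2 := vol_zero_length x.1
  rw [h.1.1, ← h.1.2.2] at h2
  calc vol x.1 0 t * Ex x.2.length ≤ vol x.1 0 t * vol x.1 t 7 :=
        Nat.mul_le_mul_left _ ((ex_le_sq _).trans (h.ex_le_vol ht))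
    _ = x.2.length := h1.trans h2

theorem P7.ex_le {x : List ℕ × List Bool} (h : P7 x) : (Ex x.2.length : ℝ) ≤ c7 x := by
  have h1 := h.vol_ex (Nat.zero_le 6)
  rw [vol_self, one_mul] at h1
  exact le_trans (by exact_mod_cast h1) (le_cost _ _)

theorem in7 : L0 (fun _ x => P7 x) (fun x => x) c7 (fun x => x) :=
  L0.input (Ax.le_sz_pair (f := fun x : List ℕ × List Bool => x.1) (g := fun x => x.2)
    (Ax.le_sz _ _ (Ax.shape_sz fun _ h => h.1) fun _ _ h => h.ex_le)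
    (le_bits fun _ _ h => ⟨h.len_pos, le_cost _ _⟩))

theorem sh7 : L0 (fun _ x => P7 x) (fun x => x) c7 (fun x => x.1) :=
  L0.lin (Lin.fst Lin.id) in7

theorem step_sw {t t' : ℕ} (htt : t < t') (ht : t' < 6)
    (h : ∀ x, P7 x → ax x.1 t = ax x.1 t' ∧ ax x.1 t ≤ ax x.1 1 * ax x.1 2)
    {f : List ℕ × List Bool → List Bool} (hf : L0 (fun _ x => P7 x) (fun x => x) c7 f)
    (hl : ∀ x, P7 x → (f x).length = x.1.prod) :
    L0 (fun _ x => P7 x) (fun x => x) c7 (fun x => gathS x.1 (swI t t') (f x)) := by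
  refine L0.sub (f := fun x => (x.1, f x)) (sub_swS 7 t t' htt (by omega)) (sh7.pair hf)
    (fun _ x hx => ⟨⟨hx.1.1, hx.1.2.1, hl x hx⟩, (h x hx).1, ?_⟩) (Le.of_le fun _ x hx => ?_)
  · show Ex (f x).length ^ 2 ≤ vol x.1 (t' + 1) 7
    rw [hl x hx, ← hx.1.2.2]
    exact hx.ex_le_vol ht
  · show ((f x).length : ℝ) * (lg (ax x.1 t) : ℝ) ^ θ ≤ c7 x
    rw [hl x hx, ← hx.1.2.2]
    exact mul_le_mul_of_nonneg_left (lgθ_mono (h x hx).2) (Nat.cast_nonneg _)

theorem step_sh {g : List ℕ × ℕ → ℕ} (hg : Poly g)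
    {f : List ℕ × List Bool → List Bool} (hf : L0 (fun _ x => P7 x) (fun x => x) c7 f)
    (hl : ∀ x, P7 x → (f x).length = x.1.prod) :
    L0 (fun _ x => P7 x) (fun x => x) c7
      (fun x => gathS x.1 (shI x.1 4 fun ds => g (x.1, ds.getD 2 0)) (f x)) := by
  have hg' : Poly fun p : List ℕ × List ℕ => g (p.1, p.2.getD 2 0) :=
    hg.comp (Poly.pair (Poly.fst Poly.id)
      (Poly.getD (Poly.const 2) (Poly.snd Poly.id) (Poly.const 0)))
  refine L0.sub (f := fun x => (x.1, x.1, f x)) (sub_shS hg' 7 4 22 1 (by norm_num))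
    (sh7.pair (sh7.pair hf)) (fun _ x hx => ⟨⟨hx.1.1, hx.1.2.1, hl x hx⟩, ?_⟩)
    (Le.of_le_mul 2 (by norm_num) fun _ x hx => ?_)
  · show sz x.1 ≤ 22 * lg (f x).length ^ 1
    rw [hl x hx, ← hx.1.2.2, pow_one]
    exact hx.1.sz_le
  · show ((f x).length : ℝ) + vol x.1 0 4 * Ex (f x).length ≤ 2 * c7 x
    rw [hl x hx, ← hx.1.2.2]
    have h1 : (vol x.1 0 4 : ℝ) * Ex x.2.length ≤ x.2.length := by
      exact_mod_cast hx.vol_ex (by norm_num : 4 ≤ 6)
    have h2 : (x.2.length : ℝ) ≤ c7 x := le_cost _ _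
    linarith

theorem sub_six {g : List ℕ × ℕ → ℕ} (hg : Poly g) :
    Sub P7 (fun x => six x.1 (fun y => g (x.1, y)) x.2) c7 := by
  have h14 : ∀ x, P7 x → ax x.1 1 = ax x.1 4 ∧ ax x.1 1 ≤ ax x.1 1 * ax x.1 2 := fun x hx =>
    ⟨hx.2.1, Nat.le_mul_of_pos_right _ (ax_pos hx.1.2.1 2)⟩
  have h25 : ∀ x, P7 x → ax x.1 2 = ax x.1 5 ∧ ax x.1 2 ≤ ax x.1 1 * ax x.1 2 := fun x hx =>
    ⟨hx.2.2.1, Nat.le_mul_of_pos_left _ (ax_pos hx.1.2.1 1)⟩
  have s0 : L0 (fun _ x => P7 x) (fun x => x) c7 (fun x => x.2) := L0.lin (Lin.snd Lin.id) in7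
  have s1 := step_sw (by norm_num) (by norm_num) h25 s0 fun x hx => hx.1.2.2
  have s2 := step_sh hg s1 fun x _ => length_gathS _ _
  have s3 := step_sw (by norm_num) (by norm_num) h25 s2 fun x _ => length_gathS _ _
  have s4 := step_sw (by norm_num) (by norm_num) h14 s3 fun x _ => length_gathS _ _
  have s5 := step_sh hg s4 fun x _ => length_gathS _ _
  have s6 := step_sw (by norm_num) (by norm_num) h14 s5 fun x _ => length_gathS _ _
  exact s6.toSub

/-! ### the recursion over the blocks -/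

abbrev X := ℕ × List ℕ × ℕ × List ℕ × List Bool
abbrev Y := ℕ × List ℕ × ℕ × List ℕ

def par (x : X) : Y := (x.1, x.2.1, x.2.2.1, x.2.2.2.1)

noncomputable def cS (x : X) : ℝ := (x.2.2.2.2.length : ℝ) * (lg x.2.1.prod : ℝ) ^ θ

theorem ok_iff {n r H M : ℕ} {Ns tl : List ℕ} {a : List Bool} :
    OkSplit n r (H, Ns, M, tl, a) ↔ Ns.length = n ∧ Ns.Pairwise Nat.Coprime ∧ tl.length = r ∧
      0 < H ∧ 0 < M ∧ (∀ y ∈ Ns, 0 < y) ∧ (∀ y ∈ tl, 0 < y) ∧
      a.length = H * Ns.prod * M * Ns.prod * tl.prod ∧ Ex a.length ^ 2 ≤ tl.prod := by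
  have hl : (sD H Ns M tl).length = 2 * Ns.length + 2 + tl.length := by
    simp only [sD, List.length_cons, List.length_append]
    omega
  constructor
  · rintro ⟨h1, h2, ⟨h3, h4, h5⟩, h6⟩
    dsimp only at h1 h2 h3 h4 h5 h6
    refine ⟨h1, h2, by omega, h4 _ (by simp [sD]), h4 _ (by simp [sD]),
      fun y hy => h4 _ (by simp [sD, hy]), fun y hy => h4 _ (by simp [sD, hy]), ?_, h6⟩
    rw [h5, prod_sD']
  · rintro ⟨h1, h2, h3, h4, h5, h6, h7, h8, h9⟩
    exact ⟨h1, h2, ⟨by dsimp only; omega, pos_pos_sD h4 h5 h6 h7, by rw [prod_sD']; exact h8⟩, h9⟩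

section
variable {n r : ℕ}

theorem len_pos {x : X} (h : OkSplit n r x) : 0 < x.2.2.2.2.length := by
  rw [h.2.2.1.2.2]
  exact List.prod_pos h.2.2.1.2.1

theorem ex_le {x : X} (h : OkSplit n r x) : (Ex x.2.2.2.2.length : ℝ) ≤ cS x := by
  obtain ⟨H, Ns, M, tl, a⟩ := x
  obtain ⟨-, -, -, h4, h5, h6, -, h8, h9⟩ := ok_iff.1 h
  have hP := List.prod_pos h6
  have h1 : Ex a.length ≤ a.length := by
    refine (ex_le_sq _).trans (h9.trans ?_)
    rw [h8]
    exact Nat.le_mul_of_pos_left _ (by positivity)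
  exact le_trans (by exact_mod_cast h1) (le_cost _ _)

theorem sz_par {x : X} (h : OkSplit n r x) :
    sz (par x) ≤ (3 * (2 * n + 2 + r) + 3) * lg x.2.2.2.2.length ^ 1 := by
  have h0 := h.2.2.1.sz_le
  obtain ⟨H, Ns, M, tl, a⟩ := x
  have h1 := sz_append Ns (M :: (Ns ++ tl))
  have h2 := sz_append Ns tl
  have h3 := sz_pos Ns
  have h4 := one_le_lg a.length
  have e : (3 * (2 * n + 2 + r) + 3) * lg a.length =
      (3 * (2 * n + 2 + r) + 1) * lg a.length + 2 * lg a.length := by ring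
  simp only [par, sD, sz_pair, sz_cons, pow_one] at h0 h1 ⊢
  omega

theorem lin_par : Lin par :=
  Lin.pair (Lin.fst Lin.id) (Lin.pair (Lin.fst (Lin.snd Lin.id))
    (Lin.pair (Lin.fst (Lin.snd (Lin.snd Lin.id))) (Lin.fst (Lin.snd (Lin.snd (Lin.snd Lin.id))))))

theorem inS : L0 (fun _ x => OkSplit n r x) (fun x => x) cS (fun x => x) := by
  have h1 : Le (fun _ x => OkSplit n r x) (fun x => (sz (par x) : ℝ)) cS :=
    Ax.le_sz _ _ (fun _ _ h => sz_par h) fun _ _ h => ex_le h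
  have h2 : Le (fun _ (x : X) => OkSplit n r x) (fun x => (sz x.2.2.2.2 : ℝ)) cS :=
    le_bits fun _ _ h => ⟨len_pos h, le_cost _ _⟩
  refine L0.input (Le.trans (Le.of_le fun _ x _ => ?_) (Ax.le_sz_pair h1 h2))
  obtain ⟨H, Ns, M, tl, a⟩ := x
  have : sz (H, Ns, M, tl, a) ≤ sz ((H, Ns, M, tl), a) := by
    simp only [sz_pair]
    omega
  exact_mod_cast this

theorem arrS : L0 (fun _ x => OkSplit n r x) (fun x => x) cS (fun x => x.2.2.2.2) :=
  L0.lin (g := fun x : X => x.2.2.2.2) (Lin.snd (Lin.snd (Lin.snd (Lin.snd Lin.id)))) inS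

theorem parS {β : Type} [Enc β] {g : Y → β} (hg : Poly g) :
    L0 (fun _ x => OkSplit n r x) (fun x => x) cS (fun x => g (par x)) :=
  L0.poly hg (L0.lin lin_par inS) (Ax.le_pow _ _ (fun _ _ h => sz_par h) fun _ _ h => ex_le h)

/-- the seven-axis view -/
def shp (p : Y) : List ℕ :=
  [p.1, p.2.1.headD 1, p.2.1.tail.prod, p.2.2.1, p.2.1.headD 1, p.2.1.tail.prod, p.2.2.2.prod]

theorem poly_shp : Poly shp := by
  unfold shp
  fun_prop

/-- the arguments of the recursive step -/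
def nxt (x : X) (b : List Bool) : X :=
  (x.1 * x.2.1.headD 1, x.2.1.tail, x.2.2.1 * x.2.1.headD 1, x.2.2.2.1, b)

theorem exists_cons {x : X} (h : OkSplit (n + 1) r x) :
    ∃ H N Ns M tl a, x = (H, N :: Ns, M, tl, a) := by
  obtain ⟨H, Ns, M, tl, a⟩ := x
  cases Ns with
  | nil => exact absurd h.1 (by simp)
  | cons N Ns => exact ⟨H, N, Ns, M, tl, a, rfl⟩

theorem ok_nxt {x : X} (h : OkSplit (n + 1) r x) {b : List Bool}
    (hb : b.length = x.2.2.2.2.length) : OkSplit n r (nxt x b) := by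
  obtain ⟨H, N, Ns, M, tl, a, rfl⟩ := exists_cons h
  obtain ⟨h1, h2, h3, h4, h5, h6, h7, h8, h9⟩ := ok_iff.1 h
  have hN := h6 N (by simp)
  dsimp only at hb
  refine ok_iff.2 ⟨by simpa using h1, h2.of_cons, h3, Nat.mul_pos h4 hN, Nat.mul_pos h5 hN,
    fun y hy => h6 y (List.mem_cons_of_mem _ hy), h7, ?_, hb ▸ h9⟩
  rw [hb, h8, List.prod_cons]
  show _ = H * N * Ns.prod * (M * N) * Ns.prod * tl.prod
  ring

theorem cS_nxt {x : X} (h : OkSplit (n + 1) r x) {b : List Bool}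
    (hb : b.length = x.2.2.2.2.length) : cS (nxt x b) ≤ cS x := by
  obtain ⟨H, N, Ns, M, tl, a, rfl⟩ := exists_cons h
  obtain ⟨-, -, -, -, -, h6, -⟩ := ok_iff.1 h
  show (b.length : ℝ) * (lg Ns.prod : ℝ) ^ θ ≤ _
  rw [hb]
  refine mul_le_mul_of_nonneg_left (lgθ_mono ?_) (Nat.cast_nonneg _)
  exact Nat.le_mul_of_pos_left _ (h6 N (by simp))

theorem p7_shp {x : X} (h : OkSplit (n + 1) r x) {b : List Bool}
    (hb : b.length = x.2.2.2.2.length) : P7 (shp (par x), b) := by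
  obtain ⟨H, N, Ns, M, tl, a, rfl⟩ := exists_cons h
  obtain ⟨-, -, -, h4, h5, h6, h7, h8, h9⟩ := ok_iff.1 h
  have hN := h6 N (by simp)
  have hR : 0 < Ns.prod := List.prod_pos fun y hy => h6 y (List.mem_cons_of_mem _ hy)
  have hT := List.prod_pos h7
  dsimp only at hb
  refine ⟨⟨rfl, ?_, ?_⟩, rfl, rfl, hb ▸ h9⟩
  · show ∀ y ∈ [H, N, Ns.prod, M, N, Ns.prod, tl.prod], 0 < y
    simp [h4, h5, hN, hR, hT]
  · show b.length = [H, N, Ns.prod, M, N, Ns.prod, tl.prod].prod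
    rw [hb, h8]
    simp only [List.prod_cons, List.prod_nil]
    ring

theorem c7_shp {x : X} (h : OkSplit (n + 1) r x) {b : List Bool}
    (hb : b.length = x.2.2.2.2.length) : c7 (shp (par x), b) ≤ cS x := by
  obtain ⟨H, N, Ns, M, tl, a, rfl⟩ := exists_cons h
  show (b.length : ℝ) * (lg (N * Ns.prod) : ℝ) ^ θ ≤ (a.length : ℝ) * (lg (N :: Ns).prod : ℝ) ^ θ
  rw [hb, List.prod_cons]

theorem step_six {g : List ℕ × ℕ → ℕ} (hg : Poly g) {f : X → List Bool}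
    (hf : L0 (fun _ x => OkSplit (n + 1) r x) (fun x => x) cS f)
    (hl : ∀ x, OkSplit (n + 1) r x → (f x).length = x.2.2.2.2.length) :
    L0 (fun _ x => OkSplit (n + 1) r x) (fun x => x) cS
      (fun x => six (shp (par x)) (fun y => g (shp (par x), y)) (f x)) :=
  L0.sub (f := fun x => (shp (par x), f x)) (sub_six hg) ((parS poly_shp).pair hf)
    (fun _ x hx => p7_shp hx (hl x hx)) (Le.of_le fun _ x hx => c7_shp hx (hl x hx))

theorem step_nxt {G : X → List Bool} (hG : Sub (OkSplit n r) G cS) {f : X → List Bool}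
    (hf : L0 (fun _ x => OkSplit (n + 1) r x) (fun x => x) cS f)
    (hl : ∀ x, OkSplit (n + 1) r x → (f x).length = x.2.2.2.2.length) :
    L0 (fun _ x => OkSplit (n + 1) r x) (fun x => x) cS (fun x => G (nxt x (f x))) :=
  L0.sub (f := fun x => nxt x (f x)) hG
    ((parS (g := fun p => p.1 * p.2.1.headD 1) (by fun_prop)).pair
      ((parS (g := fun p => p.2.1.tail) (by fun_prop)).pair
        ((parS (g := fun p => p.2.2.1 * p.2.1.headD 1) (by fun_prop)).pair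
          ((parS (g := fun p => p.2.2.2) (by fun_prop)).pair hf))))
    (fun _ x hx => ok_nxt hx (hl x hx)) (Le.of_le fun _ x hx => cS_nxt hx (hl x hx))

theorem length_six {x : X} (h : OkSplit (n + 1) r x) (G : ℕ → ℕ) (b : List Bool) :
    (six (shp (par x)) G b).length = x.2.2.2.2.length := by
  rw [six, length_gathS]
  exact (p7_shp h rfl).1.2.2.symm

end

/-- both registers are moved along `φ Ns` -/
def twoX (φ : List ℕ → ℕ → ℕ) (x : X) : List Bool :=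
  twoA x.1 x.2.1.prod x.2.2.1 x.2.2.2.1.prod (φ x.2.1) x.2.2.2.2

theorem sub_two_zero {φ : List ℕ → ℕ → ℕ} (hφ : φ [] 0 = 0) (r : ℕ) :
    Sub (OkSplit 0 r) (twoX φ) cS := by
  refine arrS.toSub.congr fun x hx => ?_
  obtain ⟨H, Ns, M, tl, a⟩ := x
  obtain ⟨h1, -, -, -, -, -, -, h8, -⟩ := ok_iff.1 hx
  obtain rfl := List.length_eq_zero_iff.1 h1
  refine twoA_id h8 fun y hy => ?_
  obtain rfl : y = 0 := by simpa using hy
  exact hφ

theorem coprime_head {N : ℕ} {Ns : List ℕ} (h : (N :: Ns).Pairwise Nat.Coprime) :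
    Nat.Coprime Ns.prod N :=
  Nat.Coprime.symm (Nat.coprime_list_prod_right_iff.2 (List.pairwise_cons.1 h).1)

theorem sub_two_split (n r : ℕ) : Sub (OkSplit n r) (twoX mrgP) cS := by
  induction n with
  | zero => exact sub_two_zero rfl r
  | succ n ih =>
    obtain ⟨iv, hiv, hspec⟩ := exists_poly_invMod
    have h1 : Poly fun p : List ℕ × ℕ => iv (ax p.1 2, ax p.1 1) := hiv.comp (by fun_prop)
    have hg : Poly fun p : List ℕ × ℕ => ax p.1 1 - iv (ax p.1 2, ax p.1 1) * p.2 % ax p.1 1 :=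
      Poly.sub (by fun_prop) (Poly.mod (Poly.mul h1 (by fun_prop)) (by fun_prop))
    refine (step_nxt ih (step_six hg arrS fun _ _ => rfl)
      fun x hx => length_six hx _ _).toSub.congr fun x hx => ?_
    obtain ⟨H, N, Ns, M, tl, a, rfl⟩ := exists_cons hx
    obtain ⟨-, h2, -, -, -, h6, -⟩ := ok_iff.1 hx
    show twoA H (N :: Ns).prod M tl.prod (mrgP (N :: Ns)) a =
      twoA (H * N) Ns.prod (M * N) tl.prod (mrgP Ns)
        (six [H, N, Ns.prod, M, N, Ns.prod, tl.prod] (fun y => N - iv (Ns.prod, N) * y % N) a)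
    rw [six_eq, hspec _ _ (h6 N (by simp)) (coprime_head h2), List.prod_cons,
      split_cons fun y hy => h6 y (List.mem_cons_of_mem _ hy)]

theorem sub_two_unsplit (n r : ℕ) : Sub (OkSplit n r) (twoX splP) cS := by
  induction n with
  | zero => exact sub_two_zero rfl r
  | succ n ih =>
    obtain ⟨iv, hiv, hspec⟩ := exists_poly_invMod
    have h1 : Poly fun p : List ℕ × ℕ => iv (ax p.1 2, ax p.1 1) := hiv.comp (by fun_prop)
    have hg : Poly fun p : List ℕ × ℕ => iv (ax p.1 2, ax p.1 1) * p.2 :=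
      Poly.mul h1 (by fun_prop)
    refine (step_six hg (step_nxt ih arrS fun _ _ => rfl) fun x hx => ?_).toSub.congr
      fun x hx => ?_
    · have h := ok_nxt hx rfl
      rw [twoX, length_twoA]
      exact ((ok_iff.1 h).2.2.2.2.2.2.2.1).symm
    obtain ⟨H, N, Ns, M, tl, a, rfl⟩ := exists_cons hx
    obtain ⟨-, h2, -, -, -, h6, -⟩ := ok_iff.1 hx
    show twoA H (N :: Ns).prod M tl.prod (splP (N :: Ns)) a =
      six [H, N, Ns.prod, M, N, Ns.prod, tl.prod] (fun y => iv (Ns.prod, N) * y)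
        (twoA (H * N) Ns.prod (M * N) tl.prod (splP Ns) a)
    rw [six_eq, hspec _ _ (h6 N (by simp)) (coprime_head h2), List.prod_cons,
      unsplit_cons (h6 N (by simp)) (fun y hy => h6 y (List.mem_cons_of_mem _ hy))
        (coprime_head h2)]

end Spl

theorem sub_splitG (n r : ℕ) : Sub (OkSplit n r)
    (fun x => splitG x.1 x.2.1 x.2.2.1 x.2.2.2.1 x.2.2.2.2)
    (fun x => (x.2.2.2.2.length : ℝ) * (lg x.2.1.prod : ℝ) ^ θ) := by
  refine (Spl.sub_two_split n r).congr fun x hx => ?_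
  obtain ⟨H, Ns, M, tl, a⟩ := x
  obtain ⟨-, -, -, h4, h5, h6, h7, -⟩ := Spl.ok_iff.1 hx
  exact Spl.splitG_eq h4 h5 h6 h7 a

theorem sub_unsplitG (n r : ℕ) : Sub (OkSplit n r)
    (fun x => unsplitG x.1 x.2.1 x.2.2.1 x.2.2.2.1 x.2.2.2.2)
    (fun x => (x.2.2.2.2.length : ℝ) * (lg x.2.1.prod : ℝ) ^ θ) := by
  refine (Spl.sub_two_unsplit n r).congr fun x hx => ?_
  obtain ⟨H, Ns, M, tl, a⟩ := x
  obtain ⟨-, -, -, h4, h5, h6, h7, -⟩ := Spl.ok_iff.1 hx
  exact Spl.unsplitG_eq h4 h5 h6 h7 a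

open Spl in
theorem splitG_emk {B H M L : ℕ} {Ns : List ℕ} (hB : 2 ≤ B) (hH : 0 < H) (hM : 0 < M) (hL : 0 < L)
    (hc : Ns.Pairwise Nat.Coprime) (hp : ∀ x ∈ Ns, 0 < x) (f : ℕ → RB B) :
    splitG H Ns M [L, 2 * B] (emk B (s5 H Ns.prod M [L]).prod f) =
      emk B (sD H Ns M [L]).prod fun j =>
        f (pos (s5 H Ns.prod M [L]) (mrgI Ns (dig (sD H Ns M [L]) j))) := by
  have _ := hc
  have h1 : ∀ x ∈ [L], 0 < x := by simpa using hL
  have h2 : ∀ x ∈ [L, 2 * B], 0 < x := by simpa using ⟨hL, by omega⟩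
  have e : [L].prod = L := List.prod_singleton
  have e' : [L, 2 * B].prod = L * (2 * B) := by simp
  rw [splitG_eq hH hM hp h2, prod_s5, prod_sD', e, e']
  refine twoA_emk (fun y _ => mrgP_lt hp y) _ _ fun h hh y hy u hu x hx l hl => ?_
  have := split_idx hH hM hp h1 hh hy hu hx (e.symm ▸ hl)
  rw [e] at this
  rw [this]

open Spl in
theorem unsplitG_emk {B H M L : ℕ} {Ns : List ℕ} (hB : 2 ≤ B) (hH : 0 < H) (hM : 0 < M)
    (hL : 0 < L) (hc : Ns.Pairwise Nat.Coprime) (hp : ∀ x ∈ Ns, 0 < x) (f : ℕ → RB B) :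
    unsplitG H Ns M [L, 2 * B] (emk B (sD H Ns M [L]).prod f) =
      emk B (s5 H Ns.prod M [L]).prod fun j =>
        f (pos (sD H Ns M [L]) (splI Ns (dig (s5 H Ns.prod M [L]) j))) := by
  have _ := hc
  have h1 : ∀ x ∈ [L], 0 < x := by simpa using hL
  have h2 : ∀ x ∈ [L, 2 * B], 0 < x := by simpa using ⟨hL, by omega⟩
  have e : [L].prod = L := List.prod_singleton
  have e' : [L, 2 * B].prod = L * (2 * B) := by simp
  rw [unsplitG_eq hH hM hp h2, prod_s5, prod_sD', e, e']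
  refine twoA_emk (fun y _ => splP_lt hp y) _ _ fun h hh y hy u hu x hx l hl => ?_
  have := unsplit_idx hH hM hp h1 hh hy hu hx (e.symm ▸ hl)
  rw [e] at this
  rw [this]

end Crest.Agent.R326
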