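import Crest.Agent.R326.SwapSem
import Crest.Agent.R326.GeoQ
import Crest.Agent.R326.Gad
import Crest.Agent.R326.Slp

/-! Row 326: ingredients of the fast transposition recursion. -/

set_option autoImplicit false

namespace Crest.Agent.R326

namespace SR

/-! ### arrays as functions on valid digit vectors -/

open Classical in
/-- the array that holds a function on the valid digit vectors -/
noncomputable def repS (s : List ℕ) (u : {d // Valid s d} → ZMod 2) : List Bool :=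
  bmk s.prod fun j => if h : Valid s (dig s j) then decide (u ⟨dig s j, h⟩ = 1) else false

section
variable {s : List ℕ}

theorem length_repS (u : {d // Valid s d} → ZMod 2) : (repS s u).length = s.prod :=
  length_bmk _ _

theorem bat_repS (u : {d // Valid s d} → ZMod 2) (d : {d // Valid s d}) :
    bat (repS s u) (pos s d.1) = decide (u d = 1) := by
  have e : dig s (pos s d.1) = d.1 := dig_pos d.2
  have hv : Valid s (dig s (pos s d.1)) := by rw [e]; exact d.2
  have e' : (⟨dig s (pos s d.1), hv⟩ : {d // Valid s d}) = d := Subtype.ext e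
  unfold repS
  rw [bat_bmk _ (pos_lt d.2), dif_pos hv, e']

theorem repS_comp (hs : ∀ x ∈ s, 0 < x) (σ : (ℕ → ℕ) → ℕ → ℕ)
    (hσ : ∀ d, Valid s d → Valid s (σ d)) (u : {d // Valid s d} → ZMod 2) :
    repS s (fun d => u ⟨σ d.1, hσ _ d.2⟩) = gathS s σ (repS s u) :=
  arr_ext hs (length_repS _) (length_gathS _ _) fun ι h => by
    rw [bat_gathS _ _ h]
    exact (bat_repS _ ⟨ι, h⟩).trans (bat_repS u ⟨σ ι, hσ ι h⟩).symm

theorem repS_add (u v : {d // Valid s d} → ZMod 2) :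
    repS s (u + v) = List.zipWith xor (repS s u) (repS s v) := by
  unfold repS bmk
  rw [List.zipWith_map, List.zipWith_self]
  refine List.map_congr_left fun j _ => ?_
  split_ifs with h
  · rw [Pi.add_apply]
    generalize u ⟨dig s j, h⟩ = a
    generalize v ⟨dig s j, h⟩ = b
    revert a b
    decide
  · rfl

theorem repS_zero : repS s 0 = List.replicate s.prod false := by
  unfold repS bmk
  rw [List.eq_replicate_iff]
  refine ⟨by simp, fun b hb => ?_⟩
  obtain ⟨j, _, rfl⟩ := List.mem_map.1 hb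
  split_ifs with h
  · rfl
  · rfl

/-- the function held by an array -/
def ofArr (s : List ℕ) (a : List Bool) : {d // Valid s d} → ZMod 2 :=
  fun d => if bat a (pos s d.1) = true then 1 else 0

theorem repS_ofArr (hs : ∀ x ∈ s, 0 < x) {a : List Bool} (ha : a.length = s.prod) :
    repS s (ofArr s a) = a :=
  arr_ext hs (length_repS _) ha fun ι h => by
    rw [bat_repS _ ⟨ι, h⟩, ofArr]
    cases bat a (pos s ι) <;> rfl

end

/-! ### the data of a recursion level -/

/-- inputs `(k, H, M, L, a)` -/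
abbrev X : Type := ℕ × ℕ × ℕ × ℕ × List Bool

/-- the length of the array -/
abbrev ln (x : X) : ℕ := x.2.2.2.2.length

def D (q : ℕ) (x : X) : Prop :=
  Ok5 (x.2.1, q ^ x.1, x.2.2.1, x.2.2.2.1, x.2.2.2.2) ∧ WW ^ Nat.log mm x.1 ∣ x.2.2.2.1

def F (q : ℕ) (x : X) : List Bool := swapA x.2.1 (q ^ x.1) x.2.2.1 x.2.2.2.1 x.2.2.2.2

def rows (q : ℕ) (x : X) : ℕ := x.2.1 * q ^ x.1 * x.2.2.1 * q ^ x.1

noncomputable def bs (q : ℕ) (x : X) : ℝ :=
  (ln x : ℝ) + (rows q x : ℕ) * (WW ^ Nat.log mm x.1 * Ex (ln x) : ℕ)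

noncomputable def tau (q : ℕ) (x : X) : ℝ := bs q x * ((max x.1 1 : ℕ) : ℝ) ^ θ

/-- the shape of a wire -/
def sh (q : ℕ) (x : X) : List ℕ :=
  sQ x.2.1 (q ^ (x.1 / mm)) (q ^ (x.1 % mm)) x.2.2.1 (x.2.2.2.1 / WW)

/-- the cost of one recursive call -/
noncomputable def cs (q : ℕ) (x : X) : ℝ := bs q x / WW * ((x.1 / mm : ℕ) : ℝ) ^ θ

theorem one_lt_mm : 1 < mm := by rw [mm_eq]; norm_num
theorem WW_pos : 0 < WW := by rw [WW_eq]; positivity

section
variable {q : ℕ} {x : X}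

theorem D.ln_eq (h : D q x) : ln x = rows q x * x.2.2.2.1 := h.1.2.2.2.2

theorem D.rows_pos (h : D q x) : 0 < rows q x :=
  Nat.mul_pos (Nat.mul_pos (Nat.mul_pos h.1.1 h.1.2.1) h.1.2.2.1) h.1.2.1

theorem D.rows_le (h : D q x) : rows q x ≤ ln x :=
  h.ln_eq ▸ Nat.le_mul_of_pos_right _ h.1.2.2.2.1

theorem D.L_le (h : D q x) : x.2.2.2.1 ≤ ln x :=
  h.ln_eq ▸ Nat.le_mul_of_pos_left _ h.rows_pos

theorem D.N_le (h : D q x) : q ^ x.1 ≤ ln x :=
  (Nat.le_mul_of_pos_left _ (Nat.mul_pos (Nat.mul_pos h.1.1 h.1.2.1) h.1.2.2.1)).trans h.rows_le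

theorem D.H_le (h : D q x) : x.2.1 ≤ ln x :=
  (((Nat.le_mul_of_pos_right _ h.1.2.1).trans (Nat.le_mul_of_pos_right _ h.1.2.2.1)).trans
    (Nat.le_mul_of_pos_right _ h.1.2.1)).trans h.rows_le

theorem D.M_le (h : D q x) : x.2.2.1 ≤ ln x :=
  ((Nat.le_mul_of_pos_left _ (Nat.mul_pos h.1.1 h.1.2.1)).trans
    (Nat.le_mul_of_pos_right _ h.1.2.1)).trans h.rows_le

theorem D.k_lt (hq : 2 ≤ q) (h : D q x) : x.1 < (ln x).size :=
  Nat.lt_size.2 ((Nat.pow_le_pow_left hq _).trans h.N_le)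

theorem D.k_le (hq : 2 ≤ q) (h : D q x) : x.1 ≤ ln x :=
  (Nat.lt_two_pow_self.le.trans (Nat.pow_le_pow_left hq _)).trans h.N_le

theorem D.bs_ge (_h : D q x) : (ln x : ℝ) + rows q x * Ex (ln x) ≤ bs q x := by
  have h1 : Ex (ln x) ≤ WW ^ Nat.log mm x.1 * Ex (ln x) :=
    Nat.le_mul_of_pos_left _ (pow_pos WW_pos _)
  have h2 : (Ex (ln x) : ℝ) ≤ (WW ^ Nat.log mm x.1 * Ex (ln x) : ℕ) := by exact_mod_cast h1
  unfold bs
  gcongr

theorem D.bs_ge' (h : D q x) : (ln x : ℝ) + Ex (ln x) ≤ bs q x := by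
  have h1 : (1 : ℝ) ≤ rows q x := by exact_mod_cast h.rows_pos
  have h2 := h.bs_ge
  have h3 := le_mul_of_one_le_left (Nat.cast_nonneg (α := ℝ) (Ex (ln x))) h1
  linarith

theorem D.Ex_le (h : D q x) : (Ex (ln x) : ℝ) ≤ bs q x :=
  (le_add_of_nonneg_left (Nat.cast_nonneg _)).trans h.bs_ge'

theorem D.ln_le (h : D q x) : (ln x : ℝ) + 1 ≤ bs q x := by
  have := h.bs_ge'
  have := Ax.one_le_Ex (ln x)
  linarith

theorem bs_nonneg : 0 ≤ bs q x := by unfold bs; positivity

theorem cs_nonneg : 0 ≤ cs q x := by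
  have := bs_nonneg (q := q) (x := x)
  unfold cs
  positivity

theorem log_eq {k : ℕ} (hk : mm ≤ k) : Nat.log mm k = Nat.log mm (k / mm) + 1 :=
  Nat.log_of_one_lt_of_le one_lt_mm hk

theorem pow_eq (q k : ℕ) : (q ^ (k / mm)) ^ mm * q ^ (k % mm) = q ^ k := by
  rw [← pow_mul, ← pow_add, Nat.div_add_mod' k mm]

theorem D.L_eq (h : D q x) (hk : mm ≤ x.1) : x.2.2.2.1 = WW * (x.2.2.2.1 / WW) := by
  have h1 := h.2
  rw [log_eq hk, pow_succ] at h1
  exact (Nat.mul_div_cancel' (Dvd.dvd.trans (Dvd.intro_left _ rfl) h1)).symm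

theorem D.L'_pos (h : D q x) (hk : mm ≤ x.1) : 0 < x.2.2.2.1 / WW := by
  have h1 := h.1.2.2.2.1
  have h2 := h.L_eq hk
  exact Nat.pos_of_ne_zero fun e => by rw [e] at h2; simp only at h1; omega

theorem D.L'_dvd (h : D q x) (hk : mm ≤ x.1) :
    WW ^ Nat.log mm (x.1 / mm) ∣ x.2.2.2.1 / WW := by
  have h1 := h.2
  rw [log_eq hk, pow_succ', h.L_eq hk] at h1
  exact Nat.dvd_of_mul_dvd_mul_left WW_pos h1

theorem prod_sh : (sh q x).prod = rows q x * (x.2.2.2.1 / WW) := by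
  unfold sh rows
  rw [prod_sQ, pow_eq]

theorem length_sh : (sh q x).length = 2 * mm + 5 := length_sQ

theorem D.ln_eq' (h : D q x) (hk : mm ≤ x.1) : ln x = WW * (sh q x).prod := by
  rw [h.ln_eq, prod_sh]
  conv_lhs => rw [h.L_eq hk]
  ring

theorem D.prod_le (h : D q x) (hk : mm ≤ x.1) : (sh q x).prod ≤ ln x :=
  h.ln_eq' hk ▸ Nat.le_mul_of_pos_left _ WW_pos

theorem D.sh_pos (h : D q x) (hk : mm ≤ x.1) : ∀ y ∈ sh q x, 0 < y := by
  have h1 : 0 < (sh q x).prod := prod_sh (q := q) (x := x) ▸ Nat.mul_pos h.rows_pos (h.L'_pos hk)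
  exact fun y hy => Nat.pos_of_dvd_of_pos (List.dvd_prod hy) h1

theorem D.okS (h : D q x) (hk : mm ≤ x.1) {a : List Bool} (ha : a.length = (sh q x).prod) :
    OkS (2 * mm + 5) (sh q x) a := ⟨length_sh, h.sh_pos hk, ha⟩

theorem D.sz_sh (h : D q x) (hk : mm ≤ x.1) : sz (sh q x) ≤ (3 * (2 * mm + 5) + 1) * lg (ln x) := by
  have h1 := (h.okS hk (List.length_replicate (a := false))).sz_le
  rw [List.length_replicate] at h1
  exact h1.trans (Nat.mul_le_mul_left _ (lg_mono (h.prod_le hk)))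

theorem ax_sh (c : Co) : ax (sh q x) (axC c) = q ^ (x.1 / mm) := ax_sQ_axC c

theorem axC_lt' (c : Co) : axC c < 2 * mm + 5 := (axC_lt c).trans (by omega)

/-- everything above the lowest part of a wire fits in the rows -/
theorem D.le_rows (h : D q x) (hk : mm ≤ x.1) (c : Co) {A : ℕ}
    (hA : A * vol (sh q x) (axC c + 1) (sh q x).length = (sh q x).prod) : A ≤ rows q x := by
  obtain ⟨e, he⟩ : x.2.2.2.1 / WW ∣ vol (sh q x) (axC c + 1) (sh q x).length := by
    rw [length_sh]; exact L_dvd_vol c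
  have h1 := vol_pos (h.sh_pos hk) (axC c + 1) (sh q x).length
  rw [he] at h1 hA
  rw [prod_sh] at hA
  have h2 : A * e = rows q x :=
    Nat.eq_of_mul_eq_mul_right (h.L'_pos hk) (by rw [← hA]; ring)
  exact h2 ▸ Nat.le_mul_of_pos_right _ (Nat.pos_of_mul_pos_left h1)

theorem D.vol_le (h : D q x) (hk : mm ≤ x.1) (c : Co) : vol (sh q x) 0 (axC c) ≤ rows q x :=
  (Nat.le_mul_of_pos_right _ (ax_pos (h.sh_pos hk) (axC c))).trans
    (h.le_rows hk c (vol_three (length_sh (q := q) (x := x) ▸ axC_lt' c)))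

/-- the argument of a recursive call -/
def sub (q : ℕ) (x : X) (t t' : ℕ) (a : List Bool) : X :=
  (x.1 / mm, vol (sh q x) 0 t, vol (sh q x) (t + 1) t', vol (sh q x) (t' + 1) (sh q x).length, a)

theorem D.sub_D (h : D q x) (hk : mm ≤ x.1) {c c' : Co} (hc : axC c < axC c') {a : List Bool}
    (ha : a.length = (sh q x).prod) : D q (sub q x (axC c) (axC c') a) := by
  refine ⟨?_, (h.L'_dvd hk).trans ?_⟩
  · have := ok5_of_okS (h.okS hk ha) hc (axC_lt' c') ((ax_sh c).trans (ax_sh c').symm)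
    rwa [ax_sh] at this
  · show _ ∣ vol (sh q x) (axC c' + 1) (sh q x).length
    rw [length_sh]; exact L_dvd_vol c'

theorem D.sub_F (h : D q x) (hk : mm ≤ x.1) {c c' : Co} (hc : axC c < axC c') (a : List Bool) :
    F q (sub q x (axC c) (axC c') a) = gathS (sh q x) (swI (axC c) (axC c')) a := by
  rw [gathS_swI (h.sh_pos hk) hc (length_sh (q := q) (x := x) ▸ axC_lt' c')
    ((ax_sh c).trans (ax_sh c').symm), ax_sh]
  rfl

theorem D.sub_tau (h : D q x) (hk : mm ≤ x.1) {c c' : Co} (hc : axC c < axC c') {a : List Bool}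
    (ha : a.length = (sh q x).prod) : tau q (sub q x (axC c) (axC c') a) ≤ cs q x := by
  have h1 : rows q (sub q x (axC c) (axC c') a) ≤ rows q x := by
    refine h.le_rows hk c' ?_
    have := vol_five hc (length_sh (q := q) (x := x) ▸ axC_lt' c')
    rwa [ax_sh, ax_sh] at this
  have h2 : 1 ≤ x.1 / mm := Nat.div_pos hk (by have := one_lt_mm; omega)
  have h3 : Ex a.length ≤ Ex (ln x) := Ex_mono (ha ▸ h.prod_le hk)
  have h4 : WW * (a.length + rows q (sub q x (axC c) (axC c') a) *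
      (WW ^ Nat.log mm (x.1 / mm) * Ex a.length)) ≤
      ln x + rows q x * (WW ^ Nat.log mm x.1 * Ex (ln x)) := by
    rw [mul_add, h.ln_eq' hk, ← ha, log_eq hk, pow_succ]
    refine Nat.add_le_add_left ?_ _
    rw [ha, ← h.ln_eq' hk]
    calc _ ≤ WW * (rows q x * (WW ^ Nat.log mm (x.1 / mm) * Ex (ln x))) := by
          rw [← ha]; gcongr
      _ = _ := by ring
  have h5 : (WW : ℝ) * bs q (sub q x (axC c) (axC c') a) ≤ bs q x := by
    unfold bs
    exact_mod_cast h4
  have h6 : (0 : ℝ) < WW := by exact_mod_cast WW_pos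
  unfold tau cs
  have e : max (sub q x (axC c) (axC c') a).1 1 = x.1 / mm := max_eq_left h2
  rw [e]
  refine mul_le_mul_of_nonneg_right ?_ (by positivity)
  rw [le_div_iff₀ h6]
  linarith

end

/-! ### the action of the frames on the wires -/

noncomputable def redK (q k : ℕ) : Sq q →+* ZMod (q ^ k) := (exists_red q k).some

/-- ghost families of wire contents -/
abbrev U (q : ℕ) : Type := (x : X) → {d // Valid (sh q x) d} → ZMod 2

noncomputable def act (q : ℕ) : GL Co (Sq q) →* Module.End (ZMod 2) (U q) where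
  toFun g :=
    { toFun := fun u x d => u x ⟨actI (redK q (x.1 / mm)) g d.1, actI_valid _ g d.2⟩
      map_add' := fun _ _ => rfl
      map_smul' := fun _ _ => rfl }
  map_one' := LinearMap.ext fun u => funext fun x => funext fun d =>
    congrArg (u x) (Subtype.ext (actI_one _ d.2))
  map_mul' g g' := LinearMap.ext fun u => funext fun x => funext fun d =>
    congrArg (u x) (Subtype.ext (actI_mul _ g g' d.2))

/-- the array that holds `u` at `x` -/
noncomputable def rep (q : ℕ) (x : X) (u : U q) : List Bool := repS (sh q x) (u x)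

theorem length_rep {q : ℕ} (x : X) (u : U q) : (rep q x u).length = (sh q x).prod := length_repS _

theorem rep_act {q : ℕ} {x : X} (h : D q x) (hk : mm ≤ x.1) (g : GL Co (Sq q)) (u : U q) :
    rep q x (act q g u) = gathS (sh q x) (actI (redK q (x.1 / mm)) g) (rep q x u) :=
  repS_comp (h.sh_pos hk) _ (fun _ hd => actI_valid _ g hd) (u x)

theorem rep_act' {q : ℕ} {x : X} (h : D q x) (hk : mm ≤ x.1) (g : GL Co (Sq q)) (u : U q)
    {σ : (ℕ → ℕ) → ℕ → ℕ} (e : ∀ d, Valid (sh q x) d → actI (redK q (x.1 / mm)) g d = σ d) :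
    rep q x (act q g u) = gathS (sh q x) σ (rep q x u) :=
  (rep_act h hk g u).trans (gathS_congr (h.sh_pos hk) _ e)

/-- naive exchange of two axes of bounded length -/
theorem sub_swSmall (n t t' C : ℕ) (htt : t < t') (ht : t' < n) :
    Sub (fun x : List ℕ × List Bool => OkS n x.1 x.2 ∧ ax x.1 t = ax x.1 t' ∧ ax x.1 t ≤ C)
      (fun x => gathS x.1 (swI t t') x.2) (fun x => (x.2.length : ℝ) + Ex x.2.length) := by
  have h0 := Ax.l0_input (n := n)
    (P := fun x : List ℕ × List Bool => OkS n x.1 x.2 ∧ ax x.1 t = ax x.1 t' ∧ ax x.1 t ≤ C)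
    fun _ h => h.1
  have h1 := L0.sub (sub_five n t t') h0 (fun _ _ h => h.1) Le.refl
  have h2 := L0.sub sub_swapNaive h1 (fun _ _ h => ok5_of_okS h.1 htt ht h.2.1)
    (Le.of_le_mul ((C : ℝ) ^ 2 + 1) (by positivity) fun _ x h => by
      have e1 : ((ax x.1 t : ℕ) : ℝ) ≤ C := by exact_mod_cast h.2.2
      have e2 : ((ax x.1 t : ℕ) : ℝ) ^ 2 ≤ (C : ℝ) ^ 2 := by gcongr
      have e3 := mul_le_mul_of_nonneg_right e2 (Nat.cast_nonneg (α := ℝ) x.2.length)
      have e4 : (0 : ℝ) ≤ (C : ℝ) ^ 2 * Ex x.2.length := by positivity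
      have e5 : (0 : ℝ) ≤ x.2.length := Nat.cast_nonneg _
      show ((ax x.1 t : ℕ) : ℝ) ^ 2 * x.2.length + Ex x.2.length ≤
        ((C : ℝ) ^ 2 + 1) * (x.2.length + Ex x.2.length)
      nlinarith)
  exact h2.toSub.congr fun x h => gathS_swI h.1.2.1 htt (h.1.1 ▸ ht) h.2.1 _

end SR

end Crest.Agent.R326
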