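import Crest.Agent.R326.SwapSem
import Crest.Agent.R326.GeoQ
import Crest.Agent.R326.Gad
import Crest.Agent.R326.Slp
import Crest.Agent.R326.SwapRecAux

/-! Row 326: fast transposition of two registers of length `q ^ k`. -/

set_option autoImplicit false

namespace Crest.Agent.R326

namespace SR

/-- the numerical part of an input -/
def hd (x : X) : ℕ × ℕ × ℕ × ℕ × ℕ := (x.1, x.2.1, x.2.2.1, x.2.2.2.1, ln x)

theorem D.sz_hd {q : ℕ} {x : X} (hq : 2 ≤ q) (h : D q x) : sz (hd x) ≤ 14 * lg (ln x) ^ 1 := by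
  have h1 := sz_nat_le_lg (h.k_le hq)
  have h2 := sz_nat_le_lg h.H_le
  have h3 := sz_nat_le_lg h.M_le
  have h4 := sz_nat_le_lg h.L_le
  have h5 := sz_nat_le_lg (le_refl (ln x))
  have h6 := one_le_lg (ln x)
  simp only [hd, sz_pair, pow_one]
  omega

theorem poly_sQ {α : Type} [Enc α] {H Q R M L : α → ℕ} (hH : Poly H) (hQ : Poly Q) (hR : Poly R)
    (hM : Poly M) (hL : Poly L) : Poly fun a => sQ (H a) (Q a) (R a) (M a) (L a) := by
  have h1 : Poly fun a => List.replicate mm (Q a) :=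
    (P0.replicate_length (Poly.const (un mm)) hQ).congr fun a => by rw [List.length_replicate]
  exact hH.cons (h1.append (hR.cons (hM.cons (h1.append (hR.cons (hL.cons (Poly.const [])))))))

section
variable {q : ℕ} (hq : 2 ≤ q) {pre : World → X → Prop} (hp : ∀ w x, pre w x → D q x)
include hq hp

theorem l0_in : L0 pre (fun x => x) (bs q) (fun x => x) := by
  have hn : ∀ f : X → ℕ, (∀ x, D q x → f x ≤ ln x) → Le pre (fun x => (sz (f x) : ℝ)) (bs q) :=
    fun f hf => Ax.le_sz (m := ln) 2 1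
      (fun w x h => by rw [pow_one]; exact sz_nat_le_lg (hf x (hp w x h)))
      fun w x h => (hp w x h).Ex_le
  exact L0.input (Ax.le_sz_pair (f := fun x : X => x.1) (g := fun x => x.2)
    (hn _ fun _ h => h.k_le hq) (Ax.le_sz_pair (f := fun x : X => x.2.1) (g := fun x => x.2.2)
    (hn _ fun _ h => h.H_le) (Ax.le_sz_pair (f := fun x : X => x.2.2.1) (g := fun x => x.2.2.2)
    (hn _ fun _ h => h.M_le) (Ax.le_sz_pair (f := fun x : X => x.2.2.2.1) (g := fun x => x.2.2.2.2)
    (hn _ fun _ h => h.L_le) (Ax.le_sz_bits fun w x h => (hp w x h).ln_le)))))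

theorem l0_hd {β : Type} [Enc β] {g : ℕ × ℕ × ℕ × ℕ × ℕ → β} (hg : Poly g) :
    L0 pre (fun x => x) (bs q) (fun x => g (hd x)) :=
  L0.poly hg (L0.lin (g := hd) (by unfold hd; fun_prop) (l0_in hq hp))
    (Ax.le_pow (m := ln) 14 1 (fun w x h => (hp w x h).sz_hd hq) fun w x h => (hp w x h).Ex_le)

theorem l0_N : L0 pre (fun x => x) (bs q) (fun x => q ^ x.1) :=
  (l0_hd hq hp (g := fun y => q ^ min y.1 y.2.2.2.2.size)
    (Poly.pow_min_size (Poly.const q) (by fun_prop) (by fun_prop))).congr fun w x h => by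
      simp only [hd]
      rw [min_eq_left ((hp w x h).k_lt hq).le]

theorem l0_rows : L0 pre (fun x => x) (bs q) (fun x => rows q x) := by
  have h1 : Poly fun y : ℕ × ℕ × ℕ × ℕ × ℕ => q ^ min y.1 y.2.2.2.2.size :=
    Poly.pow_min_size (Poly.const q) (by fun_prop) (by fun_prop)
  exact (l0_hd hq hp (g := fun y => y.2.1 * q ^ min y.1 y.2.2.2.2.size * y.2.2.1 *
      q ^ min y.1 y.2.2.2.2.size)
    ((((Poly.fst (Poly.snd Poly.id)).mul h1).mul (Poly.fst (Poly.snd (Poly.snd Poly.id)))).mul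
      h1)).congr fun w x h => by
      simp only [hd]
      rw [min_eq_left ((hp w x h).k_lt hq).le, rows]

theorem l0_sh : L0 pre (fun x => x) (bs q) (fun x => sh q x) :=
  (l0_hd hq hp (g := fun y => sQ y.2.1 (q ^ min (y.1 / mm) y.2.2.2.2.size)
      (q ^ min (y.1 % mm) y.2.2.2.2.size) y.2.2.1 (y.2.2.2.1 / WW))
    (poly_sQ (by fun_prop) (Poly.pow_min_size (Poly.const q) (by fun_prop) (by fun_prop))
      (Poly.pow_min_size (Poly.const q) (by fun_prop) (by fun_prop)) (by fun_prop)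
      (by fun_prop))).congr fun w x h => by
      have h1 := ((hp w x h).k_lt hq).le
      simp only [hd]
      rw [min_eq_left ((Nat.div_le_self _ _).trans h1), min_eq_left ((Nat.mod_le _ _).trans h1), sh]

/-- short registers are exchanged naively -/
theorem l0_base (hk : ∀ w x, pre w x → x.1 < mm) : L0 pre (fun x => x) (bs q) (F q) := by
  have h0 := l0_in hq hp
  have h1 : L0 pre (fun x => x) (bs q)
      (fun x : X => (x.2.1, q ^ x.1, x.2.2.1, x.2.2.2.1, x.2.2.2.2)) :=
    (L0.lin (g := fun x : X => x.2.1) (by fun_prop) h0).pair ((l0_N hq hp).pair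
      (L0.lin (g := fun x : X => x.2.2) (by fun_prop) h0))
  refine (L0.sub sub_swapNaive h1 (fun w x h => (hp w x h).1)
    (Le.of_le_mul (((q ^ mm : ℕ) : ℝ) ^ 2 + 1) (by positivity) fun w x h => ?_)).congr
    fun _ _ _ => rfl
  have e1 : ((q ^ x.1 : ℕ) : ℝ) ≤ (q ^ mm : ℕ) := by
    exact_mod_cast Nat.pow_le_pow_right (by omega) (hk w x h).le
  have e2 : ((q ^ x.1 : ℕ) : ℝ) ^ 2 ≤ ((q ^ mm : ℕ) : ℝ) ^ 2 := by gcongr
  have e3 := mul_le_mul_of_nonneg_right e2 (Nat.cast_nonneg (α := ℝ) (ln x))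
  have e4 : (0 : ℝ) ≤ ((q ^ mm : ℕ) : ℝ) ^ 2 * Ex (ln x) := by positivity
  have e5 : (0 : ℝ) ≤ ln x := Nat.cast_nonneg _
  have e6 := mul_le_mul_of_nonneg_left (hp w x h).bs_ge'
    (show (0 : ℝ) ≤ ((q ^ mm : ℕ) : ℝ) ^ 2 + 1 by positivity)
  show ((q ^ x.1 : ℕ) : ℝ) ^ 2 * ln x + Ex (ln x) ≤ _
  nlinarith

end

/-- the wires of a level -/
def wires (q : ℕ) (x : X) : List (List Bool) := unsh WW (rows q x) (x.2.2.2.1 / WW) x.2.2.2.2

theorem length_wires (q : ℕ) (x : X) : (wires q x).length = WW := by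
  rw [wires, unsh, List.length_map, List.length_range]

theorem mem_wires {q : ℕ} {x : X} {a : List Bool} (h : a ∈ wires q x) :
    a.length = (sh q x).prod := by
  obtain ⟨w, -, rfl⟩ := List.mem_map.1 h
  rw [length_bmk, prod_sh]

/-- the ghost contents of the wires -/
def pin (q : ℕ) (w : Fin WW) : U q := fun x => ofArr (sh q x) ((wires q x).getD w [])

theorem ofFn_getD {α β : Type} {n : ℕ} (l : List α) (h : l.length = n) (d : α) (f : α → β)
    (g : Fin n → β) (e : ∀ w : Fin n, l.getD w d ∈ l → g w = f (l.getD w d)) :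
    List.ofFn g = l.map f := by
  subst h
  refine List.ext_getElem (by simp) fun i h1 h2 => ?_
  have h3 : i < l.length := by simpa using h2
  have h4 : l.getD i d = l[i] := List.getD_eq_getElem _ _ h3
  rw [List.getElem_ofFn, List.getElem_map, e ⟨i, h3⟩ (h4 ▸ List.getElem_mem h3)]
  exact congrArg f h4

theorem rep_pin {q : ℕ} {x : X} (h : D q x) (hk : mm ≤ x.1) (w : Fin WW)
    (hw : (wires q x).getD w [] ∈ wires q x) : rep q x (pin q w) = (wires q x).getD w [] :=
  repS_ofArr (h.sh_pos hk) (mem_wires hw)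

theorem D.final {q : ℕ} {x : X} (hq : 0 < q) (h : D q x) (hk : mm ≤ x.1) {g : GL Co (Sq q)}
    (hg : g.val = Matrix.fromBlocks 0 1 1 0) (a : List Bool) :
    gathS (sh q x) (swI (mm + 1) (2 * mm + 3))
        (gathS (sh q x) (actI (redK q (x.1 / mm)) g) a) =
      swapA x.2.1 (q ^ x.1) x.2.2.1 (x.2.2.2.1 / WW) a := by
  have := swap_full (redK q (x.1 / mm)) (R := q ^ (x.1 % mm)) hg h.1.1
    (pow_pos hq _) (pow_pos hq _) h.1.2.2.1 (h.L'_pos hk) a
  rw [pow_eq] at this
  unfold sh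
  exact this

/-- the context of the operations on wires -/
def ctx (q : ℕ) (x : X) : ℕ × List ℕ := (x.1 / mm, sh q x)

section
variable {q : ℕ} (hq : q.Prime) {pre : World → X → Prop} (hp : ∀ w x, pre w x → D q x)
  (hk : ∀ w x, pre w x → mm ≤ x.1)
include hq hp hk

theorem sz_ctx (w : World) (x : X) (h : pre w x) :
    sz (ctx q x) ≤ (3 * (2 * mm + 5) + 4) * lg (ln x) ^ 1 := by
  have h1 := sz_nat_le_lg ((Nat.div_le_self x.1 mm).trans ((hp w x h).k_le hq.two_le))
  have h2 := (hp w x h).sz_sh (hk w x h)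
  have h3 := one_le_lg (ln x)
  simp only [ctx, sz_pair, pow_one]
  nlinarith

theorem le_ctx : Le pre (fun x => (sz (ctx q x) : ℝ)) (bs q) :=
  Ax.le_sz _ _ (sz_ctx hq hp hk) fun w x h => (hp w x h).Ex_le

omit hq in
theorem le_prod : Le pre (fun x => (((sh q x).prod : ℕ) : ℝ) + 1) (bs q) :=
  Le.of_le fun w x h => by
    have h1 : (((sh q x).prod : ℕ) : ℝ) ≤ ln x := by
      exact_mod_cast (hp w x h).prod_le (hk w x h)
    have h2 := (hp w x h).ln_le
    linarith

omit hq in
theorem le_rep (u : U q) : Le pre (fun x => (sz (rep q x u) : ℝ)) (bs q) :=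
  Ax.le_sz_bits fun w x h => by
    have h1 : (((sh q x).prod : ℕ) : ℝ) ≤ ln x := by
      exact_mod_cast (hp w x h).prod_le (hk w x h)
    have h2 := (hp w x h).ln_le
    rw [length_rep]
    linarith

omit hq in
theorem le_cst (u : U q) :
    Le pre (fun x => ((rep q x u).length : ℝ) + Ex (rep q x u).length) (bs q) :=
  Le.of_le fun w x h => by
    have h0 := (hp w x h).prod_le (hk w x h)
    have h1 : (((sh q x).prod : ℕ) : ℝ) ≤ ln x := by exact_mod_cast h0
    have h2 : (Ex (sh q x).prod : ℝ) ≤ Ex (ln x) := by exact_mod_cast Ex_mono h0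
    have h3 := (hp w x h).bs_ge'
    rw [length_rep]
    linarith

theorem cf_zero : Cf pre (ctx q) (fun x => rep q x 0) (bs q) (fun _ => 0) := by
  have h0 := L0.input (le_ctx hq hp hk)
  have h1 : L0 pre (ctx q) (bs q) (fun x => (sh q x).prod) :=
    L0.poly (g := fun c : ℕ × List ℕ => c.2.prod) (by fun_prop) h0
      (Ax.le_pow _ _ (sz_ctx hq hp hk) fun w x h => (hp w x h).Ex_le)
  have h2 := L0.sub sub_replicate (h1.pair (L0.const h0.1 false)) (fun _ _ _ => trivial)
    (Le.trans (Le.of_le_mul 2 zero_le_two fun _ x _ => by simp only [sz_bool]; norm_num; linarith)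
      (le_prod hp hk))
  exact (h2.congr fun _ x _ => repS_zero).2

theorem l0_one (u : U q) : L0 pre (fun x => (ctx q x, rep q x u)) (bs q)
    (fun x => (ctx q x, rep q x u)) :=
  L0.input (Ax.le_sz_pair (le_ctx hq hp hk) (le_rep hp hk u))

theorem l0_one' (u : U q) : L0 pre (fun x => (ctx q x, rep q x u)) (bs q)
    (fun x => (sh q x, rep q x u)) :=
  L0.lin (g := fun y : (ℕ × List ℕ) × List Bool => (y.1.2, y.2)) (by fun_prop)
    (l0_one hq hp hk u)

theorem cf_add (u v : U q) : Cf pre (fun x => (ctx q x, rep q x u, rep q x v))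
    (fun x => rep q x (u + v)) (bs q) (fun _ => 0) := by
  have h0 := L0.input (Ax.le_sz_pair (le_ctx hq hp hk)
    (Ax.le_sz_pair (le_rep hp hk u) (le_rep hp hk v)))
  exact ((L0.lin lin_xorA (L0.lin (Lin.snd Lin.id) h0)).congr
    fun _ x _ => repS_add (u x) (v x)).2

theorem cf_smul (a : ZMod 2) (u : U q) : Cf pre (fun x => (ctx q x, rep q x u))
    (fun x => rep q x (a • u)) (bs q) (fun _ => 0) := by
  have ha : a = 0 ∨ a = 1 := by revert a; decide
  rcases ha with rfl | rfl
  · rw [zero_smul]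
    exact (L0.lin (Lin.fst Lin.id) (l0_one hq hp hk u)).thenCf (cf_zero hq hp hk)
  · rw [one_smul]
    exact (L0.lin (Lin.snd Lin.id) (l0_one hq hp hk u)).2

theorem cf_free (g : GL Co (Sq q)) (hg : g ∈ FrQ q) (u : U q) :
    Cf pre (fun x => (ctx q x, rep q x u)) (fun x => rep q x (act q g u)) (bs q) (fun _ => 0) := by
  have h0 := l0_one' hq hp hk u
  have hok : ∀ w x, pre w x → OkS (2 * mm + 5) (sh q x) (rep q x u) := fun w x h =>
    (hp w x h).okS (hk w x h) (length_rep x u)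
  rcases hg with ⟨i, t, hit, hg⟩ | ⟨t, c, -, hg⟩ | ⟨t, c, hc, hg⟩ | ⟨t, hg⟩
  · have h1 := L0.sub (sub_shS (π := Unit) (g := fun p => p.2.getD (axC i) 0) (by fun_prop)
      (2 * mm + 5) (axC t) 1 0 (axC_lt' t)) ((L0.const h0.1 ()).pair h0)
      (fun w x h => ⟨hok w x h, by simp⟩) (Le.of_le fun w x h => by
        have e0 := (hp w x h).prod_le (hk w x h)
        have e1 : (((sh q x).prod : ℕ) : ℝ) ≤ ln x := by exact_mod_cast e0
        have e2 : ((vol (sh q x) 0 (axC t) * Ex (sh q x).prod : ℕ) : ℝ) ≤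
            (rows q x * Ex (ln x) : ℕ) := by
          exact_mod_cast Nat.mul_le_mul ((hp w x h).vol_le (hk w x h) t) (Ex_mono e0)
        have e3 := (hp w x h).bs_ge
        push_cast at e2
        simp only [length_rep]
        linarith)
    exact (h1.congr fun w x h => rep_act' (hp w x h) (hk w x h) g u
      fun d hd => actI_shear _ hit hg hd).2
  · have h1 := L0.sub (sub_scaleS (2 * mm + 5) (axC t) c (axC_lt' t)) h0 hok (le_cst hp hk u)
    exact (h1.congr fun w x h => rep_act' (hp w x h) (hk w x h) g u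
      fun d hd => by rw [ax_sh]; exact actI_scale _ hg hd).2
  · have h1 := L0.sub (sub_unscaleS (2 * mm + 5) (axC t) c (axC_lt' t)) h0
      (fun w x h => ⟨hok w x h, by rw [ax_sh]; exact hc.pow_right _⟩) (le_cst hp hk u)
    exact (h1.congr fun w x h => rep_act' (hp w x h) (hk w x h) g u
      fun d hd => by rw [ax_sh]; exact actI_unscale _ (hc.pow_right _) hg hd).2
  · have h1 := L0.sub (sub_negS (2 * mm + 5) (axC t) (axC_lt' t)) h0 hok (le_cst hp hk u)
    exact (h1.congr fun w x h => rep_act' (hp w x h) (hk w x h) g u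
      fun d hd => by rw [ax_sh]; exact actI_neg _ hg hd).2

theorem cf_step (hs : ∀ w x, pre w x → SelfOK (D q) (fun y => y.1) (F q) (tau q) w x.1)
    (g : GL Co (Sq q)) (hg : g ∈ StQ q) (u : U q) :
    Cf pre (fun x => (ctx q x, rep q x u)) (fun x => rep q x (act q g u)) (bs q) (cs q) := by
  obtain ⟨i, j, hg⟩ := hg
  have hc : axC (.inl i) < axC (.inr j) := axC_lt_axC (by
    have := i.2
    simp only [Co.ord]
    omega)
  have h1 := L0.sub (sub_five (2 * mm + 5) (axC (.inl i)) (axC (.inr j))) (l0_one' hq hp hk u)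
    (fun w x h => (hp w x h).okS (hk w x h) (length_rep x u)) (le_cst hp hk u)
  have h2 : L0 pre (fun x => (ctx q x, rep q x u)) (bs q)
      (fun x => sub q x (axC (.inl i)) (axC (.inr j)) (rep q x u)) :=
    L0.lin (g := fun y : ((ℕ × List ℕ) × List Bool) × X => (y.1.1.1, y.2.1, y.2.2.2))
      (by fun_prop) ((l0_one hq hp hk u).pair h1)
  have h3 := h2.thenCf (Cf.self (D := D q) (μ := fun y => y.1) (F := F q) (τ := tau q)
    (σ := bs q) (fun x => x.1) fun w x h => ⟨hs w x h,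
      (hp w x h).sub_D (hk w x h) hc (length_rep x u),
      Nat.div_lt_self (by have := hk w x h; have := one_lt_mm; omega) one_lt_mm⟩)
  refine (h3.congr (fun _ _ _ => rfl) fun w x h => congrArg enc ?_).mono (fun _ _ h => h) Le.refl
    fun w x h => (hp w x h).sub_tau (hk w x h) hc (length_rep x u)
  rw [(hp w x h).sub_F (hk w x h) hc]
  exact rep_act' (hp w x h) (hk w x h) g u fun d hd => actI_swap _ hg hd

omit hk in
theorem l0_L' : L0 pre (fun x => x) (bs q) (fun x => x.2.2.2.1 / WW) :=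
  l0_hd hq.two_le hp (g := fun y => y.2.2.2.1 / WW) (by fun_prop)

theorem l0_wires : L0 pre (fun x => x) (bs q) (wires q) := by
  have h0 := l0_in hq.two_le hp
  have h1 := (l0_rows hq.two_le hp).pair ((L0.const h0.1 WW).pair ((l0_L' hq hp).pair
    (L0.lin (g := fun x : X => x.2.2.2.2) (by fun_prop) h0)))
  refine (L0.sub sub_unsh h1 (fun w x h => ⟨(hp w x h).rows_pos, WW_pos,
    (hp w x h).L'_pos (hk w x h), ?_⟩)
    (Le.of_le_mul ((WW : ℝ) + 1) (by positivity) fun w x h => ?_)).congr fun _ _ _ => rfl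
  · show ln x = rows q x * WW * (x.2.2.2.1 / WW)
    rw [(hp w x h).ln_eq' (hk w x h), prod_sh]
    ring
  · have e4 : (0 : ℝ) ≤ (WW : ℝ) * Ex (ln x) := by positivity
    have e5 : (0 : ℝ) ≤ ln x := Nat.cast_nonneg _
    have e6 := mul_le_mul_of_nonneg_left (hp w x h).bs_ge'
      (show (0 : ℝ) ≤ (WW : ℝ) + 1 by positivity)
    show (WW : ℝ) * ln x + Ex (ln x) ≤ _
    nlinarith

/-- the end of a level: the exchange of the short axes on every wire and the reassembly -/
theorem cf_final (g : GL Co (Sq q)) (hg : g.val = Matrix.fromBlocks 0 1 1 0) :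
    Cf pre (fun x => ((rows q x, x.2.2.2.1 / WW, sh q x),
      (wires q x).map (gathS (sh q x) (actI (redK q (x.1 / mm)) g)))) (F q) (bs q)
      (fun _ => 0) := by
  set out : X → List (List Bool) :=
    fun x => (wires q x).map (gathS (sh q x) (actI (redK q (x.1 / mm)) g)) with hout
  have hlen : ∀ x, (out x).length = WW := fun x => by
    rw [hout, List.length_map, length_wires]
  have hmem : ∀ x, ∀ a ∈ out x, a.length = (sh q x).prod := fun x a ha => by
    obtain ⟨b, -, rfl⟩ := List.mem_map.1 ha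
    exact length_gathS _ _
  have hpar := (l0_rows hq.two_le hp).pair ((l0_L' hq hp).pair (l0_sh hq.two_le hp))
  have hsz : Le pre (fun x => (sz (out x) : ℝ)) (bs q) :=
    Le.of_le_mul (2 * WW + 3) (by positivity) fun w x h => by
      have e1 : sz (out x) ≤ (out x).length * (2 * (sh q x).prod + 1 + 1) + 1 :=
        sz_list_le fun a ha => by rw [sz_bits, hmem x a ha]
      have e2 := (hp w x h).ln_eq' (hk w x h)
      have e3 : sz (out x) ≤ (2 * WW + 3) * (ln x + 1) := by
        rw [hlen] at e1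
        nlinarith [Nat.zero_le (WW * ln x)]
      have e4 : (sz (out x) : ℝ) ≤ (2 * WW + 3) * (ln x + 1) := by exact_mod_cast e3
      exact e4.trans (mul_le_mul_of_nonneg_left (hp w x h).ln_le (by positivity))
  have h0 := L0.input (Ax.le_sz_pair hpar.sz_le hsz)
  have h1 : L0 pre (fun x => ((rows q x, x.2.2.2.1 / WW, sh q x), out x)) (bs q)
      (fun x => (out x).map fun a => (sh q x, a)) :=
    L0.map_ctx (g := fun y => y) (L0.lin (Lin.snd Lin.id) h0)
      (L0.lin (g := fun y : (ℕ × ℕ × List ℕ) × List (List Bool) => y.1.2.2) (by fun_prop) h0)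
      Lin.id (by
        simp only [hlen]
        exact Le.const_mul _ (by positivity) (l0_sh hq.two_le hp).sz_le)
  have h2 := L0.map_sub h1 (sub_swSmall (2 * mm + 5) (mm + 1) (2 * mm + 3) (q ^ mm) (by omega)
    (by omega)) (fun w x h y hy => by
      obtain ⟨a, ha, rfl⟩ := List.mem_map.1 hy
      refine ⟨(hp w x h).okS (hk w x h) (hmem x a ha), ax_sQ_R.1.trans ax_sQ_R.2.symm,
        ax_sQ_R.1.le.trans (Nat.pow_le_pow_right hq.pos ?_)⟩
      exact (Nat.mod_lt _ (by have := one_lt_mm; omega)).le)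
    (Le.of_le_mul WW (by positivity) fun w x h => by
      have e0 := (hp w x h).prod_le (hk w x h)
      have e1 : (((sh q x).prod : ℕ) : ℝ) ≤ ln x := by exact_mod_cast e0
      have e2 : (Ex (sh q x).prod : ℝ) ≤ Ex (ln x) := by exact_mod_cast Ex_mono e0
      have e3 := (hp w x h).bs_ge'
      refine (List.sum_le_card_nsmul _ (bs q x) fun r hr => ?_).trans ?_
      · obtain ⟨y, hy, rfl⟩ := List.mem_map.1 hr
        obtain ⟨a, ha, rfl⟩ := List.mem_map.1 hy
        simp only [hmem x a ha]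
        linarith
      · rw [List.length_map, List.length_map, hlen, nsmul_eq_mul])
  have h3 : L0 pre (fun x => ((rows q x, x.2.2.2.1 / WW, sh q x), out x)) (bs q)
      (fun x => (wires q x).map (swapA x.2.1 (q ^ x.1) x.2.2.1 (x.2.2.2.1 / WW))) :=
    h2.congr fun w x h => by
      simp only [hout, List.map_map, Function.comp_def,
        (hp w x h).final hq.pos (hk w x h) hg]
  have h4 := (L0.lin (g := fun y : (ℕ × ℕ × List ℕ) × List (List Bool) => y.1.1)
    (by fun_prop) h0).pair ((L0.const h0.1 WW).pair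
      ((L0.lin (g := fun y : (ℕ × ℕ × List ℕ) × List (List Bool) => y.1.2.1)
        (by fun_prop) h0).pair h3))
  have h5 := L0.sub sub_resh h4 (fun w x h => ⟨(hp w x h).rows_pos, WW_pos,
      (hp w x h).L'_pos (hk w x h), by rw [List.length_map, length_wires], fun r hr => by
        obtain ⟨a, -, rfl⟩ := List.mem_map.1 hr
        exact length_bmk _ _⟩)
    (Le.of_le_mul ((WW : ℝ) + 1) (by positivity) fun w x h => by
      have e1 : rows q x * WW * (x.2.2.2.1 / WW) = ln x := by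
        rw [(hp w x h).ln_eq' (hk w x h), prod_sh]
        ring
      have e2 : (rows q x : ℝ) * WW * (x.2.2.2.1 / WW : ℕ) = ln x := by exact_mod_cast e1
      have e4 : (0 : ℝ) ≤ (WW : ℝ) * Ex (ln x) := by positivity
      have e5 : (0 : ℝ) ≤ ln x := Nat.cast_nonneg _
      have e6 := mul_le_mul_of_nonneg_left (hp w x h).bs_ge'
        (show (0 : ℝ) ≤ (WW : ℝ) + 1 by positivity)
      show (WW : ℝ) * ((rows q x : ℝ) * WW * (x.2.2.2.1 / WW : ℕ)) +
        Ex (rows q x * WW * (x.2.2.2.1 / WW)) ≤ _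
      rw [e1, e2]
      nlinarith)
  refine (h5.congr fun w x h => ?_).2
  have e := swapA_resh (H := x.2.1) (a := x.2.2.2.2) (hp w x h).1.2.1 (hp w x h).1.2.2.1 WW_pos
    ((hp w x h).L'_pos (hk w x h))
  rw [← (hp w x h).L_eq (hk w x h)] at e
  exact e

/-- one level of the recursion -/
theorem cf_level (hs : ∀ w x, pre w x → SelfOK (D q) (fun y => y.1) (F q) (tau q) w x.1)
    (Γ : Geo (GL Co (Sq q)) (Mv (StQ q) (FrQ q)) Tri ZQ (fun ζ => ζ.1.1) (fun ζ => ζ.1.2) 100)
    (hΓ : Γ.full.val = Matrix.fromBlocks 0 1 1 0) :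
    Cf pre (fun x => x) (F q) (bs q) (fun x => calls * cs q x) := by
  obtain ⟨C⟩ := codeQ
  obtain ⟨n, S', hext, hout, hn⟩ := gadget (act q) (StQ q) (FrQ q) Set.univ Γ C card_ZQ
    (by simp) (pin q)
  have hslp := slp_run (ctx q) (rep q) (fun x => (sh q x).prod)
    (fun _ x _ u => (length_rep x u).le)
    ((le_ctx hq hp hk).add (Le.trans (Le.of_le fun _ _ _ => by linarith) (le_prod hp hk)))
    (fun _ _ _ => cs_nonneg) (cf_zero hq hp hk) (cf_add hq hp hk)
    (fun a _ u => cf_smul hq hp hk a u) (cf_free hq hp hk) (cf_step hq hp hk hs) hext hout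
  have hctx : L0 pre (fun x => x) (bs q) (ctx q) :=
    (l0_hd hq.two_le hp (g := fun y => y.1 / mm) (by fun_prop)).pair (l0_sh hq.two_le hp)
  have hin : L0 pre (fun x => x) (bs q)
      (fun x => (ctx q x, List.ofFn fun w => rep q x (pin q w))) :=
    (hctx.pair (l0_wires hq hp hk)).congr fun w x h => by
      rw [ofFn_getD (wires q x) (length_wires q x) [] (fun a => a) _
        (rep_pin (hp w x h) (hk w x h)), List.map_id']
  have h1 : Cf pre (fun x => x)
      (fun x => (wires q x).map (gathS (sh q x) (actI (redK q (x.1 / mm)) Γ.full))) (bs q)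
      (fun x => n * cs q x) :=
    (hin.thenCf hslp).congr (fun _ _ _ => rfl) fun w x h => congrArg enc
      (ofFn_getD (wires q x) (length_wires q x) [] _ _ fun v hv => by
        rw [rep_act (hp w x h) (hk w x h), rep_pin (hp w x h) (hk w x h) v hv]).symm
  have hpar := (l0_rows hq.two_le hp).pair ((l0_L' hq hp).pair (l0_sh hq.two_le hp))
  refine ((Cf.pair hpar.1 hpar.2 h1).comp (cf_final hq hp hk Γ.full hΓ)).mono (fun _ _ h => h)
    Le.refl fun w x _ => ?_
  have e1 : (n : ℝ) ≤ calls := by exact_mod_cast hn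
  have e2 := mul_le_mul_of_nonneg_right e1 (cs_nonneg (q := q) (x := x))
  linarith

end

end SR

/-- input `(k, H, M, L, a)` -/
theorem swap_rec : ∃ q : ℕ, q.Prime ∧
    Sub (fun x : ℕ × ℕ × ℕ × ℕ × List Bool =>
        Ok5 (x.2.1, q ^ x.1, x.2.2.1, x.2.2.2.1, x.2.2.2.2) ∧ WW ^ Nat.log mm x.1 ∣ x.2.2.2.1)
      (fun x => swapA x.2.1 (q ^ x.1) x.2.2.1 x.2.2.2.1 x.2.2.2.2)
      (fun x => ((x.2.2.2.2.length : ℝ) + (x.2.1 * q ^ x.1 * x.2.2.1 * q ^ x.1 : ℕ) *
        (WW ^ Nat.log mm x.1 * Ex x.2.2.2.2.length : ℕ)) * ((max x.1 1 : ℕ) : ℝ) ^ θ) := by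
  obtain ⟨q, hq, Γ, hΓ⟩ := geoQ
  obtain ⟨ε, hε, hcon⟩ := calls_contract
  refine ⟨q, hq, Cf.fix (D := SR.D q) (μ := fun x => x.1) (F := SR.F q) (τ := SR.tau q)
    (σ := SR.bs q) (c := fun x => calls * SR.cs q x) (ε := min ε 1) (lt_min hε one_pos) ?_
    (fun x h => (le_add_of_nonneg_left (Nat.cast_nonneg _)).trans h.ln_le) fun x _ => ?_⟩
  · have h0 := SR.l0_in hq.two_le (pre := fun w x => SR.D q x ∧
      SelfOK (SR.D q) (fun y => y.1) (SR.F q) (SR.tau q) w x.1) fun _ _ h => h.1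
    have hb := SR.l0_hd hq.two_le (pre := fun w x => SR.D q x ∧
      SelfOK (SR.D q) (fun y => y.1) (SR.F q) (SR.tau q) w x.1) (fun _ _ h => h.1)
      (g := fun y => decide (mm ≤ y.1)) (by fun_prop)
    have h1 := Cf.ite h0.1 hb.2
      (SR.cf_level hq (fun _ _ h => h.1.1) (fun _ _ h => of_decide_eq_true h.2)
        (fun _ _ h => h.1.2) Γ hΓ)
      ((SR.l0_base hq.two_le (fun _ _ h => h.1.1)
        (fun _ _ h => not_le.1 (of_decide_eq_false h.2))).2.mono (fun _ _ h => h) Le.refl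
        fun _ _ _ => mul_nonneg (Nat.cast_nonneg _) SR.cs_nonneg)
    simpa only [ite_self, zero_add] using h1
  · have hb := SR.bs_nonneg (q := q) (x := x)
    have h1 : (1 : ℝ) ≤ ((max x.1 1 : ℕ) : ℝ) ^ θ :=
      Real.one_le_rpow (by exact_mod_cast le_max_right _ _) θ_pos.le
    unfold SR.tau SR.cs
    rcases le_or_gt mm x.1 with hk | hk
    · have e : max x.1 1 = x.1 := max_eq_left (SR.one_lt_mm.le.trans hk)
      rw [e] at h1 ⊢
      have h2 := mul_le_mul_of_nonneg_left (hcon x.1 hk) hb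
      have h3 : min ε 1 ≤ ε * (x.1 : ℝ) ^ θ :=
        (min_le_left _ _).trans (le_mul_of_one_le_right hε.le h1)
      have h4 := mul_le_mul_of_nonneg_right h3 hb
      calc _ ≤ SR.bs q x * (ε * (x.1 : ℝ) ^ θ + (calls : ℝ) / WW * ((x.1 / mm : ℕ) : ℝ) ^ θ) := by
            have : (calls : ℝ) * (SR.bs q x / WW * ((x.1 / mm : ℕ) : ℝ) ^ θ) =
              SR.bs q x * ((calls : ℝ) / WW * ((x.1 / mm : ℕ) : ℝ) ^ θ) := by ring
            rw [this]
            linarith
        _ ≤ _ := h2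
    · rw [Nat.div_eq_of_lt hk, Nat.cast_zero, Real.zero_rpow θ_pos.ne', mul_zero, mul_zero,
        add_zero, mul_comm]
      exact mul_le_mul_of_nonneg_left ((min_le_right _ _).trans h1) hb

end Crest.Agent.R326
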