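import Crest.Agent.R326.Ax
import Crest.Agent.R326.GeoQDefs

/-! Row 326: the action of the frames of the transposition gadget on digit vectors. -/

set_option autoImplicit false

namespace Crest.Agent.R326

/-- shape `[H][Q]^mm[R][M][Q]^mm[R][L]` -/
def sQ (H Q R M L : ℕ) : List ℕ :=
  H :: (List.replicate mm Q ++ R :: M :: (List.replicate mm Q ++ [R, L]))

/-- the axis that carries a coordinate -/
def axC : Co → ℕ
  | .inl i => 1 + i
  | .inr j => mm + 3 + j

open Classical in
/-- `ι ↦ ι ᵥ* g` on the coordinates, modulo `Q` -/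
noncomputable def actI {q Q : ℕ} (red : Sq q →+* ZMod Q) (g : GL Co (Sq q)) (ι : ℕ → ℕ) : ℕ → ℕ :=
  fun t => if h : ∃ c, axC c = t then
    (Matrix.vecMul (fun c => (ι (axC c) : ZMod Q)) (g.val.map red) h.choose).val else ι t

section
variable {q H Q R M L : ℕ} (red : Sq q →+* ZMod Q) {g : GL Co (Sq q)} {ι : ℕ → ℕ}

namespace SwapSem

theorem ax_rep (m x : ℕ) (l : List ℕ) (t : ℕ) :
    ax (List.replicate m x ++ l) t = if t < m then x else ax l (t - m) := by
  induction m generalizing t with
  | zero => simp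
  | succ m ih =>
      rcases t with _ | t
      · simp [ax, List.replicate_succ]
      · have := ih t
        simpa [ax, List.replicate_succ] using this

theorem ax_cons (x : ℕ) (l : List ℕ) (t : ℕ) : ax (x :: l) (t + 1) = ax l t := rfl

theorem ax_hi {u : ℕ} (hu : u < mm) : ax (sQ H Q R M L) (1 + u) = Q := by
  rw [add_comm, sQ, ax_cons, ax_rep, if_pos hu]

theorem ax_mid (u : ℕ) : ax (sQ H Q R M L) (mm + 1 + u) =
    ax (R :: M :: (List.replicate mm Q ++ [R, L])) u := by
  rw [add_right_comm, sQ, ax_cons, ax_rep, if_neg (by omega), Nat.add_sub_cancel_left]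

theorem ax_lo {u : ℕ} (hu : u < mm) : ax (sQ H Q R M L) (mm + 3 + u) = Q := by
  rw [show mm + 3 + u = mm + 1 + (u + 1 + 1) by omega, ax_mid, ax_cons, ax_cons, ax_rep, if_pos hu]

theorem ax_end (u : ℕ) : ax (sQ H Q R M L) (2 * mm + 3 + u) = ax [R, L] u := by
  rw [show 2 * mm + 3 + u = mm + 1 + (mm + u + 1 + 1) by omega, ax_mid, ax_cons, ax_cons, ax_rep,
    if_neg (by omega), Nat.add_sub_cancel_left]

theorem axC_inj : Function.Injective axC := by
  rintro (i | i) (j | j) h <;> simp only [axC] at h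
  · congr 1; exact Fin.ext (by omega)
  · have := i.2; omega
  · have := j.2; omega
  · congr 1; exact Fin.ext (by omega)

theorem actI_axC (g : GL Co (Sq q)) (ι : ℕ → ℕ) (c : Co) : actI red g ι (axC c) =
    (Matrix.vecMul (fun c => (ι (axC c) : ZMod Q)) (g.val.map red) c).val := by
  have h : ∃ c', axC c' = axC c := ⟨c, rfl⟩
  rw [actI, dif_pos h, axC_inj h.choose_spec]

theorem actI_not (g : GL Co (Sq q)) (ι : ℕ → ℕ) {t : ℕ} (h : ∀ c, axC c ≠ t) :
    actI red g ι t = ι t := dif_neg (not_exists.2 h)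

theorem actI_ext {κ : ℕ → ℕ}
    (h1 : ∀ c, (Matrix.vecMul (fun c => (ι (axC c) : ZMod Q)) (g.val.map red) c).val = κ (axC c))
    (h2 : ∀ t, (∀ c, axC c ≠ t) → ι t = κ t) : actI red g ι = κ := by
  funext t
  by_cases h : ∃ c, axC c = t
  · obtain ⟨c, rfl⟩ := h
    rw [actI_axC, h1]
  · rw [actI_not red g ι (not_exists.1 h), h2 t (not_exists.1 h)]

end SwapSem

open SwapSem

theorem length_sQ : (sQ H Q R M L).length = 2 * mm + 5 := by
  unfold sQ
  generalize mm = m
  simp; omega
theorem SwapSem.prod_aux (m : ℕ) (s : List ℕ)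
    (h : s = H :: (List.replicate m Q ++ R :: M :: (List.replicate m Q ++ [R, L]))) :
    s.prod = H * (Q ^ m * R) * M * (Q ^ m * R) * L := by
  subst h
  simp; ring
theorem prod_sQ : (sQ H Q R M L).prod = H * (Q ^ mm * R) * M * (Q ^ mm * R) * L :=
  SwapSem.prod_aux mm _ rfl
theorem ax_sQ_axC (c : Co) : ax (sQ H Q R M L) (axC c) = Q := by
  rcases c with i | j
  · exact ax_hi i.2
  · exact ax_lo j.2
theorem ax_sQ_R : ax (sQ H Q R M L) (mm + 1) = R ∧ ax (sQ H Q R M L) (2 * mm + 3) = R :=
  ⟨ax_mid 0, ax_end 0⟩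
theorem axC_lt (c : Co) : axC c < 2 * mm + 3 := by
  rcases c with i | i <;> have := i.2 <;> simp only [axC] <;> omega
theorem axC_lt_axC {c c' : Co} (h : c.ord < c'.ord) : axC c < axC c' := by
  rcases c with i | i <;> rcases c' with j | j <;> have := i.2 <;> have := j.2 <;>
    simp only [axC, Co.ord] at * <;> omega
theorem L_dvd_vol (c : Co) : L ∣ vol (sQ H Q R M L) (axC c + 1) (2 * mm + 5) := by
  have := axC_lt c
  rw [← vol_mul (b := 2 * mm + 4) _ (by omega) (by omega), vol_succ]
  exact Dvd.intro_left _ (congrArg _ (ax_end 1).symm)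

namespace SwapSem

theorem lt_Q (h : Valid (sQ H Q R M L) ι) (c : Co) : ι (axC c) < Q := by
  simpa [ax_sQ_axC] using h (axC c)

theorem val_cast (h : Valid (sQ H Q R M L) ι) (c : Co) : (ι (axC c) : ZMod Q).val = ι (axC c) :=
  ZMod.val_natCast_of_lt (lt_Q h c)

theorem actI_diag {t : Co} {x : ZMod Q} {f : ℕ → ℕ}
    (hg : g.val.map red = Matrix.diagonal (Function.update (fun _ => 1) t x))
    (h : Valid (sQ H Q R M L) ι) (hf : ((ι (axC t) : ZMod Q) * x).val = f (ι (axC t))) :
    actI red g ι = axI (axC t) f ι := by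
  refine actI_ext red (fun c => ?_) fun u hu => ?_
  · rw [hg, Matrix.vecMul_diagonal, axI]
    by_cases hc : c = t
    · subst hc; rw [Function.update_self, Function.update_self, hf]
    · rw [Function.update_of_ne hc, Function.update_of_ne (axC_inj.ne hc), mul_one, val_cast h]
  · rw [axI, Function.update_of_ne (hu t).symm]

theorem map_diag (t : Co) (x : Sq q) :
    (Matrix.diagonal (Function.update (fun _ => 1) t x)).map red =
      Matrix.diagonal (Function.update (fun _ => 1) t (red x)) := by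
  rw [Matrix.diagonal_map (map_zero red)]
  congr 1
  funext c
  by_cases hc : c = t
  · subst hc; simp
  · simp [hc]

/-- Horner value in base `Q` -/
def hv (Q : ℕ) (f : ℕ → ℕ) : ℕ → ℕ
  | 0 => 0
  | n + 1 => hv Q f n * Q + f n

theorem hv_congr {f f' : ℕ → ℕ} {n : ℕ} (h : ∀ u < n, f u = f' u) : hv Q f n = hv Q f' n := by
  induction n with
  | zero => rfl
  | succ n ih => rw [hv, hv, ih fun u hu => h u (by omega), h n (by omega)]

theorem mul_add_lt {a b A B : ℕ} (ha : a < A) (hb : b < B) : a * B + b < A * B := by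
  nlinarith

theorem hv_lt {f : ℕ → ℕ} {n : ℕ} (h : ∀ u < n, f u < Q) : hv Q f n < Q ^ n := by
  induction n with
  | zero => simp [hv]
  | succ n ih => rw [hv, pow_succ]; exact mul_add_lt (ih fun u hu => h u (by omega)) (h n (by omega))

theorem posN_add {s : List ℕ} {a n : ℕ} (ι : ℕ → ℕ) (h : ∀ u < n, ax s (a + u) = Q) :
    posN s ι (a + n) = posN s ι a * Q ^ n + hv Q (fun u => ι (a + u)) n := by
  induction n with
  | zero => simp [hv]
  | succ n ih =>
      rw [← add_assoc, posN, ih fun u hu => h u (by omega), h n (by omega), hv]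
      ring

theorem pos_sQ (ι : ℕ → ℕ) : pos (sQ H Q R M L) ι =
    (((ι 0 * (Q ^ mm * R) + (hv Q (fun u => ι (1 + u)) mm * R + ι (mm + 1))) * M + ι (mm + 2)) *
      (Q ^ mm * R) + (hv Q (fun u => ι (mm + 3 + u)) mm * R + ι (2 * mm + 3))) * L +
      ι (2 * mm + 4) := by
  have e1 : ax (sQ H Q R M L) (mm + 2) = M := ax_mid 1
  have e2 : ax (sQ H Q R M L) (2 * mm + 4) = L := ax_end 1
  have e3 := posN_add (s := sQ H Q R M L) (a := mm + 3) (n := mm) ι fun u hu => ax_lo hu
  have e4 := posN_add (s := sQ H Q R M L) (a := 1) (n := mm) ι fun u hu => ax_hi hu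
  rw [show mm + 3 + mm = 2 * mm + 3 by omega] at e3
  rw [add_comm 1 mm] at e4
  rw [pos, length_sQ, posN, posN, e3, posN, posN, e4, e1, e2, ax_sQ_R.1, ax_sQ_R.2]
  simp only [posN]
  ring

theorem bat_swapA {N h y u x l : ℕ} (hh : h < H) (hy : y < N) (hu : u < M) (hx : x < N)
    (hl : l < L) (a : List Bool) :
    bat (swapA H N M L a) ((((h * N + y) * M + u) * N + x) * L + l) =
      bat a ((((h * N + x) * M + u) * N + y) * L + l) := by
  have dv : ∀ {a b B : ℕ}, b < B → (a * B + b) / B = a := fun {a b B} hb => by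
    rw [add_comm, Nat.add_mul_div_right _ _ (by omega), Nat.div_eq_of_lt hb, zero_add]
  have md : ∀ {a b B : ℕ}, b < B → (a * B + b) % B = b := fun {a b B} hb => by
    rw [add_comm, Nat.add_mul_mod_self_right, Nat.mod_eq_of_lt hb]
  rw [swapA, bat_bmk _ (mul_add_lt (mul_add_lt (mul_add_lt (mul_add_lt hh hy) hu) hx) hl),
    show N * M * N * L = L * N * M * N by ring, show M * N * L = L * N * M by ring, mul_comm N L]
  simp only [← Nat.div_div_eq_div_mul, dv hl, md hl, dv hx, md hx, dv hu, md hu, dv hy, md hy]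

end SwapSem

theorem actI_valid (g : GL Co (Sq q)) (h : Valid (sQ H Q R M L) ι) :
    Valid (sQ H Q R M L) (actI red g ι) := by
  intro t
  by_cases ht : ∃ c, axC c = t
  · obtain ⟨c, rfl⟩ := ht
    have : NeZero Q := ⟨by have := lt_Q h c; omega⟩
    rw [actI_axC, ax_sQ_axC]
    exact ZMod.val_lt _
  · rw [actI_not red g ι (not_exists.1 ht)]
    exact h t
theorem actI_one (h : Valid (sQ H Q R M L) ι) : actI red 1 ι = ι := by
  refine actI_ext red (fun c => ?_) fun _ _ => rfl
  rw [Units.val_one, Matrix.map_one _ (map_zero red) (map_one red), Matrix.vecMul_one, val_cast h]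
theorem actI_mul (g g' : GL Co (Sq q)) (h : Valid (sQ H Q R M L) ι) :
    actI red (g * g') ι = actI red g' (actI red g ι) := by
  refine actI_ext red (fun c => ?_) fun t ht => ?_
  · have : NeZero Q := ⟨by have := lt_Q h c; omega⟩
    simp only [actI_axC, ZMod.natCast_zmod_val]
    rw [Units.val_mul, Matrix.map_mul, ← Matrix.vecMul_vecMul]
  · rw [actI_not red _ _ ht, actI_not red _ _ ht]
theorem actI_shear {i t : Co} (hit : i.ord < t.ord) (hg : g.val = 1 + Matrix.single i t 1)
    (h : Valid (sQ H Q R M L) ι) :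
    actI red g ι = shI (sQ H Q R M L) (axC t) (fun ds => ds.getD (axC i) 0) ι := by
  refine actI_ext red (fun c => ?_) fun u hu => ?_
  · rw [hg, Matrix.map_add _ (map_add red), Matrix.map_one _ (map_zero red) (map_one red),
      Matrix.map_single _ _ _ red, map_one, Matrix.vecMul_add, Matrix.vecMul_one, shI,
      Pi.add_apply]
    by_cases hc : c = t
    · subst hc
      have e1 : (hiD (axC c) ι).getD (axC i) 0 = ι (axC i) := by
        simp [hiD, List.getD_eq_getElem?_getD, axC_lt_axC hit]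
      have e2 : Matrix.vecMul (fun c => (ι (axC c) : ZMod Q)) (Matrix.single i c 1) c =
          ι (axC i) := by
        simp [Matrix.vecMul, dotProduct, Matrix.single_apply]
      rw [Function.update_self, e1, e2, ← Nat.cast_add, ZMod.val_natCast, ax_sQ_axC]
    · have e2 : Matrix.vecMul (fun c => (ι (axC c) : ZMod Q)) (Matrix.single i t 1) c = 0 := by
        simp [Matrix.vecMul, dotProduct, Matrix.single_apply, Ne.symm hc]
      rw [Function.update_of_ne (axC_inj.ne hc), e2, add_zero, val_cast h]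
  · rw [shI, Function.update_of_ne (hu t).symm]
theorem actI_scale {t : Co} {c : ℕ}
    (hg : g.val = Matrix.diagonal (Function.update (fun _ => 1) t (c : Sq q)))
    (h : Valid (sQ H Q R M L) ι) : actI red g ι = axI (axC t) (fun y => c * y % Q) ι := by
  refine actI_diag red (by rw [hg, map_diag]) h ?_
  rw [map_natCast, ← Nat.cast_mul, ZMod.val_natCast, mul_comm]
theorem actI_unscale {t : Co} {c : ℕ} (hc : Nat.Coprime c Q)
    (hg : g⁻¹.val = Matrix.diagonal (Function.update (fun _ => 1) t (c : Sq q)))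
    (h : Valid (sQ H Q R M L) ι) :
    actI red g ι = axI (axC t) (fun y => ((c : ZMod Q)⁻¹ * (y : ZMod Q)).val) ι := by
  refine actI_diag red (x := (c : ZMod Q)⁻¹) ?_ h (by rw [mul_comm])
  have h1 : g.val.map red * Matrix.diagonal (Function.update (fun _ => 1) t (c : ZMod Q)) = 1 := by
    rw [← map_natCast red c, ← map_diag, ← hg, ← Matrix.map_mul, Units.mul_inv,
      Matrix.map_one _ (map_zero red) (map_one red)]
  have h2 : Matrix.diagonal (Function.update (fun _ : Co => 1) t (c : ZMod Q)) *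
      Matrix.diagonal (Function.update (fun _ => 1) t (c : ZMod Q)⁻¹) = 1 := by
    rw [Matrix.diagonal_mul_diagonal, ← Matrix.diagonal_one]
    congr 1
    funext u
    by_cases hu : u = t
    · subst hu; simpa using ZMod.coe_mul_inv_eq_one c hc
    · simp [hu]
  rw [← mul_one (g.val.map red), ← h2, ← mul_assoc, h1, one_mul]
theorem actI_neg {t : Co} (hg : g.val = Matrix.diagonal (Function.update (fun _ => 1) t (-1)))
    (h : Valid (sQ H Q R M L) ι) : actI red g ι = axI (axC t) (fun y => (Q - y) % Q) ι := by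
  have : NeZero Q := ⟨by have := lt_Q h t; omega⟩
  refine actI_diag red (by rw [hg, map_diag]) h ?_
  rw [map_neg, map_one, mul_neg, mul_one, ZMod.neg_val', val_cast h]
theorem actI_swap {i j : Fin mm}
    (hg : g.val = (Equiv.swap (Sum.inl i : Co) (Sum.inr j)).permMatrix (Sq q))
    (h : Valid (sQ H Q R M L) ι) :
    actI red g ι = swI (axC (.inl i)) (axC (.inr j)) ι := by
  refine actI_ext red (fun c => ?_) fun u hu => ?_
  · have e : g.val.map red = (Equiv.swap (Sum.inl i : Co) (Sum.inr j)).permMatrix (ZMod Q) := by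
      rw [hg]
      exact PEquiv.map_toMatrix red _
    rw [e, Matrix.vecMul_permMatrix, swI, axC_inj.swap_apply, Equiv.symm_swap,
      Function.comp_apply, val_cast h]
  · rw [swI, Equiv.swap_apply_of_ne_of_ne (hu _).symm (hu _).symm]
/-- exchanging all digits exchanges the registers -/
theorem swap_full (hg : g.val = Matrix.fromBlocks 0 1 1 0) (hH : 0 < H) (hQ : 0 < Q) (hR : 0 < R)
    (hM : 0 < M) (hL : 0 < L) (a : List Bool) :
    gathS (sQ H Q R M L) (swI (mm + 1) (2 * mm + 3)) (gathS (sQ H Q R M L) (actI red g) a) =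
      swapA H (Q ^ mm * R) M L a := by
  have hs : ∀ x ∈ sQ H Q R M L, 0 < x := by
    intro x hx
    simp only [sQ, List.mem_cons, List.mem_append, List.mem_replicate, List.not_mem_nil] at hx
    grind
  have hv' : ∀ ι, Valid (sQ H Q R M L) ι → Valid (sQ H Q R M L) (swI (mm + 1) (2 * mm + 3) ι) := by
    intro ι h t
    have e : ax (sQ H Q R M L) t = ax (sQ H Q R M L) (Equiv.swap (mm + 1) (2 * mm + 3) t) := by
      rw [Equiv.swap_apply_def]
      split_ifs with h1 h2
      · rw [h1, ax_sQ_R.1, ax_sQ_R.2]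
      · rw [h2, ax_sQ_R.1, ax_sQ_R.2]
      · rfl
    rw [e]
    exact h _
  rw [gathS_gathS hs a hv']
  refine arr_ext hs (length_gathS _ _) (by rw [swapA, length_bmk, prod_sQ]) fun ι h => ?_
  have e : g.val.map red = Matrix.fromBlocks 0 1 1 0 := by
    rw [hg, Matrix.fromBlocks_map, Matrix.map_zero _ (map_zero red),
      Matrix.map_one _ (map_zero red) (map_one red)]
  have nC : ∀ t, t = 0 ∨ t = mm + 1 ∨ t = mm + 2 ∨ 2 * mm + 3 ≤ t → ∀ c, axC c ≠ t := by
    rintro t ht (i | i) <;> have := i.2 <;> simp only [axC] <;> omega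
  have sw : ∀ t, t ≠ mm + 1 → t ≠ 2 * mm + 3 → swI (mm + 1) (2 * mm + 3) ι t = ι t :=
    fun t h1 h2 => by rw [swI, Equiv.swap_apply_of_ne_of_ne h1 h2]
  have a1 : ∀ u < mm, actI red g (swI (mm + 1) (2 * mm + 3) ι) (1 + u) = ι (mm + 3 + u) := by
    intro u hu
    refine (actI_axC red g _ (.inl ⟨u, hu⟩)).trans ?_
    rw [e, Matrix.vecMul_fromBlocks, Sum.elim_inl, Matrix.vecMul_zero, Matrix.vecMul_one, zero_add,
      Function.comp_apply, val_cast (hv' ι h)]
    exact sw _ (by simp only [axC]; omega) (by simp only [axC]; omega)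
  have a2 : ∀ u < mm, actI red g (swI (mm + 1) (2 * mm + 3) ι) (mm + 3 + u) = ι (1 + u) := by
    intro u hu
    refine (actI_axC red g _ (.inr ⟨u, hu⟩)).trans ?_
    rw [e, Matrix.vecMul_fromBlocks, Sum.elim_inr, Matrix.vecMul_zero, Matrix.vecMul_one, add_zero,
      Function.comp_apply, val_cast (hv' ι h)]
    exact sw _ (by simp only [axC]; omega) (by simp only [axC]; omega)
  rw [bat_gathS _ _ h, pos_sQ, pos_sQ, hv_congr a1, hv_congr a2,
    actI_not red _ _ (nC _ (by omega)), actI_not red _ _ (nC _ (by omega)),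
    actI_not red _ _ (nC _ (by omega)), actI_not red _ _ (nC _ (by omega)),
    actI_not red _ _ (nC _ (by omega)), sw 0 (by omega) (by omega),
    sw (mm + 2) (by omega) (by omega), sw (2 * mm + 4) (by omega) (by omega), swI, swI,
    Equiv.swap_apply_left, Equiv.swap_apply_right]
  refine (bat_swapA (h 0) (mul_add_lt (hv_lt fun u hu => ?_) ?_) ?_
    (mul_add_lt (hv_lt fun u hu => ?_) ?_) ?_ a).symm
  · exact (h _).trans_eq (ax_hi hu)
  · exact (h _).trans_eq ax_sQ_R.1
  · exact (h _).trans_eq (ax_mid 1)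
  · exact (h _).trans_eq (ax_lo hu)
  · exact (h _).trans_eq ax_sQ_R.2
  · exact (h _).trans_eq (ax_end 1)

end

end Crest.Agent.R326
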