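import Mathlib
import Crest.Prelude.Def_TimeBound

/-! Row 326: a symbol-level stack language with recursion and its compilation to
`Turing.FinTM2`. -/

set_option autoImplicit false

namespace Crest.Agent.R326.TMA

open Function Turing

abbrev Sym := Bool ⊕ Bool
abbrev LS := ℕ → List Sym

inductive LP : Type
  | skip : LP
  | push (r : ℕ) (x : Sym) : LP
  | pop (r : ℕ) : LP
  | seq (p q : LP) : LP
  | case (r : ℕ) (f : Option Sym → LP) : LP
  | loop (r : ℕ) (c : Option Sym → Bool) (p : LP) : LP
  | self : LP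
  | fix (p : LP) : LP

inductive LExec : LP → LP → LS → LS → ℕ → Prop
  | skip (Γ : LP) (s : LS) : LExec Γ .skip s s 1
  | push (Γ : LP) (r : ℕ) (x : Sym) (s : LS) : LExec Γ (.push r x) s (update s r (x :: s r)) 1
  | pop (Γ : LP) (r : ℕ) (s : LS) : LExec Γ (.pop r) s (update s r (s r).tail) 1
  | seq {Γ p q : LP} {s s' s'' : LS} {t t' : ℕ} :
      LExec Γ p s s' t → LExec Γ q s' s'' t' → LExec Γ (.seq p q) s s'' (t' + t)
  | case {Γ : LP} {r : ℕ} {f : Option Sym → LP} {s s' : LS} {t : ℕ} :
      LExec Γ (f (s r).head?) s s' t → LExec Γ (.case r f) s s' (t + 1)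
  | loopN {Γ : LP} {r : ℕ} {c : Option Sym → Bool} {p : LP} {s : LS} :
      c (s r).head? = false → LExec Γ (.loop r c p) s s 1
  | loopC {Γ : LP} {r : ℕ} {c : Option Sym → Bool} {p : LP} {s s' s'' : LS} {t t' : ℕ} :
      c (s r).head? = true → LExec Γ p s s' t → LExec Γ (.loop r c p) s' s'' t' →
        LExec Γ (.loop r c p) s s'' (t' + t + 1)
  | self {Γ : LP} {s s' : LS} {t : ℕ} : LExec Γ Γ s s' t → LExec Γ .self s s' (1 + t + 1)
  | fix (Γ : LP) {p : LP} {s s' : LS} {t : ℕ} :
      LExec p p s s' t → LExec Γ (.fix p) s s' (1 + t + 1)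

def LP.maxReg : LP → ℕ
  | .skip => 0
  | .push r _ => r
  | .pop r => r
  | .seq p q => max p.maxReg q.maxReg
  | .case r f => max r (Finset.univ.sup fun o => (f o).maxReg)
  | .loop r _ p => max r p.maxReg
  | .self => 0
  | .fix p => p.maxReg

def Lbl : LP → Type
  | .skip => Unit
  | .push _ _ => Unit
  | .pop _ => Unit
  | .seq p q => Lbl p ⊕ Lbl q
  | .case _ f => Unit ⊕ (Σ o : Option Sym, Lbl (f o))
  | .loop _ _ p => Unit ⊕ Lbl p
  | .self => Unit
  | .fix p => Unit ⊕ Lbl p

theorem lbl_finite : ∀ p : LP, Finite (Lbl p)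
  | .skip => inferInstanceAs (Finite Unit)
  | .push _ _ => inferInstanceAs (Finite Unit)
  | .pop _ => inferInstanceAs (Finite Unit)
  | .seq p q => by
      have := lbl_finite p; have := lbl_finite q
      exact inferInstanceAs (Finite (Lbl p ⊕ Lbl q))
  | .case _ f => by
      have := fun o => lbl_finite (f o)
      exact inferInstanceAs (Finite (Unit ⊕ (Σ o : Option Sym, Lbl (f o))))
  | .loop _ _ p => by
      have := lbl_finite p
      exact inferInstanceAs (Finite (Unit ⊕ Lbl p))
  | .self => inferInstanceAs (Finite Unit)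
  | .fix p => by
      have := lbl_finite p
      exact inferInstanceAs (Finite (Unit ⊕ Lbl p))

def entry : (p : LP) → Lbl p
  | .skip => ()
  | .push _ _ => ()
  | .pop _ => ()
  | .seq p _ => Sum.inl (entry p)
  | .case _ _ => Sum.inl ()
  | .loop _ _ _ => Sum.inl ()
  | .self => ()
  | .fix _ => Sum.inl ()

/-- stacks: output, return stack, registers -/
abbrev KK (R : ℕ) := Option (Option (Fin (R + 1)))

def G (R : ℕ) (Λ : Type) : KK R → Type
  | none => Bool
  | some none => Λ
  | some (some _) => Sym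

abbrev Var (Λ : Type) := Option Sym × Option Λ

abbrev Stm (R : ℕ) (Λ : Type) := TM2.Stmt (G R Λ) Λ (Var Λ)

def reg (R r : ℕ) : KK R := some (some (Fin.ofNat (R + 1) r))

def go {R : ℕ} {Λ : Type} (l : Λ) : Stm R Λ := .goto fun _ => l

def retCode {R : ℕ} {Λ : Type} (retL : Λ) : Stm R Λ :=
  .pop (some none) (fun _ o => (none, o)) (.goto fun v => v.2.getD retL)

def code {R : ℕ} {Λ : Type} (retL : Λ) : (p : LP) → (Lbl p → Λ) → Λ → Λ → Lbl p → Stm R Λ
  | .skip, _, _, next, _ => go next
  | .push r x, _, _, next, _ => .push (reg R r) (fun _ => x) (go next)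
  | .pop r, _, _, next, _ => .pop (reg R r) (fun v _ => v) (go next)
  | .seq p q, emb, sl, _, Sum.inl l =>
      code retL p (fun l => emb (Sum.inl l)) sl (emb (Sum.inr (entry q))) l
  | .seq _ q, emb, sl, next, Sum.inr l => code retL q (fun l => emb (Sum.inr l)) sl next l
  | .case r f, emb, _, _, Sum.inl _ =>
      .peek (reg R r) (fun _ o => (o, none))
        (.goto fun v => emb (Sum.inr ⟨v.1, entry (f v.1)⟩))
  | .case _ f, emb, sl, next, Sum.inr ⟨o, l⟩ =>
      code retL (f o) (fun l => emb (Sum.inr ⟨o, l⟩)) sl next l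
  | .loop r c p, emb, _, next, Sum.inl _ =>
      .peek (reg R r) (fun _ o => (o, none))
        (.branch (fun v => c v.1) (go (emb (Sum.inr (entry p)))) (go next))
  | .loop _ _ p, emb, sl, _, Sum.inr l =>
      code retL p (fun l => emb (Sum.inr l)) sl (emb (Sum.inl ())) l
  | .self, _, sl, next, _ => .push (some none) (fun _ => next) (go sl)
  | .fix p, emb, _, next, Sum.inl _ =>
      .push (some none) (fun _ => next) (go (emb (Sum.inr (entry p))))
  | .fix p, emb, _, _, Sum.inr l =>
      code retL p (fun l => emb (Sum.inr l)) (emb (Sum.inr (entry p))) retL l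

def stk (R : ℕ) {Λ : Type} (s : LS) (ρ : List Λ) (o : List Bool) : (k : KK R) → List (G R Λ k)
  | none => o
  | some none => ρ
  | some (some i) => s i.val

theorem reg_val {R r : ℕ} (h : r ≤ R) : (Fin.ofNat (R + 1) r).val = r := by
  simp [Fin.ofNat, Nat.mod_eq_of_lt (Nat.lt_succ_of_le h)]

theorem stk_reg {R r : ℕ} (h : r ≤ R) {Λ : Type} (s : LS) (ρ : List Λ) (o : List Bool) :
    stk R s ρ o (reg R r) = s r := by
  show s _ = s r
  rw [reg_val h]

theorem upd_reg {R r : ℕ} (h : r ≤ R) {Λ : Type} (s : LS) (ρ : List Λ) (o : List Bool)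
    (v : List Sym) : update (stk R s ρ o) (reg R r) v = stk R (update s r v) ρ o := by
  funext k
  by_cases hk : k = reg R r
  · subst hk; rw [update_self, stk_reg h, update_self]
  · rw [update_of_ne hk]
    rcases k with _ | _ | i
    · rfl
    · rfl
    · have : i.val ≠ r := fun e => hk (by
        unfold reg; congr 2; exact Fin.ext (by rw [reg_val h, e]))
      show s i.val = update s r v i.val
      rw [update_of_ne this]

theorem upd_ret {R : ℕ} {Λ : Type} (s : LS) (ρ : List Λ) (o : List Bool) (v : List Λ) :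
    update (stk R s ρ o) (some none) v = stk R s v o := by
  funext k
  rcases k with _ | _ | i
  · rw [update_of_ne (by simp)]; rfl
  · rw [update_self]; rfl
  · rw [update_of_ne (by simp)]; rfl

theorem upd_out {R : ℕ} {Λ : Type} (s : LS) (ρ : List Λ) (o : List Bool) (v : List Bool) :
    update (stk R s ρ o) none v = stk R s ρ v := by
  funext k
  rcases k with _ | _ | i
  · rw [update_self]; rfl
  · rw [update_of_ne (by simp)]; rfl
  · rw [update_of_ne (by simp)]; rfl

abbrev Cf (R : ℕ) (Λ : Type) := TM2.Cfg (G R Λ) Λ (Var Λ)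

theorem step_peek {R r : ℕ} (h : r ≤ R) {Λ : Type} (s : LS) (ρ : List Λ) (o : List Bool)
    (f : Var Λ → Option Sym → Var Λ) (q : Stm R Λ) (v : Var Λ) :
    TM2.stepAux (.peek (reg R r) f q) v (stk R s ρ o) =
      TM2.stepAux q (f v (s r).head?) (stk R s ρ o) := by
  rw [← stk_reg h s ρ o]; rfl

theorem step_pop {R r : ℕ} (h : r ≤ R) {Λ : Type} (s : LS) (ρ : List Λ) (o : List Bool)
    (f : Var Λ → Option Sym → Var Λ) (q : Stm R Λ) (v : Var Λ) :
    TM2.stepAux (.pop (reg R r) f q) v (stk R s ρ o) =
      TM2.stepAux q (f v (s r).head?) (stk R (update s r (s r).tail) ρ o) := by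
  rw [← upd_reg h, ← stk_reg h s ρ o]; rfl

/-- `t` steps lead from the label `l` with stacks `S` to the label `l'` with stacks `S'`,
whatever the initial state. -/
def Go {R : ℕ} {Λ : Type} (M : Λ → Stm R Λ) (t : ℕ) (l : Λ) (S : (k : KK R) → List (G R Λ k))
    (l' : Λ) (S' : (k : KK R) → List (G R Λ k)) : Prop :=
  ∀ v, ∃ v', (flip bind (TM2.step M))^[t] (some (⟨some l, v, S⟩ : Cf R Λ)) =
    some ⟨some l', v', S'⟩

section
variable {R : ℕ} {Λ : Type} {M : Λ → Stm R Λ}

theorem Go.trans {t t' : ℕ} {l l' l'' : Λ} {S S' S'' : (k : KK R) → List (G R Λ k)}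
    (h : Go M t l S l' S') (h' : Go M t' l' S' l'' S'') : Go M (t' + t) l S l'' S'' := by
  intro v
  obtain ⟨v', h⟩ := h v
  obtain ⟨v'', h'⟩ := h' v'
  exact ⟨v'', by rw [Function.iterate_add_apply, h, h']⟩

theorem Go.one {l l' : Λ} {S S' : (k : KK R) → List (G R Λ k)}
    (h : ∀ v, ∃ v', TM2.stepAux (M l) v S = ⟨some l', v', S'⟩) : Go M 1 l S l' S' := by
  intro v
  obtain ⟨v', h⟩ := h v
  exact ⟨v', congrArg some h⟩

theorem go_ret {retL : Λ} (hret : M retL = retCode retL) (s : LS) (l : Λ) (ρ : List Λ)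
    (o : List Bool) : Go M 1 retL (stk R s (l :: ρ) o) l (stk R s ρ o) := by
  refine Go.one fun v => ⟨(none, some l), ?_⟩
  rw [hret]
  show (⟨some l, (none, some l), update (stk R s (l :: ρ) o) (some none) ρ⟩ : Cf R Λ) = _
  rw [upd_ret]

theorem go_call {l l' nx : Λ} (h : M l = .push (some none) (fun _ => nx) (go l')) (s : LS)
    (ρ : List Λ) (o : List Bool) : Go M 1 l (stk R s ρ o) l' (stk R s (nx :: ρ) o) := by
  refine Go.one fun v => ⟨v, ?_⟩
  rw [h]
  rw [← upd_ret s ρ o (nx :: ρ)]; rfl

theorem sim {retL : Λ} (hret : M retL = retCode retL) {Γ p : LP} {s s' : LS} {t : ℕ}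
    (h : LExec Γ p s s' t) : Γ.maxReg ≤ R → p.maxReg ≤ R → ∀ (eΓ : Lbl Γ → Λ),
      (∀ l, M (eΓ l) = code retL Γ eΓ (eΓ (entry Γ)) retL l) → ∀ (emb : Lbl p → Λ) (next : Λ),
      (∀ l, M (emb l) = code retL p emb (eΓ (entry Γ)) next l) → ∀ ρ o,
      Go M t (emb (entry p)) (stk R s ρ o) next (stk R s' ρ o) := by
  induction h with
  | skip Γ s =>
      intro _ _ eΓ _ emb next hM ρ o
      exact Go.one fun v => ⟨v, by rw [hM]; rfl⟩
  | push Γ r x s =>
      intro _ hR eΓ _ emb next hM ρ o
      have hR : r ≤ R := hR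
      refine Go.one fun v => ⟨v, ?_⟩
      rw [hM, ← upd_reg hR, ← stk_reg hR s ρ o]; rfl
  | pop Γ r s =>
      intro _ hR eΓ _ emb next hM ρ o
      have hR : r ≤ R := hR
      refine Go.one fun v => ⟨v, ?_⟩
      rw [hM, ← upd_reg hR, ← stk_reg hR s ρ o]; rfl
  | @seq Γ p q s s' s'' t t' _ _ ih1 ih2 =>
      intro hΓ hR eΓ hMΓ emb next hM ρ o
      have hR : max p.maxReg q.maxReg ≤ R := hR
      exact (ih1 hΓ (le_trans (le_max_left _ _) hR) eΓ hMΓ (fun l => emb (Sum.inl l))
        (emb (Sum.inr (entry q))) (fun l => hM (Sum.inl l)) ρ o).trans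
        (ih2 hΓ (le_trans (le_max_right _ _) hR) eΓ hMΓ (fun l => emb (Sum.inr l)) next
        (fun l => hM (Sum.inr l)) ρ o)
  | @case Γ r f s s' t _ ih =>
      intro hΓ hR eΓ hMΓ emb next hM ρ o
      have hR : max r (Finset.univ.sup fun o => (f o).maxReg) ≤ R := hR
      rw [max_le_iff, Finset.sup_le_iff] at hR
      refine Go.trans (Go.one fun v => ⟨((s r).head?, none), ?_⟩)
        (ih hΓ (hR.2 _ (Finset.mem_univ _)) eΓ hMΓ (fun l => emb (Sum.inr ⟨_, l⟩)) next
          (fun l => hM (Sum.inr ⟨_, l⟩)) ρ o)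
      rw [hM, ← stk_reg hR.1 s ρ o]; rfl
  | @loopN Γ r c p s hs =>
      intro hΓ hR eΓ hMΓ emb next hM ρ o
      have hR : max r p.maxReg ≤ R := hR
      rw [max_le_iff] at hR
      refine Go.one fun v => ⟨((s r).head?, none), ?_⟩
      rw [hM]
      refine (step_peek hR.1 s ρ o _ _ v).trans ?_
      rw [TM2.stepAux, hs]; rfl
  | @loopC Γ r c p s s' s'' t t' hs _ _ ih1 ih2 =>
      intro hΓ hR eΓ hMΓ emb next hM ρ o
      have hR' : max r p.maxReg ≤ R := hR
      rw [max_le_iff] at hR'
      rw [add_assoc]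
      refine Go.trans (Go.trans (Go.one fun v => ⟨((s r).head?, none), ?_⟩)
        (ih1 hΓ hR'.2 eΓ hMΓ (fun l => emb (Sum.inr l)) (emb (Sum.inl ()))
          (fun l => hM (Sum.inr l)) ρ o)) (ih2 hΓ hR eΓ hMΓ emb next hM ρ o)
      rw [hM]
      refine (step_peek hR'.1 s ρ o _ _ v).trans ?_
      rw [TM2.stepAux, hs]; rfl
  | @self Γ s s' t _ ih =>
      intro hΓ _ eΓ hMΓ emb next hM ρ o
      rw [add_assoc]
      exact ((go_call (hM _) s ρ o).trans (ih hΓ hΓ eΓ hMΓ eΓ retL hMΓ (next :: ρ) o)).trans
        (go_ret hret s' next ρ o)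
  | @fix Γ p s s' t _ ih =>
      intro _ hR eΓ _ emb next hM ρ o
      rw [add_assoc]
      exact ((go_call (hM (Sum.inl ())) s ρ o).trans
        (ih hR hR (fun l => emb (Sum.inr l)) (fun l => hM (Sum.inr l)) (fun l => emb (Sum.inr l))
          retL (fun l => hM (Sum.inr l)) (next :: ρ) o)).trans (go_ret hret s' next ρ o)

end

/-- the bit carried by a symbol -/
def bitOf : Sym → Bool := Sum.elim id id

/-- labels of the whole machine: start, return, final loop, program points -/
abbrev ML (p : LP) := Option (Option (Option (Lbl p)))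

def prog (R : ℕ) (p : LP) : ML p → Stm R (ML p)
  | none => .push (some none) (fun _ => some (some none)) (go (some (some (some (entry p)))))
  | some none => retCode (some none)
  | some (some none) => .pop (reg R 1) (fun _ o => (o, none))
      (.branch (fun v => v.1.isSome)
        (.push none (fun v => bitOf (v.1.getD (.inl false))) (go (some (some none))))
        (.load (fun _ => (none, none)) .halt))
  | some (some (some l)) => code (some none) p (fun l => some (some (some l)))
      (some (some (some (entry p)))) (some none) l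

theorem fin_loop {R : ℕ} (hR : 1 ≤ R) (p : LP) (l : List Sym) (o : List Bool) (v : Var (ML p)) :
    (flip bind (TM2.step (prog R p)))^[l.length + 1]
      (some (⟨some (some (some none)), v, stk R (update (fun _ => []) 1 l) [] o⟩ : Cf R (ML p))) =
      some ⟨none, (none, none), stk R (fun _ => []) [] ((l.map bitOf).reverse ++ o)⟩ := by
  induction l generalizing o v with
  | nil =>
      show some (TM2.stepAux (prog R p (some (some none))) v _) = _
      congr 1
      refine (step_pop hR _ _ o _ _ v).trans ?_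
      rw [update_self, update_idem, List.tail_nil, update_eq_self]
      rfl
  | cons x l ih =>
      rw [List.length_cons, Function.iterate_succ_apply]
      have : flip bind (TM2.step (prog R p)) (some (⟨some (some (some none)), v,
          stk R (update (fun _ => []) 1 (x :: l)) [] o⟩ : Cf R (ML p))) =
          some ⟨some (some (some none)), (some x, none),
            stk R (update (fun _ => []) 1 l) [] (bitOf x :: o)⟩ := by
        show some (TM2.stepAux (prog R p (some (some none))) v _) = _
        congr 1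
        refine (step_pop hR _ _ o _ _ v).trans ?_
        rw [update_self, update_idem, List.tail_cons, ← upd_out _ _ o (bitOf x :: o)]
        rfl
      rw [this, ih]
      simp

noncomputable def machine (p : LP) : FinTM2 where
  K := KK (p.maxReg + 1)
  k₀ := reg _ 0
  k₁ := none
  Γ := G (p.maxReg + 1) (ML p)
  Λ := ML p
  main := none
  ΛFin := by
    have := lbl_finite p
    exact Fintype.ofFinite _
  σ := Var (ML p)
  σFin := by
    have := lbl_finite p
    exact Fintype.ofFinite _
  Γk₀Fin := inferInstanceAs (Fintype Sym)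
  initialState := (none, none)
  m := prog _ p

theorem timeBound_of_prog {α β : Type} (ea : α → List Sym) (eb : β → List Bool) (f : α → β)
    (p : LP) (T : ℕ → ℕ)
    (h : ∀ a, ∃ (t : ℕ) (l : List Sym), (l.map bitOf).reverse = eb (f a) ∧
      l.length + 1 + (1 + (t + 1)) ≤ T (ea a).length ∧
      LExec p p (update (fun _ => []) 0 (ea a)) (update (fun _ => []) 1 l) t) :
    Crest.DTime.TimeBoundComputable ea eb f T := by
  choose t l hl hT hx using h
  refine ⟨{ tm := machine p, inputAlphabet := Equiv.refl _, outputAlphabet := Equiv.refl _,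
            time := T, outputsFun := fun a => ?_ }, fun _ => le_rfl⟩
  refine { steps := (l a).length + 1 + (1 + (t a + 1)), evals_in_steps := ?_, steps_le_m := hT a }
  have hret : prog (p.maxReg + 1) p (some none) = retCode (some none) := rfl
  have h1 := go_call (M := prog (p.maxReg + 1) p) (l := none) rfl
    (update (fun _ => []) 0 (ea a)) [] []
  have h2 := sim hret (hx a) (Nat.le_succ _) (Nat.le_succ _) (fun l => some (some (some l)))
    (fun _ => rfl) (fun l => some (some (some l))) (some none) (fun _ => rfl) [some (some none)] []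
  have h3 := go_ret hret (update (fun _ => []) 1 (l a)) (some (some none)) [] []
  obtain ⟨v, h4⟩ := ((h1.trans h2).trans h3) (none, none)
  have h5 := fin_loop (R := p.maxReg + 1) (Nat.le_add_left _ _) p (l a) [] v
  rw [List.append_nil, hl] at h5
  have e0 : initList (machine p) (List.map (Equiv.refl Sym).invFun (ea a)) =
      (⟨some none, (none, none), stk _ (update (fun _ => []) 0 (ea a)) [] []⟩ :
        Cf (p.maxReg + 1) (ML p)) := by
    rw [← upd_reg (Nat.zero_le _)]
    unfold initList
    congr 1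
    funext k
    by_cases hk : k = reg (p.maxReg + 1) 0
    · subst hk
      refine (dif_pos rfl).trans ?_
      rw [update_self]
      exact List.map_id _
    · refine (dif_neg hk).trans (Eq.trans ?_ (update_of_ne (β := fun k => List (G _ (ML p) k)) hk _
        (stk (p.maxReg + 1) (fun _ => []) [] [])).symm)
      rcases k with _ | _ | i <;> rfl
  have e1 : haltList (machine p) (List.map (Equiv.refl Bool).invFun (eb (f a))) =
      (⟨none, (none, none), stk _ (fun _ => []) [] (eb (f a))⟩ : Cf (p.maxReg + 1) (ML p)) := by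
    unfold haltList
    congr 1
    funext k
    rcases k with _ | _ | i
    · refine (dif_pos rfl).trans ?_
      exact List.map_id _
    · exact dif_neg (by simp [machine])
    · exact dif_neg (by simp [machine])
  simp only [Option.map_some]
  refine (congrArg (fun c => (flip bind (TM2.step (prog (p.maxReg + 1) p)))^[_] (some c)) e0).trans ?_
  refine Eq.trans ?_ (congrArg some e1.symm)
  rw [Function.iterate_add_apply]
  exact (congrArg _ h4).trans h5

end Crest.Agent.R326.TMA
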