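import Crest.Agent.R326.Mach
import Crest.Agent.R326.TMAux
import Crest.Prelude.Def_IntMul
import Crest.Prelude.Def_TimeBound

/-! Row 326: compilation of `VP` programs to `Turing.FinTM2`. -/

set_option autoImplicit false

namespace Crest.Agent.R326

open Crest.LogicCS.IntMul Crest.DTime

namespace TMA

open Function

/-- Running within a time bound. -/
def Run (Γ p : LP) (s s' : LS) (T : ℕ) : Prop := ∃ t ≤ T, LExec Γ p s s' t

section
variable {Γ : LP}

theorem Run.cast {p : LP} {s s' s'' : LS} {T T' : ℕ} (h : Run Γ p s s' T) (hT : T ≤ T')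
    (hs : s'' = s') : Run Γ p s s'' T' := by
  obtain ⟨t, ht, h⟩ := h; exact ⟨t, ht.trans hT, hs ▸ h⟩

theorem Run.skip (s : LS) : Run Γ .skip s s 1 := ⟨1, le_rfl, .skip _ s⟩

theorem Run.push (r : ℕ) (x : Sym) (s : LS) : Run Γ (.push r x) s (update s r (x :: s r)) 1 :=
  ⟨1, le_rfl, .push _ r x s⟩

theorem Run.pop (r : ℕ) (s : LS) : Run Γ (.pop r) s (update s r (s r).tail) 1 :=
  ⟨1, le_rfl, .pop _ r s⟩

theorem Run.seq {p q : LP} {s s' s'' : LS} {T T' : ℕ} (h : Run Γ p s s' T)
    (h' : Run Γ q s' s'' T') : Run Γ (.seq p q) s s'' (T + T') := by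
  obtain ⟨t, ht, h⟩ := h; obtain ⟨t', ht', h'⟩ := h'
  exact ⟨t' + t, by omega, .seq h h'⟩

theorem Run.case {r : ℕ} {f : Option Sym → LP} {s s' : LS} {T : ℕ} {o : Option Sym}
    (ho : (s r).head? = o) (h : Run Γ (f o) s s' T) : Run Γ (.case r f) s s' (T + 1) := by
  subst ho
  obtain ⟨t, ht, h⟩ := h; exact ⟨t + 1, by omega, .case h⟩

theorem Run.loopN {r : ℕ} {c : Option Sym → Bool} {p : LP} {s : LS}
    (hs : c (s r).head? = false) : Run Γ (.loop r c p) s s 1 := ⟨1, le_rfl, .loopN hs⟩

theorem Run.loopC {r : ℕ} {c : Option Sym → Bool} {p : LP} {s s' s'' : LS} {T T' : ℕ}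
    (hs : c (s r).head? = true) (h : Run Γ p s s' T) (h' : Run Γ (.loop r c p) s' s'' T') :
    Run Γ (.loop r c p) s s'' (T' + T + 1) := by
  obtain ⟨t, ht, h⟩ := h; obtain ⟨t', ht', h'⟩ := h'
  exact ⟨t' + t + 1, by omega, .loopC hs h h'⟩

theorem Run.self {s s' : LS} {T : ℕ} (h : Run Γ Γ s s' T) : Run Γ .self s s' (T + 2) := by
  obtain ⟨t, ht, h⟩ := h; exact ⟨1 + t + 1, by omega, .self h⟩

theorem Run.fix {p : LP} {s s' : LS} {T : ℕ} (h : Run p p s s' T) :
    Run Γ (.fix p) s s' (T + 2) := by
  obtain ⟨t, ht, h⟩ := h; exact ⟨1 + t + 1, by omega, .fix _ h⟩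

/-- equality of register files -/
macro "st_ext" : tactic =>
  `(tactic| (funext k; simp only [Function.update_apply, Nat.reduceEqDiff, ↓reduceIte]; split_ifs <;>
      first | rfl | (exfalso; omega) | simp_all))

def sN : Sym := .inl false
def sC : Sym := .inl true

def cd : Val → List Sym
  | .nil => [sN]
  | .bit b => [.inr b]
  | .cons a b => sC :: (cd a ++ cd b)

theorem length_cd : ∀ v : Val, (cd v).length = v.size
  | .nil => rfl
  | .bit _ => rfl
  | .cons a b => by simp [cd, Val.size, length_cd a, length_cd b]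

theorem size_pos : ∀ v : Val, 1 ≤ v.size
  | .nil => le_rfl
  | .bit _ => le_rfl
  | .cons _ _ => Nat.le_add_left _ _

def pushL (r : ℕ) : List Sym → LP
  | [] => .skip
  | x :: l => .seq (pushL r l) (.push r x)

theorem run_pushL (r : ℕ) (l : List Sym) (s : LS) :
    Run Γ (pushL r l) s (update s r (l ++ s r)) (l.length + 1) := by
  induction l with
  | nil => simpa [pushL] using Run.skip s
  | cons x l ih => exact (ih.seq (Run.push r x _)).cast (by simp) (by simp)

def clearP (r : ℕ) : LP := .loop r Option.isSome (.pop r)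

theorem run_clear (r : ℕ) (s : LS) :
    Run Γ (clearP r) s (update s r []) (2 * (s r).length + 1) := by
  generalize hl : s r = l
  induction l generalizing s with
  | nil =>
      have : update s r [] = s := by rw [← hl, update_eq_self]
      rw [this]; exact Run.loopN (by simp [hl])
  | cons b l ih =>
      have h2 := ih (update s r (s r).tail) (by simp [hl])
      exact (Run.loopC (by simp [hl]) (Run.pop r s) h2).cast (by simp; omega) (by simp)

/-- while the top symbol `x` of `r` satisfies `c`, pop it and push `g x` on `u` -/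
def cvt (r u : ℕ) (c : Option Sym → Bool) (g : Sym → List Sym) : LP :=
  .loop r c (.seq (.case r fun o => pushL u (g (o.getD sN))) (.pop r))

theorem run_cvt {r u : ℕ} (hru : r ≠ u) (c : Option Sym → Bool) (g : Sym → List Sym)
    (hg : ∀ x, (g x).length ≤ 2) (l m : List Sym) (hl : ∀ x ∈ l, c (some x) = true)
    (hm : c m.head? = false) (s : LS) (hs : s r = l ++ m) :
    Run Γ (cvt r u c g) s (update (update s r m) u (l.reverse.flatMap g ++ s u))
      (6 * l.length + 1) := by
  induction l generalizing s with
  | nil =>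
      refine (Run.loopN (by simpa [hs] using hm)).cast (by simp) ?_
      have : s r = m := hs
      subst this; simp
  | cons x l ih =>
      have h1 : Run Γ (.case r fun o => pushL u (g (o.getD sN))) s (update s u (g x ++ s u))
          ((g x).length + 1 + 1) := Run.case (o := some x) (by simp [hs]) (run_pushL u _ s)
      have h2 := h1.seq (Run.pop r _)
      have h3 := ih (fun y hy => hl y (List.mem_cons_of_mem _ hy))
        (update (update s u (g x ++ s u)) r (update s u (g x ++ s u) r).tail)
        (by simp [update_of_ne hru, hs])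
      refine (Run.loopC (by simpa [hs] using hl x List.mem_cons_self) h2 h3).cast
        (by have := hg x; simp; omega) ?_
      have := hru.symm
      st_ext

def pour (r u : ℕ) : LP := cvt r u Option.isSome fun x => [x]

theorem run_pour {r u : ℕ} (hru : r ≠ u) (s : LS) :
    Run Γ (pour r u) s (update (update s r []) u ((s r).reverse ++ s u))
      (6 * (s r).length + 1) := by
  have := run_cvt (Γ := Γ) hru Option.isSome (fun x => [x]) (by simp) (s r) [] (by simp) rfl s
    (by simp)
  simpa [pour] using this

/-- the parsing loop: counter `0`, copies `1` and `2` -/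
def parseL (r : ℕ) : LP :=
  .loop 0 Option.isSome (.case r fun o => .seq (.seq (.seq (.push 1 (o.getD sN))
    (.push 2 (o.getD sN))) (.pop r)) (if o = some sC then .push 0 sN else .pop 0))

theorem run_parseL {r : ℕ} (v : Val) : ∀ (s s' : LS) (T : ℕ) (l cn : List Sym),
    s (r + 3) = cd v ++ l → s 0 = sN :: cn →
    Run Γ (parseL (r + 3)) (update (update (update (update s (r + 3) l) 0 cn) 1
      ((cd v).reverse ++ s 1)) 2 ((cd v).reverse ++ s 2)) s' T →
    Run Γ (parseL (r + 3)) s s' (T + 6 * v.size) := by
  have leaf : ∀ (x : Sym), x ≠ sC → ∀ (s s' : LS) (T : ℕ) (l cn : List Sym),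
      s (r + 3) = x :: l → s 0 = sN :: cn →
      Run Γ (parseL (r + 3)) (update (update (update (update s (r + 3) l) 0 cn) 1
        (x :: s 1)) 2 (x :: s 2)) s' T → Run Γ (parseL (r + 3)) s s' (T + 6) := by
    intro x hx s s' T l cn h1 h2 h3
    refine (Run.loopC (T := 5) (by simp [h2]) (Run.case (o := some x) (by simp [h1]) ?_) h3).cast
      le_rfl rfl
    rw [if_neg (by simpa using hx)]
    refine ((((Run.push _ _ _).seq (Run.push _ _ _)).seq (Run.pop _ _)).seq (Run.pop _ _)).cast
      le_rfl ?_
    st_ext
  induction v with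
  | nil => intro s s' T l cn h1 h2 h3; exact leaf sN (by decide) s s' T l cn h1 h2 h3
  | bit b => intro s s' T l cn h1 h2 h3; exact leaf (.inr b) (by simp [sC]) s s' T l cn h1 h2 h3
  | cons a b iha ihb =>
      intro s s' T l cn h1 h2 h3
      have h4 : Run Γ (parseL (r + 3)) (update (update (update (update s (r + 3)
          (cd a ++ (cd b ++ l))) 0 (sN :: sN :: cn)) 1 (sC :: s 1)) 2 (sC :: s 2)) s'
          (T + 6 * b.size + 6 * a.size) := by
        refine iha _ _ _ (cd b ++ l) (sN :: cn) (by simp) (by simp) ?_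
        refine ihb _ _ _ l cn (by simp) (by simp) ?_
        convert h3 using 1
        simp only [cd]
        st_ext
      refine (Run.loopC (T := 5) (by simp [h2]) (Run.case (o := some sC) (by simp [h1, cd]) ?_)
        h4).cast (by simp [Val.size]; omega) rfl
      rw [if_pos rfl]
      refine ((((Run.push _ _ _).seq (Run.push _ _ _)).seq (Run.pop _ _)).seq
        (Run.push _ _ _)).cast le_rfl ?_
      simp only [cd] at h1
      st_ext

def parse (r : ℕ) : LP := .seq (.push 0 sN) (parseL r)

theorem run_parse {r : ℕ} (v : Val) (s : LS) (l : List Sym) (h : s (r + 3) = cd v ++ l)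
    (h0 : s 0 = []) (h1 : s 1 = []) (h2 : s 2 = []) :
    Run Γ (parse (r + 3)) s (update (update (update s (r + 3) l) 1 (cd v).reverse) 2
      (cd v).reverse) (6 * v.size + 2) := by
  refine ((Run.push 0 sN s).seq (run_parseL v _ _ 1 l [] (by simp [h]) (by simp [h0])
    (Run.loopN (by simp)))).cast (by omega) ?_
  st_ext

end

/-- the translation -/
def tr : VP → LP
  | .skip => .skip
  | .seq p q => .seq (tr p) (tr q)
  | .push r v => pushL (r + 3) (cd v)
  | .cons r => .push (r + 3) sC
  | .uncons r => .pop (r + 3)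
  | .move r r' => .seq (.seq (parse (r + 3)) (clearP 1)) (pour 2 (r' + 3))
  | .copy r r' => .seq (.seq (parse (r + 3)) (pour 1 (r + 3))) (pour 2 (r' + 3))
  | .drop r => .seq (.seq (parse (r + 3)) (clearP 1)) (clearP 2)
  | .case r pn pf pt pc => .case (r + 3) fun o =>
      if o = some sN then tr pn else if o = some sC then tr pc
      else if o = some (.inr false) then tr pf else tr pt
  | .loop r p => .loop (r + 3) (fun o => decide (o = some sC)) (tr p)
  | .self => .self
  | .fix p => .fix (tr p)

def es (s : St) : LS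
  | 0 => []
  | 1 => []
  | 2 => []
  | k + 3 => (s k).flatMap cd

@[simp] theorem es0 (s : St) : es s 0 = [] := rfl
@[simp] theorem es1 (s : St) : es s 1 = [] := rfl
@[simp] theorem es2 (s : St) : es s 2 = [] := rfl
@[simp] theorem es3 (s : St) (k : ℕ) : es s (k + 3) = (s k).flatMap cd := rfl

theorem es_update (s : St) (r : ℕ) (l : List Val) :
    es (update s r l) = update (es s) (r + 3) (l.flatMap cd) := by
  funext k
  match k with
  | 0 => simp
  | 1 => simp
  | 2 => simp
  | k + 3 => by_cases h : k = r <;> simp [h]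

theorem sim_tr {Γ p : VP} {s s' : St} {t : ℕ} (h : Exec Γ p s s' t) :
    Run (tr Γ) (tr p) (es s) (es s') (30 * t) := by
  induction h with
  | skip Γ s => exact (Run.skip _).cast (by omega) rfl
  | seq _ _ ih1 ih2 => exact (ih1.seq ih2).cast (by omega) rfl
  | push Γ r v s =>
      refine (run_pushL _ _ _).cast ?_ (by simp [es_update])
      have := size_pos v
      rw [length_cd]; omega
  | cons Γ hs => exact (Run.push _ _ _).cast (by omega) (by simp [es_update, hs, cd])
  | uncons Γ hs => exact (Run.pop _ _).cast (by omega) (by simp [es_update, hs, cd])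
  | @move Γ r r' s v l hs =>
      have h1 := run_parse (Γ := tr Γ) (r := r) v (es s) (l.flatMap cd) (by simp [hs]) rfl rfl rfl
      refine ((h1.seq (run_clear 1 _)).seq (run_pour (by omega) _)).cast ?_ ?_
      · have := size_pos v
        simp [length_cd]; omega
      · rw [es_update, List.flatMap_cons, ← es3, es_update]
        st_ext
  | @copy Γ r r' s v l hs =>
      have h1 := run_parse (Γ := tr Γ) (r := r) v (es s) (l.flatMap cd) (by simp [hs]) rfl rfl rfl
      refine ((h1.seq (run_pour (u := r + 3) (by omega) _)).seq (run_pour (by omega) _)).cast ?_ ?_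
      · have := size_pos v
        simp [length_cd]; omega
      · rw [es_update]
        clear h1
        by_cases hr : r' = r
        · subst hr; st_ext
        · st_ext
  | @drop Γ r s v l hs =>
      have h1 := run_parse (Γ := tr Γ) (r := r) v (es s) (l.flatMap cd) (by simp [hs]) rfl rfl rfl
      refine ((h1.seq (run_clear 1 _)).seq (run_clear 2 _)).cast ?_ ?_
      · have := size_pos v
        simp [length_cd]; omega
      · rw [es_update]
        st_ext
  | caseN hs _ ih =>
      exact (Run.case (o := some sN) (by simp [hs, cd]) (by simpa using ih)).cast (by omega) rfl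
  | caseF hs _ ih =>
      exact (Run.case (o := some (.inr false)) (by simp [hs, cd])
        (by simpa [sN, sC] using ih)).cast (by omega) rfl
  | caseT hs _ ih =>
      exact (Run.case (o := some (.inr true)) (by simp [hs, cd])
        (by simpa [sN, sC] using ih)).cast (by omega) rfl
  | caseC hs _ ih =>
      exact (Run.case (o := some sC) (by simp [hs, cd])
        (by simpa [sN, sC] using ih)).cast (by omega) rfl
  | loopN Γ p hs => exact (Run.loopN (by simp [hs, cd, sN, sC])).cast (by omega) rfl
  | loopC hs _ _ ih1 ih2 => exact (Run.loopC (by simp [hs, cd]) ih1 ih2).cast (by omega) rfl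
  | self _ ih => exact ih.self.cast (by omega) rfl
  | fix Γ _ ih => exact ih.fix.cast (by omega) rfl

/-! ### Input and output -/

theorem cd_enc (x : List Bool) : cd (enc x) = x.flatMap (fun b => [sC, .inr b]) ++ [sN] := by
  induction x with
  | nil => rfl
  | cons b x ih =>
      show sC :: ([Sum.inr b] ++ cd (enc x)) = _
      rw [ih]; simp

def gIn (x : Sym) : List Sym := [.inr (bitOf x), sC]

def inP : LP :=
  .seq (.seq (.seq (.seq (.seq (.push 1 sC) (cvt 0 1 (fun o => (o.getD (.inr false)).isLeft) gIn))
    (.push 1 sN)) (cvt 0 1 Option.isSome gIn)) (.push 1 sN)) (pour 1 3)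

theorem rev_gIn (f : Bool → Sym) (hf : ∀ b, bitOf (f b) = b) (x : List Bool) :
    ((x.map f).reverse.flatMap gIn).reverse = x.flatMap (fun b => [sC, .inr b]) := by
  induction x with
  | nil => rfl
  | cons b x ih =>
      simp only [List.map_cons, List.reverse_cons, List.flatMap_append, List.reverse_append, ih]
      simp [gIn, hf]

theorem run_inP {Γ : LP} (x y : List Bool) :
    Run Γ inP (update (fun _ => []) 0 (x.map .inl ++ y.map .inr))
      (update (fun _ => []) 3 (cd (enc (x, y)))) (18 * (x.length + y.length) + 30) := by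
  have h1 := Run.push (Γ := Γ) 1 sC (update (fun _ => []) 0 (x.map .inl ++ y.map .inr))
  have h2 := h1.seq (run_cvt (r := 0) (u := 1) (by omega) (fun o => (o.getD (.inr false)).isLeft)
    gIn (by simp [gIn]) (x.map .inl) (y.map .inr) (by simp) (by cases y <;> simp) _ (by simp))
  have h3 := (h2.seq (Run.push 1 sN _)).seq (run_cvt (r := 0) (u := 1) (by omega) Option.isSome
    gIn (by simp [gIn]) (y.map .inr) [] (by simp) (by simp) _ (by simp))
  have h4 := (h3.seq (Run.push 1 sN _)).seq (run_pour (r := 1) (u := 3) (by omega) _)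
  have e1 := rev_gIn .inl (fun _ => rfl) x
  have e2 := rev_gIn .inr (fun _ => rfl) y
  have l1 : ∀ l : List Sym, (l.flatMap gIn).length = 2 * l.length := by
    intro l
    induction l with
    | nil => rfl
    | cons a l ih => simp only [List.flatMap_cons, List.length_append, ih, gIn]; simp; omega
  refine h4.cast ?_ ?_
  · simp [-List.length_flatMap, l1]
    omega
  · have : cd (enc (x, y)) = sC :: (cd (enc x) ++ cd (enc y)) := rfl
    rw [this, cd_enc, cd_enc, ← e1, ← e2]
    st_ext

def outL : LP := .loop 3 (fun o => decide (o = some sC))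
  (.seq (.seq (.pop 3) (.case 3 fun o => .push 1 (o.getD sN))) (.pop 3))

theorem run_outL {Γ : LP} (x : List Bool) (u : List Sym) :
    Run Γ outL (update (update (fun _ => []) 3 (cd (enc x))) 1 u)
      (update (update (fun _ => []) 3 [sN]) 1 ((x.map .inr).reverse ++ u)) (5 * x.length + 1) := by
  induction x generalizing u with
  | nil => exact Run.loopN (by simp [cd_enc, sN, sC])
  | cons b x ih =>
      have e : cd (enc (b :: x)) = sC :: .inr b :: cd (enc x) := rfl
      refine (Run.loopC (T := 4) (by simp [e]) ?_ (ih (.inr b :: u))).cast (by simp; omega)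
        (by simp)
      refine (((Run.pop _ _).seq (Run.case (o := some (.inr b)) (by simp [e])
        (Run.push _ _ _))).seq (Run.pop _ _)).cast le_rfl ?_
      rw [e]
      clear e ih
      st_ext

theorem run_all {p : VP} {x y z : List Bool} {t : ℕ} (P : LP)
    (h : Exec p p (update (fun _ => []) 0 [enc (x, y)]) (update (fun _ => []) 0 [enc z]) t) :
    Run P (.seq (.seq (.seq inP (.fix (tr p))) outL) (.pop 3))
      (update (fun _ => []) 0 (x.map .inl ++ y.map .inr))
      (update (fun _ => []) 1 (z.map .inr).reverse)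
      (18 * (x.length + y.length) + 30 * t + 5 * z.length + 34) := by
  have e : ∀ v : Val, es (update (fun _ => []) 0 [v]) = update (fun _ => []) 3 (cd v) := by
    intro v
    have : es (fun _ => []) = fun _ => [] := by
      funext k
      match k with
      | 0 => rfl
      | 1 => rfl
      | 2 => rfl
      | k + 3 => rfl
    rw [es_update, this]; simp
  have h1 := (sim_tr h).fix (Γ := P)
  rw [e, e] at h1
  have h2 := run_outL (Γ := P) z []
  rw [show update (update (fun _ => []) 3 (cd (enc z))) 1 [] = update (fun _ => []) 3 (cd (enc z))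
    by st_ext] at h2
  refine ((((run_inP x y).seq h1).seq h2).seq (Run.pop 3 _)).cast (by omega) ?_
  st_ext

end TMA

/-- the multiplication task on plain pairs -/
def mulF (p : List Bool × List Bool) : List Bool :=
  toBits (2 * p.1.length) (bitsVal p.1 * bitsVal p.2)

theorem toTM {τ : ℕ → ℝ} (hτ : ∀ n : ℕ, ((2 * n : ℕ) : ℝ) ≤ τ (2 * n))
    (h : Sub (fun p : List Bool × List Bool => p.1.length = p.2.length) mulF
      (fun p => τ (2 * p.1.length) + 1)) :
    ∃ c : ℕ, TimeBoundComputable EqLenPair.enc (Computability.encodingList Bool).encode mulOutput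
      (fun N => c * ⌈τ N⌉₊ + c) := by
  obtain ⟨p, K, hK, h⟩ := h
  refine ⟨30 * ⌈K⌉₊ + 40, TMA.timeBound_of_prog _ _ _
    (.seq (.seq (.seq TMA.inP (.fix (TMA.tr p))) TMA.outL) (.pop 3)) _ ?_⟩
  rintro ⟨⟨x, y⟩, hxy⟩
  obtain ⟨t, ht, hx⟩ := h ⟨p, 0, le_rfl⟩ (x, y) hxy (fun _ => [])
  obtain ⟨t', ht', hx'⟩ := TMA.run_all _ hx
  refine ⟨t', _, ?_, ?_, hx'⟩
  · rw [List.map_reverse, List.reverse_reverse, List.map_map]
    exact List.map_id _
  · have hxy : x.length = y.length := hxy
    have l1 : (EqLenPair.enc ⟨(x, y), hxy⟩).length = 2 * x.length := by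
      show (x.map Sum.inl ++ y.map Sum.inr).length = _
      simp; omega
    have l2 : (mulF (x, y)).length = 2 * x.length := by simp [mulF, toBits]
    have h1 : 2 * x.length ≤ ⌈τ (2 * x.length)⌉₊ := by
      have := (hτ x.length).trans (Nat.le_ceil _)
      exact_mod_cast this
    have h2 : t ≤ ⌈K⌉₊ * (⌈τ (2 * x.length)⌉₊ + 1) := by
      have h3 : (t : ℝ) ≤ ⌈K⌉₊ * (⌈τ (2 * x.length)⌉₊ + 1) := by
        refine ht.trans ?_
        simp only [mul_zero, add_zero]
        have h4 : (0 : ℝ) ≤ τ (2 * x.length) := le_trans (by positivity) (hτ _)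
        gcongr
        · exact Nat.le_ceil _
        · exact Nat.le_ceil _
      exact_mod_cast h3
    rw [l1, List.length_reverse, List.length_map, l2]
    rw [l2] at ht'
    generalize ⌈τ (2 * x.length)⌉₊ = a at *
    generalize ⌈K⌉₊ = k at *
    nlinarith

end Crest.Agent.R326
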