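import Crest.Agent.R326.Core
import Crest.Agent.R326.Par2

/-! Row 326: the multiplication recursion. -/

set_option autoImplicit false

namespace Crest.Agent.R326

namespace TopA

theorem two_mul_le_tau (n : ℕ) : (2 * n + 1 : ℝ) ≤ tau n := by
  have := le_tau0 n
  push_cast at this
  unfold tau
  linarith

theorem sz_le_tau {p : List Bool × List Bool} (h : MulD p) : (sz p : ℝ) ≤ 3 * tau p.1.length := by
  obtain ⟨x, y⟩ := p
  have h' : x.length = y.length := h
  have := two_mul_le_tau x.length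
  rw [sz_pair, sz_bits, sz_bits, ← h']
  push_cast
  have : (0 : ℝ) ≤ x.length := by positivity
  linarith

theorem pow_sz_le (e : ℕ) : ∃ K : ℝ, 0 ≤ K ∧ ∀ n : ℕ, ((sz n : ℝ) + 1) ^ e ≤ K * tau n := by
  obtain ⟨K, hK⟩ := poly_lg_le_Ex 2 e 1
  obtain ⟨K', hK'⟩ := Ex_pow_le 1 1 one_pos
  refine ⟨K * K', by positivity, fun n => ?_⟩
  have h1 : (sz n + 1) ^ e ≤ (2 * lg n ^ 1 + 2) ^ e :=
    Nat.pow_le_pow_left (by have := sz_nat_le_lg (le_refl n); rw [pow_one]; omega) _
  have h2 := hK' n (n + 1) (Nat.succ_pos n) (by simp)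
  rw [pow_one] at h2
  have h3 : (sz n + 1) ^ e ≤ K * K' * (n + 1) :=
    (h1.trans (hK n)).trans (by rw [mul_assoc]; exact Nat.mul_le_mul_left _ h2)
  have h4 : ((sz n : ℝ) + 1) ^ e ≤ K * K' * (n + 1) := by exact_mod_cast h3
  have h5 := two_mul_le_tau n
  have h6 : (0 : ℝ) ≤ n := by positivity
  exact h4.trans (mul_le_mul_of_nonneg_left (by linarith) (by positivity))

end TopA

open TopA in
theorem sub_mul : Sub MulD mulF (fun p => tau p.1.length) := by
  obtain ⟨par, parB0, poly_par, n₀, hn₀⟩ : ∃ (pr : ℕ → Par) (b0 : ℕ → ℕ),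
      Poly (fun n : ℕ => (pr n, b0 n)) ∧ ∃ n₀ : ℕ, ∀ n ≥ n₀,
        (OkTop n (pr n) (b0 n) ∧ (pr n).2.2.2 < n) ∧ (pr n).cost ≤ tau n ∧
          600 * ((pr n).2.1 : ℝ) * ((pr n).1.prod : ℝ) ^ 3 * tau (pr n).2.2.2 ≤ tau n / 2 :=
    ⟨par, parB0, poly_par, Filter.eventually_atTop.mp (okTop_par.and cost_par)⟩
  have htau : ∀ B, 0 ≤ tau B := fun B => zero_le_one.trans (one_le_tau B)
  refine Cf.fix (μ := mulMu) (σ := fun p => tau p.1.length) (c := fun p => tau p.1.length / 2)
    (ε := 1 / 2) (by norm_num) ?_ (fun a _ => one_le_tau _) (fun a _ => by linarith)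
  set pre : World → List Bool × List Bool → Prop := fun w a =>
    MulD a ∧ SelfOK MulD mulMu mulF (fun p => tau p.1.length) w (mulMu a) with hpre
  have hs : ∀ pre' : World → List Bool × List Bool → Prop, (∀ w a, pre' w a → pre w a) →
      Le pre' (fun a => (sz a : ℝ)) (fun a => tau a.1.length) := fun pre' h =>
    Le.of_le_mul 3 (by norm_num) fun w a ha => sz_le_tau (h w a ha).1
  have hlen : ∀ pre' : World → List Bool × List Bool → Prop, (∀ w a, pre' w a → pre w a) →
      L0 pre' (fun a => a) (fun a => tau a.1.length) (fun a => a.1.length) := fun pre' h =>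
    L0.lin (g := fun a : List Bool × List Bool => a.1.length) (by fun_prop) (L0.input (hs pre' h))
  have hpow : ∀ (pre' : World → List Bool × List Bool → Prop) (e : ℕ),
      Le pre' (fun a => ((sz a.1.length : ℝ) + 1) ^ e) (fun a => tau a.1.length) := fun pre' e => by
    obtain ⟨K, hK, h⟩ := pow_sz_le e
    exact ⟨K, hK, fun w a _ => h _⟩
  have hb : L0 pre (fun a => a) (fun a => tau a.1.length) (fun a => decide (n₀ ≤ a.1.length)) :=
    L0.poly (g := fun n : ℕ => decide (n₀ ≤ n)) (by fun_prop) (hlen pre fun _ _ h => h) (hpow pre)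
  have key := Cf.ite (f := mulF) (g := mulF) (c := fun a => tau a.1.length / 2)
    (hs pre fun _ _ h => h) hb.2 ?_ ?_
  · refine (key.mono (fun _ _ h => h) Le.refl (fun _ _ _ => by simp)).congr (fun _ _ _ => rfl)
      (fun _ _ _ => by simp)
  · set pre' : World → List Bool × List Bool → Prop := fun w a =>
      pre w a ∧ decide (n₀ ≤ a.1.length) = true with hpre'
    have hp : L0 pre' (fun a => a) (fun a => tau a.1.length)
        (fun a => (par a.1.length, parB0 a.1.length)) :=
      L0.poly poly_par (hlen pre' fun _ _ h => h.1) (hpow pre')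
    have hin : L0 pre' (fun a => a) (fun a => tau a.1.length)
        (fun a => (par a.1.length, parB0 a.1.length, a.1, a.2)) :=
      L0.lin (g := fun z : (Par × ℕ) × List Bool × List Bool => (z.1.1, z.1.2, z.2.1, z.2.2))
        (by fun_prop) (hp.pair (L0.input (hs pre' fun _ _ h => h.1)))
    refine hin.thenCf ((cf_core tau htau (pre := pre') (fun a => par a.1.length)
      (fun a => parB0 a.1.length) (fun a => a.1) (fun a => a.2) ?_).mono (fun _ _ h => h) ?_ ?_)
    · rintro w a ⟨⟨hD, hself⟩, hn⟩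
      have h := (hn₀ _ (of_decide_eq_true hn)).1
      exact ⟨hD, h.1, fun b hb hlt => hself b hb (lt_of_lt_of_le hlt h.2)⟩
    · exact Le.of_le fun w a h => (hn₀ _ (of_decide_eq_true h.2)).2.1
    · exact fun w a h => (hn₀ _ (of_decide_eq_true h.2)).2.2
  · set pre' : World → List Bool × List Bool → Prop := fun w a =>
      pre w a ∧ decide (n₀ ≤ a.1.length) = false with hpre'
    refine (L0.poly poly_mulF (L0.input (hs pre' fun _ _ h => h.1)) fun e => ?_).2.mono
      (fun _ _ h => h) Le.refl (fun w a _ => by have := htau a.1.length; linarith)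
    refine Le.of_le_mul ((4 * n₀ + 4) ^ e) (by positivity) fun w a h => ?_
    obtain ⟨x, y⟩ := a
    have hxy : x.length = y.length := h.1.1
    have hlt : x.length < n₀ := by simpa using h.2
    have h1 : sz (x, y) + 1 ≤ 4 * n₀ + 4 := by
      rw [sz_pair, sz_bits, sz_bits, ← hxy]; omega
    have h2 : ((sz (x, y) : ℝ) + 1) ^ e ≤ (4 * n₀ + 4) ^ e :=
      pow_le_pow_left₀ (by positivity) (by exact_mod_cast h1) e
    exact h2.trans (le_mul_of_one_le_right (by positivity) (one_le_tau _))

end Crest.Agent.R326
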