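import Crest.Agent.R326.DigDefs
import Crest.Agent.R326.Cten

/-! Row 326: parameters of the top level (definitions). -/

set_option autoImplicit false

namespace Crest.Agent.R326

/-- `(ps, n, b, B)`: moduli, number of macros, precision of the tables, word length -/
abbrev Par : Type := List ℕ × ℕ × ℕ × ℕ

/-- length of an array of shape `[N][N][N]` -/
def Par.len (P : Par) : ℕ := P.1.prod ^ 3 * (2 * P.2.2.2)

/-- what the batched transform needs -/
structure OkPar (P : Par) : Prop where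
  good : GoodD P.1
  two_le : 2 ≤ P.2.2.2
  pos : 1 ≤ P.2.1
  wires : WW ^ Nat.log mm P.1.length ≤ P.1.prod
  ex : Ex (3 * P.len) ^ 2 ≤ P.2.2.2
  len_le : P.1.length ≤ P.2.2.2
  small : P.1.sum + P.2.1 ≤ lg P.len ^ 4
  tabs : lg (P.1.sum + P.2.1 + P.2.2.1 + P.2.2.2) ^ 3 ≤ lg P.1.prod ^ 2

/-- the macros over `RB B` -/
def rbMac (T : TabIn → GaussianInt) (P : Par) (μ : ℕ) : MacD P.1.prod (RB P.2.2.2) :=
  (intMac T P.1 P.2.2.1 μ).map (toRB P.2.2.2)

/-- the linear part of the cost of a transform -/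
noncomputable def Par.cost (P : Par) : ℝ :=
  (P.2.1 : ℝ) * P.len * lam P.1 * ((max P.1.length 1 : ℕ) : ℝ) ^ θ

/-- number of slabs -/
def slabs (ps : List ℕ) : ℕ :=
  WW ^ Nat.log mm ps.length *
    (ps.prod ^ 2 / (WW ^ Nat.log mm ps.length * (dataY ps).length) + 1)

/-- an array of shape `[Z][N][N]` given slab by slab -/
def emkZ (B N Z : ℕ) (f : ℕ → ZMod N × ZMod N → RB B) : List Bool :=
  emk B (Z * N * N) fun j => f (j / (N * N)) (((j / N % N : ℕ) : ZMod N), ((j % N : ℕ) : ZMod N))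

/-- the target running time for factors of `n` bits -/
noncomputable def tau0 (N : ℕ) : ℝ := (N : ℝ) * (Real.logb 2 N) ^ (1 - 1 / (2 : ℝ) ^ 182)
noncomputable def tau (n : ℕ) : ℝ := tau0 (2 * n) + 1

/-! the choice of the parameters for factors of `n` bits -/

/-- candidate moduli -/
def primesL (n : ℕ) : List ℕ :=
  (List.range (lg n ^ 2)).filter fun p => decide (16 * lg n ≤ p ∧ p.Prime)
/-- the longest prefix with `N³ · Ex(n)³ ≤ n` -/
def parPs (n : ℕ) : List ℕ :=
  (primesL n).take (((List.range (primesL n).length).filter fun k =>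
    decide (((primesL n).take (k + 1)).prod ^ 3 * Ex n ^ 3 ≤ n)).length)
def parN (n : ℕ) : ℕ := 10 ^ 6 * lam (parPs n) ^ 2
def parB0 (n : ℕ) : ℕ := n / (((parPs n).prod + 1) / 2) ^ 3 + 1
def parb (n : ℕ) : ℕ := 2 * parB0 n + 150 * (parN n + 1) * lg (parPs n).prod
def par (n : ℕ) : Par := (parPs n, parN n, parb n, (45 * parN n + 1) * parb n)

/-- what the multiplication needs in addition; `B₀` is the chunk length -/
structure OkTop (n : ℕ) (P : Par) (B₀ : ℕ) : Prop where
  ok : OkPar P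
  prog : ∀ p ∈ P.1, (digProg p).length ≤ P.2.1
  prec : 2 * B₀ + 150 * (P.2.1 + 1) * lg P.1.prod ≤ P.2.2.1
  word : P.2.2.2 = (45 * P.2.1 + 1) * P.2.2.1
  fit : n ≤ ((P.1.prod + 1) / 2) ^ 3 * B₀
  big : 3 * lg P.1.prod ≤ B₀
  nine : 9 ≤ P.1.prod

end Crest.Agent.R326
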