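import Crest.Agent.R326.ArrDefs
import Crest.Agent.R326.TM

/-! Row 326: arrays of Gaussian integers modulo `2 ^ B - 1` (definitions). -/

set_option autoImplicit false

namespace Crest.Agent.R326

/-- `ℤ[i] / (2 ^ B - 1)` -/
abbrev RB (B : ℕ) : Type := QuadraticAlgebra (ZMod (2 ^ B - 1)) (-1) 0

def iB (B : ℕ) : RB B := ⟨0, 1⟩
def hB (B : ℕ) : RB B := ((2 ^ (B - 1) : ℕ) : RB B)

/-- reduction of a Gaussian integer -/
def toRB (B : ℕ) (z : GaussianInt) : RB B := ⟨(z.re : ZMod (2 ^ B - 1)), (z.im : ZMod (2 ^ B - 1))⟩

/-- the `2 B` bits of an element -/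
def ebits (B : ℕ) (z : RB B) : List Bool := wordLE B z.re.val ++ wordLE B z.im.val

/-- the array of `n` elements with the given entries -/
def emk (B n : ℕ) (f : ℕ → RB B) : List Bool := ((List.range n).map fun j => ebits B (f j)).flatten

/-- entry of an array of elements -/
def eat (B : ℕ) (a : List Bool) (j : ℕ) : RB B :=
  ⟨(valLE ((a.drop (2 * B * j)).take B) : ℕ), (valLE ((a.drop (2 * B * j + B)).take B) : ℕ)⟩

/-- `a` is an array of `n` elements in normal form -/
def Canon (B n : ℕ) (a : List Bool) : Prop := a = emk B n (eat B a)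

/-- `a` has the length of an array of `n > 0` elements -/
def OkE (B n : ℕ) (a : List Bool) : Prop := 2 ≤ B ∧ 0 < n ∧ a.length = n * (2 * B)

/-- the domain and the measure of the multiplication recursion -/
def MulD (p : List Bool × List Bool) : Prop := p.1.length = p.2.length
def mulMu (p : List Bool × List Bool) : ℕ := p.1.length

/-- in the world `w` the recursive call multiplies `B`-bit numbers within `A * τ B` -/
def CanMul (τ : ℕ → ℝ) (w : World) (B : ℕ) : Prop :=
  SelfOK MulD mulMu mulF (fun p => τ p.1.length) w (B + 1)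

/-- the square root `((1+i) + (1-i) τ) / 2` of an involution `τ` -/
def cop {R X : Type} [CommRing R] (I hf : R) (τ : X → X) (f : X → R) : X → R :=
  fun x => hf * ((1 + I) * f x + (1 - I) * f (τ x))

end Crest.Agent.R326
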